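import Mathlib

/-!
Row 271, (AF5), one variable part: sublevel sets and local integrability of `|g|^{-2c}`,
uniformly, from a lower bound on divided differences.
-/

set_option autoImplicit false

open scoped ENNReal NNReal Topology BigOperators
open MeasureTheory

noncomputable section

namespace Crest.Agent.R271.AF5x785

/-- a set without `q+1` points of mutual distance `≥ r` is covered by `q` balls of radius `r` -/
theorem cover (q : ℕ) (r : ℝ) (hr : 0 < r) : ∀ (S : Set ℂ),
    (∀ t : Fin (q + 1) → ℂ, (∀ i, t i ∈ S) → ∃ i j, i ≠ j ∧ dist (t i) (t j) < r) →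
    ∃ T : Finset ℂ, T.card ≤ q ∧ S ⊆ ⋃ x ∈ T, Metric.ball x r := by
  induction q with
  | zero =>
    intro S h
    refine ⟨∅, by simp, ?_⟩
    intro x hx
    obtain ⟨i, j, hij, -⟩ := h (fun _ => x) (fun _ => hx)
    exact absurd (Fin.ext (by omega)) hij
  | succ q ih =>
    intro S h
    by_cases hS : ∃ x, x ∈ S
    · obtain ⟨x, hx⟩ := hS
      obtain ⟨T, hT, hST⟩ := ih (S \ Metric.ball x r) (by
        intro t ht
        obtain ⟨i, j, hij, hd⟩ := h (Fin.cons x t) (by
          intro i
          refine Fin.cases ?_ ?_ i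
          · simpa using hx
          · intro i; simpa using (ht i).1)
        revert hij hd
        refine Fin.cases ?_ ?_ i
        · refine Fin.cases ?_ ?_ j
          · intro hij; exact absurd rfl hij
          · intro j _ hd
            exfalso
            have := (ht j).2
            simp only [Fin.cons_zero, Fin.cons_succ, Metric.mem_ball] at hd this
            rw [dist_comm] at hd
            exact this hd
        · intro i
          refine Fin.cases ?_ ?_ j
          · intro _ hd
            exfalso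
            have := (ht i).2
            simp only [Fin.cons_zero, Fin.cons_succ, Metric.mem_ball] at hd this
            exact this hd
          · intro j hij hd
            exact ⟨i, j, fun h => hij (by rw [h]), by simpa using hd⟩)
      refine ⟨insert x T, (Finset.card_insert_le _ _).trans (by omega), ?_⟩
      intro y hy
      by_cases hyx : y ∈ Metric.ball x r
      · exact Set.mem_biUnion (Finset.mem_insert_self x T) hyx
      · have := hST ⟨hy, hyx⟩
        obtain ⟨z, hz, hyz⟩ := Set.mem_iUnion₂.1 this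
        exact Set.mem_biUnion (Finset.mem_insert_of_mem hz) hyz
    · push Not at hS
      refine ⟨∅, by simp, ?_⟩
      intro x hx
      exact absurd hx (hS x)

/-- divided difference -/
def dd {q : ℕ} (t : Fin (q + 1) → ℂ) (g : ℂ → ℂ) : ℂ :=
  ∑ i, Lagrange.nodalWeight Finset.univ t i * g (t i)

theorem norm_nodalWeight_le {q : ℕ} (t : Fin (q + 1) → ℂ) {r : ℝ} (hr : 0 < r)
    (h : ∀ i j, i ≠ j → r ≤ dist (t i) (t j)) (i : Fin (q + 1)) :
    ‖Lagrange.nodalWeight Finset.univ t i‖ ≤ (r ^ q)⁻¹ := by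
  unfold Lagrange.nodalWeight
  rw [norm_prod]
  calc ∏ j ∈ Finset.univ.erase i, ‖(t i - t j)⁻¹‖ ≤ ∏ j ∈ Finset.univ.erase i, r⁻¹ := by
        refine Finset.prod_le_prod (fun _ _ => norm_nonneg _) ?_
        intro j hj
        rw [norm_inv]
        refine inv_anti₀ hr ?_
        rw [← dist_eq_norm]
        exact h i j (Finset.ne_of_mem_erase hj).symm
    _ = (r ^ q)⁻¹ := by
        rw [Finset.prod_const, Finset.card_erase_of_mem (Finset.mem_univ i)]
        simp

/-- sublevel sets -/
theorem sublevel {q : ℕ} (hq : 1 ≤ q) {α ρ ε : ℝ} (hα : 0 < α) (hε : 0 < ε) (g : ℂ → ℂ)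
    (h : ∀ t : Fin (q + 1) → ℂ, (∀ i, ‖t i‖ < ρ) → Function.Injective t → α ≤ ‖dd t g‖) :
    volume {t : ℂ | ‖t‖ < ρ ∧ ‖g t‖ < ε} ≤
      ENNReal.ofReal (q * Real.pi * (2 * (q + 1) * ε / α) ^ ((2 : ℝ) / q)) := by
  set r : ℝ := (2 * (q + 1) * ε / α) ^ ((1 : ℝ) / q) with hrdef
  have hb : 0 < 2 * ((q : ℝ) + 1) * ε / α := by positivity
  have hr : 0 < r := Real.rpow_pos_of_pos hb _
  have hq0 : (q : ℝ) ≠ 0 := by positivity
  have hrq : r ^ q = 2 * ((q : ℝ) + 1) * ε / α := by
    rw [hrdef, ← Real.rpow_natCast, ← Real.rpow_mul hb.le, one_div, inv_mul_cancel₀ hq0,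
      Real.rpow_one]
  obtain ⟨T, hT, hST⟩ := cover q r hr {t : ℂ | ‖t‖ < ρ ∧ ‖g t‖ < ε} (by
    intro t ht
    by_contra hcon
    push Not at hcon
    have hinj : Function.Injective t := by
      intro i j hij
      by_contra hne
      have := hcon i j hne
      rw [hij, dist_self] at this
      linarith
    have h1 := h t (fun i => (ht i).1) hinj
    have h2 : ‖dd t g‖ ≤ (q + 1) * ((r ^ q)⁻¹ * ε) := by
      unfold dd
      refine (norm_sum_le _ _).trans ?_
      have : ∀ i ∈ (Finset.univ : Finset (Fin (q + 1))),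
          ‖Lagrange.nodalWeight Finset.univ t i * g (t i)‖ ≤ (r ^ q)⁻¹ * ε := by
        intro i _
        rw [norm_mul]
        refine mul_le_mul (norm_nodalWeight_le t hr hcon i) (ht i).2.le (norm_nonneg _)
          (by positivity)
      refine (Finset.sum_le_sum this).trans ?_
      simp
    have h3 : ((q : ℝ) + 1) * ((r ^ q)⁻¹ * ε) = α / 2 := by
      rw [hrq]
      field_simp
    rw [h3] at h2
    linarith)
  calc volume {t : ℂ | ‖t‖ < ρ ∧ ‖g t‖ < ε} ≤ volume (⋃ x ∈ T, Metric.ball x r) :=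
        measure_mono hST
    _ ≤ ∑ x ∈ T, volume (Metric.ball x r) := measure_biUnion_finset_le _ _
    _ = T.card • (ENNReal.ofReal r ^ 2 * NNReal.pi) := by
        rw [Finset.sum_congr rfl (fun x _ => Complex.volume_ball x r), Finset.sum_const]
    _ ≤ q • (ENNReal.ofReal r ^ 2 * NNReal.pi) := by
        exact nsmul_le_nsmul_left (by positivity) hT
    _ = ENNReal.ofReal (q * Real.pi * (2 * (q + 1) * ε / α) ^ ((2 : ℝ) / q)) := by
        have h4 : (2 * ((q : ℝ) + 1) * ε / α) ^ ((2 : ℝ) / q) = r ^ 2 := by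
          rw [hrdef, ← Real.rpow_natCast, ← Real.rpow_mul hb.le]
          congr 1
          push_cast
          ring
        have h5 : (NNReal.pi : ℝ≥0∞) = ENNReal.ofReal Real.pi := by
          rw [ENNReal.ofReal, ← NNReal.coe_real_pi, Real.toNNReal_coe]
        rw [h4, nsmul_eq_mul, h5, ← ENNReal.ofReal_pow hr.le, ← ENNReal.ofReal_mul (by positivity),
          ← ENNReal.ofReal_natCast, ← ENNReal.ofReal_mul (by positivity)]
        congr 1
        ring

/-- pointwise dyadic majorant -/
theorem dyadic {u c : ℝ} (hu : 0 ≤ u) (hc : 0 ≤ c) :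
    (ENNReal.ofReal (u ^ 2)) ^ (-c) ≤
      1 + ∑' k : ℕ, (if u < 2 * (1 / 2) ^ k then
        ENNReal.ofReal ((2 : ℝ) ^ (2 * c * (k + 1))) else 0) := by
  rcases eq_or_lt_of_le hu with h0 | h0
  · -- u = 0
    subst h0
    have : ∑' k : ℕ, (if (0 : ℝ) < 2 * (1 / 2) ^ k then
        ENNReal.ofReal ((2 : ℝ) ^ (2 * c * (k + 1))) else 0) = ∞ := by
      rw [eq_top_iff, ← ENNReal.tsum_const_eq_top_of_ne_zero (α := ℕ) one_ne_zero]
      refine ENNReal.tsum_le_tsum ?_
      intro k
      rw [if_pos (by positivity)]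
      rw [← ENNReal.ofReal_one]
      refine ENNReal.ofReal_le_ofReal ?_
      exact Real.one_le_rpow (by norm_num) (by positivity)
    rw [this]
    simp
  · by_cases h1 : 1 ≤ u
    · refine le_trans ?_ le_self_add
      rcases eq_or_lt_of_le hc with hc0 | hc0
      · rw [← hc0]; simp
      · refine ENNReal.rpow_le_one_of_one_le_of_neg ?_ (by linarith)
        rw [← ENNReal.ofReal_one]
        exact ENNReal.ofReal_le_ofReal (by nlinarith)
    · push Not at h1
      obtain ⟨k, hk1, hk2⟩ := exists_nat_pow_near_of_lt_one h0 h1.le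
        (show (0 : ℝ) < 1 / 2 by norm_num) (by norm_num)
      refine le_trans ?_ le_add_self
      refine le_trans ?_ (ENNReal.le_tsum k)
      rw [if_pos (by nlinarith [pow_pos (show (0 : ℝ) < 1 / 2 by norm_num) k])]
      rw [ENNReal.ofReal_rpow_of_pos (by positivity)]
      refine ENNReal.ofReal_le_ofReal ?_
      have h2 : (2 : ℝ) ^ (2 * c * (k + 1)) = (((1 / 2 : ℝ) ^ (k + 1)) ^ 2) ^ (-c) := by
        rw [← pow_mul, ← Real.rpow_natCast, ← Real.rpow_mul (by norm_num), one_div,
          Real.inv_rpow (by norm_num), ← Real.rpow_neg (by norm_num)]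
        congr 1
        push_cast
        ring
      rw [h2]
      refine Real.rpow_le_rpow_of_nonpos (by positivity) ?_ (by linarith)
      exact pow_le_pow_left₀ (by positivity) hk1.le 2

/-- the one variable integral bound -/
theorem lint_one (q : ℕ) (hq : 1 ≤ q) {α ρ c : ℝ} (hα : 0 < α) (hc : 0 ≤ c) (hcq : c * q < 1) :
    ∃ C : ℝ≥0∞, C < ∞ ∧ ∀ g : ℂ → ℂ, Measurable g →
    (∀ t : Fin (q + 1) → ℂ, (∀ i, ‖t i‖ < ρ) → Function.Injective t → α ≤ ‖dd t g‖) →
    ∫⁻ t in Metric.ball (0 : ℂ) ρ, (ENNReal.ofReal (‖g t‖ ^ 2)) ^ (-c) ≤ C := by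
  have hq0 : (0 : ℝ) < q := by positivity
  set K : ℝ := q * Real.pi * (4 * (q + 1) / α) ^ ((2 : ℝ) / q) * 2 ^ (2 * c) with hK
  have hK0 : 0 ≤ K := by positivity
  set b : ℝ := (2 : ℝ) ^ (2 * c - 2 / q) with hb
  have hb0 : 0 ≤ b := by positivity
  have hb1 : b < 1 := by
    refine Real.rpow_lt_one_of_one_lt_of_neg (by norm_num) ?_
    have : c < 1 / q := by rwa [lt_div_iff₀ hq0]
    have h2 : (2 : ℝ) / q = 2 * (1 / q) := by ring
    rw [h2]; linarith
  refine ⟨volume (Metric.ball (0 : ℂ) ρ) + ∑' k : ℕ, ENNReal.ofReal (K * b ^ k), ?_, ?_⟩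
  · refine ENNReal.add_lt_top.2 ⟨measure_ball_lt_top, ?_⟩
    have hs : Summable fun k : ℕ => K * b ^ k :=
      (summable_geometric_of_lt_one hb0 hb1).mul_left K
    rw [← ENNReal.ofReal_tsum_of_nonneg (fun k => by positivity) hs]
    exact ENNReal.ofReal_lt_top
  · intro g hg h
    calc ∫⁻ t in Metric.ball (0 : ℂ) ρ, (ENNReal.ofReal (‖g t‖ ^ 2)) ^ (-c)
        ≤ ∫⁻ t in Metric.ball (0 : ℂ) ρ, (1 + ∑' k : ℕ, (if ‖g t‖ < 2 * (1 / 2) ^ k then
          ENNReal.ofReal ((2 : ℝ) ^ (2 * c * (k + 1))) else 0)) :=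
          lintegral_mono (fun t => dyadic (norm_nonneg _) hc)
      _ = volume (Metric.ball (0 : ℂ) ρ) + ∑' k : ℕ, ENNReal.ofReal ((2 : ℝ) ^ (2 * c * (k + 1))) *
          volume {t : ℂ | ‖t‖ < ρ ∧ ‖g t‖ < 2 * (1 / 2) ^ k} := by
          have hm : ∀ k : ℕ, MeasurableSet {t : ℂ | ‖g t‖ < 2 * (1 / 2) ^ k} := fun k =>
            measurableSet_lt hg.norm measurable_const
          have hm2 : ∀ k : ℕ, Measurable fun t : ℂ => (if ‖g t‖ < 2 * (1 / 2) ^ k then
            ENNReal.ofReal ((2 : ℝ) ^ (2 * c * (k + 1))) else 0) := fun k =>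
            Measurable.ite (hm k) measurable_const measurable_const
          rw [lintegral_add_left measurable_const, setLIntegral_one,
            lintegral_tsum (fun k => (hm2 k).aemeasurable)]
          congr 1
          refine tsum_congr fun k => ?_
          have : (fun t : ℂ => (if ‖g t‖ < 2 * (1 / 2) ^ k then
            ENNReal.ofReal ((2 : ℝ) ^ (2 * c * (k + 1))) else 0)) =
            Set.indicator {t : ℂ | ‖g t‖ < 2 * (1 / 2) ^ k}
              (fun _ => ENNReal.ofReal ((2 : ℝ) ^ (2 * c * (k + 1)))) := by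
            ext t; simp [Set.indicator_apply]
          rw [this, lintegral_indicator_const (hm k), Measure.restrict_apply (hm k)]
          congr 2
          ext t
          simp [and_comm]
      _ ≤ volume (Metric.ball (0 : ℂ) ρ) + ∑' k : ℕ, ENNReal.ofReal (K * b ^ k) := by
          refine add_le_add le_rfl (ENNReal.tsum_le_tsum fun k => ?_)
          have h1 := sublevel hq hα (show 0 < 2 * (1 / 2 : ℝ) ^ k by positivity) g h
          refine (mul_le_mul' le_rfl h1).trans ?_
          rw [← ENNReal.ofReal_mul (by positivity)]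
          refine ENNReal.ofReal_le_ofReal (le_of_eq ?_)
          have h3 : 2 * ((q : ℝ) + 1) * (2 * (1 / 2) ^ k) / α =
              (4 * (q + 1) / α) * (1 / 2) ^ k := by ring
          rw [h3, Real.mul_rpow (by positivity) (by positivity), hK, hb]
          have h4 : ((1 / 2 : ℝ) ^ k) ^ ((2 : ℝ) / q) = (2 : ℝ) ^ (-(2 / q * k) : ℝ) := by
            rw [← Real.rpow_natCast, ← Real.rpow_mul (by norm_num), one_div,
              Real.inv_rpow (by norm_num), ← Real.rpow_neg (by norm_num)]
            congr 1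
            ring
          have h5 : ((2 : ℝ) ^ (2 * c - 2 / q)) ^ k = (2 : ℝ) ^ (2 * c * k - 2 / q * k) := by
            rw [← Real.rpow_natCast, ← Real.rpow_mul (by norm_num)]
            congr 1
            ring
          rw [h4, h5]
          have h6 : (2 : ℝ) ^ (2 * c * (k + 1)) = 2 ^ (2 * c * k) * 2 ^ (2 * c) := by
            rw [← Real.rpow_add (by norm_num)]
            congr 1
            ring
          have h7 : (2 : ℝ) ^ (2 * c * k - 2 / q * k) = 2 ^ (2 * c * k) * 2 ^ (-(2 / q * k) : ℝ) := by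
            rw [← Real.rpow_add (by norm_num)]
            congr 1
          rw [h6, h7]
          ring

end Crest.Agent.R271.AF5x785
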