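import Mathlib
import Crest.Agent.R271.AF5a_785

/-!
Row 271, (AF5), flat form: if `f` is analytic at `a ∈ ℂⁿ` and is not `O(‖z - a‖^{e+1})` then
`|f|^{-2c}` is integrable near `a` for `0 ≤ c`, `c e < 1`.
-/

set_option autoImplicit false

open scoped ENNReal NNReal Topology BigOperators
open MeasureTheory Metric

noncomputable section

namespace Crest.Agent.R271.AF5x785

theorem sum_nodal {q : ℕ} (t : Fin (q + 1) → ℂ) (ht : Function.Injective t) (x : ℂ)
    (hx : ∀ i, x ≠ t i) :
    ∑ i, Lagrange.nodalWeight Finset.univ t i * (x - t i)⁻¹ = (∏ i, (x - t i))⁻¹ := by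
  have h1 := Lagrange.eval_interpolate_not_at_node (s := Finset.univ) (v := t) (x := x)
    (1 : Fin (q + 1) → ℂ) (fun i _ => hx i)
  rw [Lagrange.interpolate_one ht.injOn Finset.univ_nonempty, Polynomial.eval_one,
    Lagrange.eval_nodal] at h1
  have h2 : ∏ i, (x - t i) ≠ 0 := Finset.prod_ne_zero_iff.2 fun i _ => sub_ne_zero.2 (hx i)
  simp only [Pi.one_apply, mul_one] at h1
  rw [eq_comm, inv_eq_of_mul_eq_one_right h1.symm]

theorem dd_eq {q : ℕ} (t : Fin (q + 1) → ℂ) (ht : Function.Injective t) (ht1 : ∀ i, ‖t i‖ < 1)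
    (g : ℂ → ℂ) (hg : DifferentiableOn ℂ g (closedBall 0 1)) :
    (2 * Real.pi * Complex.I) * dd t g = ∮ z in C(0, 1), (∏ i, (z - t i))⁻¹ * g z := by
  have hne : ∀ i, ∀ z ∈ sphere (0 : ℂ) 1, z ≠ t i := by
    intro i z hz h
    rw [mem_sphere_zero_iff_norm, h] at hz
    exact absurd hz (ht1 i).ne
  have hci : ∀ i, ContinuousOn (fun z => (z - t i)⁻¹ * g z) (sphere 0 1) := by
    intro i
    refine ContinuousOn.mul ?_ (hg.continuousOn.mono sphere_subset_closedBall)
    exact ContinuousOn.inv₀ (by fun_prop) (fun z hz => sub_ne_zero.2 (hne i z hz))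
  unfold dd
  rw [Finset.mul_sum]
  have h1 : ∀ i, (2 * Real.pi * Complex.I) * (Lagrange.nodalWeight Finset.univ t i * g (t i)) =
      ∮ z in C(0, 1), Lagrange.nodalWeight Finset.univ t i * ((z - t i)⁻¹ * g z) := by
    intro i
    rw [circleIntegral.integral_const_mul]
    have := hg.circleIntegral_sub_inv_smul (w := t i) (by simpa using ht1 i)
    simp only [smul_eq_mul] at this
    rw [this]
    ring
  rw [Finset.sum_congr rfl (fun i _ => h1 i), ← circleIntegral.integral_fun_sum]
  · refine circleIntegral.integral_congr (by norm_num) ?_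
    intro z hz
    simp only
    rw [← sum_nodal t ht z (fun i => hne i z hz), Finset.sum_mul]
    refine Finset.sum_congr rfl fun i _ => by ring
  · intro i _
    exact ContinuousOn.circleIntegrable (by norm_num) (continuousOn_const.mul (hci i))

/-- the parametrised Cauchy integral -/
def Phi {n : ℕ} (f : (Fin n → ℂ) → ℂ) (v : Fin n → ℂ) (q : ℕ)
    (p : (Fin n → ℂ) × (Fin (q + 1) → ℂ)) : ℂ :=
  ∮ z in C(0, 1), (∏ i, (z - p.2 i))⁻¹ * f (p.1 + z • v)

theorem continuousAt_Phi {n : ℕ} {f : (Fin n → ℂ) → ℂ} {r : ℝ} (hr : 0 < r)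
    (hf : ContinuousOn f (ball 0 (2 * r))) {v : Fin n → ℂ} (hv : ‖v‖ ≤ r / 2) (q : ℕ) :
    ContinuousAt (Phi f v q) (0, 0) := by
  obtain ⟨M, hM⟩ := (isCompact_closedBall (0 : Fin n → ℂ) r).exists_bound_of_continuousOn
    (hf.mono (closedBall_subset_ball (by linarith)))
  have hM0 : 0 ≤ M := (norm_nonneg _).trans (hM 0 (by simp [hr.le]))
  have hmem : ∀ z : ℂ, ‖z‖ = 1 → ∀ x : Fin n → ℂ, ‖x‖ < r / 2 → x + z • v ∈ ball (0 : Fin n → ℂ) r := by
    intro z hz x hx
    rw [mem_ball_zero_iff]
    calc ‖x + z • v‖ ≤ ‖x‖ + ‖z • v‖ := norm_add_le _ _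
      _ = ‖x‖ + ‖v‖ := by rw [norm_smul, hz, one_mul]
      _ < r := by linarith
  have hcm : ∀ θ : ℝ, ‖circleMap 0 1 θ‖ = 1 := by
    intro θ; simp [circleMap]
  have hev : ∀ᶠ p : (Fin n → ℂ) × (Fin (q + 1) → ℂ) in 𝓝 (0, 0), ‖p.1‖ < r / 2 ∧ ‖p.2‖ < 1 / 2 := by
    have h1 : ∀ᶠ p : (Fin n → ℂ) × (Fin (q + 1) → ℂ) in 𝓝 (0, 0), ‖p.1‖ < r / 2 := by
      have : ContinuousAt (fun p : (Fin n → ℂ) × (Fin (q + 1) → ℂ) => ‖p.1‖) (0, 0) := by fun_prop
      exact this.eventually_lt continuousAt_const (by simpa using by positivity)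
    have h2 : ∀ᶠ p : (Fin n → ℂ) × (Fin (q + 1) → ℂ) in 𝓝 (0, 0), ‖p.2‖ < 1 / 2 := by
      have : ContinuousAt (fun p : (Fin n → ℂ) × (Fin (q + 1) → ℂ) => ‖p.2‖) (0, 0) := by fun_prop
      exact this.eventually_lt continuousAt_const (by simp)
    exact h1.and h2
  have hlow : ∀ (p2 : Fin (q + 1) → ℂ), ‖p2‖ < 1 / 2 → ∀ z : ℂ, ‖z‖ = 1 → ∀ i, 1 / 2 ≤ ‖z - p2 i‖ := by
    intro p2 hp2 z hz i
    have h1 := norm_sub_norm_le z (p2 i)
    have h2 := norm_le_pi_norm p2 i
    linarith
  have hdc : Continuous (fun θ => deriv (circleMap 0 1) θ) := by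
    simp only [deriv_circleMap]
    fun_prop
  unfold Phi circleIntegral
  refine intervalIntegral.continuousAt_of_dominated_interval (bound := fun _ => 2 ^ (q + 1) * M)
    ?_ ?_ intervalIntegrable_const ?_
  · filter_upwards [hev] with p hp
    refine ContinuousOn.aestronglyMeasurable ?_ measurableSet_uIoc
    refine ContinuousOn.smul hdc.continuousOn ?_
    refine ContinuousOn.mul ?_ ?_
    · refine ContinuousOn.inv₀ (by fun_prop) ?_
      intro θ _
      refine Finset.prod_ne_zero_iff.2 fun i _ => ?_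
      have := hlow p.2 hp.2 _ (hcm θ) i
      intro h0
      rw [h0, norm_zero] at this
      linarith
    · refine hf.comp (by fun_prop) ?_
      intro θ _
      exact ball_subset_ball (by linarith) (hmem _ (hcm θ) _ hp.1)
  · filter_upwards [hev] with p hp
    refine Filter.Eventually.of_forall fun θ _ => ?_
    rw [norm_smul, norm_mul, norm_inv, norm_prod]
    have h1 : ‖deriv (circleMap 0 1) θ‖ = 1 := by simp [deriv_circleMap, circleMap]
    rw [h1, one_mul]
    refine mul_le_mul ?_ (hM _ (ball_subset_closedBall (hmem _ (hcm θ) _ hp.1))) (norm_nonneg _)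
      (by positivity)
    rw [← Finset.prod_inv_distrib]
    calc ∏ i, ‖circleMap 0 1 θ - p.2 i‖⁻¹ ≤ ∏ _i : Fin (q + 1), (2 : ℝ) := by
          refine Finset.prod_le_prod (fun _ _ => by positivity) ?_
          intro i _
          have := hlow p.2 hp.2 _ (hcm θ) i
          calc ‖circleMap 0 1 θ - p.2 i‖⁻¹ ≤ (1 / 2)⁻¹ := inv_anti₀ (by norm_num) this
            _ = 2 := by norm_num
      _ = 2 ^ (q + 1) := by simp
  · refine Filter.Eventually.of_forall fun θ _ => ?_
    refine ContinuousAt.smul (f := fun _ => deriv (circleMap 0 1) θ) continuousAt_const ?_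
    refine ContinuousAt.mul ?_ ?_
    · refine ContinuousAt.inv₀ (by fun_prop) ?_
      refine Finset.prod_ne_zero_iff.2 fun i _ => ?_
      have := hlow 0 (by simp) _ (hcm θ) i
      intro h0
      simp only at h0
      rw [h0, norm_zero] at this
      linarith
    · have h1 : (0 : Fin n → ℂ) + circleMap 0 1 θ • v ∈ ball (0 : Fin n → ℂ) (2 * r) :=
        ball_subset_ball (by linarith) (hmem _ (hcm θ) 0 (by simpa using by positivity))
      have h2 : ContinuousAt f ((0 : Fin n → ℂ) + circleMap 0 1 θ • v) :=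
        hf.continuousAt (isOpen_ball.mem_nhds h1)
      exact ContinuousAt.comp (f := fun p : (Fin n → ℂ) × (Fin (q + 1) → ℂ) =>
        p.1 + circleMap 0 1 θ • v) h2 (by fun_prop)

/-- a polynomial direction: if `f` is not `O(‖z‖^{e+1})` then some Taylor coefficient of order
`q ≤ e` along a small vector `v` is non-zero -/
theorem exists_dir {n : ℕ} {f : (Fin n → ℂ) → ℂ} {e : ℕ} {r : ℝ} (hr : 0 < r)
    (hf : AnalyticOnNhd ℂ f (ball 0 (2 * r)))
    (he : ¬ f =O[𝓝 0] fun z => ‖z‖ ^ (e + 1)) :
    ∃ q ≤ e, ∃ v : Fin n → ℂ, ‖v‖ ≤ r / 2 ∧ Phi f v q (0, 0) ≠ 0 := by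
  obtain ⟨p, hp⟩ := hf 0 (by simpa using hr)
  have h1 : ∃ q ≤ e, ∃ z : Fin n → ℂ, p q (fun _ => z) ≠ 0 := by
    by_contra hcon
    push Not at hcon
    apply he
    have h2 := hp.isBigO_sub_partialSum_pow (e + 1)
    refine h2.congr_left ?_
    intro z
    have : p.partialSum (e + 1) z = 0 := by
      unfold FormalMultilinearSeries.partialSum
      refine Finset.sum_eq_zero fun k hk => ?_
      exact hcon k (by have := Finset.mem_range.1 hk; omega) z
    rw [this, zero_add, sub_zero]
  obtain ⟨q, hq, z, hz⟩ := h1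
  refine ⟨q, hq, ((r / 2 / (‖z‖ + 1) : ℝ) : ℂ) • z, ?_, ?_⟩
  · rw [norm_smul, Complex.norm_real, Real.norm_of_nonneg (by positivity)]
    rw [div_mul_eq_mul_div, div_le_iff₀ (by positivity)]
    nlinarith [norm_nonneg z]
  · set s : ℂ := ((r / 2 / (‖z‖ + 1) : ℝ) : ℂ) with hs
    have hs0 : s ≠ 0 := by
      rw [hs]
      have : r / 2 / (‖z‖ + 1) ≠ 0 := by positivity
      exact_mod_cast this
    set v := s • z with hv
    have hvn : ‖v‖ ≤ r / 2 := by
      rw [hv, norm_smul, hs, Complex.norm_real, Real.norm_of_nonneg (by positivity)]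
      rw [div_mul_eq_mul_div, div_le_iff₀ (by positivity)]
      nlinarith [norm_nonneg z]
    let u : ℂ →L[ℂ] (Fin n → ℂ) := ContinuousLinearMap.toSpanSingleton ℂ v
    have hu : ∀ w : ℂ, u w = w • v := fun w => by simp [u, ContinuousLinearMap.toSpanSingleton_apply]
    have hA : HasFPowerSeriesAt (f ∘ u) (p.compContinuousLinearMap u) 0 := by
      refine HasFPowerSeriesAt.compContinuousLinearMap ?_
      rw [map_zero]; exact hp
    have hd : DifferentiableOn ℂ (f ∘ u) (closedBall 0 1) := by
      intro w hw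
      refine DifferentiableAt.differentiableWithinAt ?_
      refine DifferentiableAt.comp w (hf (u w) ?_).differentiableAt u.differentiableAt
      rw [hu, mem_ball_zero_iff, norm_smul]
      have : ‖w‖ ≤ 1 := by simpa using hw
      nlinarith [norm_nonneg v]
    have hB : HasFPowerSeriesAt (f ∘ u) (cauchyPowerSeries (f ∘ u) 0 1) 0 := by
      have := DifferentiableOn.hasFPowerSeriesOnBall (R := 1) (c := 0) (f := f ∘ u)
        (by simpa using hd) (by norm_num)
      exact this.hasFPowerSeriesAt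
    have hAB := hA.eq_formalMultilinearSeries hB
    have h3 : (p.compContinuousLinearMap u) q (fun _ => (1 : ℂ)) = s ^ q * p q (fun _ => z) := by
      rw [FormalMultilinearSeries.compContinuousLinearMap_apply]
      have : (u ∘ fun _ : Fin q => (1 : ℂ)) = fun _ => s • z := by
        ext i
        simp [hu, hv]
      rw [this]
      have := (p q).map_smul_univ (fun _ => s) (fun _ => z)
      simp only [Finset.prod_const, Finset.card_univ, Fintype.card_fin, smul_eq_mul] at this
      exact this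
    rw [hAB, cauchyPowerSeries_apply] at h3
    intro h0
    have h4 : (∮ w in C(0, 1), (1 / (w - 0)) ^ q • (w - 0)⁻¹ • (f ∘ u) w) = 0 := by
      refine Eq.trans ?_ h0
      unfold Phi
      apply circleIntegral.integral_congr zero_le_one
      intro w hw
      simp only [sub_zero, Pi.zero_apply, Finset.prod_const, Finset.card_univ, Fintype.card_fin,
        smul_eq_mul, Function.comp, hu, zero_add]
      rw [pow_succ, mul_inv, one_div, inv_pow]
      ring
    rw [h4, smul_zero] at h3
    exact mul_ne_zero (pow_ne_zero _ hs0) hz h3.symm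

/-- (AF5), at the origin -/
theorem af5_zero {n : ℕ} {f : (Fin n → ℂ) → ℂ} {e : ℕ} (hf : AnalyticAt ℂ f 0)
    (he : ¬ f =O[𝓝 0] fun z => ‖z‖ ^ (e + 1)) {c : ℝ} (hc : 0 ≤ c) (hce : c * e < 1) :
    ∃ U ∈ 𝓝 (0 : Fin n → ℂ), ∫⁻ ζ in U, (ENNReal.ofReal (‖f ζ‖ ^ 2)) ^ (-c) < ∞ := by
  by_cases h0 : f 0 = 0
  swap
  · -- non-vanishing case
    have h1 : ∀ᶠ ζ in 𝓝 (0 : Fin n → ℂ), ‖f 0‖ / 2 < ‖f ζ‖ := by
      refine Filter.Tendsto.eventually_const_lt ?_ hf.continuousAt.norm.tendsto
      have := norm_pos_iff.2 h0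
      linarith
    obtain ⟨δ, hδ, hball⟩ := Metric.eventually_nhds_iff_ball.1 h1
    refine ⟨ball 0 δ, ball_mem_nhds _ hδ, ?_⟩
    have h2 : ∀ ζ ∈ ball (0 : Fin n → ℂ) δ, (ENNReal.ofReal (‖f ζ‖ ^ 2)) ^ (-c) ≤
        (ENNReal.ofReal ((‖f 0‖ / 2) ^ 2)) ^ (-c) := by
      intro ζ hζ
      rw [ENNReal.rpow_neg, ENNReal.rpow_neg]
      refine ENNReal.inv_le_inv.2 (ENNReal.rpow_le_rpow ?_ hc)
      refine ENNReal.ofReal_le_ofReal ?_
      exact pow_le_pow_left₀ (by positivity) (hball ζ hζ).le 2
    refine (setLIntegral_mono' measurableSet_ball h2).trans_lt ?_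
    rw [setLIntegral_const]
    refine ENNReal.mul_lt_top ?_ measure_ball_lt_top
    have h3 : ENNReal.ofReal ((‖f 0‖ / 2) ^ 2) ≠ 0 := by
      have := norm_pos_iff.2 h0
      simp only [ne_eq, ENNReal.ofReal_eq_zero, not_le]
      positivity
    rw [lt_top_iff_ne_top]
    exact ENNReal.rpow_ne_top_of_ne_zero h3 ENNReal.ofReal_ne_top
  · obtain ⟨r', hr', hA⟩ := hf.exists_ball_analyticOnNhd
    set r := r' / 2 with hrdef
    have hr : 0 < r := by positivity
    have hA' : AnalyticOnNhd ℂ f (ball 0 (2 * r)) := by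
      have : 2 * r = r' := by rw [hrdef]; ring
      rw [this]; exact hA
    obtain ⟨q, hqe, v, hv, hPhi⟩ := exists_dir hr hA' he
    have hq1 : 1 ≤ q := by
      rcases Nat.eq_zero_or_pos q with h | h
      · exfalso
        subst h
        apply hPhi
        have hg : DifferentiableOn ℂ (fun z : ℂ => f (z • v)) (closedBall 0 1) := by
          intro w hw
          refine DifferentiableAt.differentiableWithinAt ?_
          refine DifferentiableAt.comp (g := f) w (hA' (w • v) ?_).differentiableAt (by fun_prop)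
          rw [mem_ball_zero_iff, norm_smul]
          have : ‖w‖ ≤ 1 := by simpa using hw
          nlinarith [norm_nonneg v]
        have := dd_eq (q := 0) (fun _ => 0) (fun i j _ => Fin.ext (by omega)) (by simp) _ hg
        unfold Phi
        simp only [zero_add]
        have h2 : (fun z : ℂ => (∏ i : Fin (0 + 1), (z - (0 : Fin (0 + 1) → ℂ) i))⁻¹ * f (z • v)) =
          (fun z : ℂ => (∏ i : Fin (0 + 1), (z - (fun _ => (0 : ℂ)) i))⁻¹ * f (z • v)) := by
          ext z; simp
        rw [h2, ← this]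
        simp [dd, h0]
      · exact h
    have hcont := continuousAt_Phi hr hA'.continuousOn hv q
    have hcq : c * q < 1 := by
      have : (q : ℝ) ≤ e := by exact_mod_cast hqe
      nlinarith
    -- uniform lower bound for divided differences
    set α : ℝ := ‖Phi f v q (0, 0)‖ / 2 / (2 * Real.pi) with hαdef
    have hα : 0 < α := by
      have := norm_pos_iff.2 hPhi
      positivity
    have hev : ∀ᶠ p : (Fin n → ℂ) × (Fin (q + 1) → ℂ) in 𝓝 (0, 0),
        ‖Phi f v q (0, 0)‖ / 2 < ‖Phi f v q p‖ := by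
      refine Filter.Tendsto.eventually_const_lt ?_ hcont.norm.tendsto
      have := norm_pos_iff.2 hPhi
      linarith
    obtain ⟨δ0, hδ0, hball⟩ := Metric.eventually_nhds_iff_ball.1 hev
    obtain ⟨δ, hδ, hδ1, hδr⟩ : ∃ δ > 0, δ ≤ δ0 ∧ δ ≤ r / 2 := ⟨min δ0 (r / 2), by positivity,
      min_le_left _ _, min_le_right _ _⟩
    obtain ⟨ρ, hρ, hρ1, hρ2, hρ3⟩ : ∃ ρ > 0, ρ ≤ δ0 ∧ ρ ≤ 1 ∧ ρ * ‖v‖ ≤ δ / 2 := by
      refine ⟨min (min δ0 1) (δ / 2 / (‖v‖ + 1)), by positivity, ?_, ?_, ?_⟩
      · exact (min_le_left _ _).trans (min_le_left _ _)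
      · exact (min_le_left _ _).trans (min_le_right _ _)
      · calc min (min δ0 1) (δ / 2 / (‖v‖ + 1)) * ‖v‖ ≤ (δ / 2 / (‖v‖ + 1)) * ‖v‖ := by
              exact mul_le_mul_of_nonneg_right (min_le_right _ _) (norm_nonneg _)
          _ ≤ δ / 2 := by
              rw [div_mul_eq_mul_div, div_le_iff₀ (by positivity)]
              nlinarith [norm_nonneg v]
    have hdd : ∀ z : Fin n → ℂ, ‖z‖ < δ → ∀ t : Fin (q + 1) → ℂ, (∀ i, ‖t i‖ < ρ) →
        Function.Injective t → α ≤ ‖dd t (fun s => f (z + s • v))‖ := by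
      intro z hz t ht hinj
      have hg : DifferentiableOn ℂ (fun s : ℂ => f (z + s • v)) (closedBall 0 1) := by
        intro w hw
        refine DifferentiableAt.differentiableWithinAt ?_
        refine DifferentiableAt.comp (g := f) w (hA' (z + w • v) ?_).differentiableAt (by fun_prop)
        rw [mem_ball_zero_iff]
        have h1 : ‖w‖ ≤ 1 := by simpa using hw
        calc ‖z + w • v‖ ≤ ‖z‖ + ‖w‖ * ‖v‖ := by
              refine (norm_add_le _ _).trans ?_
              rw [norm_smul]
          _ < 2 * r := by nlinarith [norm_nonneg v]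
      have h1 := dd_eq t hinj (fun i => (ht i).trans_le hρ2) _ hg
      have h2 := hball (z, t) (by
        rw [mem_ball, Prod.dist_eq, max_lt_iff]
        refine ⟨by simpa using hz.trans_le hδ1, ?_⟩
        simp only [dist_zero_right]
        rw [pi_norm_lt_iff hδ0]
        exact fun i => (ht i).trans_le hρ1)
      have h3 : Phi f v q (z, t) = (2 * Real.pi * Complex.I) * dd t (fun s => f (z + s • v)) := by
        rw [h1]; rfl
      rw [h3, norm_mul] at h2
      have h4 : ‖(2 * Real.pi * Complex.I : ℂ)‖ = 2 * Real.pi := by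
        simp [abs_of_pos Real.pi_pos]
      rw [h4] at h2
      rw [hαdef, div_le_iff₀ (by positivity)]
      linarith
    obtain ⟨C, hC, hint⟩ := lint_one q hq1 (ρ := ρ) hα hc hcq
    -- measurable extension
    set F : (Fin n → ℂ) → ℂ := (ball (0 : Fin n → ℂ) (2 * r)).indicator f with hF
    have hFm : Measurable F := by
      classical
      have := ContinuousOn.measurable_piecewise (s := ball (0 : Fin n → ℂ) (2 * r)) (f := f)
        (g := (0 : (Fin n → ℂ) → ℂ)) hA'.continuousOn continuousOn_const measurableSet_ball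
      rwa [Set.piecewise_eq_indicator] at this
    have hFeq : ∀ z, ‖z‖ < 2 * r → F z = f z := fun z hz =>
      Set.indicator_of_mem (by simpa using hz) f
    set W : (Fin n → ℂ) → ℝ≥0∞ := fun z => (ENNReal.ofReal (‖F z‖ ^ 2)) ^ (-c) with hW
    have hWm : Measurable W := by
      rw [hW]
      exact ((hFm.norm.pow_const 2).ennreal_ofReal).pow_const _
    set U : Set (Fin n → ℂ) := ball 0 (δ / 2) with hU
    refine ⟨U, ball_mem_nhds _ (by positivity), ?_⟩
    have hUF : ∫⁻ ζ in U, (ENNReal.ofReal (‖f ζ‖ ^ 2)) ^ (-c) = ∫⁻ ζ, U.indicator W ζ := by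
      rw [lintegral_indicator measurableSet_ball]
      refine setLIntegral_congr_fun measurableSet_ball ?_
      intro ζ hζ
      have : ‖ζ‖ < 2 * r := by
        have h : ‖ζ‖ < δ / 2 := by simpa [hU] using hζ
        linarith
      simp only [hW, hFeq ζ this]
    rw [hUF]
    have hUm : Measurable (U.indicator W) := hWm.indicator measurableSet_ball
    have key : volume (ball (0 : ℂ) ρ) * ∫⁻ ζ, U.indicator W ζ ≤
        volume (ball (0 : Fin n → ℂ) δ) * C := by
      calc volume (ball (0 : ℂ) ρ) * ∫⁻ ζ, U.indicator W ζ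
          = ∫⁻ _ in ball (0 : ℂ) ρ, (∫⁻ ζ, U.indicator W ζ) := by
            rw [setLIntegral_const, mul_comm]
        _ = ∫⁻ t in ball (0 : ℂ) ρ, (∫⁻ ζ, U.indicator W (ζ + t • v)) := by
            refine lintegral_congr fun t => ?_
            rw [lintegral_add_right_eq_self]
        _ = ∫⁻ ζ, (∫⁻ t in ball (0 : ℂ) ρ, U.indicator W (ζ + t • v)) := by
            refine lintegral_lintegral_swap ?_
            refine Measurable.aemeasurable ?_
            exact hUm.comp (by fun_prop)
        _ ≤ ∫⁻ ζ, (ball (0 : Fin n → ℂ) δ).indicator (fun _ => C) ζ := by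
            refine lintegral_mono fun ζ => ?_
            by_cases hζ : ζ ∈ ball (0 : Fin n → ℂ) δ
            · rw [Set.indicator_of_mem hζ]
              have hζ' : ‖ζ‖ < δ := by simpa using hζ
              calc ∫⁻ t in ball (0 : ℂ) ρ, U.indicator W (ζ + t • v)
                  ≤ ∫⁻ t in ball (0 : ℂ) ρ, (ENNReal.ofReal (‖F (ζ + t • v)‖ ^ 2)) ^ (-c) :=
                    lintegral_mono fun t => Set.indicator_le_self _ _ _
                _ ≤ C := by
                    refine hint (fun t => F (ζ + t • v)) (hFm.comp (by fun_prop)) ?_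
                    intro t ht hinj
                    refine (hdd ζ hζ' t ht hinj).trans (le_of_eq ?_)
                    unfold dd
                    congr 1
                    refine Finset.sum_congr rfl fun i _ => ?_
                    show _ * f (ζ + t i • v) = _ * F (ζ + t i • v)
                    rw [hFeq]
                    calc ‖ζ + t i • v‖ ≤ ‖ζ‖ + ‖t i‖ * ‖v‖ := by
                          refine (norm_add_le _ _).trans ?_
                          rw [norm_smul]
                      _ < 2 * r := by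
                          have := ht i
                          nlinarith [norm_nonneg v, norm_nonneg (t i)]
            · rw [Set.indicator_of_notMem hζ]
              refine le_of_eq ?_
              have h1 : ∫⁻ t in ball (0 : ℂ) ρ, U.indicator W (ζ + t • v) =
                  ∫⁻ _ in ball (0 : ℂ) ρ, 0 := by
                refine setLIntegral_congr_fun measurableSet_ball ?_
                intro t ht
                refine Set.indicator_of_notMem ?_ _
                intro hmem
                apply hζ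
                rw [mem_ball_zero_iff]
                have h2 : ‖ζ + t • v‖ < δ / 2 := by simpa [hU] using hmem
                have h3 : ‖t‖ < ρ := by simpa using ht
                calc ‖ζ‖ = ‖(ζ + t • v) - t • v‖ := by simp
                  _ ≤ ‖ζ + t • v‖ + ‖t‖ * ‖v‖ := by
                      refine (norm_sub_le _ _).trans ?_
                      rw [norm_smul]
                  _ < δ := by nlinarith [norm_nonneg v, norm_nonneg t]
              rw [h1]; simp
        _ = volume (ball (0 : Fin n → ℂ) δ) * C := by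
            rw [lintegral_indicator_const measurableSet_ball, mul_comm]
    have hlt : volume (ball (0 : ℂ) ρ) * ∫⁻ ζ, U.indicator W ζ < ∞ :=
      key.trans_lt (ENNReal.mul_lt_top measure_ball_lt_top hC)
    rcases ENNReal.mul_lt_top_iff.1 hlt with h | h | h
    · exact h.2
    · exact absurd h (measure_ball_pos _ _ hρ).ne'
    · rw [h]; exact ENNReal.zero_lt_top

/-- (AF5), at a point `a` -/
theorem af5 {n : ℕ} {f : (Fin n → ℂ) → ℂ} {a : Fin n → ℂ} {e : ℕ} (hf : AnalyticAt ℂ f a)
    (he : ¬ (fun z => f (a + z)) =O[𝓝 0] fun z : Fin n → ℂ => ‖z‖ ^ (e + 1)) {c : ℝ} (hc : 0 ≤ c)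
    (hce : c * e < 1) :
    ∃ U ∈ 𝓝 a, ∫⁻ ζ in U, (ENNReal.ofReal (‖f ζ‖ ^ 2)) ^ (-c) < ∞ := by
  have hf' : AnalyticAt ℂ (fun z => f (a + z)) 0 := by
    have h1 : AnalyticAt ℂ f ((fun z : Fin n → ℂ => a + z) 0) := by simpa using hf
    exact h1.comp (by fun_prop)
  obtain ⟨U, hU, hint⟩ := af5_zero hf' he hc hce
  obtain ⟨δ, hδ, hball⟩ := Metric.mem_nhds_iff.1 hU
  refine ⟨ball a δ, ball_mem_nhds _ hδ, ?_⟩
  set G : (Fin n → ℂ) → ℝ≥0∞ := fun ζ => (ENNReal.ofReal (‖f ζ‖ ^ 2)) ^ (-c) with hG
  calc ∫⁻ ζ in ball a δ, G ζ = ∫⁻ ζ, (ball a δ).indicator G ζ := by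
        rw [lintegral_indicator measurableSet_ball]
    _ = ∫⁻ ζ, (ball a δ).indicator G (a + ζ) := by
        rw [lintegral_add_left_eq_self]
    _ = ∫⁻ ζ, (ball (0 : Fin n → ℂ) δ).indicator (fun z => G (a + z)) ζ := by
        refine lintegral_congr fun ζ => ?_
        by_cases h : ζ ∈ ball (0 : Fin n → ℂ) δ
        · rw [Set.indicator_of_mem h, Set.indicator_of_mem]
          simpa [mem_ball, dist_eq_norm] using h
        · rw [Set.indicator_of_notMem h, Set.indicator_of_notMem]
          simpa [mem_ball, dist_eq_norm] using h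
    _ = ∫⁻ ζ in ball (0 : Fin n → ℂ) δ, G (a + ζ) := by
        rw [lintegral_indicator measurableSet_ball]
    _ ≤ ∫⁻ ζ in U, G (a + ζ) := lintegral_mono_set hball
    _ < ∞ := hint

end Crest.Agent.R271.AF5x785
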