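import Crest.Agent.R271.Growth_255

/-!
# Row 271, (A1): primitive element, fibres of `M → ℂⁿ` (helper255)
-/

set_option autoImplicit false

noncomputable section

open scoped BigOperators
open Polynomial

namespace Crest.Agent.R271.Alg255

section gen

variable (R B : Type) [CommRing R] [IsDomain R] [IsIntegrallyClosed R] [CharZero R]
  [CommRing B] [IsDomain B] [Algebra R B] [Module.IsTorsionFree R B] [Algebra.IsAlgebraic R B]
  [Algebra.FiniteType R B]

theorem exists_theta : ∃ (θ : B) (g : R), g ≠ 0 ∧ IsIntegral R θ ∧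
    aeval θ (derivative (minpoly R θ)) ≠ 0 ∧
    (∃ a b : R[X], a * minpoly R θ + b * derivative (minpoly R θ) = C g) ∧
    ∀ b : B, ∃ (k : ℕ) (q : R[X]), algebraMap R B (g ^ k) * b = aeval θ q := by
  let K := FractionRing R
  let L := FractionRing B
  let _ : Algebra K L := FractionRing.liftAlgebra R L
  have : IsScalarTower R K L := FractionRing.isScalarTower_liftAlgebra R L
  have : Algebra.IsAlgebraic R L := (IsFractionRing.isAlgebraic_iff' R B L).1 inferInstance
  have : Algebra.IsAlgebraic K L := IsFractionRing.comap_isAlgebraic_iff (A := R).1 inferInstance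
  have : Algebra.EssFiniteType R B := inferInstance
  have : Algebra.EssFiniteType B L := .of_isLocalization _ (nonZeroDivisors B)
  have : Algebra.EssFiniteType R L := .comp R B L
  have : Algebra.EssFiniteType K L := .of_comp R K L
  have : CharZero K := inferInstance
  have : FiniteDimensional K L := by
    obtain ⟨s, hs⟩ := IntermediateField.fg_top K L
    have h1 : FiniteDimensional K (IntermediateField.adjoin K (s : Set L)) :=
      IntermediateField.finiteDimensional_adjoin fun x _ => Algebra.IsIntegral.isIntegral x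
    rw [hs] at h1
    exact Module.Finite.equiv (IntermediateField.topEquiv (F := K) (E := L)).toLinearEquiv
  obtain ⟨α, hα⟩ := Field.exists_primitive_element K L
  have hinj : Function.Injective (algebraMap B L) := IsFractionRing.injective B L
  have hinjR : Function.Injective (algebraMap R B) := FaithfulSMul.algebraMap_injective R B
  have hinjK : Function.Injective (algebraMap R K) := IsFractionRing.injective R K
  obtain ⟨b, c, hc, hbc⟩ := IsFractionRing.div_surjective (A := B) α
  have hc0 : c ≠ 0 := nonZeroDivisors.ne_zero hc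
  obtain ⟨r, hr0, c', hc'⟩ := (Algebra.IsAlgebraic.isAlgebraic (R := R) c).exists_nonzero_dvd hc
  obtain ⟨y, hy0, hy⟩ := (Algebra.IsAlgebraic.isAlgebraic (R := R) (b * c')).exists_integral_multiple
  set θ : B := y • (b * c') with hθ
  have hcL : algebraMap B L c ≠ 0 := by
    rw [Ne, map_eq_zero_iff _ hinj]; exact hc0
  have hθL : algebraMap B L θ = algebraMap R L (y * r) * α := by
    have e : algebraMap R L r = algebraMap B L c * algebraMap B L c' := by
      rw [IsScalarTower.algebraMap_apply R B L r, hc', map_mul]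
    rw [hθ, Algebra.smul_def, map_mul, map_mul, ← hbc, map_mul, ← IsScalarTower.algebraMap_apply,
      e, div_eq_mul_inv]
    linear_combination (-(algebraMap R L y * algebraMap B L b * algebraMap B L c')) *
      (mul_inv_cancel₀ hcL)
  have hyr : algebraMap R L (y * r) ≠ 0 := by
    rw [IsScalarTower.algebraMap_apply R B L, Ne, map_eq_zero_iff _ hinj, map_eq_zero_iff _ hinjR]
    exact mul_ne_zero hy0 hr0
  set t : L := algebraMap B L θ with ht
  have htop : IntermediateField.adjoin K {t} = ⊤ := by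
    rw [eq_top_iff, ← hα, IntermediateField.adjoin_simple_le_iff]
    have h1 : α = (algebraMap K L (algebraMap R K (y * r)))⁻¹ * t := by
      rw [← IsScalarTower.algebraMap_apply, hθL, inv_mul_cancel_left₀ hyr]
    rw [h1]
    exact mul_mem (inv_mem (IntermediateField.algebraMap_mem _ _))
      (IntermediateField.mem_adjoin_simple_self K t)
  have hμ : minpoly K t = (minpoly R θ).map (algebraMap R K) :=
    minpoly.isIntegrallyClosed_eq_field_fractions K L hy
  have hsep : (minpoly K t).Separable := Algebra.IsSeparable.isSeparable K t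
  -- Bezout
  obtain ⟨a, b', hab⟩ := hsep
  obtain ⟨ra, hra', hra⟩ := IsLocalization.integerNormalization_spec (nonZeroDivisors R) a
  obtain ⟨rb, hrb', hrb⟩ := IsLocalization.integerNormalization_spec (nonZeroDivisors R) b'
  have hra0 : (ra : R) ≠ 0 := nonZeroDivisors.ne_zero hra'
  have hrb0 : (rb : R) ≠ 0 := nonZeroDivisors.ne_zero hrb'
  set a0 := IsLocalization.integerNormalization (nonZeroDivisors R) a
  set b0 := IsLocalization.integerNormalization (nonZeroDivisors R) b'
  have hbez : (C (rb : R) * a0) * minpoly R θ + (C (ra : R) * b0) * derivative (minpoly R θ) =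
      C ((ra : R) * rb) := by
    apply Polynomial.map_injective _ hinjK
    rw [Polynomial.map_add, Polynomial.map_mul, Polynomial.map_mul, Polynomial.map_mul,
      Polynomial.map_mul, Polynomial.map_C, Polynomial.map_C, Polynomial.map_C,
      ← Polynomial.derivative_map, ← hμ, hra, hrb, map_mul, map_mul]
    have e1 : (ra : R) • a = C (algebraMap R K ra) * a := by
      rw [← Polynomial.smul_eq_C_mul, algebraMap_smul]
    have e2 : (rb : R) • b' = C (algebraMap R K rb) * b' := by
      rw [← Polynomial.smul_eq_C_mul, algebraMap_smul]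
    rw [e1, e2]
    linear_combination (C (algebraMap R K ra) * C (algebraMap R K rb)) * hab
  -- elements of `B`
  have hel : ∀ b : B, ∃ r : R, r ≠ 0 ∧ ∃ q : R[X], algebraMap R B r * b = aeval θ q := by
    intro b
    have h1 : algebraMap B L b ∈ Algebra.adjoin K {t} := by
      have h2 : (IntermediateField.adjoin K {t}).toSubalgebra = Algebra.adjoin K {t} :=
        IntermediateField.adjoin_simple_toSubalgebra_of_isAlgebraic
          (Algebra.IsAlgebraic.isAlgebraic t)
      rw [← h2, htop]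
      trivial
    rw [Algebra.adjoin_singleton_eq_range_aeval] at h1
    obtain ⟨q, hq⟩ := h1
    obtain ⟨rq, hrq', hrq⟩ := IsLocalization.integerNormalization_spec (nonZeroDivisors R) q
    refine ⟨rq, nonZeroDivisors.ne_zero hrq',
      IsLocalization.integerNormalization (nonZeroDivisors R) q, ?_⟩
    apply hinj
    rw [map_mul, ← Polynomial.aeval_algebraMap_apply, ← ht,
      ← Polynomial.aeval_map_algebraMap K, hrq, ← IsScalarTower.algebraMap_apply]
    have hq' : aeval t q = algebraMap B L b := hq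
    rw [← hq', ← algebraMap_smul K (rq : R) q, map_smul, Algebra.smul_def,
      ← IsScalarTower.algebraMap_apply]
  choose r hr0 q hq using hel
  obtain ⟨S, hS⟩ := Algebra.FiniteType.out (R := R) (A := B)
  set g2 : R := ∏ s ∈ S, r s with hg2
  have hg20 : g2 ≠ 0 := Finset.prod_ne_zero_iff.mpr fun s _ => hr0 s
  have hgen : ∀ b : B, ∃ (k : ℕ) (q : R[X]), algebraMap R B (g2 ^ k) * b = aeval θ q := by
    intro b
    have hb : b ∈ Algebra.adjoin R (S : Set B) := by rw [hS]; trivial
    induction hb using Algebra.adjoin_induction with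
    | mem s hs =>
      have h1 : r s ∣ g2 := Finset.dvd_prod_of_mem r hs
      obtain ⟨e, he⟩ := h1
      refine ⟨1, C e * q s, ?_⟩
      rw [pow_one, he, map_mul, map_mul, ← hq s, aeval_C]
      ring
    | algebraMap x =>
      refine ⟨0, C x, ?_⟩
      simp
    | add x y _ _ hx hy =>
      obtain ⟨k, q1, h1⟩ := hx
      obtain ⟨k', q2, h2⟩ := hy
      refine ⟨k + k', C (g2 ^ k') * q1 + C (g2 ^ k) * q2, ?_⟩
      rw [map_add, map_mul, map_mul, aeval_C, aeval_C, ← h1, ← h2, pow_add, map_mul]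
      ring
    | mul x y _ _ hx hy =>
      obtain ⟨k, q1, h1⟩ := hx
      obtain ⟨k', q2, h2⟩ := hy
      refine ⟨k + k', q1 * q2, ?_⟩
      rw [map_mul, ← h1, ← h2, pow_add, map_mul]
      ring
  refine ⟨θ, ((ra : R) * rb) * g2, mul_ne_zero (mul_ne_zero hra0 hrb0) hg20, hy, ?_,
    ⟨C g2 * (C (rb : R) * a0), C g2 * (C (ra : R) * b0), ?_⟩, fun b => ?_⟩
  · intro h0
    have h1 := congrArg (aeval θ) hbez
    rw [map_add, map_mul (aeval θ) (C (rb : R) * a0), map_mul (aeval θ) (C (ra : R) * b0),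
      minpoly.aeval, h0, mul_zero, mul_zero, add_zero, aeval_C] at h1
    have h2 : (ra : R) * rb = 0 := (map_eq_zero_iff _ hinjR).1 h1.symm
    exact mul_ne_zero hra0 hrb0 h2
  · calc C g2 * (C (rb : R) * a0) * minpoly R θ + C g2 * (C (ra : R) * b0) *
          derivative (minpoly R θ) = C g2 * ((C (rb : R) * a0) * minpoly R θ +
          (C (ra : R) * b0) * derivative (minpoly R θ)) := by ring
      _ = _ := by rw [hbez, ← C_mul, mul_comm]
  · obtain ⟨k, q', h1⟩ := hgen b
    refine ⟨k, C (((ra : R) * rb) ^ k) * q', ?_⟩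
    rw [mul_pow, map_mul, map_mul, aeval_C, ← h1]
    ring

end gen

section fib

variable {n : ℕ} {B : Type} [CommRing B] [IsDomain B] [Algebra ℂ B]

omit [IsDomain B] in
/-- Nullstellensatz -/
lemma exists_point [Algebra.FiniteType ℂ B] (I : Ideal B) (hI : I ≠ ⊤) :
    ∃ y : B →ₐ[ℂ] ℂ, ∀ b ∈ I, y b = 0 := by
  obtain ⟨m, hm, hIm⟩ := Ideal.exists_le_maximal I hI
  let _ := Ideal.Quotient.field m
  have h1 : Module.Finite ℂ (B ⧸ m) := finite_of_finite_type_of_isJacobsonRing ℂ (B ⧸ m)
  have h2 : Algebra.IsAlgebraic ℂ (B ⧸ m) := inferInstance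
  let f : (B ⧸ m) →ₐ[ℂ] ℂ := IsAlgClosed.lift
  refine ⟨f.comp (Ideal.Quotient.mkₐ ℂ m), fun b hb => ?_⟩
  have h3 : Ideal.Quotient.mkₐ ℂ m b = 0 := by
    rw [Ideal.Quotient.mkₐ_eq_mk]
    exact Ideal.Quotient.eq_zero_iff_mem.mpr (hIm hb)
  rw [AlgHom.comp_apply, h3, map_zero]

/-- the ring map `ℂ[z] → B` -/
abbrev az (z : Fin n → B) : MvPolynomial (Fin n) ℂ →+* B :=
  ((MvPolynomial.aeval z : MvPolynomial (Fin n) ℂ →ₐ[ℂ] B) : MvPolynomial (Fin n) ℂ →+* B)

omit [IsDomain B] in
lemma apply_az (z : Fin n → B) (y : B →ₐ[ℂ] ℂ) (ζ : Fin n → ℂ) (hy : ∀ i, y (z i) = ζ i)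
    (p : MvPolynomial (Fin n) ℂ) : y (az z p) = MvPolynomial.eval ζ p := by
  have h1 : y.comp (MvPolynomial.aeval z) = MvPolynomial.aeval ζ := by
    apply MvPolynomial.algHom_ext
    intro i
    simp [hy]
  have h2 := congrArg (fun f => f p) h1
  simpa [MvPolynomial.aeval_eq_eval] using h2

/-- **(A1)** general form -/
theorem A1_gen (z : Fin n → B) (hft : Algebra.FiniteType ℂ B)
    (hinj : Function.Injective (az z))
    (halg : ∀ b : B, ∃ p : Polynomial (MvPolynomial (Fin n) ℂ), p ≠ 0 ∧
      Polynomial.eval₂ (az z) b p = 0) :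
    ∃ (θ : B) (μ : Polynomial (MvPolynomial (Fin n) ℂ)) (g : MvPolynomial (Fin n) ℂ),
      μ.Monic ∧ g ≠ 0 ∧ Polynomial.eval₂ (az z) θ μ = 0 ∧
      Polynomial.eval₂ (az z) θ (derivative μ) ≠ 0 ∧
      ∀ ζ : Fin n → ℂ, MvPolynomial.eval ζ g ≠ 0 →
        (μ.map (MvPolynomial.eval ζ)).Separable ∧
        Set.BijOn (fun y : B →ₐ[ℂ] ℂ => y θ) {y | ∀ i, y (z i) = ζ i}
          {t | (μ.map (MvPolynomial.eval ζ)).eval t = 0} := by
  let _ : Algebra (MvPolynomial (Fin n) ℂ) B := (az z).toAlgebra
  have hmap : algebraMap (MvPolynomial (Fin n) ℂ) B = az z := rfl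
  have : IsScalarTower ℂ (MvPolynomial (Fin n) ℂ) B := by
    refine IsScalarTower.of_algebraMap_eq fun c => ?_
    rw [hmap, MvPolynomial.algebraMap_eq]
    simp [az]
  have : FaithfulSMul (MvPolynomial (Fin n) ℂ) B :=
    (faithfulSMul_iff_algebraMap_injective _ _).mpr hinj
  have : Module.IsTorsionFree (MvPolynomial (Fin n) ℂ) B := inferInstance
  have : Algebra.IsAlgebraic (MvPolynomial (Fin n) ℂ) B := ⟨fun b => by
    obtain ⟨p, hp, hp0⟩ := halg b
    exact ⟨p, hp, hp0⟩⟩
  have : Algebra.FiniteType (MvPolynomial (Fin n) ℂ) B :=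
    Algebra.FiniteType.of_restrictScalars_finiteType ℂ _ _
  obtain ⟨θ, g, hg, hθ, hder, ⟨a, b, hab⟩, hgen⟩ := exists_theta (MvPolynomial (Fin n) ℂ) B
  set μ := minpoly (MvPolynomial (Fin n) ℂ) θ with hμ
  have hμm : μ.Monic := minpoly.monic hθ
  have hμ0 : Polynomial.eval₂ (az z) θ μ = 0 := minpoly.aeval _ θ
  have hpush : ∀ (y : B →ₐ[ℂ] ℂ) (ζ : Fin n → ℂ), (∀ i, y (z i) = ζ i) →
      ∀ q : Polynomial (MvPolynomial (Fin n) ℂ),
        y (aeval θ q) = (q.map (MvPolynomial.eval ζ)).eval (y θ) := by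
    intro y ζ hy q
    have h1 : aeval θ q = Polynomial.eval₂ (az z) θ q := rfl
    rw [h1, Polynomial.eval_map]
    have h2 : y (Polynomial.eval₂ (az z) θ q) =
        Polynomial.eval₂ ((y : B →+* ℂ).comp (az z)) (y θ) q :=
      Polynomial.hom_eval₂ q (az z) (y : B →+* ℂ) θ
    have h3 : (y : B →+* ℂ).comp (az z) = MvPolynomial.eval ζ :=
      RingHom.ext fun p => apply_az z y ζ hy p
    rw [h2, h3]
  refine ⟨θ, μ, g, hμm, hg, hμ0, hder, fun ζ hζ => ⟨?_, ?_, ?_, ?_⟩⟩
  · -- separable
    have h1 := congrArg (Polynomial.map (MvPolynomial.eval ζ)) hab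
    rw [Polynomial.map_add, Polynomial.map_mul, Polynomial.map_mul, Polynomial.map_C,
      ← Polynomial.derivative_map] at h1
    refine ⟨C (MvPolynomial.eval ζ g)⁻¹ * a.map (MvPolynomial.eval ζ),
      C (MvPolynomial.eval ζ g)⁻¹ * b.map (MvPolynomial.eval ζ), ?_⟩
    have h2 : C (MvPolynomial.eval ζ g)⁻¹ * C (MvPolynomial.eval ζ g) = (1 : Polynomial ℂ) := by
      rw [← C_mul, inv_mul_cancel₀ hζ, C_1]
    linear_combination (C (MvPolynomial.eval ζ g)⁻¹) * h1 + h2
  · -- maps to roots
    intro y hy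
    have h1 := hpush y ζ hy μ
    have h2 : aeval θ μ = 0 := hμ0
    rw [h2, map_zero] at h1
    exact h1.symm
  · -- injective on fibres
    intro y hy y' hy' h
    ext b
    obtain ⟨k, q, hq⟩ := hgen b
    have e1 := hpush y ζ hy q
    have e2 := hpush y' ζ hy' q
    rw [← hq, map_mul, hmap, apply_az z y ζ hy] at e1
    rw [← hq, map_mul, hmap, apply_az z y' ζ hy'] at e2
    have h' : y θ = y' θ := h
    rw [h', ← e2, map_pow] at e1
    exact mul_left_cancel₀ (pow_ne_zero k hζ) e1
  · -- surjective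
    intro t ht
    have ht' : (μ.map (MvPolynomial.eval ζ)).eval t = 0 := ht
    -- evaluation on `ℂ[z][T]`
    let φ : Polynomial (MvPolynomial (Fin n) ℂ) →+* ℂ :=
      Polynomial.eval₂RingHom (MvPolynomial.eval ζ) t
    have hφμ : φ μ = 0 := by
      rw [Polynomial.eval_map] at ht'
      exact ht'
    -- the ideal
    let I : Ideal B := Ideal.span (Set.range (fun i => z i - algebraMap ℂ B (ζ i)) ∪
      {θ - algebraMap ℂ B t})
    -- every element of `I` times a power of `g` comes from a polynomial killed by `φ`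
    have hI : ∀ b ∈ I, ∃ (k : ℕ) (q : Polynomial (MvPolynomial (Fin n) ℂ)),
        algebraMap (MvPolynomial (Fin n) ℂ) B (g ^ k) * b = aeval θ q ∧ φ q = 0 := by
      intro b hb
      induction hb using Submodule.span_induction with
      | mem x hx =>
        rcases hx with ⟨i, rfl⟩ | hx
        · refine ⟨0, C (MvPolynomial.X i - MvPolynomial.C (ζ i)), ?_, ?_⟩
          · rw [pow_zero, map_one, one_mul, aeval_C, hmap]
            simp [az]
          · simp [φ]
        · rw [Set.mem_singleton_iff] at hx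
          refine ⟨0, X - C (MvPolynomial.C t), ?_, ?_⟩
          · rw [pow_zero, map_one, one_mul, hx, map_sub, aeval_X, aeval_C, hmap]
            simp [az]
          · simp [φ]
      | zero => exact ⟨0, 0, by simp, by simp⟩
      | add x y _ _ hx hy =>
        obtain ⟨k, q1, h1, h1'⟩ := hx
        obtain ⟨k', q2, h2, h2'⟩ := hy
        refine ⟨k + k', C (g ^ k') * q1 + C (g ^ k) * q2, ?_, ?_⟩
        · rw [map_add, map_mul (aeval θ), map_mul (aeval θ), aeval_C, aeval_C, ← h1, ← h2,
            pow_add, map_mul]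
          ring
        · rw [map_add, map_mul, map_mul, h1', h2', mul_zero, mul_zero, add_zero]
      | smul a x _ hx =>
        obtain ⟨k, q1, h1, h1'⟩ := hx
        obtain ⟨k', q2, h2⟩ := hgen a
        refine ⟨k + k', q1 * q2, ?_, ?_⟩
        · rw [map_mul (aeval θ), ← h1, ← h2, pow_add, map_mul, smul_eq_mul]
          ring
        · rw [map_mul, h1', zero_mul]
    have hItop : I ≠ ⊤ := by
      intro htop
      obtain ⟨k, q, hq, hφq⟩ := hI 1 (by rw [htop]; trivial)
      rw [mul_one] at hq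
      have h1 : aeval θ (C (g ^ k) - q) = 0 := by
        rw [map_sub, aeval_C, hq, sub_self]
      have h2 : μ ∣ C (g ^ k) - q := minpoly.isIntegrallyClosed_dvd hθ h1
      obtain ⟨e, he⟩ := h2
      have h3 := congrArg φ he
      rw [map_mul, hφμ, zero_mul, map_sub, hφq, sub_zero] at h3
      have h4 : φ (C (g ^ k)) = (MvPolynomial.eval ζ g) ^ k := by
        rw [← map_pow]
        exact Polynomial.eval₂_C _ _
      rw [h4] at h3
      exact pow_ne_zero k hζ h3
    obtain ⟨y, hy⟩ := exists_point I hItop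
    refine ⟨y, fun i => ?_, ?_⟩
    · have h1 := hy (z i - algebraMap ℂ B (ζ i)) (Ideal.subset_span (Or.inl ⟨i, rfl⟩))
      rw [map_sub, AlgHom.commutes] at h1
      simpa [sub_eq_zero] using h1
    · have h1 := hy (θ - algebraMap ℂ B t) (Ideal.subset_span (Or.inr rfl))
      rw [map_sub, AlgHom.commutes] at h1
      simpa [sub_eq_zero] using h1

/-- `ℂ[z] → B` étale ⟹ injective -/
lemma az_injective {z : Fin n → B} (h : RingHom.Etale (az z)) : Function.Injective (az z) := by
  let _ : Algebra (MvPolynomial (Fin n) ℂ) B := (az z).toAlgebra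
  have hE : Algebra.Etale (MvPolynomial (Fin n) ℂ) B := h
  have hF : Module.Flat (MvPolynomial (Fin n) ℂ) B := inferInstance
  rw [injective_iff_map_eq_zero]
  intro p hp
  by_contra hp0
  have h2 : IsSMulRegular B p := Module.Flat.isSMulRegular_of_nonZeroDivisors
    (mem_nonZeroDivisors_of_ne_zero hp0)
  have h3 : p • (1 : B) = p • (0 : B) := by
    rw [smul_zero, Algebra.smul_def, mul_one]
    exact hp
  exact one_ne_zero (h2 h3)

end fib

section ctx

variable {n : ℕ} (X : Defs710.FCtx n)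

lemma az_inj : Function.Injective (az X.z) := az_injective X.etale

/-- every element of `B` is algebraic over `ℂ[z]` -/
lemma alg_over (b : X.B) : ∃ p : Polynomial (MvPolynomial (Fin n) ℂ), p ≠ 0 ∧
    Polynomial.eval₂ (az X.z) b p = 0 := by
  let _ : Algebra (MvPolynomial (Fin n) ℂ) X.B := (az X.z).toAlgebra
  have hint : ∀ a ∈ X.A, IsIntegral (MvPolynomial (Fin n) ℂ) a := by
    intro a ha
    obtain ⟨p, hp, hpa⟩ := X.A_int a ha
    have hr : ∀ c : Algebra.adjoin ℂ (Set.range X.z), ∃ q : MvPolynomial (Fin n) ℂ,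
        az X.z q = c := by
      rintro ⟨c, hc⟩
      rw [Algebra.adjoin_range_eq_range_aeval] at hc
      exact hc
    -- lift the polynomial
    let f : MvPolynomial (Fin n) ℂ →+* Algebra.adjoin ℂ (Set.range X.z) :=
      (az X.z).codRestrict (Algebra.adjoin ℂ (Set.range X.z)) (fun q => by
        rw [Algebra.adjoin_range_eq_range_aeval]
        exact ⟨q, rfl⟩)
    have hf : Function.Surjective f := by
      intro c
      obtain ⟨q, hq⟩ := hr c
      exact ⟨q, Subtype.ext hq⟩
    have hl : p ∈ Polynomial.lifts f := by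
      rw [Polynomial.lifts_iff_coeff_lifts]
      intro k
      exact hf _
    obtain ⟨q, hq, _, hqm⟩ := Polynomial.lifts_and_natDegree_eq_and_monic hl hp
    refine ⟨q, hqm, ?_⟩
    have h2 : algebraMap (MvPolynomial (Fin n) ℂ) X.B =
        (algebraMap (Algebra.adjoin ℂ (Set.range X.z)) X.B).comp f := rfl
    rw [h2, ← Polynomial.eval₂_map, hq]
    exact hpa
  obtain ⟨N, hN⟩ := X.h_loc b
  have h1 : IsAlgebraic (MvPolynomial (Fin n) ℂ) (X.h ^ N * b) := (hint _ hN).isAlgebraic
  have h2 : IsAlgebraic (MvPolynomial (Fin n) ℂ) (X.h ^ N) :=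
    ((hint _ X.h_mem).pow N).isAlgebraic
  have h3 : X.h ^ N ∈ nonZeroDivisors X.B :=
    mem_nonZeroDivisors_of_ne_zero (pow_ne_zero N X.h_unit.ne_zero)
  obtain ⟨p, hp, hp0⟩ := IsAlgebraic.of_mul h3 h2 h1
  exact ⟨p, hp, hp0⟩

/-- **(A1)** for the context; the root `θ` is integral over `ℂ[z]` -/
theorem A1 : ∃ (θ : X.B) (μ : Polynomial (MvPolynomial (Fin n) ℂ)) (g : MvPolynomial (Fin n) ℂ),
    μ.Monic ∧ g ≠ 0 ∧ Polynomial.eval₂ (az X.z) θ μ = 0 ∧
    Polynomial.eval₂ (az X.z) θ (derivative μ) ≠ 0 ∧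
    ∀ ζ : Fin n → ℂ, MvPolynomial.eval ζ g ≠ 0 →
      (μ.map (MvPolynomial.eval ζ)).Separable ∧
      Set.BijOn (fun y : X.B →ₐ[ℂ] ℂ => y θ) {y | ∀ i, y (X.z i) = ζ i}
        {t | (μ.map (MvPolynomial.eval ζ)).eval t = 0} :=
  A1_gen X.z X.ft (az_inj X) (alg_over X)

omit X in
/-- a root of a monic polynomial over `ℂ[z]` has polynomial growth -/
theorem growth_root {B : Type} [CommRing B] [Algebra ℂ B] {z : Fin n → B} {θ : B}
    {μ : Polynomial (MvPolynomial (Fin n) ℂ)} (hμ : μ.Monic)
    (h0 : Polynomial.eval₂ (az z) θ μ = 0) : PG z θ := by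
  apply growthI
  let f : MvPolynomial (Fin n) ℂ →+* Algebra.adjoin ℂ (Set.range z) :=
    (az z).codRestrict (Algebra.adjoin ℂ (Set.range z)) (fun q => by
      rw [Algebra.adjoin_range_eq_range_aeval]
      exact ⟨q, rfl⟩)
  refine ⟨μ.map f, hμ.map f, ?_⟩
  have h2 : az z = (algebraMap (Algebra.adjoin ℂ (Set.range z)) B).comp f := rfl
  rw [Polynomial.eval₂_map, ← h2]
  exact h0

end ctx

end Crest.Agent.R271.Alg255
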