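import Mathlib
import Crest.Prelude.Def_SmoothDivisors

/-!
Row 271 (S0413): shared interface. See `Blueprint_710.lean` for the numbered proof.
-/

set_option autoImplicit false

open scoped ENNReal NNReal Topology BigOperators
open MeasureTheory

noncomputable section

namespace Crest.Agent.R271.Defs710

/-! ### Local integrability of functions on `ℂⁿ = Fin n → ℂ` -/

/-- `ℂⁿ` -/
abbrev Cn (n : ℕ) : Type := Fin n → ℂ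

/-- the `[0,∞]`-valued function `g` is integrable near `a` -/
def LInt {n : ℕ} (g : Cn n → ℝ≥0∞) (a : Cn n) : Prop :=
  ∃ U ∈ 𝓝 a, ∫⁻ ζ in U, g ζ < ∞

/-- `∑ⱼ |hⱼ(ζ)|²` -/
def sq {n : ℕ} {κ : Type} [Fintype κ] (h : κ → Cn n → ℂ) (ζ : Cn n) : ℝ := ∑ j, ‖h j ζ‖ ^ 2

/-- the integrand `∏ᵢ (∑ⱼ |hᵢⱼ|²)^{-cᵢ}` -/
def wInt {n : ℕ} {ι : Type} [Fintype ι] {κ : ι → Type} [∀ i, Fintype (κ i)]
    (h : ∀ i, κ i → Cn n → ℂ) (c : ι → ℝ) (ζ : Cn n) : ℝ≥0∞ :=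
  ∏ i, (ENNReal.ofReal (sq (h i) ζ)) ^ (-(c i))

/-! ### Local facts for germs at `0 ∈ ℂ^N` (team L) -/

/-- (AF4) SUM THEOREM for germs: `e^{-ρ - max φᵢ}` integrable at `0` implies that
`e^{-(1-ε)(ρ + ∑ sᵢ φᵢ)}` is integrable at `0` for some point `s` of the simplex. -/
def SumThm : Prop :=
  ∀ (N : ℕ) (ι ι' : Type) [Fintype ι] [Fintype ι'] [Nonempty ι']
    (κ : ι → Type) [∀ i, Fintype (κ i)] (κ' : ι' → Type) [∀ i, Fintype (κ' i)]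
    (h : ∀ i, κ i → Cn N → ℂ) (g : ∀ i, κ' i → Cn N → ℂ) (c : ι → ℝ) (θ : ι' → ℝ),
    (∀ i j, AnalyticAt ℂ (h i j) 0) → (∀ i j, AnalyticAt ℂ (g i j) 0) →
    (∀ i, 0 ≤ c i) → (∀ i, 0 ≤ θ i) →
    LInt (fun ζ => wInt h c ζ * ⨅ i : ι', (ENNReal.ofReal (sq (g i) ζ)) ^ (-(θ i))) 0 →
    ∀ ε : ℝ, 0 < ε → ε < 1 →
      ∃ s : ι' → ℝ, (∀ i, 0 ≤ s i) ∧ ∑ i, s i = 1 ∧
        LInt (fun ζ => wInt h (fun i => (1 - ε) * c i) ζ *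
          wInt g (fun i => (1 - ε) * (s i * θ i)) ζ) 0

/-! ### Points of an affine variety, local coordinates -/

section pts

variable {n : ℕ} {B : Type} [CommRing B] [Algebra ℂ B]

/-- A local chart of `M = Hom(B,ℂ)` at `y` in the coordinates `z - z(y)`:  an inverse of `z`. -/
structure Chart (z : Fin n → B) (y : B →ₐ[ℂ] ℂ) where
  /-- radius -/
  r : ℝ
  r_pos : 0 < r
  /-- the local section `ζ ↦ s ζ`, `z (s ζ) = z y + ζ` -/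
  s : Cn n → (B →ₐ[ℂ] ℂ)
  s_zero : s 0 = y
  s_z : ∀ ζ ∈ Metric.ball (0 : Cn n) r, ∀ i, s ζ (z i) = y (z i) + ζ i
  anal : ∀ b : B, AnalyticOnNhd ℂ (fun ζ => s ζ b) (Metric.ball 0 r)
  /-- every point close to `y` (w.r.t. finitely many functions) lies on the section -/
  surj : ∃ (T : Finset B) (ε : ℝ), 0 < ε ∧ ∀ y' : B →ₐ[ℂ] ℂ,
    (∀ b ∈ T, ‖y' b - y b‖ < ε) → y' = s (fun i => y' (z i) - y (z i))

/-- local integrability near the point `y` of `M = Hom(B,ℂ)` of a function on `M` -/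
def LIntB (z : Fin n → B) (y : B →ₐ[ℂ] ℂ) (g : (B →ₐ[ℂ] ℂ) → ℝ≥0∞) : Prop :=
  ∃ C : Chart z y, LInt (fun ζ => g (C.s ζ)) 0

/-- `∑_{b ∈ S} |b(y)|²` -/
def wt (S : Finset B) (y : B →ₐ[ℂ] ℂ) : ℝ := ∑ b ∈ S, ‖y b‖ ^ 2

/-- `∏ᵢ (∑_{b ∈ Sᵢ} |b(y)|²)^{-cᵢ}` -/
def wB {ι : Type} [Fintype ι] (S : ι → Finset B) (c : ι → ℝ) (y : B →ₐ[ℂ] ℂ) : ℝ≥0∞ :=
  ∏ i, (ENNReal.ofReal (wt (S i) y)) ^ (-(c i))

/-- `Int_y(∏ Iᵢ^{cᵢ})`: `∏ |Iᵢ|^{-2cᵢ}` is integrable near `y` (for some generators; team L proves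
independence of the generators and of the chart). -/
def IInt (z : Fin n → B) (y : B →ₐ[ℂ] ℂ) {ι : Type} [Fintype ι] (I : ι → Ideal B)
    (c : ι → ℝ) : Prop :=
  ∃ S : ι → Finset B, (∀ i, Ideal.span (S i : Set B) = I i) ∧ LIntB z y (wB S c)

/-- the maximal ideal of the point `y` -/
def mI (y : B →ₐ[ℂ] ℂ) : Ideal B := RingHom.ker (y : B →+* ℂ)

/-- `P` is adapted at `y`: there are coordinates `w` at `y` with `P = (wᵢ, i ≥ d)` near `y`. -/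
def Adapted (d : ℕ) (P : Ideal B) (y : B →ₐ[ℂ] ℂ) (n : ℕ) : Prop :=
  ∃ w : Fin n → B, (∀ i, y (w i) = 0) ∧ (∀ i : Fin n, d ≤ i.1 → w i ∈ P) ∧
    ∃ g : B, y g ≠ 0 ∧ (∀ f ∈ P, g * f ∈ Ideal.span (w '' {i | d ≤ i.1})) ∧
      ∀ f : B, y f = 0 → g * f ∈ Ideal.span (Set.range w)

/-- Integral over `M = Hom(B,ℂ)` against the pull back of Lebesgue measure by `z` (sum over fibres). -/
def lintM (z : Fin n → B) (g : (B →ₐ[ℂ] ℂ) → ℝ≥0∞) : ℝ≥0∞ :=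
  ∫⁻ ζ : Cn n, ∑' y : {y : B →ₐ[ℂ] ℂ // ∀ i, y (z i) = ζ i}, g y.1

end pts

/-! ### The context (0.1), (10.1), (10.6) -/

/-- The affine data at a point `x` of a smooth projective variety with an ample divisor. -/
structure FCtx (n : ℕ) where
  /-- coordinate ring of an affine open subset `M ∋ x` -/
  B : Type
  [cr : CommRing B]
  [dom : IsDomain B]
  [alg : Algebra ℂ B]
  ft : Algebra.FiniteType ℂ B
  /-- étale coordinates on `M` -/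
  z : Fin n → B
  etale : RingHom.Etale ((MvPolynomial.aeval z : MvPolynomial (Fin n) ℂ →ₐ[ℂ] B) :
    MvPolynomial (Fin n) ℂ →+* B)
  /-- `A`: ring of the bigger affine open set `V`, finite over `ℂ[z]`; `B = A[1/h]` -/
  A : Subalgebra ℂ B
  z_mem : ∀ i, z i ∈ A
  A_int : ∀ a ∈ A, IsIntegral (Algebra.adjoin ℂ (Set.range z)) a
  h : B
  h_mem : h ∈ A
  h_unit : IsUnit h
  h_loc : ∀ b : B, ∃ N : ℕ, h ^ N * b ∈ A
  /-- the point `x` -/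
  x : B →ₐ[ℂ] ℂ
  /-- `V m = H⁰(X, mL)` trivialised on `M` -/
  V : ℕ → Submodule ℂ B
  V_fin : ∀ m, FiniteDimensional ℂ (V m)
  V_zero : V 0 = 1
  V_mul : ∀ m l a b, a ∈ V m → b ∈ V l → a * b ∈ V (m + l)
  /-- (C3) uniform jets -/
  jets : ∀ e : ℕ, ∃ j₀ : ℕ, ∀ j, j₀ ≤ j → ∀ (y : B →ₐ[ℂ] ℂ) (b : B),
    ∃ f ∈ V j, f - b ∈ mI y ^ (e + 1)
  /-- (C4) vanishing orders are linearly bounded -/
  ordbd : ∃ C₁ : ℕ, ∀ m, ∀ f ∈ V m, f ≠ 0 → ∀ (y : B →ₐ[ℂ] ℂ) (e : ℕ), f ∈ mI y ^ e → e ≤ C₁ * m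
  /-- (C5) growth of the restricted section rings, uniformly in the prime -/
  growth : ∀ (d : ℕ) (ε : ℝ), 0 < ε → ∃ j₁ : ℕ, ∀ P : Ideal B, P.IsPrime →
    ringKrullDim (B ⧸ P) = d → ∀ j, j₁ ≤ j →
      (1 - ε) * (j : ℝ) ^ d / (d.factorial : ℝ) ≤
        (Module.finrank ℂ ((V j).map (Ideal.Quotient.mkₐ ℂ P).toLinearMap) : ℝ)
  /-- the projective coordinates `Y₀,…,Yₙ ∈ V k`, without common zeros on `X`; `zᵢ = Yᵢ₊₁/Y₀` -/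
  k : ℕ
  k_pos : 1 ≤ k
  Y : Fin (n + 1) → B
  Y_mem : ∀ j, Y j ∈ V k
  Y_unit : IsUnit (Y 0)
  Y_z : ∀ i : Fin n, z i * Y 0 = Y i.succ
  /-- sections of `mL` are bounded by the Fubini–Study type metric -/
  FSbd : ∀ m, ∀ f ∈ V m, ∃ C : ℝ, ∀ y : B →ₐ[ℂ] ℂ, ‖y f‖ ^ (2 * k) ≤ C * (∑ j, ‖y (Y j)‖ ^ 2) ^ m

attribute [instance] FCtx.cr FCtx.dom FCtx.alg

/-! ### Main local theorem (0.3) and global output (10.6) -/

/-- (0.3) MAIN LOCAL THEOREM: a weight of total degree `< n+1`, not integrable at `x`, integrable on a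
shell around `x`. -/
def MLT {n : ℕ} (X : FCtx n) : Prop :=
  ∃ (r : ℕ) (S : Fin r → Finset X.B) (m : Fin r → ℕ) (c : Fin r → ℝ) (C : Chart X.z X.x) (r₁ r₂ : ℝ),
    (∀ i, (S i).Nonempty ∧ ∀ f ∈ S i, f ∈ X.V (m i) ∧ f ≠ 0) ∧ (∀ i, 0 < c i) ∧
    ∑ i, c i * (m i : ℝ) < n + 1 ∧ 0 < r₁ ∧ r₁ < r₂ ∧ r₂ < C.r ∧
    ¬ LInt (fun ζ => wB S c (C.s ζ)) 0 ∧
    ∀ ζ : Cn n, r₁ ≤ ‖ζ‖ → ‖ζ‖ ≤ r₂ → LInt (fun ζ => wB S c (C.s ζ)) ζ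

/-- (10.6) GLOBAL OUTPUT: a holomorphic `n`-form `F dz₁∧⋯∧dzₙ ⊗ (generator of mL)`, `F ∈ B`, non-vanishing
at `x`, square integrable over `M` for the metric `φ_L = (1/k) log ∑|Yⱼ|²`. -/
def GlobalOut {n : ℕ} (X : FCtx n) (m : ℕ) : Prop :=
  ∃ F : X.B, X.x F ≠ 0 ∧
    lintM X.z (fun y => ENNReal.ofReal (‖y F‖ ^ 2) *
      (ENNReal.ofReal (∑ j, ‖y (X.Y j)‖ ^ 2)) ^ (-((m : ℝ) / X.k))) < ∞

/-! ### Facts about the context used by the abstract part (Parts 3–9) -/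

section facts

variable {n : ℕ} (X : FCtx n)

/-- charts exist (implicit function theorem for étale algebras) -/
def ChartEx : Prop := ∀ y : X.B →ₐ[ℂ] ℂ, Nonempty (Chart X.z y)

/-- local integrability near a point of a chart can be tested in that chart -/
def ChartChange : Prop :=
  ∀ (y : X.B →ₐ[ℂ] ℂ) (C : Chart X.z y) (ζ : Cn n), ζ ∈ Metric.ball (0 : Cn n) C.r →
    ∀ g : (X.B →ₐ[ℂ] ℂ) → ℝ≥0∞,
      (LIntB X.z (C.s ζ) g ↔ LInt (fun ζ' => g (C.s ζ')) ζ)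

/-- `IInt` does not depend on the generators -/
def GensFact : Prop :=
  ∀ (y : X.B →ₐ[ℂ] ℂ) (ι : Type) [Fintype ι] (I : ι → Ideal X.B) (c : ι → ℝ)
    (S : ι → Finset X.B), (∀ i, Ideal.span (S i : Set X.B) = I i) →
    (IInt X.z y I c ↔ LIntB X.z y (wB S c))

/-- (AF7) multiplier ideals; second part: `∏|Iᵢ|^{-2cᵢ} |Q|²` is locally integrable at `y` if
`Q ≤ J` near `y` -/
def MultIdeal : Prop :=
  ∀ (ι : Type) [Fintype ι] (I : ι → Ideal X.B) (c : ι → ℝ), (∀ i, I i ≠ ⊥) → (∀ i, 0 ≤ c i) →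
    ∃ J : Ideal X.B, (∀ y : X.B →ₐ[ℂ] ℂ, (∃ f ∈ J, y f ≠ 0) ↔ IInt X.z y I c) ∧
      ∀ (y : X.B →ₐ[ℂ] ℂ) (Q : Ideal X.B), Q ≠ ⊥ → (∃ g : X.B, y g ≠ 0 ∧ ∀ f ∈ Q, g * f ∈ J) →
        IInt X.z y (Sum.elim I (fun _ : Unit => Q)) (Sum.elim c (fun _ : Unit => -1))

/-- (AF4) at the level of ideals of `B` (same exponent `θ` for all members of the sum) -/
def SumIdeal : Prop :=
  ∀ (y : X.B →ₐ[ℂ] ℂ) (ι κ : Type) [Fintype ι] [Fintype κ] [Nonempty κ]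
    (I : ι → Ideal X.B) (c : ι → ℝ) (J : κ → Ideal X.B) (θ : ℝ),
    (∀ i, I i ≠ ⊥) → (∀ j, J j ≠ ⊥) → (∀ i, 0 ≤ c i) → 0 ≤ θ →
    IInt X.z y (Sum.elim I (fun _ : Unit => ⨆ j, J j)) (Sum.elim c (fun _ : Unit => θ)) →
    ∀ ε : ℝ, 0 < ε → ε < 1 → ∃ s : κ → ℝ, (∀ j, 0 ≤ s j) ∧ ∑ j, s j = 1 ∧
      IInt X.z y (Sum.elim I J) (Sum.elim (fun i => (1 - ε) * c i) (fun j => (1 - ε) * (s j * θ)))

/-- (AF3) Hölder -/
def Holder : Prop :=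
  ∀ (y : X.B →ₐ[ℂ] ℂ) (ι : Type) [Fintype ι] (I : ι → Ideal X.B) (c c' : ι → ℝ) (a : ℝ),
    (∀ i, I i ≠ ⊥) → 0 ≤ a → a ≤ 1 → IInt X.z y I c → IInt X.z y I c' →
    IInt X.z y I (fun i => a * c i + (1 - a) * c' i)

/-- (AF1) monotonicity in exponents and ideals -/
def MonoFact : Prop :=
  ∀ (y : X.B →ₐ[ℂ] ℂ) (ι : Type) [Fintype ι] (I J : ι → Ideal X.B) (c c' : ι → ℝ),
    (∀ i, I i ≠ ⊥) → (∀ i, J i ≠ ⊥) → (∀ i, c' i ≤ c i) →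
    (∀ i, I i = J i ∨ (0 ≤ c i ∧ I i ≤ J i)) → IInt X.z y I c → IInt X.z y J c'

/-- (AF1) products: the exponent `θ` on `∏ Iᵢ^{pᵢ}` is the exponent `θ pᵢ` on `Iᵢ` -/
def ProdFact : Prop :=
  ∀ (y : X.B →ₐ[ℂ] ℂ) (ι κ : Type) [Fintype ι] [Fintype κ] (I : ι → Ideal X.B) (c : ι → ℝ)
    (J : κ → Ideal X.B) (p : κ → ℕ) (θ : ℝ), (∀ i, I i ≠ ⊥) → (∀ j, J j ≠ ⊥) →
    (IInt X.z y (Sum.elim I (fun _ : Unit => ∏ j, J j ^ p j)) (Sum.elim c (fun _ : Unit => θ)) ↔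
      IInt X.z y (Sum.elim I J) (Sum.elim c (fun j => θ * p j)))

/-- (AF5) -/
def OrdFact : Prop :=
  ∀ (y : X.B →ₐ[ℂ] ℂ) (f : X.B) (e : ℕ) (c : ℝ), f ∉ mI y ^ (e + 1) → 0 ≤ c → c * e < 1 →
    IInt X.z y (fun _ : Unit => Ideal.span {f}) (fun _ => c)

/-- (AF6) -/
def NonIntFact : Prop :=
  ∀ (y : X.B →ₐ[ℂ] ℂ) (I : Ideal X.B) (e : ℕ) (c : ℝ), I ≤ mI y ^ e → (n : ℝ) ≤ c * e → 1 ≤ n →
    ¬ IInt X.z y (fun _ : Unit => I) (fun _ => c)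

/-- (AF8) -/
def FubiniFact : Prop :=
  ∀ (y : X.B →ₐ[ℂ] ℂ) (d : ℕ) (P : Ideal X.B) (I : Ideal X.B) (a b g : ℝ), P ≠ ⊥ → I ≠ ⊥ →
    d ≤ n → Adapted d P y n → 0 ≤ a → 0 ≤ b → (d : ℝ) < g →
    IInt X.z y ![I, P, mI y] ![a, b, g] →
    ∀ ε : ℝ, 0 < ε → ε < 1 → IInt X.z y ![I, P] ![(1 - ε) * a, (1 - ε) * b + (g - d) - ε]

/-- (AF9) specialisation along a holomorphic disc `γ` -/
def SpecFact : Prop :=
  ∀ (y : X.B →ₐ[ℂ] ℂ) (nF nb : ℕ) (b : Fin nb → X.B) (co : Fin nF → Fin nb → ℂ → ℂ) (c : ℝ)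
    (γ : ℂ → (X.B →ₐ[ℂ] ℂ)), γ 0 = y → (∀ f : X.B, AnalyticAt ℂ (fun τ => γ τ f) 0) →
    (∀ i j, AnalyticAt ℂ (co i j) 0) → 0 ≤ c →
    LIntB X.z y (fun y' => (ENNReal.ofReal (∑ i, ‖∑ j, co i j 0 * y' (b j)‖ ^ 2)) ^ (-c)) →
    ∀ ε : ℝ, 0 < ε → ε < 1 → ∃ᶠ τ in 𝓝[≠] (0 : ℂ),
      LIntB X.z (γ τ) (fun y' => (ENNReal.ofReal (∑ i, ‖∑ j, co i j τ * y' (b j)‖ ^ 2)) ^
        (-((1 - ε) * c)))

/-- DISC: curve through `x` in `V(P)` not contained in `{h = 0}` -/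
def DiscFact : Prop :=
  ∀ (y : X.B →ₐ[ℂ] ℂ) (P : Ideal X.B) (h : X.B), P.IsPrime → P ≤ mI y → P ≠ mI y → h ∉ P →
    ∃ γ : ℂ → (X.B →ₐ[ℂ] ℂ), γ 0 = y ∧ (∀ f : X.B, AnalyticAt ℂ (fun τ => γ τ f) 0) ∧
      ∀ᶠ τ in 𝓝[≠] (0 : ℂ), (∀ f ∈ P, γ τ f = 0) ∧ γ τ h ≠ 0

/-- GEN: general points of `V(P)` have adapted coordinates -/
def GenFact : Prop :=
  ∀ (P : Ideal X.B) (d : ℕ), P.IsPrime → ringKrullDim (X.B ⧸ P) = d →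
    ∃ h₁ : X.B, h₁ ∉ P ∧ ∀ y : X.B →ₐ[ℂ] ℂ, (∀ f ∈ P, y f = 0) → y h₁ ≠ 0 → Adapted d P y n

/-- all facts used by the abstract part -/
structure AFacts : Prop where
  chart : ChartEx X
  change : ChartChange X
  gens : GensFact X
  mult : MultIdeal X
  sum : SumIdeal X
  holder : Holder X
  mono : MonoFact X
  prod : ProdFact X
  ord : OrdFact X
  nonint : NonIntFact X
  fubini : FubiniFact X
  spec : SpecFact X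
  disc : DiscFact X
  gen : GenFact X

end facts

/-! ### Filtrations (Part 3) -/

section filt

variable {n : ℕ} {B : Type} [CommRing B] [Algebra ℂ B]

/-- (3.1) filtrations of the section ring, linearly bounded -/
structure Filt (V : ℕ → Submodule ℂ B) where
  /-- `F m l` -/
  F : ℕ → ℝ → Submodule ℂ B
  le_V : ∀ m l, F m l ≤ V m
  zero : ∀ m l, l ≤ 0 → F m l = V m
  anti : ∀ m, Antitone (F m)
  cont : ∀ m l b, (∀ l' < l, b ∈ F m l') → b ∈ F m l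
  mul : ∀ m l m' l' a b, a ∈ F m l → b ∈ F m' l' → a * b ∈ F (m + m') (l + l')
  bdd : ∃ C : ℝ, ∀ (m : ℕ) (l : ℝ), C * (m : ℝ) < l → F m l = ⊥

variable {V : ℕ → Submodule ℂ B}

/-- the distance (3.1) -/
def fdist (F G : Filt V) : ℝ :=
  sInf {e : ℝ | 0 ≤ e ∧ ∀ m l, F.F m l ≤ G.F m (l - e * m) ∧ G.F m l ≤ F.F m (l - e * m)}

/-- the ideal `𝔞_l(F)` -/
def idl (F : Filt V) (l : ℝ) : Ideal B := Ideal.span {b | ∃ m, b ∈ F.F m l}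

/-- `F` is integrable at level `l` at `y`: some `Int_y(𝔞_{kl}^{1/k})` -/
def Good (z : Fin n → B) (F : Filt V) (y : B →ₐ[ℂ] ℂ) (l : ℝ) : Prop :=
  ∃ k : ℕ, 1 ≤ k ∧ IInt z y (fun _ : Unit => idl F (k * l)) (fun _ => 1 / (k : ℝ))

/-- the threshold `A_y(F)` -/
def thr (z : Fin n → B) (F : Filt V) (y : B →ₐ[ℂ] ℂ) : ℝ≥0∞ :=
  ⨆ (l : ℝ≥0) (_ : Good z F y l), (l : ℝ≥0∞)

/-- level `l` is integrable using sections of degree `≤ c` per unit only: `Λ_y(F;c) ≥ l` -/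
def GoodC (z : Fin n → B) (F : Filt V) (y : B →ₐ[ℂ] ℂ) (c l : ℝ) : Prop :=
  ∃ k : ℕ, 1 ≤ k ∧ IInt z y (fun _ : Unit => Ideal.span (F.F ⌊k * c⌋₊ (k * l) : Set B))
    (fun _ => 1 / (k : ℝ))

/-- `∑ᵢ e^{-t λᵢ}` over the jumps of `F` on `V m`, as an integral -/
def Zm (F : Filt V) (t : ℝ) (m : ℕ) : ℝ :=
  ∫ l in Set.Ioi (0 : ℝ), t * Real.exp (-t * l) *
    ((Module.finrank ℂ (V m) : ℝ) - (Module.finrank ℂ (F.F m l) : ℝ))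

/-- the partition function (4.1) -/
def ZZ (F : Filt V) (t κ : ℝ) : ℝ := ∑' m : ℕ, Real.exp (-t * κ * m) * Zm F t m

end filt

/-! ### Top level glue -/

/-- ABSTRACT PART (Parts 3–9) -/
def AbstractMain : Prop := ∀ (n : ℕ) (X : FCtx n), 1 ≤ n → AFacts X → MLT X

/-- ANALYSIS (Parts 1, 2, 10) -/
def AnalysisMain : Prop := ∀ (n : ℕ) (X : FCtx n), 1 ≤ n → AFacts X

/-- GLOBAL SOLVER (Part 10) -/
def GlobalMain : Prop := ∀ (n : ℕ) (X : FCtx n), 1 ≤ n → MLT X → ∀ m : ℕ, n + 1 ≤ m → GlobalOut X m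

end Crest.Agent.R271.Defs710

namespace Crest.Agent.R271.Defs710

open AlgebraicGeometry Crest.AlgGeometry.Divisors

/-- BRIDGE (Part 11): the statement of S0413 from the global output of every context -/
def BridgeMain : Prop :=
  (∀ (n : ℕ) (X : FCtx n), 1 ≤ n → ∀ m : ℕ, n + 1 ≤ m → GlobalOut X m) →
  ∀ (X : Scheme.{0}) [Algebra ℂ Γ(X, ⊤)] [IsIntegral X] [IsLocallyNoetherian X]
    (n : ℕ) (_hn : 1 ≤ n) (_hX : IsSmoothProperVariety ℂ X n)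
    (L : WeilDiv X) (_hL : IsAmple L) (K : WeilDiv X) (_hK : IsCanonicalDivisor ℂ X n K)
    (m : ℕ) (_hm : n + 1 ≤ m), IsBasepointFree (K + m • L)

/-- GLUE -/
theorem glue (hA : AbstractMain) (hF : AnalysisMain) (hG : GlobalMain) (hB : BridgeMain)
    (X : Scheme.{0}) [Algebra ℂ Γ(X, ⊤)] [IsIntegral X] [IsLocallyNoetherian X]
    (n : ℕ) (hn : 1 ≤ n) (hX : IsSmoothProperVariety ℂ X n)
    (L : WeilDiv X) (hL : IsAmple L) (K : WeilDiv X) (hK : IsCanonicalDivisor ℂ X n K)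
    (m : ℕ) (hm : n + 1 ≤ m) : IsBasepointFree (K + m • L) :=
  hB (fun n X hn m hm => hG n X hn (hA n X hn (hF n X hn)) m hm) X n hn hX L hL K hK m hm

end Crest.Agent.R271.Defs710
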