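import Mathlib
import Crest.Agent.R271.Defs_710

/-!
Row 271, G2 part 1 (helper956): jets of elements of an étale algebra over `ℂ[z]`.

* `jet` : every `b : B` is a polynomial in `z - z(y)` modulo `mI y ^ e`;
* `germ_isBigO` : an element of `mI y ^ e` has germ `O(‖ζ‖^e)`;
* `mem_of_isBigO` : conversely an element whose germ is `O(‖ζ‖^e)` lies in `mI y ^ e`.
-/

set_option autoImplicit false

open Topology Filter Asymptotics
open Crest.Agent.R271.Defs710

noncomputable section

namespace Crest.Agent.R271.Jet956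

variable {n : ℕ} {B : Type} [CommRing B] [Algebra ℂ B]

/-- the shifted coordinates `z - z(y)` -/
def zs (z : Fin n → B) (y : B →ₐ[ℂ] ℂ) (i : Fin n) : B := z i - algebraMap ℂ B (y (z i))

lemma zs_mem (z : Fin n → B) (y : B →ₐ[ℂ] ℂ) (i : Fin n) : zs z y i ∈ mI y := by
  simp [mI, zs, RingHom.mem_ker]

lemma mem_mI {y : B →ₐ[ℂ] ℂ} {b : B} : b ∈ mI y ↔ y b = 0 := by
  simp [mI, RingHom.mem_ker]

/-- unramifiedness: `m_y = (z - z(y)) + m_y²` -/
theorem mI_le (z : Fin n → B)
    (het : RingHom.Etale ((MvPolynomial.aeval z : MvPolynomial (Fin n) ℂ →ₐ[ℂ] B) :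
      MvPolynomial (Fin n) ℂ →+* B)) (y : B →ₐ[ℂ] ℂ) :
    mI y ≤ Ideal.span (Set.range (zs z y)) ⊔ mI y ^ 2 := by
  set J : Ideal B := Ideal.span (Set.range (zs z y)) ⊔ mI y ^ 2 with hJ
  let _ : Algebra (MvPolynomial (Fin n) ℂ) B :=
    ((MvPolynomial.aeval z : MvPolynomial (Fin n) ℂ →ₐ[ℂ] B) :
      MvPolynomial (Fin n) ℂ →+* B).toAlgebra
  have hE : Algebra.Etale (MvPolynomial (Fin n) ℂ) B := het
  have : IsScalarTower ℂ (MvPolynomial (Fin n) ℂ) B := IsScalarTower.of_algebraMap_eq fun r => by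
    rw [RingHom.algebraMap_toAlgebra]
    simp
  have halg : ∀ P : MvPolynomial (Fin n) ℂ,
      algebraMap (MvPolynomial (Fin n) ℂ) B P = MvPolynomial.aeval z P := fun P => rfl
  let f1 : B →ₐ[MvPolynomial (Fin n) ℂ] (B ⧸ J) := IsScalarTower.toAlgHom _ _ _
  have hzJ : ∀ i, (Ideal.Quotient.mk J) (z i) = (Ideal.Quotient.mk J) (algebraMap ℂ B (y (z i))) := by
    intro i
    rw [Ideal.Quotient.eq]
    exact Ideal.mem_sup_left (Ideal.subset_span ⟨i, rfl⟩)
  let f2' : B →ₐ[ℂ] (B ⧸ J) := (Algebra.ofId ℂ (B ⧸ J)).comp y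
  have hf2 : ∀ P : MvPolynomial (Fin n) ℂ,
      f2' (algebraMap (MvPolynomial (Fin n) ℂ) B P) =
        algebraMap (MvPolynomial (Fin n) ℂ) (B ⧸ J) P := by
    intro P
    have h1 : (f2'.comp (MvPolynomial.aeval z) : MvPolynomial (Fin n) ℂ →ₐ[ℂ] (B ⧸ J)) =
        (Ideal.Quotient.mkₐ ℂ J).comp (MvPolynomial.aeval z) := by
      apply MvPolynomial.algHom_ext
      intro i
      simp only [AlgHom.comp_apply, MvPolynomial.aeval_X, f2']
      rw [Ideal.Quotient.mkₐ_eq_mk, hzJ i]
      rfl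
    have h2 := congrArg (fun g => g P) h1
    simp only [AlgHom.comp_apply] at h2
    rw [halg, h2]
    rfl
  let f2 : B →ₐ[MvPolynomial (Fin n) ℂ] (B ⧸ J) :=
    { (f2' : B →+* (B ⧸ J)) with commutes' := hf2 }
  let I' : Ideal (B ⧸ J) := (mI y).map (Ideal.Quotient.mk J)
  have hI' : IsNilpotent I' := by
    refine ⟨2, ?_⟩
    rw [← Ideal.map_pow]
    change Ideal.map _ _ = ⊥
    rw [Ideal.map_eq_bot_iff_le_ker, Ideal.mk_ker]
    exact le_sup_right
  have hfu : Algebra.FormallyUnramified (MvPolynomial (Fin n) ℂ) B := inferInstance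
  have heq : f1 = f2 := by
    apply Algebra.FormallyUnramified.ext I' hI'
    intro b
    rw [Ideal.Quotient.eq]
    have h3 : f1 b - f2 b = Ideal.Quotient.mk J (b - algebraMap ℂ B (y b)) := by
      rw [map_sub]; rfl
    rw [h3]
    apply Ideal.mem_map_of_mem
    rw [mem_mI]; simp
  intro b hb
  have h4 : f1 b = f2 b := by rw [heq]
  have h5 : (Ideal.Quotient.mk J) b = (Ideal.Quotient.mk J) (algebraMap ℂ B (y b)) := h4
  rw [mem_mI.mp hb, map_zero, map_zero] at h5
  exact Ideal.Quotient.eq_zero_iff_mem.mp h5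

/-- polynomial in the shifted coordinates -/
def pev (z : Fin n → B) (y : B →ₐ[ℂ] ℂ) (P : MvPolynomial (Fin n) ℂ) : B :=
  MvPolynomial.aeval (zs z y) P

/-- elements of `m_y` modulo `m_y²` -/
theorem jet_one (z : Fin n → B)
    (het : RingHom.Etale ((MvPolynomial.aeval z : MvPolynomial (Fin n) ℂ →ₐ[ℂ] B) :
      MvPolynomial (Fin n) ℂ →+* B)) (y : B →ₐ[ℂ] ℂ) (b : B) (hb : b ∈ mI y) :
    ∃ P : MvPolynomial (Fin n) ℂ, b - pev z y P ∈ mI y ^ 2 := by
  have h1 := mI_le z het y hb
  rw [Submodule.mem_sup] at h1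
  obtain ⟨u, hu, v, hv, rfl⟩ := h1
  have h2 : ∃ P : MvPolynomial (Fin n) ℂ, u - pev z y P ∈ mI y ^ 2 := by
    refine Submodule.span_induction ?_ ?_ ?_ ?_ hu
    · rintro _ ⟨i, rfl⟩
      exact ⟨MvPolynomial.X i, by simp [pev]⟩
    · exact ⟨0, by simp [pev]⟩
    · rintro x x' _ _ ⟨P, hP⟩ ⟨P', hP'⟩
      refine ⟨P + P', ?_⟩
      have : x + x' - pev z y (P + P') = (x - pev z y P) + (x' - pev z y P') := by
        simp only [pev, map_add]; ring
      rw [this]; exact add_mem hP hP'
    · rintro a x hx ⟨P, hP⟩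
      refine ⟨MvPolynomial.C (y a) * P, ?_⟩
      have hx' : x ∈ mI y := by
        refine (Ideal.span_le.mpr ?_) hx
        rintro _ ⟨i, rfl⟩
        exact zs_mem z y i
      have : a • x - pev z y (MvPolynomial.C (y a) * P) =
          (a - algebraMap ℂ B (y a)) * x + algebraMap ℂ B (y a) * (x - pev z y P) := by
        simp only [pev, map_mul, MvPolynomial.aeval_C, smul_eq_mul]; ring
      rw [this]
      refine add_mem ?_ (Ideal.mul_mem_left _ _ hP)
      rw [pow_two]
      exact Ideal.mul_mem_mul (by rw [mem_mI]; simp) hx'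
  obtain ⟨P, hP⟩ := h2
  refine ⟨P, ?_⟩
  have : u + v - pev z y P = (u - pev z y P) + v := by ring
  rw [this]; exact add_mem hP hv

theorem jet_step (z : Fin n → B)
    (het : RingHom.Etale ((MvPolynomial.aeval z : MvPolynomial (Fin n) ℂ →ₐ[ℂ] B) :
      MvPolynomial (Fin n) ℂ →+* B)) (y : B →ₐ[ℂ] ℂ) (e : ℕ) :
    ∀ b ∈ mI y ^ e, ∃ P : MvPolynomial (Fin n) ℂ, b - pev z y P ∈ mI y ^ (e + 1) := by
  induction e with
  | zero =>
    intro b _
    refine ⟨MvPolynomial.C (y b), ?_⟩
    rw [zero_add, pow_one, mem_mI]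
    simp [pev]
  | succ e ih =>
    intro b hb
    rw [pow_succ] at hb
    refine Submodule.mul_induction_on hb ?_ ?_
    · intro b1 hb1 b2 hb2
      obtain ⟨P1, h1⟩ := ih b1 hb1
      obtain ⟨P2, h2⟩ := jet_one z het y b2 hb2
      refine ⟨P1 * P2, ?_⟩
      set r1 := b1 - pev z y P1 with hr1
      set r2 := b2 - pev z y P2 with hr2
      have hp1 : pev z y P1 ∈ mI y ^ e := by
        have : pev z y P1 = b1 - r1 := by rw [hr1]; ring
        rw [this]
        exact sub_mem hb1 (Ideal.pow_le_pow_right (Nat.le_succ e) h1)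
      have : b1 * b2 - pev z y (P1 * P2) = pev z y P1 * r2 + r1 * b2 := by
        rw [hr1, hr2]; simp only [pev, map_mul]; ring
      rw [this]
      refine add_mem ?_ ?_
      · have h3 := Ideal.mul_mem_mul hp1 h2
        rw [← pow_add] at h3
        exact h3
      · have h3 := Ideal.mul_mem_mul h1 hb2
        rw [← pow_succ] at h3
        exact h3
    · rintro x x' ⟨P, hP⟩ ⟨P', hP'⟩
      refine ⟨P + P', ?_⟩
      have : x + x' - pev z y (P + P') = (x - pev z y P) + (x' - pev z y P') := by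
        simp only [pev, map_add]; ring
      rw [this]; exact add_mem hP hP'

/-- every element is a polynomial in the coordinates modulo `m_y^e` -/
theorem jet (z : Fin n → B)
    (het : RingHom.Etale ((MvPolynomial.aeval z : MvPolynomial (Fin n) ℂ →ₐ[ℂ] B) :
      MvPolynomial (Fin n) ℂ →+* B)) (y : B →ₐ[ℂ] ℂ) (e : ℕ) (b : B) :
    ∃ P : MvPolynomial (Fin n) ℂ, b - pev z y P ∈ mI y ^ e := by
  induction e with
  | zero => exact ⟨0, by simp⟩
  | succ e ih =>
    obtain ⟨P, hP⟩ := ih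
    obtain ⟨P', hP'⟩ := jet_step z het y e _ hP
    refine ⟨P + P', ?_⟩
    have : b - pev z y (P + P') = b - pev z y P - pev z y P' := by
      simp only [pev, map_add]; ring
    rw [this]; exact hP'

/-- truncation: the parts of degree `≥ e` are in `m_y^e` -/
lemma pev_homog_mem (z : Fin n → B) (y : B →ₐ[ℂ] ℂ) {k e : ℕ} (hk : e ≤ k)
    (P : MvPolynomial (Fin n) ℂ) (hP : P.IsHomogeneous k) : pev z y P ∈ mI y ^ e := by
  rw [pev, P.as_sum, map_sum]
  refine sum_mem fun d hd => ?_
  rw [MvPolynomial.aeval_monomial]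
  refine Ideal.mul_mem_left _ _ ?_
  have hdeg : d.sum (fun _ m => m) = k := by
    have := hP (MvPolynomial.mem_support_iff.mp hd)
    rw [Finsupp.weight_apply] at this
    simpa using this
  have h1 : (d.prod fun i k => zs z y i ^ k) ∈ mI y ^ (d.sum fun _ m => m) := by
    rw [Finsupp.prod, Finsupp.sum, ← Finset.prod_pow_eq_pow_sum]
    exact Ideal.prod_mem_prod fun i _ => Ideal.pow_mem_pow (zs_mem z y i) _
  rw [hdeg] at h1
  exact Ideal.pow_le_pow_right hk h1

/-- jets by polynomials of degree `< e` -/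
theorem jet_trunc (z : Fin n → B)
    (het : RingHom.Etale ((MvPolynomial.aeval z : MvPolynomial (Fin n) ℂ →ₐ[ℂ] B) :
      MvPolynomial (Fin n) ℂ →+* B)) (y : B →ₐ[ℂ] ℂ) (e : ℕ) (b : B) :
    ∃ P : MvPolynomial (Fin n) ℂ, b - pev z y P ∈ mI y ^ e ∧
      ∀ k, e ≤ k → MvPolynomial.homogeneousComponent k P = 0 := by
  obtain ⟨P, hP⟩ := jet z het y e b
  set Q : MvPolynomial (Fin n) ℂ := ∑ k ∈ Finset.range e, MvPolynomial.homogeneousComponent k P
    with hQ
  refine ⟨Q, ?_, ?_⟩
  · have h1 : P = Q + ∑ k ∈ Finset.Ico e (max e (P.totalDegree + 1)),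
        MvPolynomial.homogeneousComponent k P := by
      rw [hQ, Finset.range_eq_Ico, Finset.sum_Ico_consecutive _ (Nat.zero_le _) (le_max_left _ _),
        ← Finset.range_eq_Ico]
      conv_lhs => rw [← MvPolynomial.sum_homogeneousComponent P]
      refine Finset.sum_subset (Finset.range_subset_range.mpr (le_max_right _ _)) ?_
      intro k _ hk
      apply MvPolynomial.homogeneousComponent_eq_zero
      simpa [Nat.lt_succ_iff] using hk
    have h2 : pev z y P = pev z y Q + ∑ k ∈ Finset.Ico e (max e (P.totalDegree + 1)),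
        pev z y (MvPolynomial.homogeneousComponent k P) := by
      have h3 := congrArg (pev z y) h1
      rw [h3]
      simp only [pev, map_add, map_sum]
    have h4 : b - pev z y Q = (b - pev z y P) + ∑ k ∈ Finset.Ico e (max e (P.totalDegree + 1)),
        pev z y (MvPolynomial.homogeneousComponent k P) := by
      rw [h2]; ring
    rw [h4]
    refine add_mem hP (sum_mem fun k hk => ?_)
    exact pev_homog_mem z y (Finset.mem_Ico.mp hk).1 _
      (MvPolynomial.homogeneousComponent_isHomogeneous k P)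
  · intro k hk
    rw [hQ, map_sum]
    refine Finset.sum_eq_zero fun j hj => ?_
    rw [MvPolynomial.homogeneousComponent_of_mem
      (MvPolynomial.homogeneousComponent_mem j P)]
    rw [if_neg]
    have := Finset.mem_range.mp hj
    omega

/-! ### germs -/

lemma chart_pev {z : Fin n → B} {y : B →ₐ[ℂ] ℂ} (C : Chart z y) (P : MvPolynomial (Fin n) ℂ)
    {ζ : Cn n} (hζ : ζ ∈ Metric.ball (0 : Cn n) C.r) :
    C.s ζ (pev z y P) = MvPolynomial.eval ζ P := by
  have h1 : ((C.s ζ).comp (MvPolynomial.aeval (zs z y)) : MvPolynomial (Fin n) ℂ →ₐ[ℂ] ℂ) =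
      MvPolynomial.aeval ζ := by
    apply MvPolynomial.algHom_ext
    intro i
    simp only [AlgHom.comp_apply, MvPolynomial.aeval_X, zs, map_sub, C.s_z ζ hζ i,
      AlgHom.commutes, Algebra.algebraMap_self, RingHom.id_apply, add_sub_cancel_left]
  have h2 := congrArg (fun g => g P) h1
  simp only [AlgHom.comp_apply] at h2
  rw [pev, h2]
  simp

lemma ball_mem {z : Fin n → B} {y : B →ₐ[ℂ] ℂ} (C : Chart z y) :
    ∀ᶠ ζ in 𝓝 (0 : Cn n), ζ ∈ Metric.ball (0 : Cn n) C.r :=
  Metric.ball_mem_nhds 0 C.r_pos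

lemma germ_analyticAt {z : Fin n → B} {y : B →ₐ[ℂ] ℂ} (C : Chart z y) (b : B) :
    AnalyticAt ℂ (fun ζ => C.s ζ b) 0 := C.anal b 0 (Metric.mem_ball_self C.r_pos)

theorem germ_isBigO {z : Fin n → B} {y : B →ₐ[ℂ] ℂ} (C : Chart z y) (e : ℕ) (b : B)
    (hb : b ∈ mI y ^ e) : (fun ζ : Cn n => C.s ζ b) =O[𝓝 0] fun ζ => ‖ζ‖ ^ e := by
  induction e generalizing b with
  | zero =>
    simp only [pow_zero]
    exact (germ_analyticAt C b).continuousAt.isBigO
  | succ e ih =>
    rw [pow_succ] at hb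
    refine Submodule.mul_induction_on hb ?_ ?_
    · intro b1 hb1 b2 hb2
      have h1 := ih b1 hb1
      have h2 : (fun ζ : Cn n => C.s ζ b2) =O[𝓝 0] fun ζ => ‖ζ‖ := by
        have h3 := (germ_analyticAt C b2).differentiableAt.hasFDerivAt.isBigO_sub
        have h4 : C.s 0 b2 = 0 := by rw [C.s_zero]; exact mem_mI.mp hb2
        simp only [h4, sub_zero] at h3
        exact h3.norm_right
      have h5 := h1.mul h2
      refine (h5.congr_left fun ζ => ?_).congr_right fun ζ => ?_
      · exact (map_mul _ _ _).symm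
      · exact (pow_succ _ _).symm
    · intro x x' hx hx'
      refine (hx.add hx').congr_left fun ζ => ?_
      exact (map_add _ _ _).symm

/-- one variable: a polynomial of degree `< e` which is `O(|t|^e)` vanishes -/
lemma poly_one {q : Polynomial ℂ} {e : ℕ} (hq : q.degree < e)
    (h : (fun t : ℂ => q.eval t) =O[𝓝 0] fun t => ‖t‖ ^ e) : q = 0 := by
  by_contra hne
  obtain ⟨r, hr, hnd⟩ := Polynomial.exists_eq_pow_rootMultiplicity_mul_and_not_dvd q hne 0
  set m := q.rootMultiplicity 0 with hm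
  have hr0 : r.eval 0 ≠ 0 := by
    intro h0
    exact hnd (Polynomial.dvd_iff_isRoot.mpr h0)
  have hrne : r ≠ 0 := by rintro rfl; simp at hr0
  have hme : m < e := by
    have h1 : q.natDegree = m + r.natDegree := by
      conv_lhs => rw [hr]
      rw [Polynomial.natDegree_mul (pow_ne_zero _ (Polynomial.X_sub_C_ne_zero 0)) hrne]
      simp
    have h2 : q.natDegree < e := (Polynomial.natDegree_lt_iff_degree_lt hne).mpr hq
    omega
  obtain ⟨c, hc⟩ := h.bound
  have h3 : ∀ᶠ t : ℂ in 𝓝[≠] 0, ‖r.eval t‖ ≤ c * ‖t‖ ^ (e - m) := by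
    filter_upwards [self_mem_nhdsWithin, hc.filter_mono nhdsWithin_le_nhds] with t ht hct
    have ht' : (0 : ℝ) < ‖t‖ := norm_pos_iff.mpr ht
    rw [hr] at hct
    simp only [Polynomial.eval_mul, Polynomial.eval_pow, Polynomial.eval_sub, Polynomial.eval_X,
      Polynomial.eval_C, sub_zero, norm_mul, norm_pow, norm_norm] at hct
    have h4 : ‖t‖ ^ e = ‖t‖ ^ m * ‖t‖ ^ (e - m) := by
      rw [← pow_add]; congr 1; omega
    rw [h4] at hct
    have h5 : ‖t‖ ^ m * ‖r.eval t‖ ≤ ‖t‖ ^ m * (c * ‖t‖ ^ (e - m)) := by linarith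
    exact le_of_mul_le_mul_left h5 (pow_pos ht' _)
  have h6 : Tendsto (fun t : ℂ => ‖r.eval t‖) (𝓝[≠] 0) (𝓝 ‖r.eval 0‖) :=
    ((Polynomial.continuous r).norm.tendsto 0).mono_left nhdsWithin_le_nhds
  have h7 : Tendsto (fun t : ℂ => c * ‖t‖ ^ (e - m)) (𝓝[≠] 0) (𝓝 0) := by
    have h8 : Continuous (fun t : ℂ => c * ‖t‖ ^ (e - m)) := by fun_prop
    have h9 := (h8.tendsto 0).mono_left (nhdsWithin_le_nhds (s := {0}ᶜ))
    have h10 : e - m ≠ 0 := by omega
    simpa [h10] using h9
  have h11 : ‖r.eval 0‖ ≤ 0 := le_of_tendsto_of_tendsto h6 h7 h3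
  exact hr0 (norm_le_zero_iff.mp h11)

/-- a polynomial of degree `< e` which is `O(‖ζ‖^e)` vanishes -/
theorem poly_eq_zero {P : MvPolynomial (Fin n) ℂ} {e : ℕ}
    (hP : ∀ k, e ≤ k → MvPolynomial.homogeneousComponent k P = 0)
    (h : (fun ζ : Cn n => MvPolynomial.eval ζ P) =O[𝓝 0] fun ζ => ‖ζ‖ ^ e) : P = 0 := by
  have hsum : P = ∑ k ∈ Finset.range e, MvPolynomial.homogeneousComponent k P := by
    conv_lhs => rw [← MvPolynomial.sum_homogeneousComponent P]
    rcases le_total (P.totalDegree + 1) e with h1 | h1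
    · refine Finset.sum_subset (Finset.range_subset_range.mpr h1) ?_
      intro k _ hk
      apply MvPolynomial.homogeneousComponent_eq_zero
      simpa [Nat.lt_succ_iff] using hk
    · symm
      refine Finset.sum_subset (Finset.range_subset_range.mpr h1) ?_
      intro k _ hk
      exact hP k (by simpa using hk)
  have hev : ∀ k (w : Cn n), MvPolynomial.eval w (MvPolynomial.homogeneousComponent k P) = 0 := by
    intro k w
    rcases le_or_gt e k with hk | hk
    · rw [hP k hk, map_zero]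
    set q : Polynomial ℂ := ∑ j ∈ Finset.range e,
      Polynomial.monomial j (MvPolynomial.eval w (MvPolynomial.homogeneousComponent j P)) with hq
    have hqe : ∀ t : ℂ, q.eval t = MvPolynomial.eval (t • w) P := by
      intro t
      conv_rhs => rw [hsum]
      rw [hq, Polynomial.eval_finsetSum, map_sum]
      refine Finset.sum_congr rfl fun j _ => ?_
      rw [Polynomial.eval_monomial]
      have h3 : MvPolynomial.eval (t • w) (MvPolynomial.homogeneousComponent j P) =
          t ^ j * MvPolynomial.eval w (MvPolynomial.homogeneousComponent j P) := by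
        have h4 : (fun i => t * w i) = t • w := rfl
        rw [← h4]
        have := (MvPolynomial.homogeneousComponent_isHomogeneous j P)
        rw [MvPolynomial.eval_eq, MvPolynomial.eval_eq, Finset.mul_sum]
        refine Finset.sum_congr rfl fun d hd => ?_
        have hdeg : ∑ i ∈ d.support, d i = j := by
          have := this (MvPolynomial.mem_support_iff.mp hd)
          rw [Finsupp.weight_apply] at this
          rw [← this, Finsupp.sum]
          simp
        simp only [mul_pow, Finset.prod_mul_distrib]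
        rw [Finset.prod_pow_eq_pow_sum, hdeg]
        ring
      rw [h3, mul_comm]
    have hq0 : q = 0 := by
      apply poly_one (e := e)
      · rw [hq]
        refine lt_of_le_of_lt (Polynomial.degree_sum_le _ _) ?_
        rw [Finset.sup_lt_iff (by exact WithBot.bot_lt_coe e)]
        intro j hj
        refine lt_of_le_of_lt (Polynomial.degree_monomial_le _ _) ?_
        exact_mod_cast Finset.mem_range.mp hj
      · have h5 : Tendsto (fun t : ℂ => t • w) (𝓝 0) (𝓝 (0 : Cn n)) := by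
          have : Continuous (fun t : ℂ => t • w) := by fun_prop
          simpa using this.tendsto 0
        have h6 := h.comp_tendsto h5
        have h7 : (fun t : ℂ => q.eval t) =O[𝓝 0] fun t : ℂ => ‖t • w‖ ^ e := by
          refine h6.congr_left fun t => ?_
          simp [hqe t]
        refine h7.trans ?_
        simp only [norm_smul, mul_pow]
        refine IsBigO.of_bound (‖w‖ ^ e) (Filter.Eventually.of_forall fun t => ?_)
        simp [mul_comm]
    have h8 : q.coeff k = 0 := by rw [hq0]; simp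
    rw [hq, Polynomial.finsetSum_coeff] at h8
    simp only [Polynomial.coeff_monomial] at h8
    rw [Finset.sum_ite_eq' (Finset.range e) k] at h8
    simpa [hk] using h8
  rw [hsum]
  refine Finset.sum_eq_zero fun k _ => ?_
  apply MvPolynomial.funext
  intro w
  rw [hev k w, map_zero]

/-- an element whose germ is `O(‖ζ‖^e)` lies in `m_y^e` -/
theorem mem_of_isBigO {z : Fin n → B}
    (het : RingHom.Etale ((MvPolynomial.aeval z : MvPolynomial (Fin n) ℂ →ₐ[ℂ] B) :
      MvPolynomial (Fin n) ℂ →+* B)) {y : B →ₐ[ℂ] ℂ} (C : Chart z y) (e : ℕ) (b : B)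
    (hb : (fun ζ : Cn n => C.s ζ b) =O[𝓝 0] fun ζ => ‖ζ‖ ^ e) : b ∈ mI y ^ e := by
  obtain ⟨P, hP, hP'⟩ := jet_trunc z het y e b
  have h1 := germ_isBigO C e _ hP
  have h2 : (fun ζ : Cn n => MvPolynomial.eval ζ P) =O[𝓝 0] fun ζ => ‖ζ‖ ^ e := by
    refine (hb.sub h1).congr' ?_ (Filter.EventuallyEq.refl _ _)
    filter_upwards [ball_mem C] with ζ hζ
    rw [map_sub, chart_pev C P hζ]
    ring
  have h3 := poly_eq_zero hP' h2
  rw [h3] at hP
  simpa [pev] using hP

/-- Taylor polynomials -/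
theorem taylor {g : Cn n → ℂ} (hg : AnalyticAt ℂ g 0) (e : ℕ) :
    ∃ P : MvPolynomial (Fin n) ℂ,
      (fun ζ => g ζ - MvPolynomial.eval ζ P) =O[𝓝 0] fun ζ : Cn n => ‖ζ‖ ^ e := by
  obtain ⟨p, hp⟩ := hg
  refine ⟨∑ k ∈ Finset.range e, ∑ r : Fin k → Fin n,
    MvPolynomial.C (p k (fun j => Pi.single (r j) 1)) * ∏ j, MvPolynomial.X (r j), ?_⟩
  have h1 := hp.isBigO_sub_partialSum_pow e
  refine h1.congr_left fun ζ => ?_
  rw [zero_add]
  congr 1
  rw [FormalMultilinearSeries.partialSum, map_sum]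
  refine Finset.sum_congr rfl fun k _ => ?_
  have h2 : (fun _ : Fin k => ζ) = fun _ : Fin k => ∑ i : Fin n, ζ i • (Pi.single i (1 : ℂ) : Cn n) := by
    funext _
    conv_lhs => rw [← Finset.univ_sum_single ζ]
    refine Finset.sum_congr rfl fun i _ => ?_
    rw [← Pi.single_smul]; simp
  rw [h2, ContinuousMultilinearMap.map_sum]
  rw [map_sum]
  refine Finset.sum_congr rfl fun r _ => ?_
  rw [ContinuousMultilinearMap.map_smul_univ]
  simp [mul_comm]

/-- LOCAL DIVISION: if `g * v = a` near `y` with `g` holomorphic, then `v ∣ a` in the local ring -/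
theorem local_div [IsNoetherianRing B] {z : Fin n → B}
    (het : RingHom.Etale ((MvPolynomial.aeval z : MvPolynomial (Fin n) ℂ →ₐ[ℂ] B) :
      MvPolynomial (Fin n) ℂ →+* B)) {y : B →ₐ[ℂ] ℂ} (C : Chart z y) (v a : B) (g : Cn n → ℂ)
    (hg : AnalyticAt ℂ g 0) (h : ∀ᶠ ζ in 𝓝 (0 : Cn n), g ζ * C.s ζ v = C.s ζ a) :
    ∃ t : B, y t ≠ 0 ∧ t * a ∈ Ideal.span {v} := by
  have h1 : ∀ e : ℕ, ∃ q : B, a - v * q ∈ mI y ^ e := by
    intro e
    obtain ⟨P, hP⟩ := taylor hg e
    refine ⟨pev z y P, mem_of_isBigO het C e _ ?_⟩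
    have h2 : (fun ζ : Cn n => C.s ζ v * (g ζ - MvPolynomial.eval ζ P)) =O[𝓝 0]
        fun ζ : Cn n => (1 : ℝ) * ‖ζ‖ ^ e := by
      refine IsBigO.mul ?_ hP
      exact (germ_analyticAt C v).continuousAt.isBigO
    simp only [one_mul] at h2
    refine h2.congr' ?_ (Filter.EventuallyEq.refl _ _)
    filter_upwards [ball_mem C, h] with ζ hζ hζ'
    rw [map_sub, map_mul, chart_pev C P hζ, ← hζ']
    ring
  have h3 : (Ideal.Quotient.mk (Ideal.span {v}) a : B ⧸ Ideal.span {v}) ∈
      (⨅ i : ℕ, (mI y) ^ i • (⊤ : Submodule B (B ⧸ Ideal.span {v}))) := by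
    rw [Submodule.mem_iInf]
    intro e
    obtain ⟨q, hq⟩ := h1 e
    have h4 : (Ideal.Quotient.mk (Ideal.span {v}) a : B ⧸ Ideal.span {v}) =
        (a - v * q) • (1 : B ⧸ Ideal.span {v}) := by
      rw [Algebra.smul_def, mul_one]
      change _ = Ideal.Quotient.mk (Ideal.span {v}) (a - v * q)
      rw [Ideal.Quotient.eq, sub_sub_cancel]
      exact Ideal.mul_mem_right _ _ (Ideal.mem_span_singleton_self v)
    rw [h4]
    exact Submodule.smul_mem_smul hq Submodule.mem_top
  rw [Ideal.mem_iInf_smul_pow_eq_bot_iff] at h3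
  obtain ⟨⟨r, hr⟩, hr'⟩ := h3
  refine ⟨1 - r, ?_, ?_⟩
  · rw [map_sub, map_one, mem_mI.mp hr]; simp
  · rw [← Ideal.Quotient.eq_zero_iff_mem, map_mul, map_sub, map_one]
    have h5 : (Ideal.Quotient.mk (Ideal.span {v})) r * (Ideal.Quotient.mk (Ideal.span {v})) a =
        (Ideal.Quotient.mk (Ideal.span {v})) a := by
      have := hr'
      rw [Algebra.smul_def] at this
      exact this
    rw [sub_mul, one_mul, h5, sub_self]

end Crest.Agent.R271.Jet956
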