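import Mathlib
import Crest.Agent.R278.Dim
import Crest.Agent.R271.Defs_710

/-!
# Row 271 (helper661): Krull dimension = transcendence degree for finitely generated domains
-/

set_option autoImplicit false
set_option linter.style.haveILetI false

open MvPolynomial

namespace Crest.Agent.R271.KT661

section main

variable (k B : Type) [Field k] [CommRing B] [IsDomain B] [Algebra k B]

/-- Noether normalisation: `B` is integral over a polynomial ring in `s` variables, with `s` the
Krull dimension and the transcendence degree -/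
theorem exists_noether [Algebra.FiniteType k B] :
    ∃ s : ℕ, ringKrullDim B = (s : WithBot ℕ∞) ∧ Algebra.trdeg k B = s := by
  obtain ⟨s, g, ginj, gint⟩ := exists_integral_inj_algHom_of_fg k B
  refine ⟨s, ?_, ?_⟩
  · letI : Algebra (MvPolynomial (Fin s) k) B := g.toRingHom.toAlgebra
    haveI : Algebra.IsIntegral (MvPolynomial (Fin s) k) B := ⟨gint⟩
    rw [Crest.Agent.R278.ringKrullDim_eq_of_isIntegral
      (R := MvPolynomial (Fin s) k) (S := B) ginj]
    rw [MvPolynomial.ringKrullDim_of_isNoetherianRing, ringKrullDim_eq_zero_of_field]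
    simp
  · letI : Algebra (MvPolynomial (Fin s) k) B := g.toRingHom.toAlgebra
    haveI : IsScalarTower k (MvPolynomial (Fin s) k) B :=
      IsScalarTower.of_algebraMap_eq fun a => (g.commutes a).symm
    haveI : Algebra.IsIntegral (MvPolynomial (Fin s) k) B := ⟨gint⟩
    haveI : FaithfulSMul (MvPolynomial (Fin s) k) B :=
      (faithfulSMul_iff_algebraMap_injective _ _).2 ginj
    haveI : FaithfulSMul k (MvPolynomial (Fin s) k) :=
      (faithfulSMul_iff_algebraMap_injective _ _).2 (MvPolynomial.C_injective _ _)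
    have h := trdeg_add_eq k (MvPolynomial (Fin s) k) (A := B)
    haveI : Algebra.IsAlgebraic (MvPolynomial (Fin s) k) B := inferInstance
    have h0 : Algebra.trdeg (MvPolynomial (Fin s) k) B = 0 := trdeg_eq_zero
    rw [h0, add_zero] at h
    rw [← h, MvPolynomial.trdeg_of_isDomain]
    simp

/-- KRULL = TRDEG -/
theorem krull_eq_iff_trdeg_eq [Algebra.FiniteType k B] (d : ℕ) :
    ringKrullDim B = (d : WithBot ℕ∞) ↔ Algebra.trdeg k B = d := by
  obtain ⟨s, h1, h2⟩ := exists_noether k B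
  rw [h1, h2]
  constructor
  · intro h
    have h' : s = d := by exact_mod_cast h
    rw [h']
  · intro h
    have h' : s = d := by exact_mod_cast h
    rw [h']

end main

section etale

variable {n : ℕ} {B : Type} [CommRing B] [IsDomain B] [Algebra ℂ B]

/-- an étale domain over a domain is algebraic over it (and contains it) -/
theorem injective_and_isAlgebraic_of_etale {R S : Type} [CommRing R] [IsDomain R] [CommRing S]
    [IsDomain S] [Algebra R S] [Algebra.Etale R S] :
    Function.Injective (algebraMap R S) ∧ Algebra.IsAlgebraic R S := by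
  have hflat : Module.Flat R S := Algebra.Smooth.flat R S
  have hinj : Function.Injective (algebraMap R S) := by
    haveI : Module.IsTorsionFree R S := inferInstance
    exact FaithfulSMul.algebraMap_injective R S
  refine ⟨hinj, ?_⟩
  haveI : FaithfulSMul R S := (faithfulSMul_iff_algebraMap_injective _ _).2 hinj
  let K := FractionRing R
  let L := FractionRing S
  haveI : FaithfulSMul R L := (faithfulSMul_iff_algebraMap_injective _ _).2 (by
    rw [IsScalarTower.algebraMap_eq R S L]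
    exact (IsFractionRing.injective S L).comp hinj)
  letI : Algebra K L := FractionRing.liftAlgebra R L
  haveI : IsScalarTower R K L := FractionRing.isScalarTower_liftAlgebra R L
  haveI : Algebra.FormallyEtale S L := Algebra.FormallyEtale.of_isLocalization (nonZeroDivisors S)
  haveI : Algebra.FormallyEtale R L := Algebra.FormallyEtale.comp R S L
  haveI : Algebra.FormallyEtale R K := Algebra.FormallyEtale.of_isLocalization (nonZeroDivisors R)
  haveI : Algebra.FormallyEtale K L := Algebra.FormallyEtale.of_restrictScalars (R := R)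
  haveI : Algebra.EssFiniteType S L := Algebra.EssFiniteType.of_isLocalization L (nonZeroDivisors S)
  haveI : Algebra.EssFiniteType R L := Algebra.EssFiniteType.comp R S L
  haveI : Algebra.EssFiniteType K L := Algebra.EssFiniteType.of_comp R K L
  haveI : Algebra.IsSeparable K L := (Algebra.FormallyEtale.iff_isSeparable K L).1 inferInstance
  haveI : Algebra.IsAlgebraic K L := inferInstance
  haveI : Algebra.IsAlgebraic R L := (IsFractionRing.comap_isAlgebraic_iff (A := R) (K := K) (C := L)).2 inferInstance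
  exact Algebra.IsAlgebraic.of_injective (IsScalarTower.toAlgHom R S L) (IsFractionRing.injective S L)

/-- a domain étale over `ℂ[z₁,…,zₙ]`: the coordinates are algebraically independent and the
transcendence degree is `n` -/
theorem aeval_injective (z : Fin n → B)
    (hz : RingHom.Etale ((MvPolynomial.aeval z : MvPolynomial (Fin n) ℂ →ₐ[ℂ] B) :
      MvPolynomial (Fin n) ℂ →+* B)) :
    Function.Injective (MvPolynomial.aeval z : MvPolynomial (Fin n) ℂ →ₐ[ℂ] B) := by
  letI : Algebra (MvPolynomial (Fin n) ℂ) B :=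
    ((MvPolynomial.aeval z : MvPolynomial (Fin n) ℂ →ₐ[ℂ] B) :
      MvPolynomial (Fin n) ℂ →+* B).toAlgebra
  haveI : Algebra.Etale (MvPolynomial (Fin n) ℂ) B := hz
  exact (injective_and_isAlgebraic_of_etale (R := MvPolynomial (Fin n) ℂ) (S := B)).1

theorem trdeg_eq (z : Fin n → B)
    (hz : RingHom.Etale ((MvPolynomial.aeval z : MvPolynomial (Fin n) ℂ →ₐ[ℂ] B) :
      MvPolynomial (Fin n) ℂ →+* B)) : Algebra.trdeg ℂ B = n := by
  letI : Algebra (MvPolynomial (Fin n) ℂ) B :=
    ((MvPolynomial.aeval z : MvPolynomial (Fin n) ℂ →ₐ[ℂ] B) :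
      MvPolynomial (Fin n) ℂ →+* B).toAlgebra
  haveI : Algebra.Etale (MvPolynomial (Fin n) ℂ) B := hz
  obtain ⟨hinj, halg⟩ := injective_and_isAlgebraic_of_etale (R := MvPolynomial (Fin n) ℂ) (S := B)
  haveI : IsScalarTower ℂ (MvPolynomial (Fin n) ℂ) B :=
    IsScalarTower.of_algebraMap_eq fun a => ((MvPolynomial.aeval z).commutes a).symm
  haveI : FaithfulSMul (MvPolynomial (Fin n) ℂ) B :=
    (faithfulSMul_iff_algebraMap_injective _ _).2 hinj
  haveI : FaithfulSMul ℂ (MvPolynomial (Fin n) ℂ) :=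
    (faithfulSMul_iff_algebraMap_injective _ _).2 (MvPolynomial.C_injective _ _)
  have h := trdeg_add_eq ℂ (MvPolynomial (Fin n) ℂ) (A := B)
  have h0 : Algebra.trdeg (MvPolynomial (Fin n) ℂ) B = 0 := trdeg_eq_zero
  rw [h0, add_zero] at h
  rw [← h, MvPolynomial.trdeg_of_isDomain]
  simp

omit [IsDomain B] in
theorem finiteType_of_etale (z : Fin n → B)
    (hz : RingHom.Etale ((MvPolynomial.aeval z : MvPolynomial (Fin n) ℂ →ₐ[ℂ] B) :
      MvPolynomial (Fin n) ℂ →+* B)) : Algebra.FiniteType ℂ B := by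
  letI : Algebra (MvPolynomial (Fin n) ℂ) B :=
    ((MvPolynomial.aeval z : MvPolynomial (Fin n) ℂ →ₐ[ℂ] B) :
      MvPolynomial (Fin n) ℂ →+* B).toAlgebra
  haveI : Algebra.Etale (MvPolynomial (Fin n) ℂ) B := hz
  haveI : IsScalarTower ℂ (MvPolynomial (Fin n) ℂ) B :=
    IsScalarTower.of_algebraMap_eq fun a => ((MvPolynomial.aeval z).commutes a).symm
  exact Algebra.FiniteType.trans (S := MvPolynomial (Fin n) ℂ) inferInstance inferInstance

theorem krull_eq (z : Fin n → B)
    (hz : RingHom.Etale ((MvPolynomial.aeval z : MvPolynomial (Fin n) ℂ →ₐ[ℂ] B) :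
      MvPolynomial (Fin n) ℂ →+* B)) : ringKrullDim B = n := by
  haveI := finiteType_of_etale z hz
  exact (krull_eq_iff_trdeg_eq ℂ B n).2 (trdeg_eq z hz)

end etale

section pts

variable {B : Type} [CommRing B] [Algebra ℂ B]

/-- Nullstellensatz: every maximal ideal is the kernel of a `ℂ`-point -/
theorem exists_point_of_isMaximal [Algebra.FiniteType ℂ B] (M : Ideal B) [hM : M.IsMaximal] :
    ∃ y : B →ₐ[ℂ] ℂ, RingHom.ker (y : B →+* ℂ) = M := by
  letI : Field (B ⧸ M) := Ideal.Quotient.field M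
  haveI : Algebra.FiniteType ℂ (B ⧸ M) := Algebra.FiniteType.of_surjective
    (Ideal.Quotient.mkₐ ℂ M) (Ideal.Quotient.mkₐ_surjective ℂ M)
  haveI : Module.Finite ℂ (B ⧸ M) := finite_of_finite_type_of_isJacobsonRing ℂ (B ⧸ M)
  haveI : Algebra.IsAlgebraic ℂ (B ⧸ M) := inferInstance
  let e : ℂ ≃ₐ[ℂ] (B ⧸ M) := AlgEquiv.ofBijective (Algebra.ofId ℂ (B ⧸ M))
    (IsAlgClosed.algebraMap_bijective_of_isIntegral)
  refine ⟨(e.symm : (B ⧸ M) →ₐ[ℂ] ℂ).comp (Ideal.Quotient.mkₐ ℂ M), ?_⟩
  ext b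
  simp only [RingHom.mem_ker]
  change e.symm (Ideal.Quotient.mk M b) = 0 ↔ _
  rw [EmbeddingLike.map_eq_zero_iff, Ideal.Quotient.eq_zero_iff_mem]

/-- every proper ideal has a zero -/
theorem exists_point_of_ne_top [Algebra.FiniteType ℂ B] (I : Ideal B) (hI : I ≠ ⊤) :
    ∃ y : B →ₐ[ℂ] ℂ, ∀ f ∈ I, y f = 0 := by
  obtain ⟨M, hM, hle⟩ := Ideal.exists_le_maximal I hI
  obtain ⟨y, hy⟩ := exists_point_of_isMaximal M
  refine ⟨y, fun f hf => ?_⟩
  have : f ∈ RingHom.ker (y : B →+* ℂ) := by rw [hy]; exact hle hf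
  exact this

/-- every prime `P` and `h ∉ P` has a point of `V(P)` with `h ≠ 0` -/
theorem exists_point_of_isPrime [Algebra.FiniteType ℂ B] (P : Ideal B) (hP : P.IsPrime) (h : B)
    (hh : h ∉ P) : ∃ y : B →ₐ[ℂ] ℂ, (∀ f ∈ P, y f = 0) ∧ y h ≠ 0 := by
  haveI : IsJacobsonRing B := isJacobsonRing_of_finiteType (A := ℂ)
  have hj : P.jacobson = P := IsJacobsonRing.out inferInstance (hP.isRadical)
  rw [← hj, Ideal.mem_jacobson_iff] at hh
  by_contra hcon
  push Not at hcon
  apply hh
  have hmem : h ∈ P.jacobson := by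
    rw [Ideal.jacobson, Ideal.mem_sInf]
    rintro M ⟨hPM, hM⟩
    haveI := hM
    obtain ⟨y, hy⟩ := exists_point_of_isMaximal M
    have : h ∈ RingHom.ker (y : B →+* ℂ) := hcon y fun f hf => by
      have : f ∈ RingHom.ker (y : B →+* ℂ) := by rw [hy]; exact hPM hf
      exact this
    rw [hy] at this
    exact this
  rwa [Ideal.mem_jacobson_iff] at hmem

theorem mI_isMaximal (y : B →ₐ[ℂ] ℂ) : (Defs710.mI y).IsMaximal := by
  refine RingHom.ker_isMaximal_of_surjective _ (fun c => ⟨algebraMap ℂ B c, ?_⟩)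
  exact y.commutes c

theorem mem_mI (y : B →ₐ[ℂ] ℂ) (b : B) : b ∈ Defs710.mI y ↔ y b = 0 := Iff.rfl

end pts

section krull

variable {B : Type} [CommRing B] [Algebra ℂ B]

/-- for every prime `P` of a finitely generated algebra there is `d` with `dim B/P = d = trdeg B/P` -/
theorem exists_dim_quotient [Algebra.FiniteType ℂ B] (P : Ideal B) (hP : P.IsPrime) :
    ∃ d : ℕ, ringKrullDim (B ⧸ P) = (d : WithBot ℕ∞) ∧ Algebra.trdeg ℂ (B ⧸ P) = d := by
  haveI : Algebra.FiniteType ℂ (B ⧸ P) := Algebra.FiniteType.of_surjective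
    (Ideal.Quotient.mkₐ ℂ P) (Ideal.Quotient.mkₐ_surjective ℂ P)
  haveI : IsDomain (B ⧸ P) := Ideal.Quotient.isDomain P
  exact exists_noether ℂ (B ⧸ P)

theorem krull_quotient_eq_iff [Algebra.FiniteType ℂ B] (P : Ideal B) (hP : P.IsPrime) (d : ℕ) :
    ringKrullDim (B ⧸ P) = (d : WithBot ℕ∞) ↔ Algebra.trdeg ℂ (B ⧸ P) = d := by
  haveI : Algebra.FiniteType ℂ (B ⧸ P) := Algebra.FiniteType.of_surjective
    (Ideal.Quotient.mkₐ ℂ P) (Ideal.Quotient.mkₐ_surjective ℂ P)
  haveI : IsDomain (B ⧸ P) := Ideal.Quotient.isDomain P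
  exact krull_eq_iff_trdeg_eq ℂ (B ⧸ P) d

/-- dimension zero means maximal -/
theorem krull_quotient_pos [Algebra.FiniteType ℂ B] (P : Ideal B) (hP : P.IsPrime)
    (hnm : ¬ P.IsMaximal) (d : ℕ) (hd : ringKrullDim (B ⧸ P) = (d : WithBot ℕ∞)) : 1 ≤ d := by
  haveI : IsDomain (B ⧸ P) := Ideal.Quotient.isDomain P
  by_contra h
  have hd0 : d = 0 := by omega
  rw [hd0] at hd
  apply hnm
  rw [Ideal.Quotient.maximal_ideal_iff_isField_quotient]
  haveI : Ring.KrullDimLE 0 (B ⧸ P) := by
    rw [Ring.krullDimLE_iff, hd]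
  exact Ring.KrullDimLE.isField_of_isDomain

/-- `P ≤ m_y`, `P ≠ m_y` gives positive dimension -/
theorem krull_quotient_pos_of_lt [Algebra.FiniteType ℂ B] (P : Ideal B) (hP : P.IsPrime)
    (y : B →ₐ[ℂ] ℂ) (hy : P ≤ Defs710.mI y) (hne : P ≠ Defs710.mI y) (d : ℕ)
    (hd : ringKrullDim (B ⧸ P) = (d : WithBot ℕ∞)) : 1 ≤ d :=
  krull_quotient_pos P hP (fun h => hne (h.eq_of_le (mI_isMaximal y).ne_top hy)) d hd

/-- conversion of the growth statement (C5) from transcendence degree to Krull dimension -/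
theorem growth_of_trdeg [Algebra.FiniteType ℂ B] (V : ℕ → Submodule ℂ B)
    (h : ∀ (d : ℕ) (ε : ℝ), 0 < ε → ∃ j₁ : ℕ, ∀ P : Ideal B, P.IsPrime →
      Algebra.trdeg ℂ (B ⧸ P) = d → ∀ j, j₁ ≤ j →
        (1 - ε) * (j : ℝ) ^ d / (d.factorial : ℝ) ≤
          (Module.finrank ℂ ((V j).map (Ideal.Quotient.mkₐ ℂ P).toLinearMap) : ℝ)) :
    ∀ (d : ℕ) (ε : ℝ), 0 < ε → ∃ j₁ : ℕ, ∀ P : Ideal B, P.IsPrime →
      ringKrullDim (B ⧸ P) = d → ∀ j, j₁ ≤ j →
        (1 - ε) * (j : ℝ) ^ d / (d.factorial : ℝ) ≤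
          (Module.finrank ℂ ((V j).map (Ideal.Quotient.mkₐ ℂ P).toLinearMap) : ℝ) := by
  intro d ε hε
  obtain ⟨j₁, hj⟩ := h d ε hε
  exact ⟨j₁, fun P hP hd => hj P hP ((krull_quotient_eq_iff P hP d).1 hd)⟩

end krull

end Crest.Agent.R271.KT661
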