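import Mathlib
import Crest.Agent.R264.Berg1
import Crest.Agent.R266.SCV

/-!
Row 271, team G: mean value inequalities and the one variable `L²` removable singularity
theorem (helper747).
-/

set_option autoImplicit false

open Set Filter Topology Metric MeasureTheory Complex
open scoped Real ENNReal NNReal

noncomputable section

namespace Crest.Agent.R271.RExt747

/-- `L²` mean value inequality on closed balls (sup norm) of `ℂⁿ`. -/
theorem submean {n : ℕ} {f : (Fin n → ℂ) → ℂ} {x : Fin n → ℂ} {r : ℝ} {D : Set (Fin n → ℂ)}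
    (hD : IsOpen D) (hf : DifferentiableOn ℂ f D) (hB : closedBall x r ⊆ D) :
    volume (closedBall x r) * ‖f x‖ₑ ^ 2 ≤ ∫⁻ y in closedBall x r, ‖f y‖ₑ ^ 2 := by
  have h := Crest.Agent.R264.Berg.mv_closedBall (f := fun y => f y ^ 2) hD (hf.pow 2) hB
  have h1 : ‖∫ y in closedBall x r, f y ^ 2‖ₑ ≤ ∫⁻ y in closedBall x r, ‖f y ^ 2‖ₑ :=
    enorm_integral_le_lintegral_enorm _
  rw [h, enorm_smul] at h1
  simp only [enorm_pow] at h1
  have h2 : ‖volume.real (closedBall x r)‖ₑ = volume (closedBall x r) := by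
    rw [Real.enorm_of_nonneg measureReal_nonneg,
      ofReal_measureReal measure_closedBall_lt_top.ne]
  rwa [h2] at h1

/-- mean value property on closed discs -/
theorem mv1 {f : ℂ → ℂ} {c : ℂ} {r : ℝ} {D : Set ℂ} (hD : IsOpen D) (hf : DifferentiableOn ℂ f D)
    (hB : closedBall c r ⊆ D) :
    ∫ y in closedBall c r, f y = (volume.real (closedBall c r)) • f c := by
  have hp := volume_preserving_funUnique (Fin 1) ℂ
  have he : MeasurableEmbedding (MeasurableEquiv.funUnique (Fin 1) ℂ) :=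
    (MeasurableEquiv.funUnique (Fin 1) ℂ).measurableEmbedding
  have hpre : (MeasurableEquiv.funUnique (Fin 1) ℂ) ⁻¹' (closedBall c r)
      = closedBall (fun _ : Fin 1 => c) r := by
    ext y
    rcases le_or_gt 0 r with hr | hr
    · rw [mem_preimage, mem_closedBall, mem_closedBall, dist_pi_le_iff hr]
      simp [MeasurableEquiv.funUnique, Fin.forall_fin_one]
    · rw [mem_preimage, closedBall_eq_empty.2 hr, closedBall_eq_empty.2 hr]
      simp
  have h1 := hp.setIntegral_preimage_emb he f (closedBall c r)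
  have hv := hp.measure_preimage_emb he (closedBall c r)
  rw [hpre] at h1 hv
  rw [← h1, Measure.real, ← hv]
  have hD' : IsOpen ((fun y : Fin 1 → ℂ => y 0) ⁻¹' D) := hD.preimage (continuous_apply 0)
  have hf' : DifferentiableOn ℂ (fun y : Fin 1 → ℂ => f (y 0)) ((fun y : Fin 1 → ℂ => y 0) ⁻¹' D) :=
    hf.comp (differentiable_apply (𝕜 := ℂ) (0 : Fin 1)).differentiableOn (fun y hy => hy)
  have hB' : closedBall (fun _ : Fin 1 => c) r ⊆ ((fun y : Fin 1 → ℂ => y 0) ⁻¹' D) := by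
    intro y hy
    apply hB
    rw [mem_closedBall] at hy ⊢
    exact (dist_le_pi_dist y (fun _ => c) 0).trans hy
  have h2 := Crest.Agent.R264.Berg.mv_closedBall hD' hf' hB'
  exact h2

theorem submean1 {f : ℂ → ℂ} {c : ℂ} {r : ℝ} {D : Set ℂ} (hD : IsOpen D)
    (hf : DifferentiableOn ℂ f D) (hB : closedBall c r ⊆ D) :
    volume (closedBall c r) * ‖f c‖ₑ ^ 2 ≤ ∫⁻ y in closedBall c r, ‖f y‖ₑ ^ 2 := by
  have h := mv1 (f := fun y => f y ^ 2) hD (hf.pow 2) hB
  have h1 : ‖∫ y in closedBall c r, f y ^ 2‖ₑ ≤ ∫⁻ y in closedBall c r, ‖f y ^ 2‖ₑ :=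
    enorm_integral_le_lintegral_enorm _
  rw [h, enorm_smul] at h1
  simp only [enorm_pow] at h1
  have h2 : ‖volume.real (closedBall c r)‖ₑ = volume (closedBall c r) := by
    rw [Real.enorm_of_nonneg measureReal_nonneg,
      ofReal_measureReal measure_closedBall_lt_top.ne]
  rwa [h2] at h1

/-- tails of a convergent integral are small -/
theorem tail_small {φ : ℂ → ℝ≥0∞} {c : ℂ} {r : ℝ} (hr : 0 < r)
    (h : ∫⁻ t in ball c r, φ t < ⊤) {a : ℝ≥0∞} (ha : a ≠ 0) :
    ∃ ρ > 0, ρ ≤ r ∧ ∫⁻ t in ball c ρ, φ t ≤ a := by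
  obtain ⟨η, hη, hs⟩ := exists_pos_setLIntegral_lt_of_measure_lt h.ne ha
  have hlim : Tendsto (fun ρ : ℝ => volume (ball c ρ)) (𝓝[>] 0) (𝓝 0) := by
    have h1 : Tendsto (fun ρ : ℝ => ENNReal.ofReal ρ ^ 2 * (NNReal.pi : ℝ≥0∞)) (𝓝 0)
        (𝓝 (ENNReal.ofReal 0 ^ 2 * (NNReal.pi : ℝ≥0∞))) :=
      ENNReal.Tendsto.mul_const (((ENNReal.continuous_pow 2).tendsto _).comp
        (ENNReal.continuous_ofReal.tendsto 0)) (Or.inr ENNReal.coe_ne_top)
    simp only [ENNReal.ofReal_zero, ne_eq, OfNat.ofNat_ne_zero, not_false_eq_true, zero_pow,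
      zero_mul] at h1
    refine (h1.mono_left nhdsWithin_le_nhds).congr' ?_
    filter_upwards with ρ
    rw [Complex.volume_ball]
  have h2 : ∀ᶠ ρ in 𝓝[>] (0 : ℝ), volume (ball c ρ) < η := hlim.eventually_lt_const hη
  have h3 : ∀ᶠ ρ in 𝓝[>] (0 : ℝ), ρ ≤ r := by
    filter_upwards [Ioc_mem_nhdsGT hr] with ρ hρ using hρ.2
  have h4 : ∀ᶠ ρ in 𝓝[>] (0 : ℝ), 0 < ρ := by
    filter_upwards [self_mem_nhdsWithin] with ρ hρ using hρ
  obtain ⟨ρ, h5, h6, h7⟩ := (h2.and (h3.and h4)).exists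
  refine ⟨ρ, h7, h6, ?_⟩
  have h8 := hs (ball c ρ) (lt_of_le_of_lt (Measure.restrict_apply_le _ _) h5)
  rw [Measure.restrict_restrict measurableSet_ball,
    inter_eq_self_of_subset_left (ball_subset_ball h6)] at h8
  exact h8.le

/-- An `L²` holomorphic function near an isolated singularity is `o(1/|z - c|)`. -/
theorem isLittleO_of_sq {F : ℂ → ℂ} {c : ℂ} {R : ℝ} (hR : 0 < R)
    (hF : DifferentiableOn ℂ F (ball c R \ {c})) (hL : ∫⁻ z in ball c R, ‖F z‖ₑ ^ 2 < ⊤) :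
    (fun z => F z - F c) =o[𝓝[≠] c] fun z => (z - c)⁻¹ := by
  have hconst : (fun _ : ℂ => F c) =o[𝓝[≠] c] fun z => (z - c)⁻¹ := by
    rw [Asymptotics.isLittleO_iff]
    intro ε hε
    have : ∀ᶠ z in 𝓝[≠] c, ‖z - c‖ < ε / (‖F c‖ + 1) := by
      apply nhdsWithin_le_nhds
      have h1 : Tendsto (fun z : ℂ => ‖z - c‖) (𝓝 c) (𝓝 0) := by
        have : Tendsto (fun z : ℂ => ‖z - c‖) (𝓝 c) (𝓝 ‖c - c‖) :=
          (continuous_id.sub continuous_const).norm.tendsto c
        simpa using this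
      exact h1.eventually_lt_const (by positivity)
    filter_upwards [this, self_mem_nhdsWithin] with z hz hzc
    have hz0 : 0 < ‖z - c‖ := norm_pos_iff.2 (sub_ne_zero.2 hzc)
    rw [norm_inv, ← div_eq_mul_inv, le_div_iff₀ hz0]
    have h2 : ‖z - c‖ * (‖F c‖ + 1) < ε := (lt_div_iff₀ (by positivity)).1 hz
    nlinarith [norm_nonneg (F c)]
  refine Asymptotics.IsLittleO.sub ?_ hconst
  rw [Asymptotics.isLittleO_iff]
  intro ε hε
  -- the threshold
  set a : ℝ≥0∞ := ENNReal.ofReal (π / 4 * ε ^ 2) with ha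
  have ha0 : a ≠ 0 := by
    rw [ha]; simp only [ne_eq, ENNReal.ofReal_eq_zero, not_le]; positivity
  obtain ⟨ρ, hρ, hρR, hρa⟩ := tail_small hR hL ha0
  have hev : ball c (ρ / 2) ∈ 𝓝 c := ball_mem_nhds _ (by positivity)
  filter_upwards [nhdsWithin_le_nhds hev, self_mem_nhdsWithin] with z hz hzc
  have hz0 : 0 < ‖z - c‖ := norm_pos_iff.2 (sub_ne_zero.2 hzc)
  have hz2 : ‖z - c‖ < ρ / 2 := by simpa [dist_eq_norm] using hz
  set s := ‖z - c‖ / 2 with hs
  have hsub : closedBall z s ⊆ ball c ρ := by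
    intro w hw
    have h1 : ‖w - z‖ ≤ s := by simpa [dist_eq_norm] using hw
    have h2 : ‖w - c‖ ≤ ‖w - z‖ + ‖z - c‖ := by
      have : w - c = (w - z) + (z - c) := by ring
      rw [this]; exact norm_add_le _ _
    rw [mem_ball, dist_eq_norm]
    linarith
  have hne : closedBall z s ⊆ ball c R \ {c} := by
    intro w hw
    refine ⟨ball_subset_ball hρR (hsub hw), ?_⟩
    rintro rfl
    have h1 : ‖w - z‖ ≤ s := by simpa [dist_eq_norm] using hw
    rw [norm_sub_rev] at h1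
    linarith
  have hopen : IsOpen (ball c R \ {c}) := isOpen_ball.sdiff isClosed_singleton
  have h1 := submean1 hopen hF hne
  have h2 : ∫⁻ y in closedBall z s, ‖F y‖ₑ ^ 2 ≤ a :=
    (lintegral_mono_set hsub).trans hρa
  have h3 := h1.trans h2
  rw [Complex.volume_closedBall] at h3
  -- convert to reals
  have h4 : ‖F z‖ₑ = ENNReal.ofReal ‖F z‖ := (ofReal_norm (F z)).symm
  have h5 : (NNReal.pi : ℝ≥0∞) = ENNReal.ofReal π := by
    rw [← NNReal.coe_real_pi, ENNReal.ofReal_coe_nnreal]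
  have hs0 : 0 ≤ s := by positivity
  rw [h4, h5, ha, ← ENNReal.ofReal_pow hs0, ← ENNReal.ofReal_pow (norm_nonneg _),
    ← ENNReal.ofReal_mul (by positivity), ← ENNReal.ofReal_mul (by positivity),
    ENNReal.ofReal_le_ofReal_iff (by positivity)] at h3
  have h6 : (‖F z‖ * ‖z - c‖) ^ 2 ≤ ε ^ 2 := by
    have h7 : s ^ 2 * π * ‖F z‖ ^ 2 = π / 4 * (‖F z‖ * ‖z - c‖) ^ 2 := by
      rw [hs]; ring
    rw [h7] at h3
    exact le_of_mul_le_mul_left h3 (by positivity)
  have h8 : ‖F z‖ * ‖z - c‖ ≤ ε := by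
    exact (pow_le_pow_iff_left₀ (by positivity) hε.le two_ne_zero).1 h6
  rw [norm_inv, ← div_eq_mul_inv, le_div_iff₀ hz0]
  exact h8

/-- One variable: an `L²` holomorphic function off the zero set of `d` satisfies the mean value
property over circles avoiding the zero set. -/
theorem circleAverage_eq_of_sq {F d : ℂ → ℂ} {R r : ℝ} (hr : 0 < r) (hrR : r < R)
    (hd : AnalyticOnNhd ℂ d (ball 0 R)) (hd0 : d 0 ≠ 0) (hds : ∀ ζ ∈ sphere (0 : ℂ) r, d ζ ≠ 0)
    (hF : DifferentiableOn ℂ F (ball 0 R ∩ {ζ | d ζ ≠ 0}))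
    (hL : ∫⁻ ζ in ball (0 : ℂ) R, ‖F ζ‖ₑ ^ 2 < ⊤) :
    Real.circleAverage F 0 r = F 0 := by
  classical
  have hR : 0 < R := hr.trans hrR
  have h0 : (0 : ℂ) ∈ ball (0 : ℂ) R := mem_ball_self hR
  -- zeros are isolated
  have hiso : ∀ ζ ∈ ball (0 : ℂ) R, ∀ᶠ w in 𝓝[≠] ζ, d w ≠ 0 := by
    intro ζ hζ
    rcases (hd ζ hζ).eventually_eq_zero_or_eventually_ne_zero with h | h
    · exfalso
      have := hd.eqOn_zero_of_preconnected_of_eventuallyEq_zero
        (convex_ball (0 : ℂ) R).isPreconnected hζ h h0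
      exact hd0 this
    · exact h
  set G : ℂ → ℂ := fun ζ => if d ζ = 0 then limUnder (𝓝[≠] ζ) F else F ζ with hG
  have hGd : DifferentiableOn ℂ G (ball 0 R) := by
    intro ζ hζ
    have hev : ∀ᶠ w in 𝓝[≠] ζ, d w ≠ 0 ∧ w ∈ ball (0 : ℂ) R :=
      (hiso ζ hζ).and (nhdsWithin_le_nhds (isOpen_ball.mem_nhds hζ))
    rw [eventually_nhdsWithin_iff, Metric.eventually_nhds_iff_ball] at hev
    obtain ⟨ρ, hρ, hρd⟩ := hev
    have hFd : DifferentiableOn ℂ F (ball ζ ρ \ {ζ}) :=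
      hF.mono (fun w hw => ⟨(hρd w hw.1 hw.2).2, (hρd w hw.1 hw.2).1⟩)
    have hρR : ball ζ ρ ⊆ ball (0 : ℂ) R := by
      intro w hw
      by_cases h : w = ζ
      · rw [h]; exact hζ
      · exact (hρd w hw h).2
    by_cases hdζ : d ζ = 0
    · have hLζ : ∫⁻ w in ball ζ ρ, ‖F w‖ₑ ^ 2 < ⊤ :=
        lt_of_le_of_lt (lintegral_mono_set hρR) hL
      have h2 := Complex.differentiableOn_update_limUnder_of_isLittleO
        (ball_mem_nhds ζ hρ) hFd (isLittleO_of_sq hρ hFd hLζ)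
      have h3 : G =ᶠ[𝓝 ζ] Function.update F ζ (limUnder (𝓝[≠] ζ) F) := by
        filter_upwards [ball_mem_nhds ζ hρ] with w hw
        by_cases hwζ : w = ζ
        · subst hwζ
          simp [hG, hdζ]
        · rw [Function.update_of_ne hwζ, hG]
          simp only [if_neg (hρd w hw hwζ).1]
      exact ((h2.differentiableAt (ball_mem_nhds ζ hρ)).congr_of_eventuallyEq
        h3).differentiableWithinAt
    · have hne : ∀ᶠ w in 𝓝 ζ, d w ≠ 0 := (hd ζ hζ).continuousAt.eventually_ne hdζ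
      have h3 : G =ᶠ[𝓝 ζ] F := by
        filter_upwards [hne] with w hw
        simp only [hG, if_neg hw]
      have hmem : ball (0 : ℂ) R ∩ {ζ | d ζ ≠ 0} ∈ 𝓝 ζ :=
        inter_mem (isOpen_ball.mem_nhds hζ) hne
      exact ((hF.differentiableAt hmem).congr_of_eventuallyEq h3).differentiableWithinAt
  have hdc : DiffContOnCl ℂ G (ball 0 |r|) := by
    rw [abs_of_pos hr]
    apply DifferentiableOn.diffContOnCl
    exact hGd.mono (closure_ball_subset_closedBall.trans (closedBall_subset_ball hrR))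
  have h1 := hdc.circleAverage
  have h2 : Real.circleAverage F 0 r = Real.circleAverage G 0 r := by
    rw [Real.circleAverage_def, Real.circleAverage_def]
    congr 1
    refine intervalIntegral.integral_congr (fun θ _ => ?_)
    have hθ : d (circleMap 0 r θ) ≠ 0 := hds _ (circleMap_mem_sphere 0 hr.le θ)
    simp only [hG, if_neg hθ]
  rw [h2, h1, hG]
  simp only [if_neg hd0]

end Crest.Agent.R271.RExt747
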