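import Mathlib
import Crest.Agent.R271.RExt1_747

/-!
Row 271, team G: several variables `L²` Riemann extension theorem (helper747).
-/

set_option autoImplicit false

open Set Filter Topology Metric MeasureTheory Complex
open scoped Real ENNReal NNReal

noncomputable section

namespace Crest.Agent.R271.RExt747

variable {n : ℕ}

/-- the zero set of an analytic function which is not locally zero contains no germ of a line in
some direction -/
theorem exists_direction {D : (Fin n → ℂ) → ℂ} {U : Set (Fin n → ℂ)} (hU : IsOpen U)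
    (hD : AnalyticOnNhd ℂ D U) {a : Fin n → ℂ} (ha : a ∈ U) (hne : ¬ (∀ᶠ z in 𝓝 a, D z = 0)) :
    ∃ v : Fin n → ℂ, ∀ᶠ ζ in 𝓝[≠] (0 : ℂ), D (a + ζ • v) ≠ 0 := by
  obtain ⟨ρ, hρ, hρU⟩ := Metric.isOpen_iff.1 hU a ha
  have h1 : ∃ b ∈ ball a ρ, D b ≠ 0 := by
    by_contra hcon
    push Not at hcon
    exact hne (by filter_upwards [ball_mem_nhds a hρ] with z hz using hcon z hz)
  obtain ⟨b, hb, hDb⟩ := h1
  set v := b - a with hv
  refine ⟨v, ?_⟩
  set S : Set ℂ := {ζ | a + ζ • v ∈ ball a ρ} with hS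
  have hSo : IsOpen S := isOpen_ball.preimage (by fun_prop : Continuous fun ζ : ℂ => a + ζ • v)
  have hSc : Convex ℝ S := by
    intro x hx y hy s t hs ht hst
    have : a + (s • x + t • y) • v = s • (a + x • v) + t • (a + y • v) := by
      have h2 : a = s • a + t • a := by rw [← add_smul, hst, one_smul]
      conv_lhs => rw [h2]
      rw [add_smul, smul_add, smul_add, smul_assoc, smul_assoc]
      abel
    change a + (s • x + t • y) • v ∈ ball a ρ
    rw [this]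
    exact (convex_ball a ρ) hx hy hs ht hst
  have h0 : (0 : ℂ) ∈ S := by simp [hS, hρ]
  have h1' : (1 : ℂ) ∈ S := by
    change a + (1 : ℂ) • v ∈ ball a ρ
    rw [one_smul, hv, add_sub_cancel]; exact hb
  have hA : AnalyticOnNhd ℂ (fun ζ : ℂ => D (a + ζ • v)) S := by
    intro ζ hζ
    have h3 : AnalyticAt ℂ (fun ζ : ℂ => a + ζ • v) ζ := by fun_prop
    exact AnalyticAt.comp (g := D) (f := fun ζ : ℂ => a + ζ • v) (hD _ (hρU hζ)) h3
  rcases (hA 0 h0).eventually_eq_zero_or_eventually_ne_zero with h | h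
  · exfalso
    have := hA.eqOn_zero_of_preconnected_of_eventuallyEq_zero hSc.isPreconnected h0 h h1'
    apply hDb
    simpa [hv] using this
  · exact h

/-- local extension -/
theorem local_ext {f D : (Fin n → ℂ) → ℂ} {U : Set (Fin n → ℂ)} (hU : IsOpen U)
    (hD : AnalyticOnNhd ℂ D U) {a : Fin n → ℂ} (ha : a ∈ U) (hne : ¬ (∀ᶠ z in 𝓝 a, D z = 0))
    (hf : DifferentiableOn ℂ f (U ∩ {z | D z ≠ 0}))
    (hL : ∫⁻ z in U ∩ {z | D z ≠ 0}, ‖f z‖ₑ ^ 2 < ⊤) :
    ∃ V : Set (Fin n → ℂ), IsOpen V ∧ a ∈ V ∧ V ⊆ U ∧ ∃ g : (Fin n → ℂ) → ℂ,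
      DifferentiableOn ℂ g V ∧ ∀ z ∈ V, D z ≠ 0 → g z = f z := by
  classical
  obtain ⟨v, hv⟩ := exists_direction hU hD ha hne
  -- the open set `W = U ∩ {D ≠ 0}`
  set W : Set (Fin n → ℂ) := U ∩ {z | D z ≠ 0} with hW
  have hWo : IsOpen W := by
    have := hD.continuousOn.isOpen_inter_preimage hU isOpen_ne (t := {w : ℂ | w ≠ 0})
    exact this
  -- radii
  rw [eventually_nhdsWithin_iff, Metric.eventually_nhds_iff_ball] at hv
  obtain ⟨R₁, hR₁, hR₁d⟩ := hv
  obtain ⟨R₂, hR₂, hR₂U⟩ : ∃ R₂ > 0, ∀ ζ ∈ ball (0 : ℂ) R₂, a + ζ • v ∈ U := by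
    have hc : Continuous fun ζ : ℂ => a + ζ • v := by fun_prop
    have : (fun ζ : ℂ => a + ζ • v) ⁻¹' U ∈ 𝓝 (0 : ℂ) :=
      (hU.preimage hc).mem_nhds (by simpa using ha)
    exact Metric.mem_nhds_iff.1 this
  set R := min R₁ R₂ / 2 with hR
  have hR0 : 0 < R := by positivity
  have hRR₁ : R < R₁ := lt_of_lt_of_le (half_lt_self (by positivity)) (min_le_left _ _)
  have hRR₂ : R < R₂ := lt_of_lt_of_le (half_lt_self (by positivity)) (min_le_right _ _)
  set r := R / 2 with hr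
  have hr0 : 0 < r := by positivity
  have hrR : r < R := half_lt_self hR0
  -- neighbourhoods of `a`
  have hcont : Continuous fun p : (Fin n → ℂ) × ℂ => p.1 + p.2 • v := by fun_prop
  have hV1 : ∀ᶠ z in 𝓝 a, ∀ ζ ∈ closedBall (0 : ℂ) R, z + ζ • v ∈ U := by
    have hK : IsCompact (closedBall (0 : ℂ) R) := isCompact_closedBall _ _
    have h1 : ∀ ζ ∈ closedBall (0 : ℂ) R, ∀ᶠ p : (Fin n → ℂ) × ℂ in 𝓝 (a, ζ),
        p.1 + p.2 • v ∈ U := by
      intro ζ hζ
      exact hcont.continuousAt.eventually (hU.mem_nhds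
        (hR₂U ζ (closedBall_subset_ball hRR₂ hζ)))
    exact hK.eventually_forall_of_forall_eventually h1
  have hV2 : ∀ᶠ z in 𝓝 a, ∀ ζ ∈ sphere (0 : ℂ) r, D (z + ζ • v) ≠ 0 := by
    have hK : IsCompact (sphere (0 : ℂ) r) := isCompact_sphere _ _
    have h1 : ∀ ζ ∈ sphere (0 : ℂ) r, ∀ᶠ p : (Fin n → ℂ) × ℂ in 𝓝 (a, ζ),
        D (p.1 + p.2 • v) ≠ 0 := by
      intro ζ hζ
      have hζr : ‖ζ‖ = r := by simpa using hζ
      have hmem : a + ζ • v ∈ W := by
        refine ⟨hR₂U ζ (by rw [mem_ball_zero_iff, hζr]; linarith), ?_⟩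
        exact hR₁d ζ (by rw [mem_ball_zero_iff, hζr]; linarith)
          (by rw [mem_compl_iff, mem_singleton_iff]; rintro rfl; simp at hζr; linarith)
      have h2 := (hcont.continuousAt (x := (a, ζ))).eventually (hWo.mem_nhds hmem)
      exact h2.mono (fun p hp => hp.2)
    exact hK.eventually_forall_of_forall_eventually h1
  obtain ⟨δ, hδ, hδV⟩ := Metric.eventually_nhds_iff_ball.1 (hV1.and hV2)
  set V := ball a δ with hV
  have hVo : IsOpen V := isOpen_ball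
  have haV : a ∈ V := mem_ball_self hδ
  have hVU : V ⊆ U := by
    intro z hz
    have := (hδV z hz).1 0 (mem_closedBall_self hR0.le)
    simpa using this
  -- replace `f` by its truncation
  set F : (Fin n → ℂ) → ℂ := W.indicator f with hF
  have hFW : ∀ z ∈ W, F z = f z := fun z hz => indicator_of_mem hz f
  have hFm : Measurable F := by
    have h2 := (hf.continuousOn).measurable_piecewise (g := fun _ => (0 : ℂ)) continuousOn_const
      hWo.measurableSet
    have h3 : F = W.piecewise f (fun _ => 0) := by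
      ext w; by_cases hw : w ∈ W <;> simp [hF, hw, Set.piecewise]
    rw [h3]; exact h2
  have hFL : ∫⁻ z, ‖F z‖ₑ ^ 2 < ⊤ := by
    have h2 : ∫⁻ z, ‖F z‖ₑ ^ 2 = ∫⁻ z in W, ‖f z‖ₑ ^ 2 := by
      rw [← lintegral_indicator hWo.measurableSet]
      congr 1
      ext z
      by_cases hz : z ∈ W
      · rw [indicator_of_mem hz, hFW z hz]
      · rw [indicator_of_notMem hz, hF, indicator_of_notMem hz]; simp
    rw [h2]; exact hL
  -- Tonelli
  have hTon : ∫⁻ z, ∫⁻ ζ in ball (0 : ℂ) R, ‖F (z + ζ • v)‖ₑ ^ 2 < ⊤ := by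
    rw [lintegral_lintegral_swap]
    · have h3 : ∀ ζ : ℂ, ∫⁻ z, ‖F (z + ζ • v)‖ₑ ^ 2 = ∫⁻ z, ‖F z‖ₑ ^ 2 := by
        intro ζ
        exact lintegral_add_right_eq_self (fun z => ‖F z‖ₑ ^ 2) (ζ • v)
      simp only [h3]
      rw [lintegral_const]
      refine ENNReal.mul_lt_top hFL ?_
      rw [Measure.restrict_apply_univ]
      exact measure_ball_lt_top
    · have h4 : Measurable fun p : (Fin n → ℂ) × ℂ => ‖F (p.1 + p.2 • v)‖ₑ ^ 2 :=
        ((hFm.comp hcont.measurable).enorm).pow_const 2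
      exact h4.aemeasurable
  have hae : ∀ᵐ z : Fin n → ℂ, ∫⁻ ζ in ball (0 : ℂ) R, ‖F (z + ζ • v)‖ₑ ^ 2 < ⊤ := by
    refine ae_lt_top' ?_ hTon.ne
    have h4 : Measurable fun p : (Fin n → ℂ) × ℂ => ‖F (p.1 + p.2 • v)‖ₑ ^ 2 :=
      ((hFm.comp hcont.measurable).enorm).pow_const 2
    exact (h4.lintegral_prod_right' (ν := volume.restrict (ball (0 : ℂ) R))).aemeasurable
  -- the extension
  set g : (Fin n → ℂ) → ℂ := fun z => ∫ θ in (0 : ℝ)..2 * π, f (z + circleMap 0 r θ • v) with hg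
  have hmemW : ∀ z ∈ V, ∀ θ : ℝ, z + circleMap 0 r θ • v ∈ W := by
    intro z hz θ
    refine ⟨(hδV z hz).1 _ ?_, (hδV z hz).2 _ (circleMap_mem_sphere 0 hr0.le θ)⟩
    exact closedBall_subset_closedBall hrR.le (circleMap_mem_closedBall 0 hr0.le θ)
  have hgA : AnalyticOnNhd ℂ g V := by
    refine Crest.Agent.R266.SCV.analyticOnNhd_intervalIntegral
      (f := fun p : (Fin n → ℂ) × ℝ => f (p.1 + circleMap 0 r p.2 • v)) hVo ?_ ?_
    · refine hf.continuousOn.comp (by fun_prop) ?_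
      rintro ⟨z, θ⟩ ⟨hz, -⟩
      exact hmemW z hz θ
    · intro θ _
      refine hf.comp ((differentiable_id.add_const (circleMap 0 r θ • v)).differentiableOn) ?_
      intro z hz
      exact hmemW z hz θ
  refine ⟨V, hVo, haV, hVU, fun z => (2 * π : ℝ)⁻¹ • g z, ?_, ?_⟩
  · exact (hgA.differentiableOn).const_smul ((2 * π : ℝ)⁻¹)
  -- a.e. equality
  have hV' : IsOpen (V ∩ {z | D z ≠ 0}) := by
    have : V ∩ {z | D z ≠ 0} = V ∩ W := by
      ext z; constructor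
      · rintro ⟨h1, h2⟩; exact ⟨h1, hVU h1, h2⟩
      · rintro ⟨h1, h2⟩; exact ⟨h1, h2.2⟩
    rw [this]; exact hVo.inter hWo
  have haeq : (fun z => (2 * π : ℝ)⁻¹ • g z) =ᵐ[volume.restrict (V ∩ {z | D z ≠ 0})] f := by
    rw [Filter.EventuallyEq, ae_restrict_iff' hV'.measurableSet]
    filter_upwards [hae] with z hz hzV
    have hdz : AnalyticOnNhd ℂ (fun ζ : ℂ => D (z + ζ • v)) (ball 0 R) := by
      intro ζ hζ
      have h3 : AnalyticAt ℂ (fun ζ : ℂ => z + ζ • v) ζ := by fun_prop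
      exact AnalyticAt.comp (g := D) (f := fun ζ : ℂ => z + ζ • v)
        (hD _ ((hδV z hzV.1).1 ζ (ball_subset_closedBall hζ))) h3
    have hFd : DifferentiableOn ℂ (fun ζ : ℂ => F (z + ζ • v))
        (ball 0 R ∩ {ζ | D (z + ζ • v) ≠ 0}) := by
      have h5 : DifferentiableOn ℂ F W := hf.congr hFW
      refine h5.comp (by fun_prop) ?_
      rintro ζ ⟨h6, h7⟩
      exact ⟨(hδV z hzV.1).1 ζ (ball_subset_closedBall h6), h7⟩
    have h8 := circleAverage_eq_of_sq (F := fun ζ : ℂ => F (z + ζ • v))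
      (d := fun ζ : ℂ => D (z + ζ • v)) hr0 hrR hdz (by simpa using hzV.2)
      (fun ζ hζ => (hδV z hzV.1).2 ζ hζ) hFd hz
    simp only [zero_smul, add_zero] at h8
    rw [hFW z ⟨hVU hzV.1, hzV.2⟩] at h8
    rw [← h8, Real.circleAverage_def]
    congr 1
    refine intervalIntegral.integral_congr (fun θ _ => ?_)
    exact (hFW _ (hmemW z hzV.1 θ)).symm
  have hEq := Measure.eqOn_open_of_ae_eq haeq hV'
    ((hgA.continuousOn.const_smul ((2 * π : ℝ)⁻¹)).mono inter_subset_left)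
    (hf.continuousOn.mono (fun z hz => ⟨hVU hz.1, hz.2⟩))
  intro z hz hDz
  exact hEq ⟨hz, hDz⟩

/-- **`L²` Riemann extension theorem**: `D` analytic on an open set `U` of `ℂⁿ`, not locally zero
anywhere on `U`; `f` holomorphic on `U ∩ {D ≠ 0}` and locally square integrable near every point
of `U`.  Then `f` extends holomorphically to `U`. -/
theorem riemann_ext {f D : (Fin n → ℂ) → ℂ} {U : Set (Fin n → ℂ)} (hU : IsOpen U)
    (hD : AnalyticOnNhd ℂ D U) (hne : ∀ a ∈ U, ¬ (∀ᶠ z in 𝓝 a, D z = 0))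
    (hf : DifferentiableOn ℂ f (U ∩ {z | D z ≠ 0}))
    (hL : ∀ a ∈ U, ∃ W ∈ 𝓝 a, ∫⁻ z in W ∩ {z | D z ≠ 0}, ‖f z‖ₑ ^ 2 < ⊤) :
    ∃ g : (Fin n → ℂ) → ℂ, DifferentiableOn ℂ g U ∧ ∀ z ∈ U, D z ≠ 0 → g z = f z := by
  classical
  set N : Set (Fin n → ℂ) := {z | D z ≠ 0} with hN
  have hNB : ∀ a ∈ U, (𝓝[N] a).NeBot := by
    intro a ha
    rw [← mem_closure_iff_nhdsWithin_neBot, mem_closure_iff_frequently]
    exact Filter.not_eventually.1 (by simpa using hne a ha)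
  -- local extensions
  have hloc : ∀ a ∈ U, ∃ V : Set (Fin n → ℂ), IsOpen V ∧ a ∈ V ∧ V ⊆ U ∧
      ∃ g : (Fin n → ℂ) → ℂ, DifferentiableOn ℂ g V ∧ ∀ z ∈ V, D z ≠ 0 → g z = f z := by
    intro a ha
    obtain ⟨W, hW, hWL⟩ := hL a ha
    obtain ⟨W', hW'W, hW'o, haW'⟩ := _root_.mem_nhds_iff.1 hW
    have hUW : IsOpen (U ∩ W') := hU.inter hW'o
    obtain ⟨V, hV, haV, hVU, g, hg, hgf⟩ := local_ext (f := f) hUW
      (hD.mono inter_subset_left) (a := a) ⟨ha, haW'⟩ (hne a ha)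
      (hf.mono (fun z hz => ⟨hz.1.1, hz.2⟩))
      (lt_of_le_of_lt (lintegral_mono_set (show (U ∩ W') ∩ {z | D z ≠ 0} ⊆ W ∩ {z | D z ≠ 0} from
        fun z hz => ⟨hW'W hz.1.2, hz.2⟩)) hWL)
    exact ⟨V, hV, haV, hVU.trans inter_subset_left, g, hg, hgf⟩
  refine ⟨fun z => limUnder (𝓝[N] z) f, ?_, ?_⟩
  · intro a ha
    obtain ⟨V, hV, haV, hVU, g, hg, hgf⟩ := hloc a ha
    have h1 : ∀ z ∈ V, limUnder (𝓝[N] z) f = g z := by
      intro z hz
      have := hNB z (hVU hz)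
      have h2 : Tendsto g (𝓝[N] z) (𝓝 (g z)) :=
        ((hg.differentiableAt (hV.mem_nhds hz)).continuousAt.tendsto).mono_left
          nhdsWithin_le_nhds
      have h3 : g =ᶠ[𝓝[N] z] f := by
        filter_upwards [nhdsWithin_le_nhds (hV.mem_nhds hz), self_mem_nhdsWithin] with w hw hw'
        exact hgf w hw hw'
      exact (h2.congr' h3).limUnder_eq
    have h4 : DifferentiableAt ℂ g a := hg.differentiableAt (hV.mem_nhds haV)
    refine (h4.congr_of_eventuallyEq ?_).differentiableWithinAt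
    filter_upwards [hV.mem_nhds haV] with z hz using h1 z hz
  · intro z hz hDz
    have := hNB z hz
    have hopen : IsOpen (U ∩ N) := hD.continuousOn.isOpen_inter_preimage hU
      (isOpen_ne : IsOpen {w : ℂ | w ≠ 0})
    have h2 : ContinuousAt f z :=
      (hf.differentiableAt (hopen.mem_nhds ⟨hz, hDz⟩)).continuousAt
    exact (h2.tendsto.mono_left nhdsWithin_le_nhds).limUnder_eq

theorem analyticAt_eval (Δ : MvPolynomial (Fin n) ℂ) (z : Fin n → ℂ) :
    AnalyticAt ℂ (fun z : Fin n → ℂ => MvPolynomial.eval z Δ) z := by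
  have h := AnalyticAt.aeval_mvPolynomial (𝕜 := ℂ) (f := fun z : Fin n → ℂ => z) (z := z)
    (fun i => (ContinuousLinearMap.proj (R := ℂ) (φ := fun _ : Fin n => ℂ) i).analyticAt z) Δ
  simpa [MvPolynomial.coe_aeval_eq_eval] using h

/-- a nonzero polynomial does not vanish on a non-empty open set -/
theorem poly_not_eventually_zero {Δ : MvPolynomial (Fin n) ℂ} (hΔ : Δ ≠ 0) (a : Fin n → ℂ) :
    ¬ (∀ᶠ z in 𝓝 a, MvPolynomial.eval z Δ = 0) := by
  intro h
  have hA : AnalyticOnNhd ℂ (fun z : Fin n → ℂ => MvPolynomial.eval z Δ) univ :=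
    fun z _ => analyticAt_eval Δ z
  have h2 := hA.eqOn_zero_of_preconnected_of_eventuallyEq_zero isPreconnected_univ
    (mem_univ a) h
  apply hΔ
  refine MvPolynomial.funext (fun z => ?_)
  simpa using h2 (mem_univ z)

/-- global version off a polynomial hypersurface -/
theorem riemann_ext_poly {f : (Fin n → ℂ) → ℂ} {Δ : MvPolynomial (Fin n) ℂ} (hΔ : Δ ≠ 0)
    (hf : DifferentiableOn ℂ f {z | MvPolynomial.eval z Δ ≠ 0})
    (hL : ∀ a : Fin n → ℂ, ∃ W ∈ 𝓝 a,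
      ∫⁻ z in W ∩ {z | MvPolynomial.eval z Δ ≠ 0}, ‖f z‖ₑ ^ 2 < ⊤) :
    ∃ g : (Fin n → ℂ) → ℂ, Differentiable ℂ g ∧
      ∀ z, MvPolynomial.eval z Δ ≠ 0 → g z = f z := by
  have hA : AnalyticOnNhd ℂ (fun z : Fin n → ℂ => MvPolynomial.eval z Δ) univ :=
    fun z _ => analyticAt_eval Δ z
  obtain ⟨g, hg, hgf⟩ := riemann_ext (f := f) isOpen_univ hA
    (fun a _ => poly_not_eventually_zero hΔ a) (hf.mono inter_subset_right) (fun a _ => hL a)
  exact ⟨g, differentiableOn_univ.1 hg, fun z hz => hgf z (mem_univ z) hz⟩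

end Crest.Agent.R271.RExt747
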