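import Mathlib
import Crest.Agent.R271.RExt2_747

/-!
Row 271, team G: entire functions of several variables with `L²` polynomial growth are polynomials
(helper747).
-/

set_option autoImplicit false

open Set Filter Topology Metric MeasureTheory Complex
open scoped Real ENNReal NNReal

noncomputable section

namespace Crest.Agent.R271.RExt747

variable {n : ℕ}

/-- homogeneous parts of multilinear maps are polynomials -/
theorem exists_poly_multilinear {k : ℕ}
    (M : ContinuousMultilinearMap ℂ (fun _ : Fin k => Fin n → ℂ) ℂ) :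
    ∃ p : MvPolynomial (Fin n) ℂ, p.totalDegree ≤ k ∧
      ∀ y : Fin n → ℂ, MvPolynomial.eval y p = M (fun _ => y) := by
  classical
  refine ⟨∑ r : Fin k → Fin n, MvPolynomial.C (M (fun i => Pi.single (r i) 1)) *
    ∏ i, MvPolynomial.X (r i), ?_, fun y => ?_⟩
  · refine MvPolynomial.totalDegree_finsetSum_le (fun r _ => ?_)
    refine (MvPolynomial.totalDegree_mul _ _).trans ?_
    rw [MvPolynomial.totalDegree_C, zero_add]
    refine (MvPolynomial.totalDegree_finsetProd _ _).trans ?_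
    refine (Finset.sum_le_sum (fun i _ => (MvPolynomial.totalDegree_X (R := ℂ) (r i)).le)).trans ?_
    simp
  · have hy : y = ∑ j, y j • (Pi.single j (1 : ℂ) : Fin n → ℂ) := by
      funext l
      simp [Finset.sum_apply, Pi.single_apply]
    have h1 : M (fun _ => y) = M (fun _ : Fin k => ∑ j, y j • (Pi.single j (1 : ℂ) : Fin n → ℂ)) := by
      rw [← hy]
    rw [h1, M.map_sum]
    rw [map_sum]
    refine Finset.sum_congr rfl fun r _ => ?_
    rw [M.map_smul_univ]
    simp only [map_mul, MvPolynomial.eval_C, map_prod, MvPolynomial.eval_X, smul_eq_mul]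
    ring

/-- one variable: entire functions of polynomial growth have vanishing higher derivatives -/
theorem iteratedDeriv_eq_zero_of_growth {φ : ℂ → ℂ} (hφ : Differentiable ℂ φ) {C : ℝ} {N : ℕ}
    (hg : ∀ ζ, ‖φ ζ‖ ≤ C * (1 + ‖ζ‖) ^ N) {k : ℕ} (hk : N < k) : iteratedDeriv k φ 0 = 0 := by
  have hC : 0 ≤ C := by
    have := hg 0
    simp at this
    exact (norm_nonneg _).trans this
  have h1 : ∀ R : ℝ, 1 ≤ R → ‖iteratedDeriv k φ 0‖ ≤ k.factorial * (C * 2 ^ N) / R := by
    intro R hR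
    have hR0 : 0 < R := by linarith
    have h2 : ∀ z ∈ sphere (0 : ℂ) R, ‖φ z‖ ≤ C * (1 + R) ^ N := by
      intro z hz
      have : ‖z‖ = R := by simpa using hz
      rw [← this]; exact hg z
    have h3 := Complex.norm_iteratedDeriv_le_of_forall_mem_sphere_norm_le (n := k) hR0
      hφ.diffContOnCl h2
    refine h3.trans ?_
    have h4 : (1 + R) ^ N ≤ 2 ^ N * R ^ N := by
      rw [← mul_pow]
      exact pow_le_pow_left₀ (by positivity) (by linarith) N
    have h5 : R ^ N * R ≤ R ^ k := by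
      rw [← pow_succ]
      exact pow_le_pow_right₀ hR hk
    rw [div_le_div_iff₀ (by positivity) hR0]
    have h6 : (0 : ℝ) ≤ k.factorial := by positivity
    calc (k.factorial : ℝ) * (C * (1 + R) ^ N) * R ≤ k.factorial * (C * (2 ^ N * R ^ N)) * R := by
          gcongr
      _ = k.factorial * (C * 2 ^ N) * (R ^ N * R) := by ring
      _ ≤ k.factorial * (C * 2 ^ N) * R ^ k := by gcongr
  have h7 : Tendsto (fun R : ℝ => k.factorial * (C * 2 ^ N) / R) atTop (𝓝 0) :=
    tendsto_const_nhds.div_atTop tendsto_id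
  have h8 : ‖iteratedDeriv k φ 0‖ ≤ 0 :=
    ge_of_tendsto h7 (by filter_upwards [eventually_ge_atTop 1] with R hR using h1 R hR)
  exact norm_le_zero_iff.1 h8

/-- pointwise polynomial growth implies polynomial -/
theorem poly_of_growth {g : (Fin n → ℂ) → ℂ} (hg : Differentiable ℂ g) {C : ℝ} {N : ℕ}
    (hb : ∀ z, ‖g z‖ ≤ C * (1 + ‖z‖) ^ N) :
    ∃ p : MvPolynomial (Fin n) ℂ, p.totalDegree ≤ N ∧ ∀ z, g z = MvPolynomial.eval z p := by
  classical
  have hC : 0 ≤ C := by
    have := hb 0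
    simp at this
    exact (norm_nonneg _).trans this
  have hA : AnalyticAt ℂ g 0 :=
    Crest.Agent.R266.SCV.analyticOnNhd_of_differentiableOn isOpen_univ hg.differentiableOn 0
      (mem_univ _)
  obtain ⟨q, hq⟩ := hA
  choose P hPd hP using fun k => exists_poly_multilinear (q k)
  refine ⟨∑ k ∈ Finset.range (N + 1), P k, ?_, fun z => ?_⟩
  · refine MvPolynomial.totalDegree_finsetSum_le (fun k hk => ?_)
    exact (hPd k).trans (Nat.lt_succ_iff.1 (Finset.mem_range.1 hk))
  -- restriction to the line through `z`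
  set φ : ℂ → ℂ := fun ζ => g (ζ • z) with hφ
  have hφd : Differentiable ℂ φ := hg.comp (by fun_prop)
  have hφg : ∀ ζ, ‖φ ζ‖ ≤ (C * (1 + ‖z‖) ^ N) * (1 + ‖ζ‖) ^ N := by
    intro ζ
    refine (hb _).trans ?_
    rw [mul_assoc, ← mul_pow]
    gcongr
    rw [norm_smul]
    nlinarith [norm_nonneg z, norm_nonneg ζ]
  have hzero : ∀ k, N < k → iteratedDeriv k φ 0 = 0 := fun k hk =>
    iteratedDeriv_eq_zero_of_growth hφd hφg hk
  have hsum := Complex.hasSum_taylorSeries_of_entire hφd 0 1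
  have h1 : φ 1 = ∑ k ∈ Finset.range (N + 1), (k.factorial : ℂ)⁻¹ • iteratedDeriv k φ 0 := by
    have h2 : HasSum (fun k : ℕ => (k.factorial : ℂ)⁻¹ • (1 - 0 : ℂ) ^ k • iteratedDeriv k φ 0)
        (∑ k ∈ Finset.range (N + 1), (k.factorial : ℂ)⁻¹ • (1 - 0 : ℂ) ^ k •
          iteratedDeriv k φ 0) := by
      refine hasSum_sum_of_ne_finset_zero (fun k hk => ?_)
      have hk' : N < k := by
        rw [Finset.mem_range, not_lt] at hk
        exact hk
      rw [hzero k hk']
      simp
    have h3 := hsum.unique h2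
    rw [h3]
    refine Finset.sum_congr rfl (fun k _ => ?_)
    simp
  have h4 : ∀ k, (k.factorial : ℂ)⁻¹ • iteratedDeriv k φ 0 = q k (fun _ => z) := by
    intro k
    -- power series of `φ` at `0`
    set L : ℂ →L[ℂ] (Fin n → ℂ) := (ContinuousLinearMap.id ℂ ℂ).smulRight z with hL
    have hLφ : φ = g ∘ L := by
      funext ζ; simp [hφ, hL]
    have hq0 : HasFPowerSeriesAt g q (L 0) := by simpa [hL] using hq
    have hcomp : HasFPowerSeriesAt φ (q.compContinuousLinearMap L) 0 := by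
      rw [hLφ]
      obtain ⟨r, hr⟩ := hq0
      exact ⟨_, hr.compContinuousLinearMap⟩
    have h5 := hcomp.eq_formalMultilinearSeries
      (hφd.analyticAt 0).hasFPowerSeriesAt
    have h6 : (q.compContinuousLinearMap L) k (fun _ => 1) = q k (fun _ => z) := by
      rw [FormalMultilinearSeries.compContinuousLinearMap_apply]
      congr 1
      funext i
      simp [hL]
    rw [← h6, h5]
    simp [FormalMultilinearSeries.ofScalars, div_eq_inv_mul]
  have h7 : g z = φ 1 := by simp [hφ]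
  rw [h7, h1, map_sum]
  refine Finset.sum_congr rfl (fun k _ => ?_)
  rw [h4, hP]

/-- **`L²` Liouville theorem**: an entire function on `ℂⁿ` which is square integrable for the
weight `(1 + ‖z‖)^{-2N}` is a polynomial of degree `≤ N`. -/
theorem poly_of_sq_growth {g : (Fin n → ℂ) → ℂ} (hg : Differentiable ℂ g) {N : ℕ}
    (hL : ∫⁻ z, ‖g z‖ₑ ^ 2 * ENNReal.ofReal ((1 + ‖z‖) ^ (2 * N))⁻¹ < ⊤) :
    ∃ p : MvPolynomial (Fin n) ℂ, p.totalDegree ≤ N ∧ ∀ z, g z = MvPolynomial.eval z p := by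
  set I := ∫⁻ z, ‖g z‖ₑ ^ 2 * ENNReal.ofReal ((1 + ‖z‖) ^ (2 * N))⁻¹ with hI
  set b : ℝ := volume.real (closedBall (0 : Fin n → ℂ) 1) with hb
  have hbpos : 0 < b := by
    rw [hb, Measure.real]
    exact ENNReal.toReal_pos (measure_closedBall_pos _ _ one_pos).ne'
      measure_closedBall_lt_top.ne
  have hvol : ∀ z : Fin n → ℂ, volume (closedBall z 1) = ENNReal.ofReal b := by
    intro z
    rw [hb, ofReal_measureReal measure_closedBall_lt_top.ne, Measure.addHaar_closedBall_center]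
  have key : ∀ z, b * ‖g z‖ ^ 2 ≤ (2 + ‖z‖) ^ (2 * N) * I.toReal := by
    intro z
    have h1 := submean (f := g) (x := z) (r := 1) isOpen_univ hg.differentiableOn
      (subset_univ _)
    rw [hvol z] at h1
    have h2 : ∫⁻ y in closedBall z 1, ‖g y‖ₑ ^ 2 ≤
        ENNReal.ofReal ((2 + ‖z‖) ^ (2 * N)) * I := by
      rw [hI, ← lintegral_const_mul' _ _ ENNReal.ofReal_ne_top]
      refine (lintegral_mono_ae ?_).trans (setLIntegral_le_lintegral (closedBall z 1) _)
      rw [ae_restrict_iff' measurableSet_closedBall]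
      refine Eventually.of_forall (fun y hy => ?_)
      have hy1 : ‖y‖ ≤ 1 + ‖z‖ := by
        have h3 : ‖y - z‖ ≤ 1 := by simpa [dist_eq_norm] using hy
        have h4 : ‖y‖ ≤ ‖y - z‖ + ‖z‖ := by
          have : y = (y - z) + z := by abel
          conv_lhs => rw [this]
          exact norm_add_le _ _
        linarith
      have h5 : (1 : ℝ) ≤ (2 + ‖z‖) ^ (2 * N) * ((1 + ‖y‖) ^ (2 * N))⁻¹ := by
        rw [← div_eq_mul_inv, le_div_iff₀ (by positivity), one_mul]
        exact pow_le_pow_left₀ (by positivity) (by linarith) _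
      calc ‖g y‖ₑ ^ 2 = 1 * ‖g y‖ₑ ^ 2 := (one_mul _).symm
        _ ≤ ENNReal.ofReal ((2 + ‖z‖) ^ (2 * N) * ((1 + ‖y‖) ^ (2 * N))⁻¹) * ‖g y‖ₑ ^ 2 := by
            gcongr
            rw [← ENNReal.ofReal_one]
            exact ENNReal.ofReal_le_ofReal h5
        _ = _ := by
            rw [ENNReal.ofReal_mul (by positivity)]
            ring
    have h6 := h1.trans h2
    have h7 : ENNReal.ofReal b * ‖g z‖ₑ ^ 2 = ENNReal.ofReal (b * ‖g z‖ ^ 2) := by
      rw [← ofReal_norm (g z), ← ENNReal.ofReal_pow (norm_nonneg _),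
        ← ENNReal.ofReal_mul hbpos.le]
    have h8 : I = ENNReal.ofReal I.toReal := (ENNReal.ofReal_toReal hL.ne).symm
    rw [h7, h8, ← ENNReal.ofReal_mul (by positivity), ENNReal.ofReal_le_ofReal_iff
      (by positivity)] at h6
    exact h6
  refine poly_of_growth hg (C := 2 ^ N * Real.sqrt (I.toReal / b)) (N := N) (fun z => ?_)
  have h1 : ‖g z‖ ^ 2 ≤ ((2 + ‖z‖) ^ N) ^ 2 * (I.toReal / b) := by
    rw [← pow_mul, mul_comm N 2, mul_div_assoc', le_div_iff₀ hbpos]
    linarith [key z]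
  have h2 : ‖g z‖ ≤ (2 + ‖z‖) ^ N * Real.sqrt (I.toReal / b) := by
    have h3 : (0 : ℝ) ≤ I.toReal / b := by positivity
    refine abs_le_of_sq_le_sq' ?_ (by positivity) |>.2
    rw [mul_pow, Real.sq_sqrt h3]
    exact h1
  refine h2.trans ?_
  have h4 : (2 + ‖z‖) ^ N ≤ 2 ^ N * (1 + ‖z‖) ^ N := by
    rw [← mul_pow]
    exact pow_le_pow_left₀ (by positivity) (by linarith [norm_nonneg z]) N
  calc (2 + ‖z‖) ^ N * Real.sqrt (I.toReal / b) ≤
      (2 ^ N * (1 + ‖z‖) ^ N) * Real.sqrt (I.toReal / b) := by gcongr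
    _ = 2 ^ N * Real.sqrt (I.toReal / b) * (1 + ‖z‖) ^ N := by ring

end Crest.Agent.R271.RExt747
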