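import Mathlib

/-!
Row 271 (0.2): analytic implicit function theorem for a polynomial equation with coefficients in
`ℂ[z₁,…,zₙ]` (helper692).
-/

set_option autoImplicit false

open scoped Topology
open Filter Set

noncomputable section

namespace Crest.Agent.R271.Rd692

variable {n : ℕ}

/-- `(w, ξ) ↦ F_w(ξ)` -/
def pe (F : Polynomial (MvPolynomial (Fin n) ℂ)) (q : (Fin n → ℂ) × ℂ) : ℂ :=
  F.eval₂ (MvPolynomial.eval q.1) q.2

lemma pe_eq_sum (F : Polynomial (MvPolynomial (Fin n) ℂ)) (q : (Fin n → ℂ) × ℂ) :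
    pe F q = ∑ i ∈ Finset.range (F.natDegree + 1), MvPolynomial.eval q.1 (F.coeff i) * q.2 ^ i := by
  unfold pe
  rw [Polynomial.eval₂_eq_sum_range]

lemma analyticAt_pe (F : Polynomial (MvPolynomial (Fin n) ℂ)) (q : (Fin n → ℂ) × ℂ) :
    AnalyticAt ℂ (pe F) q := by
  have h : pe F = fun q => ∑ i ∈ Finset.range (F.natDegree + 1),
      MvPolynomial.eval q.1 (F.coeff i) * q.2 ^ i := by
    funext q; exact pe_eq_sum F q
  rw [h]
  refine Finset.analyticAt_fun_sum _ fun i _ => ?_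
  refine AnalyticAt.mul ?_ (analyticAt_snd.pow i)
  exact (AnalyticOnNhd.eval_mvPolynomial (F.coeff i) q.1 (mem_univ _)).comp analyticAt_fst

lemma hasDerivAt_pe (F : Polynomial (MvPolynomial (Fin n) ℂ)) (w : Fin n → ℂ) (ξ : ℂ) :
    HasDerivAt (fun t => pe F (w, t)) (pe F.derivative (w, ξ)) ξ := by
  have h : (fun t => pe F (w, t)) = fun t => (F.map (MvPolynomial.eval w)).eval t := by
    funext t; simp [pe, Polynomial.eval_map]
  rw [h]
  have h2 := (F.map (MvPolynomial.eval w)).hasDerivAt ξ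
  rw [Polynomial.derivative_map, Polynomial.eval_map] at h2
  exact h2

/-- analytic implicit function theorem for `F_w(ξ) = 0` at a simple root. -/
theorem exists_analytic_root (F : Polynomial (MvPolynomial (Fin n) ℂ)) (w0 : Fin n → ℂ) (ξ0 : ℂ)
    (h0 : pe F (w0, ξ0) = 0) (h1 : pe F.derivative (w0, ξ0) ≠ 0) :
    ∃ (ξ : (Fin n → ℂ) → ℂ) (U : Set ((Fin n → ℂ) × ℂ)), AnalyticAt ℂ ξ w0 ∧ ξ w0 = ξ0 ∧
      U ∈ 𝓝 (w0, ξ0) ∧ (∀ᶠ w in 𝓝 w0, pe F (w, ξ w) = 0) ∧
      ∀ q ∈ U, pe F q = 0 → q.2 = ξ q.1 := by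
  set E := (Fin n → ℂ) × ℂ
  set Ψ : E → E := fun q => (q.1, pe F q) with hΨ
  have hA : AnalyticAt ℂ Ψ (w0, ξ0) := analyticAt_fst.prod (analyticAt_pe F _)
  set A : E →L[ℂ] ℂ := fderiv ℂ (pe F) (w0, ξ0) with hAdef
  have hpe : HasFDerivAt (pe F) A (w0, ξ0) := (analyticAt_pe F _).differentiableAt.hasFDerivAt
  have hA1 : A (0, 1) = pe F.derivative (w0, ξ0) := by
    have h2 : HasDerivAt (fun t : ℂ => ((w0, t) : E)) ((0, 1) : E) ξ0 :=
      (hasDerivAt_const ξ0 w0).prodMk (hasDerivAt_id ξ0)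
    have h3 : HasDerivAt (fun t => pe F (w0, t)) (A (0, 1)) ξ0 := by
      have h4 : HasFDerivAt (pe F) A ((fun t : ℂ => ((w0, t) : E)) ξ0) := hpe
      exact h4.comp_hasDerivAt ξ0 h2
    exact h3.unique (hasDerivAt_pe F w0 ξ0)
  set L : E →L[ℂ] E := (ContinuousLinearMap.fst ℂ (Fin n → ℂ) ℂ).prod A with hL
  have hLinj : Function.Injective (L : E →ₗ[ℂ] E) := by
    rw [injective_iff_map_eq_zero]
    rintro ⟨a, b⟩ hab
    have h5 : (a, A (a, b)) = (0 : E) := hab
    have ha : a = 0 := congrArg Prod.fst h5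
    have hb : A (a, b) = 0 := congrArg Prod.snd h5
    subst ha
    have h6 : ((0 : Fin n → ℂ), b) = b • ((0, 1) : E) := by simp
    rw [h6, map_smul, hA1, smul_eq_mul, mul_eq_zero] at hb
    rcases hb with hb | hb
    · subst hb; rfl
    · exact absurd hb h1
  set Le : E ≃L[ℂ] E := (LinearEquiv.ofInjectiveEndo (L : E →ₗ[ℂ] E) hLinj).toContinuousLinearEquiv
  have hLe : (Le : E →L[ℂ] E) = L := by
    ext x <;> rfl
  have hD : HasFDerivAt Ψ (Le : E →L[ℂ] E) (w0, ξ0) := by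
    rw [hLe]
    exact hasFDerivAt_fst.prodMk hpe
  have hC : ContDiffAt ℂ (⊤ : WithTop ℕ∞) Ψ (w0, ξ0) := hA.contDiffAt
  set e := hC.toOpenPartialHomeomorph Ψ hD (by simp) with he
  have hecoe : ∀ q, e q = Ψ q := fun q => rfl
  have hsrc : (w0, ξ0) ∈ e.source := hC.mem_toOpenPartialHomeomorph_source hD (by simp)
  have hval : Ψ (w0, ξ0) = (w0, 0) := by simp [hΨ, h0]
  have htgt : ((w0, 0) : E) ∈ e.target := by
    rw [← hval]; exact e.map_source hsrc
  have hsymm : AnalyticAt ℂ e.symm (w0, 0) := by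
    have h7 := hC.to_localInverse hD (by simp)
    rw [hval] at h7
    exact h7.analyticAt
  have hsymm0 : e.symm (w0, 0) = (w0, ξ0) := by
    rw [← hval]; exact e.left_inv hsrc
  have hinc : ContinuousAt (fun w : Fin n → ℂ => ((w, 0) : E)) w0 := by fun_prop
  have hev : ∀ᶠ w in 𝓝 w0, ((w, 0) : E) ∈ e.target :=
    hinc.eventually_mem (e.open_target.mem_nhds htgt)
  refine ⟨fun w => (e.symm (w, 0)).2, e.source, ?_, ?_, e.open_source.mem_nhds hsrc, ?_, ?_⟩
  · have h8 : AnalyticAt ℂ (fun w : Fin n → ℂ => ((w, 0) : E)) w0 :=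
      analyticAt_id.prod analyticAt_const
    have h9 : AnalyticAt ℂ (fun w => e.symm (w, 0)) w0 :=
      AnalyticAt.comp (g := e.symm) (f := fun w : Fin n → ℂ => ((w, 0) : E)) hsymm h8
    exact AnalyticAt.comp (g := Prod.snd) (f := fun w : Fin n → ℂ => e.symm ((w, 0) : E))
      analyticAt_snd h9
  · simp [hsymm0]
  · filter_upwards [hev] with w hw
    have h10 : Ψ (e.symm (w, 0)) = (w, 0) := by
      rw [← hecoe]; exact e.right_inv hw
    have h11 : (e.symm (w, 0)).1 = w := congrArg Prod.fst h10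
    have h12 : pe F (e.symm (w, 0)) = 0 := congrArg Prod.snd h10
    have h13 : ((w, (e.symm (w, 0)).2) : E) = e.symm (w, 0) := Prod.ext h11.symm rfl
    rw [h13]; exact h12
  · intro q hq hq0
    have h14 : Ψ q = (q.1, 0) := by simp [hΨ, hq0]
    have h15 : e.symm (q.1, 0) = q := by
      rw [← h14]; exact e.left_inv hq
    simp [h15]

end Crest.Agent.R271.Rd692
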