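import Mathlib
import Crest.Agent.R271.Defs_710
import Crest.Agent.R271.Rd1_692

/-!
Row 271 (0.2): existence of charts for étale algebras over `ℂ[z₁,…,zₙ]` (helper692).
-/

set_option autoImplicit false

open scoped Topology
open Filter Set

noncomputable section

namespace Crest.Agent.R271.Rd692

open Crest.Agent.R271.Defs710

variable {n : ℕ}

section std

variable {S : Type} [CommRing S] [Algebra (MvPolynomial (Fin n) ℂ) S]

lemma exists_secHom (P : StandardEtalePresentation (MvPolynomial (Fin n) ℂ) S) (w : Fin n → ℂ)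
    (ξ : ℂ) (h1 : pe P.f (w, ξ) = 0) (h2 : pe P.g (w, ξ) ≠ 0) :
    ∃ φ : S →+* ℂ, φ.comp (algebraMap (MvPolynomial (Fin n) ℂ) S) = MvPolynomial.eval w ∧
      φ P.x = ξ := by
  letI : Algebra (MvPolynomial (Fin n) ℂ) ℂ := (MvPolynomial.eval w).toAlgebra
  have hm : P.P.HasMap ξ := by
    refine ⟨?_, ?_⟩
    · rw [Polynomial.aeval_def]; exact h1
    · rw [Polynomial.aeval_def]; exact isUnit_iff_ne_zero.mpr h2
  let φ : S →ₐ[MvPolynomial (Fin n) ℂ] ℂ := (P.P.lift ξ hm).comp P.equivRing.toAlgHom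
  refine ⟨φ.toRingHom, ?_, ?_⟩
  · exact φ.comp_algebraMap
  · change P.P.lift ξ hm (P.equivRing P.x) = ξ
    rw [StandardEtalePresentation.equivRing_x, StandardEtalePair.lift_X]

lemma secHom_unique (P : StandardEtalePresentation (MvPolynomial (Fin n) ℂ) S) (w : Fin n → ℂ)
    (φ ψ : S →+* ℂ) (h1 : φ.comp (algebraMap (MvPolynomial (Fin n) ℂ) S) = MvPolynomial.eval w)
    (h2 : ψ.comp (algebraMap (MvPolynomial (Fin n) ℂ) S) = MvPolynomial.eval w)
    (h3 : φ P.x = ψ P.x) : φ = ψ := by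
  letI : Algebra (MvPolynomial (Fin n) ℂ) ℂ := (MvPolynomial.eval w).toAlgebra
  let φ' : S →ₐ[MvPolynomial (Fin n) ℂ] ℂ :=
    { φ with commutes' := fun r => congrArg (fun f : MvPolynomial (Fin n) ℂ →+* ℂ => f r) h1 }
  let ψ' : S →ₐ[MvPolynomial (Fin n) ℂ] ℂ :=
    { ψ with commutes' := fun r => congrArg (fun f : MvPolynomial (Fin n) ℂ →+* ℂ => f r) h2 }
  have h4 : φ' = ψ' := P.hom_ext h3
  ext s
  exact congrArg (fun f : S →ₐ[MvPolynomial (Fin n) ℂ] ℂ => f s) h4

lemma hom_aeval (w : Fin n → ℂ) (φ : S →+* ℂ)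
    (h1 : φ.comp (algebraMap (MvPolynomial (Fin n) ℂ) S) = MvPolynomial.eval w) (x : S)
    (p : Polynomial (MvPolynomial (Fin n) ℂ)) :
    φ (Polynomial.aeval x p) = pe p (w, φ x) := by
  rw [Polynomial.aeval_def, Polynomial.hom_eval₂, h1]
  rfl

end std

section core

variable {B : Type} [CommRing B] [Algebra ℂ B] [Algebra (MvPolynomial (Fin n) ℂ) B]
  [IsScalarTower ℂ (MvPolynomial (Fin n) ℂ) B] [Algebra.Etale (MvPolynomial (Fin n) ℂ) B]

/-- coordinates of a point -/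
def crd (y : B →ₐ[ℂ] ℂ) : Fin n → ℂ :=
  fun i => y (algebraMap (MvPolynomial (Fin n) ℂ) B (MvPolynomial.X i))

lemma comp_algebraMap_eq (y : B →ₐ[ℂ] ℂ) :
    (y : B →+* ℂ).comp (algebraMap (MvPolynomial (Fin n) ℂ) B) = MvPolynomial.eval (crd y) := by
  apply MvPolynomial.ringHom_ext
  · intro r
    have h : algebraMap (MvPolynomial (Fin n) ℂ) B (MvPolynomial.C r) = algebraMap ℂ B r := by
      rw [IsScalarTower.algebraMap_apply ℂ (MvPolynomial (Fin n) ℂ) B]
      rfl
    simp [h]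
  · intro i
    simp [crd]

theorem chart_core (y : B →ₐ[ℂ] ℂ) :
    ∃ s : (Fin n → ℂ) → (B →ₐ[ℂ] ℂ), s (crd y) = y ∧
      (∀ᶠ w in 𝓝 (crd (n := n) y), crd (s w) = w ∧ ∀ b, AnalyticAt ℂ (fun w => s w b) w) ∧
      ∃ (T : Finset B) (ε : ℝ), 0 < ε ∧ ∀ y' : B →ₐ[ℂ] ℂ,
        (∀ b ∈ T, ‖y' b - y b‖ < ε) → y' = s (crd y') := by
  classical
  -- the prime ideal of `y`
  set Q : Ideal B := RingHom.ker (y : B →+* ℂ) with hQ
  haveI : Q.IsPrime := RingHom.ker_isPrime _
  obtain ⟨f, hfQ, hstd⟩ := Algebra.IsEtaleAt.exists_isStandardEtale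
    (R := MvPolynomial (Fin n) ℂ) (S := B) Q
  obtain ⟨P⟩ := hstd.nonempty_standardEtalePresentation
  have hyf : y f ≠ 0 := fun h => hfQ h
  -- extension of points to `S = B[1/f]`
  have hext : ∀ y' : B →ₐ[ℂ] ℂ, y' f ≠ 0 → ∃ φ : Localization.Away f →+* ℂ,
      φ.comp (algebraMap B (Localization.Away f)) = (y' : B →+* ℂ) := by
    intro y' hy'
    refine ⟨IsLocalization.Away.lift f (g := (y' : B →+* ℂ)) (isUnit_iff_ne_zero.mpr hy'), ?_⟩
    exact IsLocalization.Away.lift_comp _ _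
  have hextR : ∀ (y' : B →ₐ[ℂ] ℂ) (φ : Localization.Away f →+* ℂ),
      φ.comp (algebraMap B (Localization.Away f)) = (y' : B →+* ℂ) →
      φ.comp (algebraMap (MvPolynomial (Fin n) ℂ) (Localization.Away f)) =
        MvPolynomial.eval (crd y') := by
    intro y' φ hφ
    rw [IsScalarTower.algebraMap_eq (MvPolynomial (Fin n) ℂ) B (Localization.Away f),
      ← RingHom.comp_assoc, hφ, comp_algebraMap_eq]
  obtain ⟨y0, hy0⟩ := hext y hyf
  have hy0R := hextR y y0 hy0
  set ξ0 := y0 P.x with hξ0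
  set w0 : Fin n → ℂ := crd y with hw0
  have hF0 : pe P.f (w0, ξ0) = 0 := by
    rw [← hom_aeval w0 y0 hy0R, P.hasMap.1, map_zero]
  have hG0 : pe P.g (w0, ξ0) ≠ 0 := by
    rw [← hom_aeval w0 y0 hy0R]
    exact ((P.hasMap.2.map y0).ne_zero)
  have hF1 : pe P.f.derivative (w0, ξ0) ≠ 0 := by
    rw [← hom_aeval w0 y0 hy0R]
    exact ((P.hasMap.isUnit_derivative_f.map y0).ne_zero)
  obtain ⟨ξ, U, hξan, hξw, hU, hroot, huniq⟩ := exists_analytic_root P.f w0 ξ0 hF0 hF1
  -- the section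
  have hdef : ∀ w : Fin n → ℂ, ∃ t : B →ₐ[ℂ] ℂ, (pe P.f (w, ξ w) = 0 → pe P.g (w, ξ w) ≠ 0 →
      ∃ φ : Localization.Away f →+* ℂ,
        φ.comp (algebraMap (MvPolynomial (Fin n) ℂ) (Localization.Away f)) = MvPolynomial.eval w ∧
        φ P.x = ξ w ∧ φ.comp (algebraMap B (Localization.Away f)) = (t : B →+* ℂ)) := by
    intro w
    by_cases h : pe P.f (w, ξ w) = 0 ∧ pe P.g (w, ξ w) ≠ 0
    · obtain ⟨φ, hφ1, hφ2⟩ := exists_secHom P w (ξ w) h.1 h.2
      let t : B →ₐ[ℂ] ℂ :=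
        { φ.comp (algebraMap B (Localization.Away f)) with
          commutes' := by
            intro r
            have h1 : algebraMap ℂ B r =
                algebraMap (MvPolynomial (Fin n) ℂ) B (MvPolynomial.C r) := by
              rw [IsScalarTower.algebraMap_apply ℂ (MvPolynomial (Fin n) ℂ) B]
              rfl
            change φ (algebraMap B (Localization.Away f) (algebraMap ℂ B r)) = r
            rw [h1, ← IsScalarTower.algebraMap_apply (MvPolynomial (Fin n) ℂ) B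
              (Localization.Away f)]
            have h2 := congrArg (fun g : MvPolynomial (Fin n) ℂ →+* ℂ =>
              g (MvPolynomial.C r)) hφ1
            simpa using h2 }
      exact ⟨t, fun _ _ => ⟨φ, hφ1, hφ2, rfl⟩⟩
    · exact ⟨y, fun h1 h2 => absurd ⟨h1, h2⟩ h⟩
  choose s hs using hdef
  have hcrd : ∀ w, pe P.f (w, ξ w) = 0 → pe P.g (w, ξ w) ≠ 0 → crd (s w) = w := by
    intro w h1 h2
    obtain ⟨φ, hφ1, hφ2, hφ3⟩ := hs w h1 h2
    funext i
    have h3 : s w (algebraMap (MvPolynomial (Fin n) ℂ) B (MvPolynomial.X i)) =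
        φ (algebraMap B (Localization.Away f)
          (algebraMap (MvPolynomial (Fin n) ℂ) B (MvPolynomial.X i))) :=
      congrArg (fun g : B →+* ℂ => g (algebraMap (MvPolynomial (Fin n) ℂ) B
        (MvPolynomial.X i))) hφ3.symm
    change s w (algebraMap (MvPolynomial (Fin n) ℂ) B (MvPolynomial.X i)) = w i
    rw [h3, ← IsScalarTower.algebraMap_apply (MvPolynomial (Fin n) ℂ) B (Localization.Away f)]
    have h4 := congrArg (fun g : MvPolynomial (Fin n) ℂ →+* ℂ => g (MvPolynomial.X i)) hφ1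
    simpa using h4
  -- identification
  have hid : ∀ y' : B →ₐ[ℂ] ℂ, y' f ≠ 0 → ∀ φ' : Localization.Away f →+* ℂ,
      φ'.comp (algebraMap B (Localization.Away f)) = (y' : B →+* ℂ) →
      φ' P.x = ξ (crd y') → y' = s (crd y') := by
    intro y' hy'f φ' hφ' hx
    have hφ'R := hextR y' φ' hφ'
    have h1 : pe P.f (crd y', ξ (crd y')) = 0 := by
      rw [← hx, ← hom_aeval (crd y') φ' hφ'R, P.hasMap.1, map_zero]
    have h2 : pe P.g (crd y', ξ (crd y')) ≠ 0 := by
      rw [← hx, ← hom_aeval (crd y') φ' hφ'R]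
      exact ((P.hasMap.2.map φ').ne_zero)
    obtain ⟨φ, hφ1, hφ2, hφ3⟩ := hs (crd y') h1 h2
    have h3 : φ = φ' := secHom_unique P (crd y') φ φ' hφ1 hφ'R (by rw [hφ2, hx])
    ext b
    have h4 := congrArg (fun g : B →+* ℂ => g b) hφ3
    have h5 := congrArg (fun g : B →+* ℂ => g b) hφ'
    rw [h3] at h4
    exact h5.symm.trans h4
  refine ⟨s, ?_, ?_, ?_⟩
  · exact (hid y hyf y0 hy0 (by rw [← hw0, hξw])).symm
  · have h1 : ∀ᶠ w in 𝓝 w0, pe P.g (w, ξ w) ≠ 0 := by
      have h2 : ContinuousAt (fun w => pe P.g (w, ξ w)) w0 := by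
        have h3 : ContinuousAt (pe P.g) (w0, ξ w0) := (analyticAt_pe P.g _).continuousAt
        exact ContinuousAt.comp (g := pe P.g) (f := fun w => (w, ξ w)) h3
          (continuousAt_id.prodMk hξan.continuousAt)
      apply h2.eventually_ne
      rw [hξw]; exact hG0
    have h3 : ∀ᶠ w in 𝓝 w0, AnalyticAt ℂ ξ w := hξan.eventually_analyticAt
    filter_upwards [eventually_eventually_nhds.mpr h1, h3, eventually_eventually_nhds.mpr hroot]
      with w hw1 hw3 hw2
    refine ⟨hcrd w hw2.self_of_nhds hw1.self_of_nhds, fun b => ?_⟩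
    obtain ⟨p, k, hpk⟩ := P.exists_mul_aeval_x_g_pow_eq_aeval_x
      (algebraMap B (Localization.Away f) b)
    have h4 : (fun w => s w b) =ᶠ[𝓝 w]
        fun w => pe p (w, ξ w) / (pe P.g (w, ξ w)) ^ k := by
      filter_upwards [hw1, hw2] with v hv1 hv2
      obtain ⟨φ, hφ1, hφ2, hφ3⟩ := hs v hv2 hv1
      have h5 : s v b = φ (algebraMap B (Localization.Away f) b) :=
        congrArg (fun g : B →+* ℂ => g b) hφ3.symm
      have h6 := congrArg φ hpk
      rw [map_mul, map_pow, hom_aeval v φ hφ1, hom_aeval v φ hφ1, hφ2, ← h5] at h6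
      rw [eq_div_iff (pow_ne_zero _ hv1)]
      exact h6
    have hpair : AnalyticAt ℂ (fun v => (v, ξ v)) w := analyticAt_id.prod hw3
    have h7 : ∀ q : Polynomial (MvPolynomial (Fin n) ℂ),
        AnalyticAt ℂ (fun v => pe q (v, ξ v)) w := fun q =>
      AnalyticAt.comp (g := pe q) (f := fun v => (v, ξ v)) (analyticAt_pe q _) hpair
    exact ((h7 p).div ((h7 P.g).pow k) (pow_ne_zero _ hw1.self_of_nhds)).congr h4.symm
  · -- surjectivity near `y`
    obtain ⟨⟨b0, ⟨_, k, rfl⟩⟩, hb0⟩ := IsLocalization.surj (.powers f) P.x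
    -- `P.x * f^k = b0`
    have hb0' : P.x * algebraMap B (Localization.Away f) f ^ k =
        algebraMap B (Localization.Away f) b0 := by simpa using hb0
    have hcont : ContinuousAt (fun q : (Fin n → ℂ) × ℂ × ℂ => (q.1, q.2.1 / q.2.2 ^ k))
        (w0, y b0, y f) := by
      apply ContinuousAt.prodMk continuousAt_fst
      exact (continuousAt_fst.comp continuousAt_snd).div
        ((continuousAt_snd.comp continuousAt_snd).pow k) (pow_ne_zero _ hyf)
    have hxval : ∀ (y' : B →ₐ[ℂ] ℂ) (φ : Localization.Away f →+* ℂ), y' f ≠ 0 →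
        φ.comp (algebraMap B (Localization.Away f)) = (y' : B →+* ℂ) →
        φ P.x = y' b0 / y' f ^ k := by
      intro y' φ hy' hφ
      have h1 := congrArg φ hb0'
      have h2 : ∀ b : B, φ (algebraMap B (Localization.Away f) b) = y' b := fun b =>
        congrArg (fun g : B →+* ℂ => g b) hφ
      rw [map_mul, map_pow, h2, h2] at h1
      rw [eq_div_iff (pow_ne_zero _ hy')]
      exact h1
    have hpt : (w0, y b0 / y f ^ k) = (w0, ξ0) := by rw [← hxval y y0 hyf hy0]
    have hnear : ∀ᶠ q : (Fin n → ℂ) × ℂ × ℂ in 𝓝 (w0, y b0, y f),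
        (q.1, q.2.1 / q.2.2 ^ k) ∈ U ∧ q.2.2 ≠ 0 := by
      refine (hcont.eventually_mem ?_).and ?_
      · simpa [hpt] using hU
      · exact (continuousAt_snd.comp continuousAt_snd).eventually_ne hyf
    obtain ⟨ε, hε, hball⟩ := Metric.eventually_nhds_iff_ball.mp hnear
    refine ⟨insert f (insert b0 (Finset.univ.image fun i : Fin n =>
      algebraMap (MvPolynomial (Fin n) ℂ) B (MvPolynomial.X i))), ε, hε, fun y' hy' => ?_⟩
    have hd : (crd (n := n) y', y' b0, y' f) ∈ Metric.ball (w0, y b0, y f) ε := by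
      rw [Metric.mem_ball, Prod.dist_eq, Prod.dist_eq, max_lt_iff, max_lt_iff]
      refine ⟨?_, ?_, ?_⟩
      · rw [dist_pi_lt_iff hε]
        intro i
        rw [dist_eq_norm]
        exact hy' _ (by simp)
      · rw [dist_eq_norm]; exact hy' _ (by simp)
      · rw [dist_eq_norm]; exact hy' _ (by simp)
    obtain ⟨hqU, hqf⟩ := hball _ hd
    obtain ⟨φ, hφ⟩ := hext y' hqf
    refine hid y' hqf φ hφ ?_
    have h8 : φ P.x = y' b0 / y' f ^ k := hxval y' φ hqf hφ
    have h9 : pe P.f (crd y', φ P.x) = 0 := by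
      rw [← hom_aeval (crd y') φ (hextR y' φ hφ), P.hasMap.1, map_zero]
    have h10 := huniq _ hqU (by rw [← h8]; exact h9)
    rw [h8]; exact h10

end core

end Crest.Agent.R271.Rd692
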