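import Mathlib
import Crest.Agent.R271.Defs_710
import Crest.Agent.R271.Rd2_692

/-!
Row 271 (0.2): `ChartEx` and `ChartChange` (helper692).
-/

set_option autoImplicit false

open scoped Topology ENNReal
open Filter Set MeasureTheory

noncomputable section

namespace Crest.Agent.R271.Rd692

open Crest.Agent.R271.Defs710

variable {n : ℕ}

/-- existence of charts for étale algebras -/
theorem nonempty_chart {B : Type} [CommRing B] [Algebra ℂ B] (z : Fin n → B)
    (het : RingHom.Etale ((MvPolynomial.aeval z : MvPolynomial (Fin n) ℂ →ₐ[ℂ] B) :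
      MvPolynomial (Fin n) ℂ →+* B)) (y : B →ₐ[ℂ] ℂ) : Nonempty (Chart z y) := by
  let _ : Algebra (MvPolynomial (Fin n) ℂ) B :=
    ((MvPolynomial.aeval z : MvPolynomial (Fin n) ℂ →ₐ[ℂ] B) :
      MvPolynomial (Fin n) ℂ →+* B).toAlgebra
  have _ : IsScalarTower ℂ (MvPolynomial (Fin n) ℂ) B :=
    IsScalarTower.of_algebraMap_eq fun r => by
      change algebraMap ℂ B r = MvPolynomial.aeval z (algebraMap ℂ _ r)
      simp
  have _ : Algebra.Etale (MvPolynomial (Fin n) ℂ) B := het
  have hz : ∀ i, algebraMap (MvPolynomial (Fin n) ℂ) B (MvPolynomial.X i) = z i := by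
    intro i
    change MvPolynomial.aeval z (MvPolynomial.X i) = z i
    simp
  have hcrd : ∀ y' : B →ₐ[ℂ] ℂ, crd (n := n) y' = fun i => y' (z i) := by
    intro y'; funext i; simp [crd, hz]
  obtain ⟨s, hs0, hs1, T, ε, hε, hs2⟩ := chart_core (n := n) y
  obtain ⟨r, hr, hball⟩ := Metric.eventually_nhds_iff_ball.mp hs1
  have hmem : ∀ ζ ∈ Metric.ball (0 : Fin n → ℂ) r, crd y + ζ ∈ Metric.ball (crd (n := n) y) r := by
    intro ζ hζ
    simpa [Metric.mem_ball, dist_eq_norm] using hζ
  refine ⟨⟨r, hr, fun ζ => s (crd y + ζ), by simp [hs0], ?_, ?_, T, ε, hε, ?_⟩⟩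
  · intro ζ hζ i
    have h1 := (hball _ (hmem ζ hζ)).1
    have h2 := congrFun h1 i
    simpa [hcrd] using h2
  · intro b ζ hζ
    have h1 := (hball _ (hmem ζ hζ)).2 b
    have h2 : AnalyticAt ℂ (fun ζ : Fin n → ℂ => crd (n := n) y + ζ) ζ :=
      analyticAt_const.add analyticAt_id
    exact AnalyticAt.comp (g := fun w => s w b) (f := fun ζ : Fin n → ℂ => crd (n := n) y + ζ)
      h1 h2
  · intro y' hy'
    have h1 := hs2 y' hy'
    have h2 : crd (n := n) y + (fun i => y' (z i) - y (z i)) = crd y' := by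
      funext i
      simp [hcrd]
    rw [h2]; exact h1

theorem chartEx (X : FCtx n) : ChartEx X := fun y => nonempty_chart X.z X.etale y

end Crest.Agent.R271.Rd692
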