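import Mathlib
import Crest.Agent.R271.Defs_710
import Crest.Agent.R271.Jet_956
import Crest.Agent.R271.RExt3_747
import Crest.Agent.R271.Rd3_692
import Crest.Agent.R271.KrullTrdeg_661

/-!
Row 271, G2 part 2 (helper956): fibre sums.
-/

set_option autoImplicit false

open Topology Filter Asymptotics MeasureTheory
open scoped ENNReal
open Crest.Agent.R271.Defs710

noncomputable section

namespace Crest.Agent.R271.AlgB956

variable {n : ℕ} {B : Type} [CommRing B] [Algebra ℂ B]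

/-- the fibre over `ζ` -/
abbrev Fib (z : Fin n → B) (ζ : Cn n) : Type := {y : B →ₐ[ℂ] ℂ // ∀ i, y (z i) = ζ i}

/-- The algebraic data (A): a primitive element and its minimal polynomial. -/
structure FibData (z : Fin n → B) (θ : B) (μ : Polynomial (MvPolynomial (Fin n) ℂ))
    (g : MvPolynomial (Fin n) ℂ) : Prop where
  monic : μ.Monic
  g_ne : g ≠ 0
  root : Polynomial.eval₂ ((MvPolynomial.aeval z : MvPolynomial (Fin n) ℂ →ₐ[ℂ] B) :
      MvPolynomial (Fin n) ℂ →+* B) θ μ = 0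
  der : Polynomial.eval₂ ((MvPolynomial.aeval z : MvPolynomial (Fin n) ℂ →ₐ[ℂ] B) :
      MvPolynomial (Fin n) ℂ →+* B) θ (Polynomial.derivative μ) ≠ 0
  sep : ∀ ζ : Cn n, MvPolynomial.eval ζ g ≠ 0 → (μ.map (MvPolynomial.eval ζ)).Separable
  bij : ∀ ζ : Cn n, MvPolynomial.eval ζ g ≠ 0 →
    Set.BijOn (fun y : B →ₐ[ℂ] ℂ => y θ) {y | ∀ i, y (z i) = ζ i}
      {t | (μ.map (MvPolynomial.eval ζ)).eval t = 0}

section

variable {z : Fin n → B} {θ : B} {μ : Polynomial (MvPolynomial (Fin n) ℂ)}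
  {g : MvPolynomial (Fin n) ℂ}

/-- the image of `μ` in `B[T]` -/
def muB (z : Fin n → B) (μ : Polynomial (MvPolynomial (Fin n) ℂ)) : Polynomial B :=
  μ.map ((MvPolynomial.aeval z : MvPolynomial (Fin n) ℂ →ₐ[ℂ] B) :
      MvPolynomial (Fin n) ℂ →+* B)

/-- `Q = μ / (T - θ)` -/
def qq (z : Fin n → B) (θ : B) (μ : Polynomial (MvPolynomial (Fin n) ℂ)) : Polynomial B :=
  muB z μ /ₘ (Polynomial.X - Polynomial.C θ)

/-- `μ'(θ)` -/
def dd (z : Fin n → B) (θ : B) (μ : Polynomial (MvPolynomial (Fin n) ℂ)) : B :=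
  Polynomial.eval₂ ((MvPolynomial.aeval z : MvPolynomial (Fin n) ℂ →ₐ[ℂ] B) :
      MvPolynomial (Fin n) ℂ →+* B) θ (Polynomial.derivative μ)

lemma comp_aeval (y : B →ₐ[ℂ] ℂ) {ζ : Cn n} (hy : ∀ i, y (z i) = ζ i)
    (P : MvPolynomial (Fin n) ℂ) : y (MvPolynomial.aeval z P) = MvPolynomial.eval ζ P := by
  have h1 : (y.comp (MvPolynomial.aeval z) : MvPolynomial (Fin n) ℂ →ₐ[ℂ] ℂ) =
      MvPolynomial.aeval ζ := by
    apply MvPolynomial.algHom_ext
    intro i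
    simp [hy i]
  have h2 := congrArg (fun g => g P) h1
  simp only [AlgHom.comp_apply] at h2
  rw [h2]
  simp

lemma comp_aeval' (y : B →ₐ[ℂ] ℂ) (P : MvPolynomial (Fin n) ℂ) :
    y (MvPolynomial.aeval z P) = MvPolynomial.eval (fun i => y (z i)) P :=
  comp_aeval y (fun _ => rfl) P

lemma map_muB (y : B →ₐ[ℂ] ℂ) {ζ : Cn n} (hy : ∀ i, y (z i) = ζ i) :
    (muB z μ).map (y : B →+* ℂ) = μ.map (MvPolynomial.eval ζ) := by
  rw [muB, Polynomial.map_map]
  congr 1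
  ext P
  · simp
  · simp [hy]

lemma qq_spec (hroot : Polynomial.eval₂ ((MvPolynomial.aeval z : MvPolynomial (Fin n) ℂ →ₐ[ℂ] B) :
      MvPolynomial (Fin n) ℂ →+* B) θ μ = 0) :
    (Polynomial.X - Polynomial.C θ) * qq z θ μ = muB z μ := by
  rw [qq, Polynomial.mul_divByMonic_eq_iff_isRoot, Polynomial.IsRoot.def, muB,
    Polynomial.eval_map]
  exact hroot

lemma qq_eval (hroot : Polynomial.eval₂ ((MvPolynomial.aeval z : MvPolynomial (Fin n) ℂ →ₐ[ℂ] B) :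
      MvPolynomial (Fin n) ℂ →+* B) θ μ = 0) : (qq z θ μ).eval θ = dd z θ μ := by
  have h1 := congrArg (fun p => (Polynomial.derivative p).eval θ) (qq_spec hroot)
  simp only [Polynomial.derivative_mul, Polynomial.derivative_sub, Polynomial.derivative_X,
    Polynomial.derivative_C, sub_zero, one_mul, Polynomial.eval_add, Polynomial.eval_mul,
    Polynomial.eval_sub, Polynomial.eval_X, Polynomial.eval_C, sub_self, zero_mul, add_zero] at h1
  rw [h1, muB, Polynomial.derivative_map, Polynomial.eval_map]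
  rfl

lemma qq_map_eval (hF : FibData z θ μ g) {ζ : Cn n} (hζ : MvPolynomial.eval ζ g ≠ 0)
    (y y0 : B →ₐ[ℂ] ℂ) (hy : ∀ i, y (z i) = ζ i) (hy0 : ∀ i, y0 (z i) = ζ i) (hne : y ≠ y0) :
    ((qq z θ μ).map (y : B →+* ℂ)).eval (y0 θ) = 0 := by
  have h1 := congrArg (fun p => (Polynomial.map (y : B →+* ℂ) p).eval (y0 θ)) (qq_spec hF.root)
  simp only [Polynomial.map_mul, Polynomial.map_sub, Polynomial.map_X, Polynomial.map_C,
    Polynomial.eval_mul, Polynomial.eval_sub, Polynomial.eval_X, Polynomial.eval_C,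
    map_muB y hy] at h1
  have h2 : (μ.map (MvPolynomial.eval ζ)).eval (y0 θ) = 0 := (hF.bij ζ hζ).mapsTo hy0
  rw [h2] at h1
  rcases mul_eq_zero.mp h1 with h3 | h3
  · exfalso
    apply hne
    exact (hF.bij ζ hζ).injOn hy hy0 (sub_eq_zero.mp h3).symm
  · exact h3

lemma natCard_fib (hF : FibData z θ μ g) {ζ : Cn n} (hζ : MvPolynomial.eval ζ g ≠ 0) :
    Nat.card (Fib z ζ) = μ.natDegree ∧ Finite (Fib z ζ) := by
  have h1 : Nat.card (Fib z ζ) =
      Nat.card {t : ℂ | (μ.map (MvPolynomial.eval ζ)).eval t = 0} :=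
    Nat.card_congr (hF.bij ζ hζ).equiv
  have hm : (μ.map (MvPolynomial.eval ζ)) ≠ 0 := (hF.monic.map _).ne_zero
  have h2 : {t : ℂ | (μ.map (MvPolynomial.eval ζ)).eval t = 0} =
      (μ.map (MvPolynomial.eval ζ)).rootSet ℂ := by
    ext t
    rw [Polynomial.mem_rootSet]
    simp [hm]
  have h3 : Fintype.card ((μ.map (MvPolynomial.eval ζ)).rootSet ℂ) =
      (μ.map (MvPolynomial.eval ζ)).natDegree :=
    Polynomial.card_rootSet_eq_natDegree (hF.sep ζ hζ) (IsAlgClosed.splits _)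
  refine ⟨?_, ?_⟩
  · rw [h1, h2, Nat.card_eq_fintype_card, h3, hF.monic.natDegree_map]
  · have : Finite {t : ℂ | (μ.map (MvPolynomial.eval ζ)).eval t = 0} := by
      rw [h2]; infer_instance
    exact Finite.of_equiv _ (hF.bij ζ hζ).equiv.symm

open Classical in
/-- the fibre sums -/
def HH (z : Fin n → B) (θ : B) (μ : Polynomial (MvPolynomial (Fin n) ℂ))
    (g : MvPolynomial (Fin n) ℂ) (G : (B →ₐ[ℂ] ℂ) → ℂ) (k : ℕ) (ζ : Cn n) : ℂ :=
  if MvPolynomial.eval ζ g ≠ 0 then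
    ∑' y : Fib z ζ, G y.1 * y.1 ((qq z θ μ).coeff k) else 0

lemma HH_eq (hF : FibData z θ μ g) (G : (B →ₐ[ℂ] ℂ) → ℂ) (k : ℕ) {ζ : Cn n}
    (hζ : MvPolynomial.eval ζ g ≠ 0) [Fintype (Fib z ζ)] :
    HH z θ μ g G k ζ = ∑ y : Fib z ζ, G y.1 * y.1 ((qq z θ μ).coeff k) := by
  rw [HH, if_pos hζ, tsum_fintype]

/-- Lagrange interpolation -/
theorem interp (hF : FibData z θ μ g) (G : (B →ₐ[ℂ] ℂ) → ℂ) {ζ : Cn n}
    (hζ : MvPolynomial.eval ζ g ≠ 0) (y0 : B →ₐ[ℂ] ℂ) (hy0 : ∀ i, y0 (z i) = ζ i) :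
    G y0 * y0 (dd z θ μ) =
      ∑ k ∈ Finset.range ((qq z θ μ).natDegree + 1), HH z θ μ g G k ζ * y0 θ ^ k := by
  have := (natCard_fib hF hζ).2
  have : Fintype (Fib z ζ) := Fintype.ofFinite _
  simp only [HH_eq hF G _ hζ, Finset.sum_mul]
  rw [Finset.sum_comm]
  have h1 : ∀ y : Fib z ζ, ∑ k ∈ Finset.range ((qq z θ μ).natDegree + 1),
      G y.1 * y.1 ((qq z θ μ).coeff k) * y0 θ ^ k =
        G y.1 * ((qq z θ μ).map (y.1 : B →+* ℂ)).eval (y0 θ) := by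
    intro y
    rw [Polynomial.eval_map, Polynomial.eval₂_eq_sum_range, Finset.mul_sum]
    refine Finset.sum_congr rfl fun k _ => ?_
    rw [mul_assoc]
    rfl
  simp only [h1]
  rw [Finset.sum_eq_single (⟨y0, hy0⟩ : Fib z ζ)]
  · simp only
    congr 1
    rw [Polynomial.eval_map, ← qq_eval hF.root]
    have := Polynomial.hom_eval₂ (qq z θ μ) (RingHom.id B) (y0 : B →+* ℂ) θ
    simp only [RingHom.comp_id] at this
    rw [Polynomial.eval]
    exact this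
  · intro y _ hne
    rw [qq_map_eval hF hζ y.1 y0 y.2 hy0 (fun h => hne (Subtype.ext h)), mul_zero]
  · intro h
    exact absurd (Finset.mem_univ _) h

/-- charts give nearby points of the fibres -/
def mv {ζ0 : Cn n} (C : ∀ y : Fib z ζ0, Chart z y.1) (ζ : Cn n)
    (hζ : ∀ y, ζ - ζ0 ∈ Metric.ball (0 : Cn n) (C y).r) (y : Fib z ζ0) : Fib z ζ :=
  ⟨(C y).s (ζ - ζ0), fun i => by
    rw [(C y).s_z _ (hζ y) i, y.2 i]; simp⟩

/-- the fibre sums are holomorphic off the discriminant -/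
theorem HH_differentiableAt (hF : FibData z θ μ g)
    (hC : ∀ y : B →ₐ[ℂ] ℂ, Nonempty (Chart z y)) {G : (B →ₐ[ℂ] ℂ) → ℂ}
    (hG : ∀ (y : B →ₐ[ℂ] ℂ) (C : Chart z y), AnalyticAt ℂ (fun ζ => G (C.s ζ)) 0) (k : ℕ)
    {ζ0 : Cn n} (hζ0 : MvPolynomial.eval ζ0 g ≠ 0) : DifferentiableAt ℂ (HH z θ μ g G k) ζ0 := by
  have hfin := (natCard_fib hF hζ0).2
  have hft : Fintype (Fib z ζ0) := Fintype.ofFinite _
  let C : ∀ y : Fib z ζ0, Chart z y.1 := fun y => (hC y.1).some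
  have hsub : Tendsto (fun ζ : Cn n => ζ - ζ0) (𝓝 ζ0) (𝓝 0) := by
    have : Continuous (fun ζ : Cn n => ζ - ζ0) := by fun_prop
    simpa using this.tendsto ζ0
  have h1 : ∀ᶠ ζ in 𝓝 ζ0, ∀ y, ζ - ζ0 ∈ Metric.ball (0 : Cn n) (C y).r := by
    rw [eventually_all]
    intro y
    exact hsub.eventually (Metric.ball_mem_nhds 0 (C y).r_pos)
  have hcont : ∀ (y : Fib z ζ0) (b : B),
      Tendsto (fun ζ : Cn n => (C y).s (ζ - ζ0) b) (𝓝 ζ0) (𝓝 (y.1 b)) := by
    intro y b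
    have h2 := (Jet956.germ_analyticAt (C y) b).continuousAt.tendsto
    simp only [(C y).s_zero] at h2
    exact h2.comp hsub
  have h2 : ∀ᶠ ζ in 𝓝 ζ0, ∀ y y' : Fib z ζ0, y ≠ y' →
      (C y).s (ζ - ζ0) θ ≠ (C y').s (ζ - ζ0) θ := by
    rw [eventually_all]; intro y
    rw [eventually_all]; intro y'
    by_cases hyy : y = y'
    · simp [hyy]
    · have h3 : y.1 θ ≠ y'.1 θ := by
        intro h
        exact hyy (Subtype.ext ((hF.bij ζ0 hζ0).injOn y.2 y'.2 h))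
      have h4 := (hcont y θ).sub (hcont y' θ)
      have h5 := h4.eventually_ne (sub_ne_zero.mpr h3)
      filter_upwards [h5] with ζ hζ _
      exact sub_ne_zero.mp hζ
  have h3 : ∀ᶠ ζ in 𝓝 ζ0, MvPolynomial.eval ζ g ≠ 0 := by
    have := (RExt747.analyticAt_eval g ζ0).continuousAt
    exact this.eventually_ne hζ0
  have h4 : HH z θ μ g G k =ᶠ[𝓝 ζ0] fun ζ => ∑ y : Fib z ζ0,
      G ((C y).s (ζ - ζ0)) * (C y).s (ζ - ζ0) ((qq z θ μ).coeff k) := by
    filter_upwards [h1, h2, h3] with ζ hζ1 hζ2 hζ3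
    have hfin' := (natCard_fib hF hζ3).2
    have hft' : Fintype (Fib z ζ) := Fintype.ofFinite _
    rw [HH_eq hF G k hζ3]
    have hinj : Function.Injective (mv C ζ hζ1) := by
      intro y y' hyy
      by_contra hne
      apply hζ2 y y' hne
      have := congrArg (fun w : Fib z ζ => w.1 θ) hyy
      exact this
    have hcard : Fintype.card (Fib z ζ0) = Fintype.card (Fib z ζ) := by
      rw [← Nat.card_eq_fintype_card, ← Nat.card_eq_fintype_card, (natCard_fib hF hζ0).1,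
        (natCard_fib hF hζ3).1]
    have hbij : Function.Bijective (mv C ζ hζ1) :=
      (Fintype.bijective_iff_injective_and_card _).mpr ⟨hinj, hcard⟩
    exact (Function.Bijective.sum_comp hbij
      (fun y : Fib z ζ => G y.1 * y.1 ((qq z θ μ).coeff k))).symm
  refine DifferentiableAt.congr_of_eventuallyEq ?_ h4
  refine DifferentiableAt.fun_sum fun y _ => ?_
  have h5 : AnalyticAt ℂ (fun ζ => G ((C y).s ζ) * (C y).s ζ ((qq z θ μ).coeff k)) 0 :=
    (hG y.1 (C y)).mul (Jet956.germ_analyticAt (C y) _)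
  have h6 : DifferentiableAt ℂ (fun ζ => G ((C y).s ζ) * (C y).s ζ ((qq z θ μ).coeff k))
      (ζ0 - ζ0) := by
    rw [sub_self]; exact h5.differentiableAt
  exact h6.comp ζ0 (f := fun ζ : Cn n => ζ - ζ0) (by fun_prop)

/-- Cauchy–Schwarz for the fibre sums -/
theorem HH_bound (hF : FibData z θ μ g) (G : (B →ₐ[ℂ] ℂ) → ℂ) (k : ℕ) {A : ℝ} {K : ℕ}
    (hA : 0 ≤ A) (hgr : ∀ y : B →ₐ[ℂ] ℂ, ‖y ((qq z θ μ).coeff k)‖ ≤
      A * (1 + ∑ i, ‖y (z i)‖ ^ 2) ^ K) (ζ : Cn n) (hζ : MvPolynomial.eval ζ g ≠ 0) :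
    ‖HH z θ μ g G k ζ‖ₑ ^ 2 ≤
      ENNReal.ofReal (μ.natDegree * (A * (1 + ∑ i, ‖ζ i‖ ^ 2) ^ K) ^ 2) *
        ∑' y : Fib z ζ, ENNReal.ofReal (‖G y.1‖ ^ 2) := by
  have hfin := (natCard_fib hF hζ).2
  have hft : Fintype (Fib z ζ) := Fintype.ofFinite _
  rw [HH_eq hF G k hζ, tsum_fintype, ← ENNReal.ofReal_sum_of_nonneg (fun _ _ => by positivity),
    ← ENNReal.ofReal_mul (by positivity), ← ofReal_norm, ← ENNReal.ofReal_pow (norm_nonneg _)]
  apply ENNReal.ofReal_le_ofReal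
  set T := A * (1 + ∑ i, ‖ζ i‖ ^ 2) ^ K with hT
  have hT0 : 0 ≤ T := by positivity
  have h1 : ‖∑ y : Fib z ζ, G y.1 * y.1 ((qq z θ μ).coeff k)‖ ≤ ∑ y : Fib z ζ, ‖G y.1‖ * T := by
    refine (norm_sum_le _ _).trans (Finset.sum_le_sum fun y _ => ?_)
    rw [norm_mul]
    gcongr
    have h2 := hgr y.1
    simp only [y.2] at h2
    exact h2
  have hcard : (Finset.univ : Finset (Fib z ζ)).card = μ.natDegree := by
    rw [Finset.card_univ, ← Nat.card_eq_fintype_card, (natCard_fib hF hζ).1]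
  calc ‖∑ y : Fib z ζ, G y.1 * y.1 ((qq z θ μ).coeff k)‖ ^ 2
      ≤ (∑ y : Fib z ζ, ‖G y.1‖ * T) ^ 2 := by gcongr
    _ = (∑ y : Fib z ζ, ‖G y.1‖) ^ 2 * T ^ 2 := by rw [← Finset.sum_mul, mul_pow]
    _ ≤ ((Finset.univ : Finset (Fib z ζ)).card * ∑ y : Fib z ζ, ‖G y.1‖ ^ 2) * T ^ 2 := by
        gcongr
        exact sq_sum_le_card_mul_sum_sq
    _ = _ := by rw [hcard]; ring

end

end Crest.Agent.R271.AlgB956
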