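import Crest.Agent.R271.Defs_710

/-!
# Row 271, team G: exact statements exchanged between G2 (956, 255), G3 (792), G4 (747), G5 (131)
-/

set_option autoImplicit false

noncomputable section

open scoped ENNReal Topology
open MeasureTheory

namespace Crest.Agent.R271.GSpec792

open Crest.Agent.R271.Defs710

variable {n : ℕ}

/-- `F` is holomorphic on `M` -/
def HolM (X : FCtx n) (F : (X.B →ₐ[ℂ] ℂ) → ℂ) : Prop :=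
  ∀ (y : X.B →ₐ[ℂ] ℂ) (C : Chart X.z y), AnalyticAt ℂ (fun ζ => F (C.s ζ)) 0

/-- (G3) the global solver -/
def SolverStmt (X : FCtx n) : Prop :=
  ∀ (y₀ : X.B →ₐ[ℂ] ℂ) (C : Chart X.z y₀) (ι : Type) [Fintype ι] (S : ι → Finset X.B)
    (c : ι → ℝ) (Y : Fin (n + 1) → X.B) (a r₁ r₂ : ℝ),
    (∀ i, 0 ≤ c i) → (∀ i, ∃ b ∈ S i, b ≠ 0) → IsUnit (Y 0) →
    (∀ i : Fin n, X.z i * Y 0 = Y i.succ) → 0 < a → 0 < r₁ → r₁ < r₂ → r₂ < C.r →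
    (∀ ζ : Cn n, r₁ ≤ ‖ζ‖ → ‖ζ‖ ≤ r₂ → LInt (fun ζ => wB S c (C.s ζ)) ζ) →
    ∃ F : (X.B →ₐ[ℂ] ℂ) → ℂ, HolM X F ∧
      (¬ LInt (fun ζ => wB S c (C.s ζ)) 0 → F y₀ = 1) ∧
      ∀ (g : (X.B →ₐ[ℂ] ℂ) → ℝ≥0∞) (K : ℝ≥0∞), K ≠ ∞ →
        (∀ y, g y ≤ K * (wB S c y * (ENNReal.ofReal (∑ j, ‖y (Y j)‖ ^ 2)) ^ (-a))) →
        ∫⁻ ζ in Metric.ball (0 : Cn n) r₂, g (C.s ζ) < ∞ →
        lintM X.z (fun y => ENNReal.ofReal (‖F y‖ ^ 2) * g y) < ∞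

/-- (G2) algebraicity, two independent exponents -/
def AlgStmt (X : FCtx n) : Prop :=
  ∀ (F : (X.B →ₐ[ℂ] ℂ) → ℂ) (N M : ℕ), HolM X F →
    lintM X.z (fun y => ENNReal.ofReal
      (‖F y‖ ^ 2 * ‖y X.h‖ ^ (2 * N) / (1 + ∑ i, ‖y (X.z i)‖ ^ 2) ^ M)) < ∞ →
    ∃ b : X.B, ∀ y : X.B →ₐ[ℂ] ℂ, F y = y b

/-- polynomial growth -/
def GrowthStmt (X : FCtx n) : Prop :=
  ∀ b : X.B, ∃ (C : ℝ) (N M : ℕ), ∀ y : X.B →ₐ[ℂ] ℂ,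
    ‖y b‖ ^ 2 * ‖y X.h‖ ^ (2 * N) ≤ C * (1 + ∑ i, ‖y (X.z i)‖ ^ 2) ^ M

end Crest.Agent.R271.GSpec792
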