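import Mathlib

/-!
Row 271 (helper956): the zero set of a nonzero polynomial on `ℂⁿ` is a null set.
-/

set_option autoImplicit false

open Topology Filter MeasureTheory

noncomputable section

namespace Crest.Agent.R271.Null956

variable {n : ℕ}

lemma eval_smul_homog {k : ℕ} {Q : MvPolynomial (Fin n) ℂ} (hQ : Q.IsHomogeneous k) (c : ℂ)
    (w : Fin n → ℂ) : MvPolynomial.eval (c • w) Q = c ^ k * MvPolynomial.eval w Q := by
  rw [MvPolynomial.eval_eq, MvPolynomial.eval_eq, Finset.mul_sum]
  refine Finset.sum_congr rfl fun d hd => ?_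
  have hdeg : ∑ i ∈ d.support, d i = k := by
    have := hQ (MvPolynomial.mem_support_iff.mp hd)
    rw [Finsupp.weight_apply] at this
    rw [← this, Finsupp.sum]
    simp
  simp only [Pi.smul_apply, smul_eq_mul, mul_pow, Finset.prod_mul_distrib]
  rw [Finset.prod_pow_eq_pow_sum, hdeg]
  ring

theorem ae_eval_ne {g : MvPolynomial (Fin n) ℂ} (hg : g ≠ 0) :
    ∀ᵐ ζ : Fin n → ℂ, MvPolynomial.eval ζ g ≠ 0 := by
  classical
  obtain ⟨m, hm, hmax⟩ : ∃ m, MvPolynomial.homogeneousComponent m g ≠ 0 ∧
      ∀ k, m < k → MvPolynomial.homogeneousComponent k g = 0 := by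
    set S := (Finset.range (g.totalDegree + 1)).filter
      (fun k => MvPolynomial.homogeneousComponent k g ≠ 0) with hS
    have hne : S.Nonempty := by
      by_contra h
      rw [Finset.not_nonempty_iff_eq_empty] at h
      apply hg
      rw [← MvPolynomial.sum_homogeneousComponent g]
      refine Finset.sum_eq_zero fun k hk => ?_
      by_contra h1
      have : k ∈ S := by simp [hS, Finset.mem_range.mp hk, h1]
      rw [h] at this
      simp at this
    refine ⟨S.max' hne, (Finset.mem_filter.mp (S.max'_mem hne)).2, fun k hk => ?_⟩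
    by_contra h1
    by_cases hk' : k < g.totalDegree + 1
    · have : k ∈ S := by simp only [hS, Finset.mem_filter, Finset.mem_range]; exact ⟨hk', h1⟩
      exact absurd (S.le_max' k this) (not_le.mpr hk)
    · apply h1
      apply MvPolynomial.homogeneousComponent_eq_zero
      omega
  have hsum : g = ∑ k ∈ Finset.range (m + 1), MvPolynomial.homogeneousComponent k g := by
    conv_lhs => rw [← MvPolynomial.sum_homogeneousComponent g]
    rcases le_total (g.totalDegree + 1) (m + 1) with h1 | h1
    · refine Finset.sum_subset (Finset.range_subset_range.mpr h1) ?_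
      intro k _ hk
      apply MvPolynomial.homogeneousComponent_eq_zero
      simpa [Nat.lt_succ_iff] using hk
    · symm
      refine Finset.sum_subset (Finset.range_subset_range.mpr h1) ?_
      intro k _ hk
      exact hmax k (by simpa [Nat.lt_succ_iff] using hk)
  obtain ⟨w, hw⟩ : ∃ w : Fin n → ℂ, MvPolynomial.eval w (MvPolynomial.homogeneousComponent m g) ≠ 0 := by
    by_contra h
    push Not at h
    apply hm
    apply MvPolynomial.funext
    intro x
    rw [h x, map_zero]
  have hcont : Continuous (fun ζ : Fin n → ℂ => MvPolynomial.eval ζ g) :=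
    MvPolynomial.continuous_eval g
  have hmeas : MeasurableSet {ζ : Fin n → ℂ | MvPolynomial.eval ζ g ≠ 0} :=
    (isOpen_ne.preimage hcont).measurableSet
  refine ae_mem_of_ae_add_linearMap_mem (𝕜 := ℂ) (LinearMap.toSpanSingleton ℂ (Fin n → ℂ) w)
    volume volume hmeas ?_
  intro y
  set q : Polynomial ℂ := MvPolynomial.aeval
    (fun i => Polynomial.C (y i) + Polynomial.C (w i) * Polynomial.X) g with hq
  have hqe : ∀ t : ℂ, q.eval t = MvPolynomial.eval (y + t • w) g := by
    intro t
    have h1 : ((Polynomial.aeval t).comp (MvPolynomial.aeval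
        (fun i => Polynomial.C (y i) + Polynomial.C (w i) * Polynomial.X)) :
        MvPolynomial (Fin n) ℂ →ₐ[ℂ] ℂ) = MvPolynomial.aeval (y + t • w) := by
      apply MvPolynomial.algHom_ext
      intro i
      simp only [AlgHom.comp_apply, MvPolynomial.aeval_X, map_add, map_mul, Polynomial.aeval_C,
        Polynomial.aeval_X, Algebra.algebraMap_self, RingHom.id_apply, Pi.add_apply,
        Pi.smul_apply, smul_eq_mul]
      ring
    have h2 := congrArg (fun f => f g) h1
    simp only [AlgHom.comp_apply] at h2
    rw [← hq] at h2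
    rw [← Polynomial.coe_aeval_eq_eval, h2]
    simp
  have hq0 : q ≠ 0 := by
    intro h0
    have h1 : ∀ t : ℂ, MvPolynomial.eval (y + t • w) g = 0 := by
      intro t; rw [← hqe, h0]; simp
    set r : ℂ → ℂ := fun s => ∑ k ∈ Finset.range (m + 1),
      s ^ (m - k) * MvPolynomial.eval (s • y + w) (MvPolynomial.homogeneousComponent k g) with hr
    have hr0 : r 0 ≠ 0 := by
      have : r 0 = MvPolynomial.eval w (MvPolynomial.homogeneousComponent m g) := by
        simp only [hr]
        rw [Finset.sum_eq_single m]
        · simp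
        · intro k hk hne
          have : m - k ≠ 0 := by
            have := Finset.mem_range.mp hk
            omega
          rw [zero_pow this, zero_mul]
        · simp
      rw [this]; exact hw
    have hrs : ∀ s : ℂ, s ≠ 0 → r s = 0 := by
      intro s hs
      have h2 := h1 s⁻¹
      have h3 : y + s⁻¹ • w = s⁻¹ • (s • y + w) := by
        rw [smul_add, smul_smul, inv_mul_cancel₀ hs, one_smul]
      rw [h3, hsum, map_sum] at h2
      have h4 : r s = s ^ m * ∑ k ∈ Finset.range (m + 1),
          MvPolynomial.eval (s⁻¹ • (s • y + w)) (MvPolynomial.homogeneousComponent k g) := by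
        simp only [hr]
        rw [Finset.mul_sum]
        refine Finset.sum_congr rfl fun k hk => ?_
        rw [eval_smul_homog (MvPolynomial.homogeneousComponent_isHomogeneous k g), ← mul_assoc]
        congr 1
        have hk' : k ≤ m := by
          have := Finset.mem_range.mp hk
          omega
        rw [inv_pow, ← div_eq_mul_inv, eq_div_iff (pow_ne_zero _ hs), ← pow_add]
        congr 1
        omega
      rw [h4, h2, mul_zero]
    have hrc : Continuous r := by
      refine continuous_finsetSum _ fun k _ => ?_
      refine (continuous_pow _).mul ?_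
      exact (MvPolynomial.continuous_eval _).comp (by fun_prop)
    have h5 : Tendsto r (𝓝[≠] 0) (𝓝 (r 0)) := (hrc.tendsto 0).mono_left nhdsWithin_le_nhds
    have h6 : Tendsto r (𝓝[≠] 0) (𝓝 0) := by
      refine tendsto_const_nhds.congr' ?_
      filter_upwards [self_mem_nhdsWithin] with s hs
      exact (hrs s hs).symm
    exact hr0 (tendsto_nhds_unique h5 h6)
  rw [ae_iff]
  have hset : {a : ℂ | ¬ y + (LinearMap.toSpanSingleton ℂ (Fin n → ℂ) w) a ∈
      {ζ : Fin n → ℂ | MvPolynomial.eval ζ g ≠ 0}} ⊆ (q.roots.toFinset : Set ℂ) := by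
    intro t ht
    simp only [LinearMap.toSpanSingleton_apply, Set.mem_ofPred_eq, not_not] at ht
    simp only [Finset.mem_coe, Multiset.mem_toFinset, Polynomial.mem_roots hq0,
      Polynomial.IsRoot.def]
    rw [hqe]; exact ht
  exact measure_mono_null hset (Finset.measure_zero _ _)

end Crest.Agent.R271.Null956
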