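import Crest.Agent.R271.Defs_710

/-!
Row 271, R3: the maximal ideal of a point of an étale `ℂ[z]`-algebra; `ord_y` = analytic order;
injectivity of `B → germs`.
-/

set_option autoImplicit false

open scoped Topology BigOperators
open Filter Asymptotics

noncomputable section

namespace Crest.Agent.R271.Ord969

open Crest.Agent.R271.Defs710

variable {n : ℕ} {B : Type} [CommRing B] [Algebra ℂ B]

/-- `zᵢ - zᵢ(y)` -/
def uu (z : Fin n → B) (y : B →ₐ[ℂ] ℂ) (i : Fin n) : B := z i - algebraMap ℂ B (y (z i))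

/-- the ideal generated by `zᵢ - zᵢ(y)` -/
def JJ (z : Fin n → B) (y : B →ₐ[ℂ] ℂ) : Ideal B := Ideal.span (Set.range (uu z y))

@[simp] theorem mem_mI (y : B →ₐ[ℂ] ℂ) (b : B) : b ∈ mI y ↔ y b = 0 := by
  simp [mI, RingHom.mem_ker]

theorem sub_mem_mI (y : B →ₐ[ℂ] ℂ) (b : B) : b - algebraMap ℂ B (y b) ∈ mI y := by
  simp

@[simp] theorem y_uu (z : Fin n → B) (y : B →ₐ[ℂ] ℂ) (i : Fin n) : y (uu z y i) = 0 := by
  simp [uu]

theorem uu_mem (z : Fin n → B) (y : B →ₐ[ℂ] ℂ) (i : Fin n) : uu z y i ∈ mI y := by simp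

theorem JJ_le (z : Fin n → B) (y : B →ₐ[ℂ] ℂ) : JJ z y ≤ mI y := by
  rw [JJ, Ideal.span_le]
  rintro _ ⟨i, rfl⟩
  exact uu_mem z y i

theorem mI_ne_top (y : B →ₐ[ℂ] ℂ) : mI y ≠ ⊤ := by
  intro h
  have : (1 : B) ∈ mI y := by rw [h]; trivial
  simp at this

/-- (R3.0) `𝔪_y ≤ (zᵢ - zᵢ(y)) + 𝔪_y²` -/
theorem mI_le_of_unramified (z : Fin n → B) (y : B →ₐ[ℂ] ℂ)
    (hz : RingHom.Etale ((MvPolynomial.aeval z : MvPolynomial (Fin n) ℂ →ₐ[ℂ] B) :
      MvPolynomial (Fin n) ℂ →+* B)) :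
    mI y ≤ JJ z y ⊔ mI y ^ 2 := by
  set P := MvPolynomial (Fin n) ℂ
  set f : P →+* B := ((MvPolynomial.aeval z : MvPolynomial (Fin n) ℂ →ₐ[ℂ] B) :
      MvPolynomial (Fin n) ℂ →+* B) with hf
  let _ : Algebra P B := f.toAlgebra
  have : Algebra.Etale P B := hz
  have : Algebra.FormallyUnramified P B := inferInstance
  set N : Ideal B := JJ z y ⊔ mI y ^ 2 with hN
  have hNm : N ≤ mI y := sup_le (JJ_le z y) (Ideal.pow_le_self two_ne_zero)
  let g₁ : B →ₐ[P] B ⧸ N := Ideal.Quotient.mkₐ P N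
  have hcomm : ∀ p : P, (Ideal.Quotient.mk N) (algebraMap ℂ B (y (f p))) =
      algebraMap P (B ⧸ N) p := by
    have hEq : (((Ideal.Quotient.mk N).comp (algebraMap ℂ B)).comp
        ((y : B →+* ℂ).comp f)) = (Ideal.Quotient.mk N).comp f := by
      apply MvPolynomial.ringHom_ext
      · intro r
        have : f (MvPolynomial.C r) = algebraMap ℂ B r := MvPolynomial.aeval_C z r
        simp [this]
      · intro i
        have hfi : f (MvPolynomial.X i) = z i := MvPolynomial.aeval_X z i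
        have : z i - algebraMap ℂ B (y (z i)) ∈ N :=
          le_sup_left (a := JJ z y) (Ideal.subset_span ⟨i, rfl⟩)
        simp only [RingHom.comp_apply, RingHom.coe_coe, hfi]
        symm
        exact Ideal.Quotient.eq.2 this
    intro p
    exact RingHom.congr_fun hEq p
  let g₂ : B →ₐ[P] B ⧸ N :=
    { toRingHom := ((Ideal.Quotient.mk N).comp (algebraMap ℂ B)).comp (y : B →+* ℂ)
      commutes' := fun p => hcomm p }
  have hnil : IsNilpotent ((mI y).map (Ideal.Quotient.mk N)) := by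
    refine ⟨2, ?_⟩
    rw [← Ideal.map_pow, Ideal.zero_eq_bot, Ideal.map_eq_bot_iff_le_ker, Ideal.mk_ker]
    exact le_sup_right
  have hEq : g₁ = g₂ := by
    apply Algebra.FormallyUnramified.ext ((mI y).map (Ideal.Quotient.mk N)) hnil
    intro b
    refine Ideal.Quotient.eq.2 ?_
    change (Ideal.Quotient.mk N b) - (Ideal.Quotient.mk N) (algebraMap ℂ B (y b)) ∈ _
    rw [← map_sub]
    exact Ideal.mem_map_of_mem _ (sub_mem_mI y b)
  intro b hb
  have h := DFunLike.congr_fun hEq b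
  change (Ideal.Quotient.mk N b) = (Ideal.Quotient.mk N) (algebraMap ℂ B (y b)) at h
  rw [mem_mI] at hb
  rw [hb, map_zero, map_zero] at h
  exact Ideal.Quotient.eq_zero_iff_mem.1 h

/-- first order expansion -/
theorem exists_linear {z : Fin n → B} {y : B →ₐ[ℂ] ℂ} (h0 : mI y ≤ JJ z y ⊔ mI y ^ 2)
    {b : B} (hb : b ∈ mI y) :
    ∃ Q : MvPolynomial (Fin n) ℂ, Q.IsHomogeneous 1 ∧
      b - MvPolynomial.aeval (uu z y) Q ∈ mI y ^ 2 := by
  obtain ⟨b₁, hb₁, b₂, hb₂, rfl⟩ := Submodule.mem_sup.1 (h0 hb)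
  obtain ⟨c, hc⟩ := (Submodule.mem_span_range_iff_exists_fun B).1 hb₁
  refine ⟨∑ i, MvPolynomial.C (y (c i)) * MvPolynomial.X i, ?_, ?_⟩
  · apply MvPolynomial.IsHomogeneous.sum
    intro i _
    simpa using (MvPolynomial.isHomogeneous_C _ (y (c i))).mul (MvPolynomial.isHomogeneous_X ℂ i)
  · rw [← hc]
    simp only [map_sum, map_mul, MvPolynomial.aeval_C, MvPolynomial.aeval_X, smul_eq_mul]
    have : ∑ i, c i * uu z y i + b₂ - ∑ i, algebraMap ℂ B (y (c i)) * uu z y i =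
        ∑ i, (c i - algebraMap ℂ B (y (c i))) * uu z y i + b₂ := by
      simp only [sub_mul, Finset.sum_sub_distrib]; ring
    rw [this]
    refine Ideal.add_mem _ (Ideal.sum_mem _ fun i _ => ?_) hb₂
    rw [pow_two]
    exact Ideal.mul_mem_mul (sub_mem_mI y _) (uu_mem z y i)

theorem aeval_mem_pow {z : Fin n → B} {y : B →ₐ[ℂ] ℂ} {e : ℕ} {Q : MvPolynomial (Fin n) ℂ}
    (hQ : Q.IsHomogeneous e) : MvPolynomial.aeval (uu z y) Q ∈ mI y ^ e := by
  rw [Q.as_sum, map_sum]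
  refine Ideal.sum_mem _ fun d hd => ?_
  rw [MvPolynomial.aeval_monomial]
  refine Ideal.mul_mem_left _ _ ?_
  have hdeg : d.sum (fun _ k => k) = e := by
    have := hQ (MvPolynomial.mem_support_iff.1 hd)
    simpa [Finsupp.weight_apply, Finsupp.sum] using this
  rw [← hdeg, Finsupp.prod, Finsupp.sum, ← Finset.prod_pow_eq_pow_sum]
  exact Ideal.prod_mem_prod fun i _ => Ideal.pow_mem_pow (uu_mem z y i) _

/-- (R3.0') leading form of an element of `𝔪_y^e` -/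
theorem exists_leading {z : Fin n → B} {y : B →ₐ[ℂ] ℂ} (h0 : mI y ≤ JJ z y ⊔ mI y ^ 2)
    (e : ℕ) {b : B} (hb : b ∈ mI y ^ e) :
    ∃ Q : MvPolynomial (Fin n) ℂ, Q.IsHomogeneous e ∧
      b - MvPolynomial.aeval (uu z y) Q ∈ mI y ^ (e + 1) := by
  induction e generalizing b with
  | zero =>
    refine ⟨MvPolynomial.C (y b), MvPolynomial.isHomogeneous_C _ _, ?_⟩
    simp
  | succ e ih =>
    rw [pow_succ] at hb
    refine Submodule.mul_induction_on hb ?_ ?_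
    · intro a ha c hc
      obtain ⟨Q, hQ, hQ'⟩ := ih ha
      obtain ⟨L, hL, hL'⟩ := exists_linear h0 hc
      refine ⟨Q * L, hQ.mul hL, ?_⟩
      have : a * c - MvPolynomial.aeval (uu z y) (Q * L) =
          (a - MvPolynomial.aeval (uu z y) Q) * c +
            MvPolynomial.aeval (uu z y) Q * (c - MvPolynomial.aeval (uu z y) L) := by
        rw [map_mul]; ring
      rw [this]
      refine Ideal.add_mem _ ?_ ?_
      · rw [pow_succ (mI y) (e + 1)]
        exact Ideal.mul_mem_mul hQ' hc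
      · rw [show e + 1 + 1 = e + 2 from rfl, pow_add]
        exact Ideal.mul_mem_mul (aeval_mem_pow hQ) hL'
    · rintro a c ⟨Q, hQ, hQ'⟩ ⟨L, hL, hL'⟩
      refine ⟨Q + L, hQ.add hL, ?_⟩
      have : a + c - MvPolynomial.aeval (uu z y) (Q + L) =
          (a - MvPolynomial.aeval (uu z y) Q) + (c - MvPolynomial.aeval (uu z y) L) := by
        rw [map_add]; ring
      rw [this]
      exact Ideal.add_mem _ hQ' hL'

/-- every element of `B` is a polynomial in `z - z(y)` of degree `< e` modulo `𝔪_y^e` -/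
theorem exists_poly {z : Fin n → B} {y : B →ₐ[ℂ] ℂ} (h0 : mI y ≤ JJ z y ⊔ mI y ^ 2)
    (e : ℕ) (b : B) :
    ∃ p : MvPolynomial (Fin n) ℂ, (∀ d ∈ p.support, d.degree < e) ∧
      b - MvPolynomial.aeval (uu z y) p ∈ mI y ^ e := by
  induction e with
  | zero => exact ⟨0, by simp, by simp⟩
  | succ e ih =>
    obtain ⟨p, hp, hp'⟩ := ih
    obtain ⟨Q, hQ, hQ'⟩ := exists_leading h0 e hp'
    refine ⟨p + Q, ?_, ?_⟩
    · intro d hd
      rcases Finset.mem_union.1 (MvPolynomial.support_add hd) with h | h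
      · exact (hp d h).trans (Nat.lt_succ_self e)
      · have := hQ (MvPolynomial.mem_support_iff.1 h)
        rw [Finsupp.degree_eq_weight_one]
        exact this ▸ Nat.lt_succ_self e
    · rw [map_add, ← sub_sub]
      exact hQ'

/-- (R3.3) -/
theorem exists_mul_mem_JJ [IsNoetherianRing B] {z : Fin n → B} {y : B →ₐ[ℂ] ℂ}
    (h0 : mI y ≤ JJ z y ⊔ mI y ^ 2) :
    ∃ g : B, y g ≠ 0 ∧ ∀ f : B, y f = 0 → g * f ∈ JJ z y := by
  obtain ⟨r, hr, hr'⟩ := Submodule.exists_sub_one_mem_and_smul_le_of_fg_of_le_sup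
    (I := mI y) (N := JJ z y) (N' := mI y) (P := mI y) (IsNoetherian.noetherian _) le_rfl
    (by simpa [pow_two] using h0)
  refine ⟨r, ?_, ?_⟩
  · rw [mem_mI, map_sub, map_one, sub_eq_zero] at hr
    rw [hr]; exact one_ne_zero
  · intro f hf
    exact hr' (Submodule.smul_mem_pointwise_smul f r (mI y) ((mem_mI y f).2 hf))

/-! ### Charts -/

section chart

variable {z : Fin n → B} {y : B →ₐ[ℂ] ℂ} (C : Chart z y)

theorem zero_mem_ball : (0 : Cn n) ∈ Metric.ball (0 : Cn n) C.r := Metric.mem_ball_self C.r_pos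

theorem ball_mem : Metric.ball (0 : Cn n) C.r ∈ 𝓝 (0 : Cn n) :=
  Metric.ball_mem_nhds _ C.r_pos

theorem s_uu {ζ : Cn n} (hζ : ζ ∈ Metric.ball (0 : Cn n) C.r) (i : Fin n) :
    C.s ζ (uu z y i) = ζ i := by
  have h := C.s_z ζ hζ i
  simp only [uu, map_sub, AlgHom.commutes, h]
  simp

theorem s_aeval {ζ : Cn n} (hζ : ζ ∈ Metric.ball (0 : Cn n) C.r)
    (Q : MvPolynomial (Fin n) ℂ) :
    C.s ζ (MvPolynomial.aeval (uu z y) Q) = MvPolynomial.eval ζ Q := by
  rw [← MvPolynomial.coe_aeval_eq_eval, RingHom.coe_coe]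
  have : (C.s ζ).comp (MvPolynomial.aeval (uu z y)) = MvPolynomial.aeval ζ := by
    apply MvPolynomial.algHom_ext
    intro i
    simp [s_uu C hζ i]
  exact DFunLike.congr_fun this Q

theorem analyticAt (b : B) : AnalyticAt ℂ (fun ζ => C.s ζ b) 0 :=
  C.anal b 0 (zero_mem_ball C)

theorem isBigO_one (b : B) : (fun ζ => C.s ζ b) =O[𝓝 0] (fun _ => (1 : ℝ)) :=
  (analyticAt C b).continuousAt.isBigO_one ℝ

theorem isBigO_norm {b : B} (hb : b ∈ mI y) :
    (fun ζ => C.s ζ b) =O[𝓝 0] (fun ζ : Cn n => ‖ζ‖) := by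
  have h := (analyticAt C b).differentiableAt.isBigO_sub
  have h0 : C.s 0 b = 0 := by rw [C.s_zero]; simpa using hb
  simp only [h0, sub_zero] at h
  exact h.norm_right

/-- (R3.1) → -/
theorem isBigO_of_mem {e : ℕ} {b : B} (hb : b ∈ mI y ^ e) :
    (fun ζ => C.s ζ b) =O[𝓝 0] (fun ζ : Cn n => ‖ζ‖ ^ e) := by
  induction e generalizing b with
  | zero => simpa using isBigO_one C b
  | succ e ih =>
    rw [pow_succ] at hb
    refine Submodule.mul_induction_on hb ?_ ?_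
    · intro a ha c hc
      have := (ih ha).mul (isBigO_norm C hc)
      simpa [pow_succ, map_mul] using this
    · intro a c ha hc
      have := ha.add hc
      simpa [map_add] using this

theorem eval_smul_homog {e : ℕ} {Q : MvPolynomial (Fin n) ℂ} (hQ : Q.IsHomogeneous e)
    (t : ℂ) (ζ : Cn n) :
    MvPolynomial.eval (t • ζ) Q = t ^ e * MvPolynomial.eval ζ Q := by
  rw [MvPolynomial.eval_eq, MvPolynomial.eval_eq, Finset.mul_sum]
  refine Finset.sum_congr rfl fun d hd => ?_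
  have hdeg : ∑ i ∈ d.support, d i = e := by
    have := hQ (MvPolynomial.mem_support_iff.1 hd)
    simpa [Finsupp.weight_apply, Finsupp.sum] using this
  have : ∏ i ∈ d.support, (t • ζ) i ^ d i = t ^ e * ∏ i ∈ d.support, ζ i ^ d i := by
    simp only [Pi.smul_apply, smul_eq_mul, mul_pow, Finset.prod_mul_distrib]
    rw [Finset.prod_pow_eq_pow_sum, hdeg]
  rw [this]; ring

/-- a homogeneous polynomial which is `O(‖ζ‖^{e+1})` vanishes -/
theorem homog_eq_zero {e : ℕ} {Q : MvPolynomial (Fin n) ℂ} (hQ : Q.IsHomogeneous e)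
    (h : (fun ζ : Cn n => MvPolynomial.eval ζ Q) =O[𝓝 0] (fun ζ : Cn n => ‖ζ‖ ^ (e + 1))) :
    Q = 0 := by
  apply MvPolynomial.funext
  intro ζ
  rw [map_zero]
  by_contra hne
  -- along the line `t ↦ t ζ`
  have hline : Tendsto (fun t : ℝ => ((t : ℂ) • ζ : Cn n)) (𝓝[>] 0) (𝓝 0) := by
    have : Continuous (fun t : ℝ => ((t : ℂ) • ζ : Cn n)) := by fun_prop
    have h1 := this.tendsto 0
    simp only [Complex.ofReal_zero, zero_smul] at h1
    exact h1.mono_left nhdsWithin_le_nhds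
  have h1 := h.comp_tendsto hline
  obtain ⟨K, hK⟩ := h1.bound
  have h2 : ∀ᶠ t : ℝ in 𝓝[>] 0, ‖MvPolynomial.eval ζ Q‖ ≤ K * ‖ζ‖ ^ (e + 1) * t := by
    filter_upwards [hK, self_mem_nhdsWithin] with t ht ht0
    have ht0' : (0 : ℝ) < t := ht0
    simp only [Function.comp_apply, eval_smul_homog hQ, norm_mul, norm_pow, norm_smul,
      Complex.norm_real, Real.norm_eq_abs, abs_of_pos ht0', abs_norm] at ht
    have : t ^ e * ‖MvPolynomial.eval ζ Q‖ ≤ t ^ e * (K * ‖ζ‖ ^ (e + 1) * t) := by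
      calc t ^ e * ‖MvPolynomial.eval ζ Q‖ ≤ K * (t * ‖ζ‖) ^ (e + 1) := ht
        _ = t ^ e * (K * ‖ζ‖ ^ (e + 1) * t) := by ring
    exact le_of_mul_le_mul_left this (pow_pos ht0' e)
  have h3 : Tendsto (fun t : ℝ => K * ‖ζ‖ ^ (e + 1) * t) (𝓝[>] 0) (𝓝 0) := by
    have : Continuous (fun t : ℝ => K * ‖ζ‖ ^ (e + 1) * t) := by fun_prop
    have h1 := this.tendsto 0
    simp only [mul_zero] at h1
    exact h1.mono_left nhdsWithin_le_nhds
  have h4 : ‖MvPolynomial.eval ζ Q‖ ≤ 0 := ge_of_tendsto h3 h2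
  exact hne (norm_le_zero_iff.1 h4)

theorem isBigO_pow_mono {e e' : ℕ} (h : e' ≤ e) :
    (fun ζ : Cn n => ‖ζ‖ ^ e) =O[𝓝 0] (fun ζ : Cn n => ‖ζ‖ ^ e') := by
  apply IsBigO.of_bound 1
  filter_upwards [Metric.ball_mem_nhds (0 : Cn n) one_pos] with ζ hζ
  have h1 : ‖ζ‖ ≤ 1 := by
    have := Metric.mem_ball.1 hζ; rw [dist_zero_right] at this; exact this.le
  rw [one_mul, norm_pow, norm_pow, norm_norm]
  exact pow_le_pow_of_le_one (norm_nonneg _) h1 h

/-- (R3.1) ← -/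
theorem mem_of_isBigO (h0 : mI y ≤ JJ z y ⊔ mI y ^ 2) {e : ℕ} {b : B}
    (hb : (fun ζ => C.s ζ b) =O[𝓝 0] (fun ζ : Cn n => ‖ζ‖ ^ e)) : b ∈ mI y ^ e := by
  suffices H : ∀ e' ≤ e, b ∈ mI y ^ e' from H e le_rfl
  intro e' he'
  induction e' with
  | zero => simp
  | succ e' ih =>
    have hmem := ih (by omega)
    obtain ⟨Q, hQ, hQ'⟩ := exists_leading h0 e' hmem
    have hQ0 : Q = 0 := by
      apply homog_eq_zero hQ
      have h1 := isBigO_of_mem C hQ'
      have h2 := hb.trans (isBigO_pow_mono he')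
      have h3 := h2.sub h1
      refine h3.congr' ?_ EventuallyEq.rfl
      filter_upwards [ball_mem C] with ζ hζ
      rw [map_sub, s_aeval C hζ]; ring
    rw [hQ0, map_zero, sub_zero] at hQ'
    exact hQ'

/-- (R3.1) -/
theorem mem_pow_iff (h0 : mI y ≤ JJ z y ⊔ mI y ^ 2) {e : ℕ} {b : B} :
    b ∈ mI y ^ e ↔ (fun ζ => C.s ζ b) =O[𝓝 0] (fun ζ : Cn n => ‖ζ‖ ^ e) :=
  ⟨isBigO_of_mem C, mem_of_isBigO C h0⟩

/-- (R3.2) `B → germs` is injective -/
theorem eq_zero_of_eventually [IsDomain B] [IsNoetherianRing B]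
    (h0 : mI y ≤ JJ z y ⊔ mI y ^ 2) {b : B} (hb : ∀ᶠ ζ in 𝓝 (0 : Cn n), C.s ζ b = 0) :
    b = 0 := by
  have h1 : ∀ e, b ∈ mI y ^ e := fun e => by
    apply mem_of_isBigO C h0
    have : (fun ζ => C.s ζ b) =ᶠ[𝓝 0] fun _ => (0 : ℂ) := hb
    exact this.trans_isBigO (isBigO_zero _ _)
  have h2 := Ideal.iInf_pow_eq_bot_of_isDomain (mI y) (mI_ne_top y)
  have h3 : b ∈ (⨅ e : ℕ, mI y ^ e : Ideal B) := by
    rw [Ideal.mem_iInf]; exact h1
  rw [h2] at h3
  simpa using h3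

include C in
/-- uniqueness of the leading form -/
theorem homog_eq_zero_of_mem {e : ℕ} {Q : MvPolynomial (Fin n) ℂ} (hQ : Q.IsHomogeneous e)
    (h : MvPolynomial.aeval (uu z y) Q ∈ mI y ^ (e + 1)) : Q = 0 := by
  apply homog_eq_zero hQ
  refine (isBigO_of_mem C h).congr' ?_ EventuallyEq.rfl
  filter_upwards [ball_mem C] with ζ hζ
  rw [s_aeval C hζ]

/-- the leading form of `b ∈ 𝔪_y^e` -/
def lead (h0 : mI y ≤ JJ z y ⊔ mI y ^ 2) (e : ℕ) (b : B) (hb : b ∈ mI y ^ e) :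
    MvPolynomial (Fin n) ℂ := (exists_leading h0 e hb).choose

theorem lead_homog (h0 : mI y ≤ JJ z y ⊔ mI y ^ 2) (e : ℕ) (b : B) (hb : b ∈ mI y ^ e) :
    (lead h0 e b hb).IsHomogeneous e := (exists_leading h0 e hb).choose_spec.1

theorem lead_spec (h0 : mI y ≤ JJ z y ⊔ mI y ^ 2) (e : ℕ) (b : B) (hb : b ∈ mI y ^ e) :
    b - MvPolynomial.aeval (uu z y) (lead h0 e b hb) ∈ mI y ^ (e + 1) :=
  (exists_leading h0 e hb).choose_spec.2

include C in
theorem lead_eq (h0 : mI y ≤ JJ z y ⊔ mI y ^ 2) {e : ℕ} {b : B} (hb : b ∈ mI y ^ e)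
    {Q : MvPolynomial (Fin n) ℂ} (hQ : Q.IsHomogeneous e)
    (h : b - MvPolynomial.aeval (uu z y) Q ∈ mI y ^ (e + 1)) : lead h0 e b hb = Q := by
  rw [← sub_eq_zero]
  apply homog_eq_zero_of_mem C ((lead_homog h0 e b hb).sub hQ)
  rw [map_sub]
  have := Ideal.sub_mem _ h (lead_spec h0 e b hb)
  convert this using 1
  ring

include C in
theorem lead_add (h0 : mI y ≤ JJ z y ⊔ mI y ^ 2) (e : ℕ) (b c : B) (hb : b ∈ mI y ^ e)
    (hc : c ∈ mI y ^ e) :
    lead h0 e (b + c) (Ideal.add_mem _ hb hc) = lead h0 e b hb + lead h0 e c hc := by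
  refine lead_eq C h0 _ ((lead_homog h0 e b hb).add (lead_homog h0 e c hc)) ?_
  have := Ideal.add_mem _ (lead_spec h0 e b hb) (lead_spec h0 e c hc)
  convert this using 1
  simp only [map_add]
  ring

theorem smul_mem_pow {e : ℕ} (a : ℂ) {b : B} (hb : b ∈ mI y ^ e) : a • b ∈ mI y ^ e := by
  rw [Algebra.smul_def]; exact Ideal.mul_mem_left _ _ hb

include C in
theorem lead_smul (h0 : mI y ≤ JJ z y ⊔ mI y ^ 2) (e : ℕ) (a : ℂ) (b : B) (hb : b ∈ mI y ^ e) :
    lead h0 e (a • b) (smul_mem_pow a hb) = a • lead h0 e b hb := by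
  refine lead_eq C h0 _
    ((MvPolynomial.homogeneousSubmodule (Fin n) ℂ e).smul_mem a (lead_homog h0 e b hb)) ?_
  have := smul_mem_pow a (lead_spec h0 e b hb)
  convert this using 1
  rw [map_smul, smul_sub]

theorem lead_eq_zero_iff (h0 : mI y ≤ JJ z y ⊔ mI y ^ 2) (e : ℕ) (b : B) (hb : b ∈ mI y ^ e)
    (C : Chart z y) : lead h0 e b hb = 0 ↔ b ∈ mI y ^ (e + 1) := by
  constructor
  · intro h
    have h1 := lead_spec h0 e b hb
    rwa [h, map_zero, sub_zero] at h1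
  · intro h
    refine lead_eq C h0 _ (MvPolynomial.isHomogeneous_zero _ _ _) ?_
    simpa using h

include C in
/-- the leading form, as a linear map -/
theorem exists_leadMap (h0 : mI y ≤ JJ z y ⊔ mI y ^ 2) (e : ℕ) :
    ∃ φ : ((mI y ^ e).restrictScalars ℂ : Submodule ℂ B) →ₗ[ℂ]
        MvPolynomial.homogeneousSubmodule (Fin n) ℂ e,
      (∀ b : ((mI y ^ e).restrictScalars ℂ : Submodule ℂ B),
        (b : B) - MvPolynomial.aeval (uu z y) (φ b : MvPolynomial (Fin n) ℂ) ∈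
        mI y ^ (e + 1)) ∧
      (∀ b : ((mI y ^ e).restrictScalars ℂ : Submodule ℂ B), φ b = 0 ↔ (b : B) ∈ mI y ^ (e + 1)) ∧
      Function.Surjective φ := by
  let φ : ((mI y ^ e).restrictScalars ℂ : Submodule ℂ B) →ₗ[ℂ]
        MvPolynomial.homogeneousSubmodule (Fin n) ℂ e :=
    { toFun := fun b => ⟨lead h0 e b.1 b.2, lead_homog h0 e b.1 b.2⟩
      map_add' := fun b c => Subtype.ext (lead_add C h0 e b.1 c.1 b.2 c.2)
      map_smul' := fun a b => Subtype.ext (lead_smul C h0 e a b.1 b.2) }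
  refine ⟨φ, fun b => lead_spec h0 e b.1 b.2, fun b => ?_, fun Q => ?_⟩
  · rw [← lead_eq_zero_iff h0 e b.1 b.2 C]
    exact Subtype.ext_iff
  · refine ⟨⟨MvPolynomial.aeval (uu z y) Q.1, aeval_mem_pow Q.2⟩, ?_⟩
    apply Subtype.ext
    exact lead_eq C h0 (aeval_mem_pow Q.2) Q.2 (by simp)

/-- the germ of `b ∈ 𝔪_y^e` is its leading form up to `O(‖ζ‖^{e+1})` -/
theorem lead_isBigO (h0 : mI y ≤ JJ z y ⊔ mI y ^ 2) (e : ℕ) (b : B) (hb : b ∈ mI y ^ e) :
    (fun ζ => C.s ζ b - MvPolynomial.eval ζ (lead h0 e b hb)) =O[𝓝 0]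
      (fun ζ : Cn n => ‖ζ‖ ^ (e + 1)) := by
  refine (isBigO_of_mem C (lead_spec h0 e b hb)).congr' ?_ EventuallyEq.rfl
  filter_upwards [ball_mem C] with ζ hζ
  rw [map_sub, s_aeval C hζ]

theorem lead_ne_zero (h0 : mI y ≤ JJ z y ⊔ mI y ^ 2) (e : ℕ) (b : B) (hb : b ∈ mI y ^ e)
    (hb' : b ∉ mI y ^ (e + 1)) : lead h0 e b hb ≠ 0 := by
  intro h
  have h1 := lead_spec h0 e b hb
  rw [h, map_zero, sub_zero] at h1
  exact hb' h1

end chart

/-! ### `FCtx` -/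

section fctx

variable (X : FCtx n) (y : X.B →ₐ[ℂ] ℂ)

theorem isNoetherianRing : IsNoetherianRing X.B := by
  have := X.ft
  exact Algebra.FiniteType.isNoetherianRing ℂ X.B

/-- (R3.0) -/
theorem fctx_le : mI y ≤ JJ X.z y ⊔ mI y ^ 2 := mI_le_of_unramified X.z y X.etale

/-- (R3.1) -/
theorem fctx_mem_pow_iff (C : Chart X.z y) {e : ℕ} {b : X.B} :
    b ∈ mI y ^ e ↔ (fun ζ => C.s ζ b) =O[𝓝 0] (fun ζ : Cn n => ‖ζ‖ ^ e) :=
  mem_pow_iff C (fctx_le X y)

/-- (R3.2) -/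
theorem fctx_frequently_ne (C : Chart X.z y) {b : X.B} (hb : b ≠ 0) :
    ∃ᶠ ζ in 𝓝 (0 : Cn n), C.s ζ b ≠ 0 := by
  have := isNoetherianRing X
  intro h
  exact hb (eq_zero_of_eventually C (fctx_le X y) (by simpa using h))

/-- the étale coordinates are adapted to `P = 0` -/
theorem fctx_adapted : Adapted n (⊥ : Ideal X.B) y n := by
  have := isNoetherianRing X
  obtain ⟨g, hg, hg'⟩ := exists_mul_mem_JJ (fctx_le X y)
  refine ⟨uu X.z y, y_uu X.z y, fun i hi => absurd i.2 (by omega), g, hg, ?_, hg'⟩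
  intro f hf
  rw [Ideal.mem_bot] at hf
  simp [hf]

end fctx

end Crest.Agent.R271.Ord969
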