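import Mathlib
import Crest.Agent.R271.Defs_710
import Crest.Agent.R271.GSpec_792
import Crest.Agent.R271.Jet_956
import Crest.Agent.R271.Null_956
import Crest.Agent.R271.AlgB_956
import Crest.Agent.R271.Ord_969
import Crest.Agent.R271.RExt3_747
import Crest.Agent.R271.Rd3_692
import Crest.Agent.R271.KrullTrdeg_661

/-!
Row 271, G2 part 3 (helper956): polynomiality of the fibre sums, end game, algebraicity.
-/

set_option autoImplicit false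

open Topology Filter Asymptotics MeasureTheory
open scoped ENNReal
open Crest.Agent.R271.Defs710

noncomputable section

namespace Crest.Agent.R271.AlgC956

open Crest.Agent.R271.AlgB956

variable {n : ℕ} {B : Type} [CommRing B] [Algebra ℂ B]
variable {z : Fin n → B}

lemma one_add_sum_le (ζ : Cn n) : 1 + ∑ i, ‖ζ i‖ ^ 2 ≤ (n + 1 : ℝ) * (1 + ‖ζ‖) ^ 2 := by
  have h1 : ∑ i : Fin n, ‖ζ i‖ ^ 2 ≤ ∑ _i : Fin n, ‖ζ‖ ^ 2 :=
    Finset.sum_le_sum fun i _ => by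
      have := norm_le_pi_norm ζ i
      gcongr
  rw [Finset.sum_const, Finset.card_univ, Fintype.card_fin, nsmul_eq_mul] at h1
  have h2 : 0 ≤ ‖ζ‖ := norm_nonneg _
  have h3 : (0 : ℝ) ≤ n := Nat.cast_nonneg n
  nlinarith [mul_nonneg h3 h2]

/-- pointwise bound of the fibre sums by the integrand of `lintM` -/
theorem HH_bound' {θ : B} {μ : Polynomial (MvPolynomial (Fin n) ℂ)}
    {g : MvPolynomial (Fin n) ℂ} (hF : FibData z θ μ g) (G : (B →ₐ[ℂ] ℂ) → ℂ) (k : ℕ) {A : ℝ}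
    {K : ℕ} (M : ℕ) (hA : 0 ≤ A) (hgr : ∀ y : B →ₐ[ℂ] ℂ, ‖y ((qq z θ μ).coeff k)‖ ≤
      A * (1 + ∑ i, ‖y (z i)‖ ^ 2) ^ K) :
    ∃ (c : ℝ) (L : ℕ), 0 ≤ c ∧ ∀ ζ : Cn n, MvPolynomial.eval ζ g ≠ 0 →
      ‖HH z θ μ g G k ζ‖ₑ ^ 2 ≤ ENNReal.ofReal (c * (1 + ‖ζ‖) ^ (2 * L)) *
        ∑' y : Fib z ζ, ENNReal.ofReal (‖G y.1‖ ^ 2 / (1 + ∑ i, ‖y.1 (z i)‖ ^ 2) ^ M) := by
  refine ⟨μ.natDegree * A ^ 2 * (n + 1 : ℝ) ^ (2 * K + M), 2 * K + M, by positivity, ?_⟩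
  intro ζ hζ
  refine (HH_bound hF G k hA hgr ζ hζ).trans ?_
  set S : ℝ := 1 + ∑ i, ‖ζ i‖ ^ 2 with hS
  have hS0 : 0 < S := by positivity
  have h1 : ∀ y : Fib z ζ, ENNReal.ofReal (‖G y.1‖ ^ 2) = ENNReal.ofReal (S ^ M) *
      ENNReal.ofReal (‖G y.1‖ ^ 2 / (1 + ∑ i, ‖y.1 (z i)‖ ^ 2) ^ M) := by
    intro y
    have h2 : (1 + ∑ i, ‖y.1 (z i)‖ ^ 2) = S := by simp only [y.2, hS]
    rw [h2, ← ENNReal.ofReal_mul (by positivity)]
    congr 1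
    field_simp
  simp only [h1]
  rw [ENNReal.tsum_mul_left, ← mul_assoc, ← ENNReal.ofReal_mul (by positivity)]
  refine mul_le_mul' (ENNReal.ofReal_le_ofReal ?_) le_rfl
  have h3 : S ≤ (n + 1 : ℝ) * (1 + ‖ζ‖) ^ 2 := one_add_sum_le ζ
  calc (μ.natDegree : ℝ) * (A * S ^ K) ^ 2 * S ^ M
      = μ.natDegree * A ^ 2 * S ^ (2 * K + M) := by ring
    _ ≤ μ.natDegree * A ^ 2 * ((n + 1 : ℝ) * (1 + ‖ζ‖) ^ 2) ^ (2 * K + M) := by gcongr
    _ = _ := by rw [mul_pow, ← pow_mul]; ring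

/-- the fibre sums are polynomials -/
theorem HH_poly {θ : B} {μ : Polynomial (MvPolynomial (Fin n) ℂ)}
    {g : MvPolynomial (Fin n) ℂ} (hF : FibData z θ μ g)
    (hC : ∀ y : B →ₐ[ℂ] ℂ, Nonempty (Chart z y)) {G : (B →ₐ[ℂ] ℂ) → ℂ}
    (hG : ∀ (y : B →ₐ[ℂ] ℂ) (C : Chart z y), AnalyticAt ℂ (fun ζ => G (C.s ζ)) 0) (k : ℕ)
    {A : ℝ} {K : ℕ} (M : ℕ) (hA : 0 ≤ A) (hgr : ∀ y : B →ₐ[ℂ] ℂ, ‖y ((qq z θ μ).coeff k)‖ ≤
      A * (1 + ∑ i, ‖y (z i)‖ ^ 2) ^ K)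
    (hint : lintM z (fun y => ENNReal.ofReal (‖G y‖ ^ 2 / (1 + ∑ i, ‖y (z i)‖ ^ 2) ^ M)) < ∞) :
    ∃ P : MvPolynomial (Fin n) ℂ, ∀ ζ : Cn n, MvPolynomial.eval ζ g ≠ 0 →
      HH z θ μ g G k ζ = MvPolynomial.eval ζ P := by
  obtain ⟨c, L, hc, hb⟩ := HH_bound' hF G k M hA hgr
  rw [lintM] at hint
  set Ψ : Cn n → ℝ≥0∞ := fun ζ => ∑' y : Fib z ζ,
    ENNReal.ofReal (‖G y.1‖ ^ 2 / (1 + ∑ i, ‖y.1 (z i)‖ ^ 2) ^ M) with hΨ
  have hopen : IsOpen {ζ : Cn n | MvPolynomial.eval ζ g ≠ 0} :=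
    isOpen_ne.preimage (MvPolynomial.continuous_eval g)
  obtain ⟨E, hE, hEH⟩ := RExt747.riemann_ext_poly (f := HH z θ μ g G k) hF.g_ne
    (fun ζ hζ => (HH_differentiableAt hF hC hG k hζ).differentiableWithinAt) (by
      intro a
      refine ⟨Metric.ball a 1, Metric.ball_mem_nhds a one_pos, ?_⟩
      have hm : MeasurableSet (Metric.ball a 1 ∩ {ζ : Cn n | MvPolynomial.eval ζ g ≠ 0}) :=
        Metric.isOpen_ball.measurableSet.inter hopen.measurableSet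
      calc ∫⁻ ζ in Metric.ball a 1 ∩ {ζ : Cn n | MvPolynomial.eval ζ g ≠ 0},
            ‖HH z θ μ g G k ζ‖ₑ ^ 2
          ≤ ∫⁻ ζ in Metric.ball a 1 ∩ {ζ : Cn n | MvPolynomial.eval ζ g ≠ 0},
            ENNReal.ofReal (c * (2 + ‖a‖) ^ (2 * L)) * Ψ ζ := by
            refine setLIntegral_mono' hm ?_
            rintro ζ ⟨hζ1, hζ2⟩
            refine (hb ζ hζ2).trans ?_
            have h1 : ‖ζ - a‖ < 1 := by simpa [dist_eq_norm] using hζ1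
            have h2 : ‖ζ‖ ≤ ‖ζ - a‖ + ‖a‖ := by
              have : ζ = (ζ - a) + a := by abel
              conv_lhs => rw [this]
              exact norm_add_le _ _
            have h3 : 1 + ‖ζ‖ ≤ 2 + ‖a‖ := by linarith
            exact mul_le_mul' (ENNReal.ofReal_le_ofReal (mul_le_mul_of_nonneg_left
              (pow_le_pow_left₀ (by positivity) h3 _) hc)) le_rfl
        _ ≤ ∫⁻ ζ, ENNReal.ofReal (c * (2 + ‖a‖) ^ (2 * L)) * Ψ ζ :=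
            setLIntegral_le_lintegral _ _
        _ = ENNReal.ofReal (c * (2 + ‖a‖) ^ (2 * L)) * ∫⁻ ζ, Ψ ζ :=
            lintegral_const_mul' _ _ ENNReal.ofReal_ne_top
        _ < ∞ := ENNReal.mul_lt_top ENNReal.ofReal_lt_top hint)
  obtain ⟨P, -, hP⟩ := RExt747.poly_of_sq_growth (g := E) hE (N := L) (by
    calc ∫⁻ ζ, ‖E ζ‖ₑ ^ 2 * ENNReal.ofReal ((1 + ‖ζ‖) ^ (2 * L))⁻¹
        ≤ ∫⁻ ζ, ENNReal.ofReal c * Ψ ζ := by
          refine lintegral_mono_ae ?_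
          filter_upwards [Null956.ae_eval_ne hF.g_ne] with ζ hζ
          rw [hEH ζ hζ]
          calc ‖HH z θ μ g G k ζ‖ₑ ^ 2 * ENNReal.ofReal ((1 + ‖ζ‖) ^ (2 * L))⁻¹
              ≤ (ENNReal.ofReal (c * (1 + ‖ζ‖) ^ (2 * L)) * Ψ ζ) *
                ENNReal.ofReal ((1 + ‖ζ‖) ^ (2 * L))⁻¹ := by
                gcongr
                exact hb ζ hζ
            _ = (ENNReal.ofReal (c * (1 + ‖ζ‖) ^ (2 * L)) *
                ENNReal.ofReal ((1 + ‖ζ‖) ^ (2 * L))⁻¹) * Ψ ζ := by ring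
            _ = ENNReal.ofReal c * Ψ ζ := by
                rw [← ENNReal.ofReal_mul (by positivity)]
                congr 2
                field_simp
      _ = ENNReal.ofReal c * ∫⁻ ζ, Ψ ζ := lintegral_const_mul' _ _ ENNReal.ofReal_ne_top
      _ < ∞ := ENNReal.mul_lt_top ENNReal.ofReal_lt_top hint)
  exact ⟨P, fun ζ hζ => by rw [← hEH ζ hζ, hP]⟩

/-- continuous functions which agree frequently near a point agree at the point -/
lemma eq_of_frequently {φ1 φ2 : Cn n → ℂ} (h1 : ContinuousAt φ1 0) (h2 : ContinuousAt φ2 0)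
    (h : ∃ᶠ ζ in 𝓝 (0 : Cn n), φ1 ζ = φ2 ζ) : φ1 0 = φ2 0 := by
  by_contra hne
  have h3 := (h1.sub h2).eventually_ne (sub_ne_zero.mpr hne)
  apply h
  filter_upwards [h3] with ζ hζ
  exact sub_ne_zero.mp hζ

lemma frequently_eval_ne {g : MvPolynomial (Fin n) ℂ} (hg : g ≠ 0) (a : Cn n) :
    ∃ᶠ ζ in 𝓝 (0 : Cn n), MvPolynomial.eval (a + ζ) g ≠ 0 := by
  intro h
  apply RExt747.poly_not_eventually_zero hg a
  have h1 : Tendsto (fun w : Cn n => w - a) (𝓝 a) (𝓝 0) := by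
    have : Continuous (fun w : Cn n => w - a) := by fun_prop
    simpa using this.tendsto a
  filter_upwards [h1.eventually h] with w hw
  simpa using hw

/-- END GAME: a holomorphic function `F` with `F v = a` off `{g = 0}` is in `B` -/
theorem end_game [IsDomain B] [Algebra.FiniteType ℂ B]
    (het : RingHom.Etale ((MvPolynomial.aeval z : MvPolynomial (Fin n) ℂ →ₐ[ℂ] B) :
      MvPolynomial (Fin n) ℂ →+* B)) {F : (B →ₐ[ℂ] ℂ) → ℂ}
    (hFan : ∀ (y : B →ₐ[ℂ] ℂ) (C : Chart z y), AnalyticAt ℂ (fun ζ => F (C.s ζ)) 0)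
    {g : MvPolynomial (Fin n) ℂ} (hg : g ≠ 0) {v a : B} (hv : v ≠ 0)
    (h : ∀ y : B →ₐ[ℂ] ℂ, MvPolynomial.eval (fun i => y (z i)) g ≠ 0 → F y * y v = y a) :
    ∃ b : B, ∀ y : B →ₐ[ℂ] ℂ, F y = y b := by
  have hnoeth : IsNoetherianRing B := Algebra.FiniteType.isNoetherianRing ℂ B
  have step1 : ∀ y : B →ₐ[ℂ] ℂ, F y * y v = y a := by
    intro y
    obtain ⟨C⟩ := Rd692.nonempty_chart z het y
    have h1 : ∃ᶠ ζ in 𝓝 (0 : Cn n), F (C.s ζ) * C.s ζ v = C.s ζ a := by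
      refine ((frequently_eval_ne hg (fun i => y (z i))).and_eventually
        (Jet956.ball_mem C)).mono ?_
      rintro ζ ⟨hζ1, hζ2⟩
      apply h
      convert! hζ1 using 3
      ext i
      exact C.s_z ζ hζ2 i
    have h2 := eq_of_frequently (φ1 := fun ζ => F (C.s ζ) * C.s ζ v)
      (φ2 := fun ζ => C.s ζ a)
      ((hFan y C).continuousAt.mul (Jet956.germ_analyticAt C v).continuousAt)
      (Jet956.germ_analyticAt C a).continuousAt h1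
    simpa [C.s_zero] using h2
  have step2 : ∀ y : B →ₐ[ℂ] ℂ, ∃ t : B, y t ≠ 0 ∧ t * a ∈ Ideal.span {v} := by
    intro y
    obtain ⟨C⟩ := Rd692.nonempty_chart z het y
    exact Jet956.local_div het C v a (fun ζ => F (C.s ζ)) (hFan y C)
      (Filter.Eventually.of_forall fun ζ => step1 (C.s ζ))
  have step3 : a ∈ Ideal.span {v} := by
    set I : Ideal B := Submodule.comap (LinearMap.mulRight B a) (Ideal.span {v} : Ideal B) with hI
    have hIm : ∀ t : B, t ∈ I ↔ t * a ∈ Ideal.span {v} := fun t => Iff.rfl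
    by_cases hIt : I = ⊤
    · have : (1 : B) ∈ I := by rw [hIt]; trivial
      rw [hIm, one_mul] at this
      exact this
    · obtain ⟨y, hy⟩ := KT661.exists_point_of_ne_top I hIt
      obtain ⟨t, ht1, ht2⟩ := step2 y
      exact absurd (hy t ((hIm t).mpr ht2)) ht1
  obtain ⟨b, rfl⟩ := Ideal.mem_span_singleton'.mp step3
  refine ⟨b, fun y => ?_⟩
  obtain ⟨C⟩ := Rd692.nonempty_chart z het y
  have h1 : ∃ᶠ ζ in 𝓝 (0 : Cn n), C.s ζ v ≠ 0 := by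
    intro hz
    exact hv (Ord969.eq_zero_of_eventually C (Ord969.mI_le_of_unramified z y het) (by simpa using hz))
  have h2 : ∃ᶠ ζ in 𝓝 (0 : Cn n), F (C.s ζ) = C.s ζ b := by
    refine h1.mono fun ζ hζ => ?_
    have h3 := step1 (C.s ζ)
    rw [map_mul] at h3
    exact mul_right_cancel₀ hζ h3
  have h4 := eq_of_frequently (φ1 := fun ζ => F (C.s ζ)) (φ2 := fun ζ => C.s ζ b)
      (hFan y C).continuousAt (Jet956.germ_analyticAt C b).continuousAt h2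
  simpa [C.s_zero] using h4

/-- ALGEBRAICITY, general form -/
theorem alg_general [IsDomain B] [Algebra.FiniteType ℂ B]
    (het : RingHom.Etale ((MvPolynomial.aeval z : MvPolynomial (Fin n) ℂ →ₐ[ℂ] B) :
      MvPolynomial (Fin n) ℂ →+* B)) {θ : B} {μ : Polynomial (MvPolynomial (Fin n) ℂ)}
    {g : MvPolynomial (Fin n) ℂ} (hD : FibData z θ μ g)
    (hgr : ∀ k, ∃ (A : ℝ) (K : ℕ), 0 ≤ A ∧ ∀ y : B →ₐ[ℂ] ℂ, ‖y ((qq z θ μ).coeff k)‖ ≤
      A * (1 + ∑ i, ‖y (z i)‖ ^ 2) ^ K)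
    {F : (B →ₐ[ℂ] ℂ) → ℂ}
    (hFan : ∀ (y : B →ₐ[ℂ] ℂ) (C : Chart z y), AnalyticAt ℂ (fun ζ => F (C.s ζ)) 0)
    {u : B} (hu : u ≠ 0) (N M : ℕ)
    (hint : lintM z (fun y => ENNReal.ofReal
      (‖F y‖ ^ 2 * ‖y u‖ ^ (2 * N) / (1 + ∑ i, ‖y (z i)‖ ^ 2) ^ M)) < ∞) :
    ∃ b : B, ∀ y : B →ₐ[ℂ] ℂ, F y = y b := by
  set G : (B →ₐ[ℂ] ℂ) → ℂ := fun y => F y * y u ^ N with hGdef
  have hGan : ∀ (y : B →ₐ[ℂ] ℂ) (C : Chart z y), AnalyticAt ℂ (fun ζ => G (C.s ζ)) 0 :=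
    fun y C => (hFan y C).mul ((Jet956.germ_analyticAt C u).pow N)
  have hint' : lintM z (fun y => ENNReal.ofReal
      (‖G y‖ ^ 2 / (1 + ∑ i, ‖y (z i)‖ ^ 2) ^ M)) < ∞ := by
    have : (fun y : B →ₐ[ℂ] ℂ => ENNReal.ofReal
        (‖G y‖ ^ 2 / (1 + ∑ i, ‖y (z i)‖ ^ 2) ^ M)) = (fun y => ENNReal.ofReal
        (‖F y‖ ^ 2 * ‖y u‖ ^ (2 * N) / (1 + ∑ i, ‖y (z i)‖ ^ 2) ^ M)) := by
      funext y
      congr 2
      rw [hGdef]
      simp only [norm_mul, norm_pow]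
      ring
    rw [this]; exact hint
  have hP : ∀ k, ∃ P : MvPolynomial (Fin n) ℂ, ∀ ζ : Cn n, MvPolynomial.eval ζ g ≠ 0 →
      HH z θ μ g G k ζ = MvPolynomial.eval ζ P := by
    intro k
    obtain ⟨A, K, hA, hAK⟩ := hgr k
    exact HH_poly hD (Rd692.nonempty_chart z het) hGan k M hA hAK hint'
  choose P hP using hP
  set a : B := ∑ k ∈ Finset.range ((qq z θ μ).natDegree + 1),
    MvPolynomial.aeval z (P k) * θ ^ k with ha
  refine end_game (a := a) het hFan hD.g_ne (v := u ^ N * dd z θ μ)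
    (mul_ne_zero (pow_ne_zero _ hu) hD.der) ?_
  intro y hy
  have h1 := interp hD G hy y (fun _ => rfl)
  rw [ha, map_sum, map_mul, map_pow, ← mul_assoc]
  rw [show F y * y u ^ N = G y from rfl, h1]
  refine Finset.sum_congr rfl fun k _ => ?_
  rw [hP k _ hy, map_mul, map_pow, comp_aeval']

end Crest.Agent.R271.AlgC956
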