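import Crest.Agent.R271.Defs_710

/-!
# Row 271, (A2): polynomial growth of integral elements (helper255)
-/

set_option autoImplicit false

noncomputable section

open scoped BigOperators

namespace Crest.Agent.R271.Alg255

variable {n : ℕ} {B : Type} [CommRing B] [Algebra ℂ B]

/-- `1 + ∑ |y(z_i)|²` -/
def oz (z : Fin n → B) (y : B →ₐ[ℂ] ℂ) : ℝ := 1 + ∑ i, ‖y (z i)‖ ^ 2

lemma one_le_oz (z : Fin n → B) (y : B →ₐ[ℂ] ℂ) : 1 ≤ oz z y := by
  unfold oz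
  have : 0 ≤ ∑ i, ‖y (z i)‖ ^ 2 := Finset.sum_nonneg fun i _ => by positivity
  linarith

/-- polynomial growth -/
def PG (z : Fin n → B) (b : B) : Prop :=
  ∃ (C : ℝ) (K : ℕ), 0 ≤ C ∧ ∀ y : B →ₐ[ℂ] ℂ, ‖y b‖ ≤ C * (oz z y) ^ K

lemma PG.add {z : Fin n → B} {a b : B} (ha : PG z a) (hb : PG z b) : PG z (a + b) := by
  obtain ⟨C, K, hC, h⟩ := ha
  obtain ⟨C', K', hC', h'⟩ := hb
  refine ⟨C + C', K + K', by positivity, fun y => ?_⟩
  have h1 := one_le_oz z y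
  have h2 : (oz z y) ^ K ≤ (oz z y) ^ (K + K') := pow_le_pow_right₀ h1 (by omega)
  have h3 : (oz z y) ^ K' ≤ (oz z y) ^ (K + K') := pow_le_pow_right₀ h1 (by omega)
  rw [map_add]
  calc ‖y a + y b‖ ≤ ‖y a‖ + ‖y b‖ := norm_add_le _ _
    _ ≤ C * (oz z y) ^ K + C' * (oz z y) ^ K' := add_le_add (h y) (h' y)
    _ ≤ C * (oz z y) ^ (K + K') + C' * (oz z y) ^ (K + K') := by gcongr
    _ = _ := by ring

lemma PG.mul {z : Fin n → B} {a b : B} (ha : PG z a) (hb : PG z b) : PG z (a * b) := by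
  obtain ⟨C, K, hC, h⟩ := ha
  obtain ⟨C', K', hC', h'⟩ := hb
  refine ⟨C * C', K + K', by positivity, fun y => ?_⟩
  have h1 := one_le_oz z y
  rw [map_mul, norm_mul]
  calc ‖y a‖ * ‖y b‖ ≤ (C * (oz z y) ^ K) * (C' * (oz z y) ^ K') :=
        mul_le_mul (h y) (h' y) (norm_nonneg _) (by positivity)
    _ = _ := by ring

lemma PG.const (z : Fin n → B) (c : ℂ) : PG z (algebraMap ℂ B c) :=
  ⟨‖c‖, 0, norm_nonneg _, fun y => by simp⟩

lemma PG.gen (z : Fin n → B) (i : Fin n) : PG z (z i) := by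
  refine ⟨1, 1, zero_le_one, fun y => ?_⟩
  have h1 : ‖y (z i)‖ ^ 2 ≤ ∑ i, ‖y (z i)‖ ^ 2 :=
    Finset.single_le_sum (f := fun i => ‖y (z i)‖ ^ 2) (fun i _ => by positivity) (Finset.mem_univ i)
  unfold oz
  nlinarith [sq_nonneg (‖y (z i)‖ - 1), sq_nonneg (‖y (z i)‖)]

lemma PG.adjoin {z : Fin n → B} {b : B} (hb : b ∈ Algebra.adjoin ℂ (Set.range z)) : PG z b := by
  induction hb using Algebra.adjoin_induction with
  | mem x hx => obtain ⟨i, rfl⟩ := hx; exact PG.gen z i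
  | algebraMap r => exact PG.const z r
  | add x y _ _ hx hy => exact hx.add hy
  | mul x y _ _ hx hy => exact hx.mul hy

/-- Cauchy root bound -/
lemma root_bound {r : ℕ} {c : ℕ → ℂ} {t : ℂ} (h : t ^ r + ∑ i ∈ Finset.range r, c i * t ^ i = 0) :
    ‖t‖ ≤ 1 + ∑ i ∈ Finset.range r, ‖c i‖ := by
  have h0 : 0 ≤ ∑ i ∈ Finset.range r, ‖c i‖ := Finset.sum_nonneg fun i _ => norm_nonneg _
  rcases le_or_gt ‖t‖ 1 with h1 | h1
  · linarith
  · rcases Nat.eq_zero_or_pos r with rfl | hr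
    · simp at h
    · have h2 : t ^ r = -∑ i ∈ Finset.range r, c i * t ^ i := by linear_combination h
      have h3 : ‖t‖ ^ r ≤ ∑ i ∈ Finset.range r, ‖c i‖ * ‖t‖ ^ (r - 1) := by
        rw [← norm_pow, h2, norm_neg]
        refine (norm_sum_le _ _).trans (Finset.sum_le_sum fun i hi => ?_)
        rw [norm_mul, norm_pow]
        have hi' : i < r := Finset.mem_range.mp hi
        exact mul_le_mul_of_nonneg_left (pow_le_pow_right₀ h1.le (by omega)) (norm_nonneg _)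
      rw [← Finset.sum_mul] at h3
      have h4 : ‖t‖ ^ r = ‖t‖ * ‖t‖ ^ (r - 1) := by
        rw [← pow_succ']; congr 1; omega
      rw [h4] at h3
      have h5 : 0 < ‖t‖ ^ (r - 1) := by positivity
      have h6 := le_of_mul_le_mul_right h3 h5
      linarith

/-- **(A2)** elements integral over `ℂ[z]` have polynomial growth -/
theorem growthI {z : Fin n → B} {b : B} (hb : IsIntegral (Algebra.adjoin ℂ (Set.range z)) b) :
    PG z b := by
  obtain ⟨p, hp, hpb⟩ := hb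
  have hc : ∀ i, PG z (p.coeff i : B) := fun i => PG.adjoin (p.coeff i).2
  choose C K hC h using hc
  obtain ⟨r, hr⟩ : ∃ r, r = p.natDegree := ⟨_, rfl⟩
  refine ⟨1 + ∑ i ∈ Finset.range r, C i, ∑ i ∈ Finset.range r, K i,
    by have : 0 ≤ ∑ i ∈ Finset.range r, C i := Finset.sum_nonneg fun i _ => hC i
       linarith, fun y => ?_⟩
  have h1 := one_le_oz z y
  have heq : (y b) ^ r + ∑ i ∈ Finset.range r, y (p.coeff i : B) * (y b) ^ i = 0 := by
    have h2 := hpb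
    rw [Polynomial.eval₂_eq_sum_range, Finset.sum_range_succ] at h2
    have h3 := congrArg y h2
    rw [map_add, map_sum, map_zero] at h3
    have h4 : p.coeff p.natDegree = 1 := hp
    rw [h4] at h3
    simp only [map_mul, map_pow, map_one, one_mul] at h3
    rw [add_comm, hr]
    exact h3
  refine (root_bound heq).trans ?_
  have h5 : ∀ i ∈ Finset.range r, ‖y (p.coeff i : B)‖ ≤
      C i * (oz z y) ^ (∑ i ∈ Finset.range r, K i) := by
    intro i hi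
    refine (h i y).trans (mul_le_mul_of_nonneg_left (pow_le_pow_right₀ h1 ?_) (hC i))
    exact Finset.single_le_sum (f := K) (fun i _ => Nat.zero_le _) hi
  have h6 : 1 ≤ (oz z y) ^ (∑ i ∈ Finset.range r, K i) := one_le_pow₀ h1
  calc 1 + ∑ i ∈ Finset.range r, ‖y (p.coeff i : B)‖
      ≤ (oz z y) ^ (∑ i ∈ Finset.range r, K i) +
        ∑ i ∈ Finset.range r, C i * (oz z y) ^ (∑ i ∈ Finset.range r, K i) :=
        add_le_add h6 (Finset.sum_le_sum h5)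
    _ = _ := by rw [← Finset.sum_mul]; ring

/-- growth of the elements of `A` -/
theorem growthA (X : Defs710.FCtx n) {a : X.B} (ha : a ∈ X.A) :
    ∃ (C : ℝ) (K : ℕ), 0 ≤ C ∧ ∀ y : X.B →ₐ[ℂ] ℂ, ‖y a‖ ≤ C * (1 + ∑ i, ‖y (X.z i)‖ ^ 2) ^ K :=
  growthI (X.A_int a ha)

/-- growth of the elements of `B`, two exponents -/
theorem growth (X : Defs710.FCtx n) (b : X.B) :
    ∃ (C : ℝ) (N M : ℕ), 0 ≤ C ∧ ∀ y : X.B →ₐ[ℂ] ℂ,
      ‖y b‖ ^ 2 * ‖y X.h‖ ^ (2 * N) ≤ C * (1 + ∑ i, ‖y (X.z i)‖ ^ 2) ^ M := by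
  obtain ⟨N, hN⟩ := X.h_loc b
  obtain ⟨C, K, hC, h⟩ := growthA X hN
  refine ⟨C ^ 2, N, 2 * K, by positivity, fun y => ?_⟩
  have h1 := h y
  rw [map_mul, map_pow, norm_mul, norm_pow] at h1
  calc ‖y b‖ ^ 2 * ‖y X.h‖ ^ (2 * N) = (‖y X.h‖ ^ N * ‖y b‖) ^ 2 := by ring
    _ ≤ (C * (1 + ∑ i, ‖y (X.z i)‖ ^ 2) ^ K) ^ 2 := by
        gcongr
    _ = _ := by ring

/-- same with `‖y (h^N b)‖` -/
theorem growth' (X : Defs710.FCtx n) (b : X.B) :
    ∃ (N : ℕ) (C : ℝ) (K : ℕ), 0 ≤ C ∧ ∀ y : X.B →ₐ[ℂ] ℂ,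
      ‖y (X.h ^ N * b)‖ ≤ C * (1 + ∑ i, ‖y (X.z i)‖ ^ 2) ^ K := by
  obtain ⟨N, hN⟩ := X.h_loc b
  obtain ⟨C, K, hC, h⟩ := growthA X hN
  exact ⟨N, C, K, hC, h⟩

end Crest.Agent.R271.Alg255
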