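import Mathlib
import Crest.Agent.R271.AlgC_956
import Crest.Agent.R271.Growth_255

/-!
Row 271, G2 part 4 (helper956): growth of the coefficients; algebraicity from the existence of
fibre data.
-/

set_option autoImplicit false

open Topology Filter Asymptotics MeasureTheory
open scoped ENNReal
open Crest.Agent.R271.Defs710

noncomputable section

namespace Crest.Agent.R271.AlgD956

open Crest.Agent.R271.AlgB956 Crest.Agent.R271.AlgC956 Crest.Agent.R271.Alg255

variable {n : ℕ} {B : Type} [CommRing B] [Algebra ℂ B]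
variable {z : Fin n → B} {θ : B} {μ : Polynomial (MvPolynomial (Fin n) ℂ)}
  {g : MvPolynomial (Fin n) ℂ}

lemma PG_aeval (z : Fin n → B) (P : MvPolynomial (Fin n) ℂ) : PG z (MvPolynomial.aeval z P) := by
  apply PG.adjoin
  rw [Algebra.adjoin_range_eq_range_aeval]
  exact ⟨P, rfl⟩

lemma isIntegral_theta (hm : μ.Monic)
    (hr : Polynomial.eval₂ ((MvPolynomial.aeval z : MvPolynomial (Fin n) ℂ →ₐ[ℂ] B) :
      MvPolynomial (Fin n) ℂ →+* B) θ μ = 0) :
    IsIntegral (Algebra.adjoin ℂ (Set.range z)) θ := by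
  let φ : MvPolynomial (Fin n) ℂ →ₐ[ℂ] Algebra.adjoin ℂ (Set.range z) :=
    MvPolynomial.aeval (fun i => (⟨z i, Algebra.subset_adjoin ⟨i, rfl⟩⟩ :
      Algebra.adjoin ℂ (Set.range z)))
  have hφ : (algebraMap (Algebra.adjoin ℂ (Set.range z)) B).comp (φ : MvPolynomial (Fin n) ℂ →+* _) =
      ((MvPolynomial.aeval z : MvPolynomial (Fin n) ℂ →ₐ[ℂ] B) :
      MvPolynomial (Fin n) ℂ →+* B) := by
    apply MvPolynomial.ringHom_ext
    · intro r
      simp [φ]
    · intro i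
      simp [φ]
  refine ⟨μ.map (φ : MvPolynomial (Fin n) ℂ →+* _), hm.map _, ?_⟩
  rw [Polynomial.eval₂_map, hφ]
  exact hr

lemma PG_pow {b : B} (hb : PG z b) (k : ℕ) : PG z (b ^ k) := by
  induction k with
  | zero =>
    rw [pow_zero, ← map_one (algebraMap ℂ B)]
    exact PG.const z 1
  | succ k ih => rw [pow_succ]; exact ih.mul hb

lemma PG_sum {ι : Type*} (s : Finset ι) (f : ι → B) (h : ∀ i ∈ s, PG z (f i)) :
    PG z (∑ i ∈ s, f i) := by
  classical
  induction s using Finset.induction_on with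
  | empty =>
    rw [Finset.sum_empty, ← map_zero (algebraMap ℂ B)]
    exact PG.const z 0
  | insert a s ha ih =>
    rw [Finset.sum_insert ha]
    exact (h a (Finset.mem_insert_self _ _)).add
      (ih fun i hi => h i (Finset.mem_insert_of_mem hi))

lemma PG_coeff (hm : μ.Monic)
    (hr : Polynomial.eval₂ ((MvPolynomial.aeval z : MvPolynomial (Fin n) ℂ →ₐ[ℂ] B) :
      MvPolynomial (Fin n) ℂ →+* B) θ μ = 0) (k : ℕ) : PG z ((qq z θ μ).coeff k) := by
  rw [qq, Polynomial.coeff_divByMonic_X_sub_C]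
  refine PG_sum _ _ fun i _ => ?_
  refine PG.mul (PG_pow (growthI (isIntegral_theta hm hr)) _) ?_
  rw [muB, Polynomial.coeff_map]
  exact PG_aeval z _

/-- algebraicity from fibre data -/
theorem alg_of_fibData [IsDomain B] [Algebra.FiniteType ℂ B]
    (het : RingHom.Etale ((MvPolynomial.aeval z : MvPolynomial (Fin n) ℂ →ₐ[ℂ] B) :
      MvPolynomial (Fin n) ℂ →+* B)) (hD : FibData z θ μ g)
    {F : (B →ₐ[ℂ] ℂ) → ℂ}
    (hFan : ∀ (y : B →ₐ[ℂ] ℂ) (C : Chart z y), AnalyticAt ℂ (fun ζ => F (C.s ζ)) 0)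
    {u : B} (hu : u ≠ 0) (N M : ℕ)
    (hint : lintM z (fun y => ENNReal.ofReal
      (‖F y‖ ^ 2 * ‖y u‖ ^ (2 * N) / (1 + ∑ i, ‖y (z i)‖ ^ 2) ^ M)) < ∞) :
    ∃ b : B, ∀ y : B →ₐ[ℂ] ℂ, F y = y b := by
  refine alg_general het hD (fun k => ?_) hFan hu N M hint
  obtain ⟨C, K, hC, h⟩ := PG_coeff hD.monic hD.root k
  exact ⟨C, K, hC, h⟩

theorem algStmt_of (X : FCtx n) (hfib : ∃ θ μ g, FibData X.z θ μ g) : GSpec792.AlgStmt X := by
  obtain ⟨θ, μ, g, hD⟩ := hfib
  have := X.ft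
  intro F N M hF hint
  exact alg_of_fibData X.etale hD hF X.h_unit.ne_zero N M hint

end Crest.Agent.R271.AlgD956
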