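import Crest.Agent.R271.Defs_710

/-!
Row 271: assembly of the abstract part (`AbstractMain`) from four statements:
`CaseA` (5.2), `ExiMain` (Parts 4, 5.3, 6), `NonIsoMain` (Part 8), `IsoMain` (Part 7).
-/

set_option autoImplicit false

open scoped ENNReal NNReal Topology BigOperators
open MeasureTheory

noncomputable section

namespace Crest.Agent.R271.Assembly710

open Crest.Agent.R271.Defs710

variable {n : ℕ}

/-- dimension of `V_m ∩ 𝔪_x^j` -/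
def dimOrd (X : FCtx n) (m j : ℕ) : ℕ :=
  Module.finrank ℂ (X.V m ⊓ ((mI X.x ^ j).restrictScalars ℂ) : Submodule ℂ X.B)

/-- (5.3) density caps: Case B -/
def Caps (X : FCtx n) (c : ℝ) : Prop :=
  ∃ m₁ : ℕ, ∀ m, m₁ ≤ m → ∀ j : ℕ, n * m < (n + 1) * j →
    (dimOrd X m j : ℝ) - dimOrd X m (j + 1) ≤ (1 - c) * ((j + n - 1).choose (n - 1) : ℝ)

/-- Case B for some constant `c > 0` -/
def CaseB (X : FCtx n) : Prop := ∃ c : ℝ, 0 < c ∧ Caps X c

/-- (5.2): if Case B fails then MLT holds -/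
def CaseA : Prop := ∀ (n : ℕ) (X : FCtx n), 1 ≤ n → AFacts X → ¬ CaseB X → MLT X

/-- `F` is an `ε`-Ekeland point of `H_t = A_x + log Z_t`  -/
structure EkF (X : FCtx n) (κ t ε : ℝ) (F : Filt X.V) : Prop where
  fin : thr X.z F X.x ≠ ∞
  ek : ∀ G : Filt X.V, thr X.z G X.x ≠ ∞ →
    (thr X.z F X.x).toReal + Real.log (ZZ F t κ) ≤
      (thr X.z G X.x).toReal + Real.log (ZZ G t κ) + ε * fdist F G

/-- Parts 4, 5.3, 6: in Case B there are Ekeland points, for arbitrarily small `t`, with threshold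
`A ≥ η₀` (`η₀` independent of `κ`), whose threshold is already attained in degree
`c > (n+1+ε₁-A)/κ`. -/
def ExiMain : Prop :=
  ∀ (n : ℕ) (X : FCtx n), 1 ≤ n → AFacts X → CaseB X →
    ∃ η₀ : ℝ, 0 < η₀ ∧ ∀ κ : ℝ, 1 / 2 ≤ κ → κ ≤ 1 → ∀ ε₁ : ℝ, 0 < ε₁ →
      ∀ ε : ℝ → ℝ, (∀ t, 0 < ε t) → ∀ t₀ : ℝ, 0 < t₀ →
        ∃ (t : ℝ) (F : Filt X.V), 0 < t ∧ t ≤ t₀ ∧ EkF X κ t (ε t) F ∧
          η₀ ≤ (thr X.z F X.x).toReal ∧
          ∀ c : ℝ, (n + 1 + ε₁ - (thr X.z F X.x).toReal) / κ < c →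
            ∀ l : ℝ, l < (thr X.z F X.x).toReal → GoodC X.z F X.x c l

/-- `x` is (Zariski) isolated in the centre of `F` at `x` (7.1) -/
def IsoAt (X : FCtx n) (F : Filt X.V) : Prop :=
  ∃ (l₁ : ℝ) (k₁ : ℕ) (b : X.B), (thr X.z F X.x).toReal < l₁ ∧ 1 ≤ k₁ ∧ X.x b ≠ 0 ∧
    ∀ y : X.B →ₐ[ℂ] ℂ, y ≠ X.x → y b ≠ 0 →
      IInt X.z y (fun _ : Unit => idl F (k₁ * l₁)) (fun _ => 1 / (k₁ : ℝ))

/-- Part 8: for `κ < 1`, `t` small and `ε` small (depending on `t`) the centre of an Ekeland point is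
isolated at `x` -/
def NonIsoMain : Prop :=
  ∀ (n : ℕ) (X : FCtx n), 1 ≤ n → AFacts X → ∀ κ : ℝ, 1 / 2 ≤ κ → κ < 1 →
    ∃ t₀ : ℝ, 0 < t₀ ∧ ∀ t : ℝ, 0 < t → t ≤ t₀ → ∃ ε₀ : ℝ, 0 < ε₀ ∧
      ∀ F : Filt X.V, EkF X κ t ε₀ F → 0 < (thr X.z F X.x).toReal → IsoAt X F

/-- Part 7: isolated centre and threshold attained in degree `c₀ < n+1` give MLT -/
def IsoMain : Prop :=
  ∀ (n : ℕ) (X : FCtx n), 1 ≤ n → AFacts X → ∀ (F : Filt X.V) (c₀ : ℝ),
    thr X.z F X.x ≠ ∞ → 0 < (thr X.z F X.x).toReal → c₀ < n + 1 →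
    (∀ l : ℝ, l < (thr X.z F X.x).toReal → GoodC X.z F X.x c₀ l) → IsoAt X F → MLT X

theorem abstractMain (hA : CaseA) (hE : ExiMain) (hN : NonIsoMain) (hI : IsoMain) :
    AbstractMain := by
  intro n X hn af
  by_cases hB : CaseB X
  · obtain ⟨η₀, hη₀, hex⟩ := hE n X hn af hB
    set μ : ℝ := min η₀ 1 with hμ
    have hμpos : 0 < μ := lt_min hη₀ one_pos
    have hμ1 : μ ≤ 1 := min_le_right _ _
    have hμη : μ ≤ η₀ := min_le_left _ _
    have hn1 : (1 : ℝ) ≤ n := by exact_mod_cast hn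
    set κ : ℝ := 1 - μ / (4 * (n + 1)) with hκ
    have hden : (0 : ℝ) < 4 * (n + 1) := by positivity
    have hq : μ / (4 * (n + 1)) ≤ 1 / 2 := by
      rw [div_le_iff₀ hden]; nlinarith
    have hq0 : 0 < μ / (4 * (n + 1)) := by positivity
    have hκ1 : 1 / 2 ≤ κ := by rw [hκ]; linarith
    have hκ2 : κ < 1 := by rw [hκ]; linarith
    obtain ⟨t₀, ht₀, hiso⟩ := hN n X hn af κ hκ1 hκ2
    choose! e he using hiso
    obtain ⟨t, F, ht, htt, hek, hηA, hgood⟩ := hex κ hκ1 hκ2.le (η₀ / 4) (by positivity)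
      (fun t => if 0 < t ∧ t ≤ t₀ then e t else 1)
      (fun t => by
        by_cases h : 0 < t ∧ t ≤ t₀
        · simp only [h, and_self, if_true]; exact (he t h.1 h.2).1
        · simp [h]) t₀ ht₀
    have hek' : EkF X κ t (e t) F := by simpa [ht, htt] using hek
    have hApos : 0 < (thr X.z F X.x).toReal := lt_of_lt_of_le hη₀ hηA
    have hIso := (he t ht htt).2 F hek' hApos
    set A := (thr X.z F X.x).toReal with hAdef
    have hκpos : 0 < κ := by linarith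
    have hlt : (n + 1 + η₀ / 4 - A) / κ < n + 1 := by
      rw [div_lt_iff₀ hκpos, hκ]
      have : ((n : ℝ) + 1) * (1 - μ / (4 * (n + 1))) = n + 1 - μ / 4 := by
        field_simp
      rw [this]; linarith
    obtain ⟨c₀, hc1, hc2⟩ := exists_between hlt
    exact hI n X hn af F c₀ hek.fin hApos hc2 (hgood c₀ hc1) hIso
  · exact hA n X hn af hB

end Crest.Agent.R271.Assembly710
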