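import Crest.Agent.R271.Ball_399

/-!
# The `∂̄`-solver on a polydisc of `ℂⁿ`, from the engine on Riemann domains (helper399, row 271)
-/

set_option autoImplicit false
set_option linter.unusedSectionVars false

noncomputable section

open Set Filter Topology MeasureTheory Metric

namespace Crest.Agent.R271.Ball399

open Crest.Agent.R271.Ho51 Crest.Agent.R271.W792

/-- the statement of helper51's engine -/
def EngineP : Prop :=
  ∀ (n : ℕ) (M : Type) [TopologicalSpace M] [T2Space M] [SecondCountableTopology M] [RDom n M]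
    [MeasurableSpace M] [BorelSpace M] (μ : Measure M), IsLeb μ →
    ∀ ρ : M → ℝ, Sm ρ → (∀ c, IsCompact {x | ρ x ≤ c}) → (∀ x w, Ho51.nsq w ≤ Levi ρ x w) →
    ∀ φ : ℕ → M → ℝ, (∀ k, Sm (φ k)) → (∀ x, Antitone (fun k => φ k x)) →
      (∀ k x w, 0 ≤ Levi (φ k) x w) →
    ∀ G : M → ℂ, Sm G → ∀ kap : ℕ → M → ℝ,
      (∀ k x w, ‖∑ j, db j G x * (starRingEnd ℂ) (w j)‖ ^ 2 ≤ kap k x * Levi (φ k) x w) →
    ∀ K : ENNReal, (∀ k, ∫⁻ x, ENNReal.ofReal (kap k x * Real.exp (-φ k x)) ∂μ ≤ K) →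
    ∃ F : M → ℂ, Ho51.Hol F ∧
      ∫⁻ x, ENNReal.ofReal (‖F x - G x‖ ^ 2) *
        (⨆ k, ENNReal.ofReal (Real.exp (-φ k x))) ∂μ ≤ 2 * K

variable {n : ℕ} {r : ℝ}

lemma lintegral_ball_le (hr : 0 < r) {μ : Measure (Bl n r)} (hμ : IsLeb μ)
    (f : (Fin n → ℂ) → ENNReal) :
    ∫⁻ x : Bl n r, f x.val ∂μ ≤ ∫⁻ z in ball (0 : Fin n → ℂ) r, f z := by
  have h1 := hμ (e0 n r hr) (isCh_e0 hr)
  rw [e0_source, Measure.restrict_univ, e0_target] at h1
  rw [h1]
  refine (lintegral_map_le _ _).trans ?_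
  apply le_of_eq
  apply setLIntegral_congr_fun measurableSet_ball
  intro z hz
  simp only [e0_symm_val hr hz]

/-- **Solver on a polydisc**, sequence form. -/
theorem solver_seq (hE : EngineP) (hr : 0 < r) {φ : ℕ → (Fin n → ℂ) → ℝ}
    (hφ : ∀ k, ContDiffOn ℝ (⊤ : ℕ∞) (φ k) (ball 0 r))
    (hanti : ∀ z ∈ ball (0 : Fin n → ℂ) r, Antitone (fun k => φ k z))
    (hlev : ∀ k, ∀ z ∈ ball (0 : Fin n → ℂ) r, ∀ w, 0 ≤ lev0 (φ k) z w)
    {G : (Fin n → ℂ) → ℂ} (hG : ContDiffOn ℝ (⊤ : ℕ∞) G (ball 0 r))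
    {kap : ℕ → (Fin n → ℂ) → ℝ}
    (hkap : ∀ k, ∀ z ∈ ball (0 : Fin n → ℂ) r, ∀ w,
      ‖∑ j, dbar0 j G z * (starRingEnd ℂ) (w j)‖ ^ 2 ≤ kap k z * lev0 (φ k) z w)
    {K : ENNReal}
    (hK : ∀ k, ∫⁻ z in ball (0 : Fin n → ℂ) r,
      ENNReal.ofReal (kap k z * Real.exp (-φ k z)) ≤ K) :
    ∃ f : (Fin n → ℂ) → ℂ, DifferentiableOn ℂ f (ball 0 r) ∧
      ∫⁻ z in ball (0 : Fin n → ℂ) r, ENNReal.ofReal (‖f z - G z‖ ^ 2) *
        (⨆ k, ENNReal.ofReal (Real.exp (-φ k z))) ≤ 2 * K := by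
  obtain ⟨μ, hμ⟩ := exists_leb (M := Bl n r)
  obtain ⟨F, hF, hFK⟩ := hE n (Bl n r) μ hμ (rho n r) Sm_rho (isCompact_sublevel hr)
    nsq_le_Levi_rho (fun k x => φ k x.val) (fun k => Sm_restrict (hφ k))
    (fun x => hanti x.val x.2)
    (fun k x w => by rw [Levi_restrict (hφ k)]; exact hlev k x.val x.2 w)
    (fun x => G x.val) (Sm_restrict hG) (fun k x => kap k x.val)
    (fun k x w => by
      rw [Levi_restrict (hφ k)]
      simp only [db_restrict]
      exact hkap k x.val x.2 w) K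
    (fun k => (lintegral_ball_le hr hμ
      (fun z => ENNReal.ofReal (kap k z * Real.exp (-φ k z)))).trans (hK k))
  have hFd := hF (e0 n r hr) (isCh_e0 hr)
  rw [e0_target] at hFd
  refine ⟨F ∘ (e0 n r hr).symm, hFd, ?_⟩
  have hFc : Continuous F := by
    rw [continuous_iff_continuousAt]
    intro x
    have h1 : ContinuousAt (F ∘ (e0 n r hr).symm) x.val :=
      (hFd.continuousOn x.val x.2).continuousAt (ball_nhds x)
    have h2 : ContinuousAt (fun y : Bl n r => (F ∘ (e0 n r hr).symm) y.val) x :=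
      ContinuousAt.comp (f := fun y : Bl n r => y.val) h1 continuous_subtype_val.continuousAt
    have h3 : (fun y : Bl n r => (F ∘ (e0 n r hr).symm) y.val) = F := by
      funext y
      simp only [Function.comp_apply]
      congr 1
      exact Subtype.ext (e0_symm_val hr y.2)
    rwa [h3] at h2
  have hmeas : Measurable (fun x : Bl n r => ENNReal.ofReal (‖F x - G x.val‖ ^ 2) *
      (⨆ k, ENNReal.ofReal (Real.exp (-φ k x.val)))) := by
    apply Measurable.mul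
    · have : Continuous (fun x : Bl n r => ‖F x - G x.val‖ ^ 2) :=
        ((hFc.sub (Sm_restrict hG).continuous).norm).pow 2
      exact this.measurable.ennreal_ofReal
    · apply Measurable.iSup
      intro k
      have : Continuous (fun x : Bl n r => Real.exp (-φ k x.val)) :=
        Real.continuous_exp.comp (Sm_restrict (hφ k)).continuous.neg
      exact this.measurable.ennreal_ofReal
  have h1 := lintegral_ball hr hμ hmeas.aemeasurable
  rw [h1] at hFK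
  refine le_trans (le_of_eq ?_) hFK
  apply setLIntegral_congr_fun measurableSet_ball
  intro z hz
  simp only [Function.comp_apply, e0_symm_val hr hz]

/-- **Solver on a polydisc**, one weight. -/
theorem solver (hE : EngineP) (hr : 0 < r) {φ : (Fin n → ℂ) → ℝ}
    (hφ : ContDiffOn ℝ (⊤ : ℕ∞) φ (ball 0 r))
    (hlev : ∀ z ∈ ball (0 : Fin n → ℂ) r, ∀ w, 0 ≤ lev0 φ z w)
    {G : (Fin n → ℂ) → ℂ} (hG : ContDiffOn ℝ (⊤ : ℕ∞) G (ball 0 r))
    {kap : (Fin n → ℂ) → ℝ}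
    (hkap : ∀ z ∈ ball (0 : Fin n → ℂ) r, ∀ w,
      ‖∑ j, dbar0 j G z * (starRingEnd ℂ) (w j)‖ ^ 2 ≤ kap z * lev0 φ z w) :
    ∃ f : (Fin n → ℂ) → ℂ, DifferentiableOn ℂ f (ball 0 r) ∧
      ∫⁻ z in ball (0 : Fin n → ℂ) r, ENNReal.ofReal (‖f z - G z‖ ^ 2 * Real.exp (-φ z)) ≤
        2 * ∫⁻ z in ball (0 : Fin n → ℂ) r, ENNReal.ofReal (kap z * Real.exp (-φ z)) := by
  obtain ⟨f, hf, hfK⟩ := solver_seq hE hr (φ := fun _ => φ) (fun _ => hφ)
    (fun _ _ => antitone_const) (fun _ => hlev) hG (kap := fun _ => kap) (fun _ => hkap)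
    (K := ∫⁻ z in ball (0 : Fin n → ℂ) r, ENNReal.ofReal (kap z * Real.exp (-φ z)))
    (fun _ => le_rfl)
  refine ⟨f, hf, ?_⟩
  refine le_trans (le_of_eq ?_) hfK
  congr 1
  funext z
  rw [ENNReal.ofReal_mul (by positivity), iSup_const]

end Crest.Agent.R271.Ball399
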