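import Crest.Agent.R271.H2_51

/-!
# Row 271: weight library (helper792)

Levi forms of `log (∑ |f_j|² + δ)`, of compositions with real functions, of log-sum-exp, on a Riemann
domain `RDom n M` (calculus of `H1_51`).
-/

set_option autoImplicit false

noncomputable section

open Set Filter Topology Complex

namespace Crest.Agent.R271.W792

open Crest.Agent.R271.Ho51

variable {n : ℕ} {M : Type*} [TopologicalSpace M] [RDom n M]

/-- Levi form `∑ φ_{j k̄} w_j \bar w_k` -/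
def lev (φ : M → ℝ) (x : M) (w : Fin n → ℂ) : ℝ :=
  (1 / 4) * (D (fun y => D φ y w) x w + D (fun y => D φ y (I • w)) x (I • w))

/-- `|∂φ(w)|²` -/
def dsq (φ : M → ℝ) (x : M) (w : Fin n → ℂ) : ℝ :=
  (1 / 4) * ((D φ x w) ^ 2 + (D φ x (I • w)) ^ 2)

/-- holomorphic functions (`D f x` is `ℂ`-linear) -/
structure Hol (f : M → ℂ) : Prop where
  sm : Sm f
  cl : ∀ (x : M) (w : Fin n → ℂ), D f x (I • w) = I * D f x w

lemma dsq_nonneg (φ : M → ℝ) (x : M) (w : Fin n → ℂ) : 0 ≤ dsq φ x w := by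
  unfold dsq; positivity

lemma lev_add {φ ψ : M → ℝ} (hφ : Sm φ) (hψ : Sm ψ) (x : M) (w : Fin n → ℂ) :
    lev (fun y => φ y + ψ y) x w = lev φ x w + lev ψ x w := by
  unfold lev
  have h : ∀ v : Fin n → ℂ, D (fun y => D (fun y => φ y + ψ y) y v) x v =
      D (fun y => D φ y v) x v + D (fun y => D ψ y v) x v := by
    intro v
    have h1 : (fun y => D (fun y => φ y + ψ y) y v) = fun y => D φ y v + D ψ y v := by
      funext y
      rw [D_add hφ hψ]; rfl
    rw [h1, D_add (hφ.D.apply v) (hψ.D.apply v)]; rfl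
  rw [h, h]; ring

lemma lev_const (c : ℝ) (x : M) (w : Fin n → ℂ) : lev (fun _ : M => c) x w = 0 := by
  unfold lev
  have h : ∀ v : Fin n → ℂ, (fun y : M => D (fun _ : M => c) y v) = fun _ => (0 : ℝ) := by
    intro v; funext y; rw [D_const]; rfl
  simp only [D_const]
  simp

lemma lev_sum {ι : Type*} (s : Finset ι) {φ : ι → M → ℝ} (hφ : ∀ i ∈ s, Sm (φ i)) (x : M)
    (w : Fin n → ℂ) : lev (fun y => ∑ i ∈ s, φ i y) x w = ∑ i ∈ s, lev (φ i) x w := by
  classical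
  induction s using Finset.induction_on with
  | empty => simpa using lev_const (n := n) (M := M) 0 x w
  | insert a s ha ih =>
    have h1 : Sm (φ a) := hφ a (Finset.mem_insert_self a s)
    have h2 : ∀ i ∈ s, Sm (φ i) := fun i hi => hφ i (Finset.mem_insert_of_mem hi)
    simp only [Finset.sum_insert ha]
    rw [lev_add h1 (Sm.sum h2), ih h2]

lemma lev_const_mul {φ : M → ℝ} (hφ : Sm φ) (c : ℝ) (x : M) (w : Fin n → ℂ) :
    lev (fun y => c * φ y) x w = c * lev φ x w := by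
  unfold lev
  have hc : Sm (fun _ : M => c) := Sm.const c
  have h0 : ∀ (ψ : M → ℝ), Sm ψ → ∀ (v : Fin n → ℂ) (y : M),
      D (fun y => c * ψ y) y v = c * D ψ y v := by
    intro ψ hψ v y
    have := D_smul hc hψ y v
    simp only [smul_eq_mul] at this
    rw [this, D_const]
    simp
  have h : ∀ v : Fin n → ℂ, D (fun y => D (fun y => c * φ y) y v) x v =
      c * D (fun y => D φ y v) x v := by
    intro v
    have h1 : (fun y => D (fun y => c * φ y) y v) = fun y => c * D φ y v := by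
      funext y; exact h0 φ hφ v y
    rw [h1, h0 _ (hφ.D.apply v)]
  rw [h, h]; ring

/-- chain rule for the Levi form -/
lemma lev_comp {φ : M → ℝ} (hφ : Sm φ) {g g' : ℝ → ℝ} {g'' : ℝ} (x : M)
    (hg' : ∀ᶠ t in 𝓝 (φ x), HasDerivAt g (g' t) t) (hg'' : HasDerivAt g' g'' (φ x))
    (w : Fin n → ℂ) (hg's : Sm (fun y => g' (φ y))) :
    lev (fun y => g (φ y)) x w = g'' * dsq φ x w + g' (φ x) * lev φ x w := by
  have hev : ∀ᶠ y in 𝓝 x, HasDerivAt g (g' (φ y)) (φ y) := hφ.continuous.continuousAt.eventually hg'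
  have h : ∀ v : Fin n → ℂ, D (fun y => D (fun y => g (φ y)) y v) x v =
      g'' * (D φ x v) ^ 2 + g' (φ x) * D (fun y => D φ y v) x v := by
    intro v
    have h1 : (fun y => D (fun y => g (φ y)) y v) =ᶠ[𝓝 x] fun y => g' (φ y) * D φ y v := by
      filter_upwards [hev] with y hy
      exact D_comp_real hφ y hy v
    rw [D_congr h1]
    have h2 := D_smul hg's (hφ.D.apply v) x v
    simp only [smul_eq_mul] at h2
    rw [h2, D_comp_real hφ x hg'' v]
    ring
  unfold lev dsq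
  rw [h, h]; ring

/-- `S = ∑ |f_j|²` -/
def nS {ι : Type*} [Fintype ι] (f : ι → M → ℂ) (x : M) : ℝ := ∑ j, ‖f j x‖ ^ 2

omit [TopologicalSpace M] in
lemma nS_nonneg {ι : Type*} [Fintype ι] (f : ι → M → ℂ) (x : M) : 0 ≤ nS f x :=
  Finset.sum_nonneg fun _ _ => by positivity

lemma Hol.sm_normSq {f : M → ℂ} (hf : Sm f) : Sm (fun x => ‖f x‖ ^ 2) := by
  have h1 : Sm (fun x => Complex.reCLM (f x * (starRingEnd ℂ) (f x))) :=
    (hf.mul hf.conj).clm Complex.reCLM
  have h2 : (fun x => ‖f x‖ ^ 2) = fun x => Complex.reCLM (f x * (starRingEnd ℂ) (f x)) := by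
    funext x
    rw [Complex.mul_conj, Complex.normSq_eq_norm_sq, Complex.reCLM_apply, Complex.ofReal_re]
  rw [h2]; exact h1

lemma sm_nS {ι : Type*} [Fintype ι] {f : ι → M → ℂ} (hf : ∀ j, Sm (f j)) : Sm (nS f) := by
  unfold nS
  exact Sm.sum fun j _ => Hol.sm_normSq (hf j)

lemma D_conj {f : M → ℂ} (hf : Sm f) (x : M) (v : Fin n → ℂ) :
    D (fun x => (starRingEnd ℂ) (f x)) x v = (starRingEnd ℂ) (D f x v) := by
  have := D_clm hf (Complex.conjCLE : ℂ →L[ℝ] ℂ) x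
  have h2 : D (fun x => (Complex.conjCLE : ℂ →L[ℝ] ℂ) (f x)) x v =
      ((Complex.conjCLE : ℂ →L[ℝ] ℂ).comp (D f x)) v := by rw [this]
  simpa using h2

lemma D_normSq {f : M → ℂ} (hf : Sm f) (x : M) (v : Fin n → ℂ) :
    D (fun x => ‖f x‖ ^ 2) x v = 2 * (D f x v * (starRingEnd ℂ) (f x)).re := by
  have h2 : (fun x => ‖f x‖ ^ 2) = fun x => Complex.reCLM (f x * (starRingEnd ℂ) (f x)) := by
    funext x
    rw [Complex.mul_conj, Complex.normSq_eq_norm_sq, Complex.reCLM_apply, Complex.ofReal_re]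
  rw [h2, D_clm (hf.mul hf.conj) Complex.reCLM]
  simp only [ContinuousLinearMap.comp_apply]
  rw [D_mul hf hf.conj, D_conj hf]
  simp only [Complex.reCLM_apply, Complex.add_re, Complex.mul_re, Complex.conj_re, Complex.conj_im]
  ring

lemma D_re {f : M → ℂ} (hf : Sm f) (x : M) (v : Fin n → ℂ) :
    D (fun x => (f x).re) x v = (D f x v).re := by
  have := D_clm hf Complex.reCLM x
  have h2 : D (fun x => Complex.reCLM (f x)) x v = (Complex.reCLM.comp (D f x)) v := by rw [this]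
  simpa using h2

lemma D_const_mulC {f : M → ℂ} (hf : Sm f) (c : ℂ) (x : M) (v : Fin n → ℂ) :
    D (fun x => c * f x) x v = c * D f x v := by
  rw [D_mul (Sm.const c) hf, D_const]; simp

lemma D2_I {f : M → ℂ} (hf : Hol f) (x : M) (w : Fin n → ℂ) :
    D (fun y => D f y (I • w)) x (I • w) = - D (fun y => D f y w) x w := by
  have h1 : (fun y => D f y (I • w)) = fun y => I * D f y w := by
    funext y; exact hf.cl y w
  rw [h1, D_const_mulC (hf.sm.D.apply w)]
  rw [D_D_comm hf.sm x w (I • w), h1, D_const_mulC (hf.sm.D.apply w), ← mul_assoc, I_mul_I]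
  ring

lemma lev_normSq {f : M → ℂ} (hf : Hol f) (x : M) (w : Fin n → ℂ) :
    lev (fun x => ‖f x‖ ^ 2) x w = ‖D f x w‖ ^ 2 := by
  have hS : Sm f := hf.sm
  have h : ∀ v : Fin n → ℂ, D (fun y => D (fun x => ‖f x‖ ^ 2) y v) x v =
      2 * ((D (fun y => D f y v) x v * (starRingEnd ℂ) (f x)).re + ‖D f x v‖ ^ 2) := by
    intro v
    have h1 : (fun y => D (fun x => ‖f x‖ ^ 2) y v) =
        fun y => 2 * (D f y v * (starRingEnd ℂ) (f y)).re := by
      funext y; exact D_normSq hS y v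
    have hs : Sm (fun y => D f y v * (starRingEnd ℂ) (f y)) := (hS.D.apply v).mul hS.conj
    have hs' : Sm (fun y => (D f y v * (starRingEnd ℂ) (f y)).re) := hs.clm Complex.reCLM
    have h3 := D_smul (Sm.const (M := M) (2 : ℝ)) hs' x v
    simp only [smul_eq_mul] at h3
    rw [h1, h3, D_const, D_re hs, D_mul (hS.D.apply v) hS.conj, D_conj hS]
    have h4 : D f x v * (starRingEnd ℂ) (D f x v) = ((‖D f x v‖ ^ 2 : ℝ) : ℂ) := by
      rw [Complex.mul_conj, Complex.normSq_eq_norm_sq]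
    rw [h4, Complex.add_re, Complex.ofReal_re]
    simp
  unfold lev
  rw [h, h, D2_I hf, hf.cl]
  have h5 : ‖I * D f x w‖ = ‖D f x w‖ := by simp
  rw [h5]
  have h6 : (-(D (fun y => D f y w) x w) * (starRingEnd ℂ) (f x)).re =
      -((D (fun y => D f y w) x w) * (starRingEnd ℂ) (f x)).re := by
    rw [neg_mul, Complex.neg_re]
  rw [h6]; ring

/-- `∑ |D f_j x w|²` -/
def nT {ι : Type*} [Fintype ι] (f : ι → M → ℂ) (x : M) (w : Fin n → ℂ) : ℝ :=
  ∑ j, ‖D (f j) x w‖ ^ 2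

lemma nT_nonneg {ι : Type*} [Fintype ι] (f : ι → M → ℂ) (x : M) (w : Fin n → ℂ) :
    0 ≤ nT f x w := Finset.sum_nonneg fun _ _ => by positivity

lemma lev_nS {ι : Type*} [Fintype ι] {f : ι → M → ℂ} (hf : ∀ j, Hol (f j)) (x : M)
    (w : Fin n → ℂ) : lev (nS f) x w = nT f x w := by
  unfold nS nT
  rw [lev_sum _ (fun j _ => Hol.sm_normSq (hf j).sm)]
  exact Finset.sum_congr rfl fun j _ => lev_normSq (hf j) x w

/-- `∑ D f_j(w) \bar f_j` -/
def nA {ι : Type*} [Fintype ι] (f : ι → M → ℂ) (x : M) (w : Fin n → ℂ) : ℂ :=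
  ∑ j, D (f j) x w * (starRingEnd ℂ) (f j x)

lemma D_sumR {ι : Type*} (s : Finset ι) {φ : ι → M → ℝ} (hφ : ∀ i ∈ s, Sm (φ i)) (x : M)
    (w : Fin n → ℂ) : D (fun y => ∑ i ∈ s, φ i y) x w = ∑ i ∈ s, D (φ i) x w := by
  classical
  induction s using Finset.induction_on with
  | empty => simp [D_const]
  | insert a s ha ih =>
    have h1 : Sm (φ a) := hφ a (Finset.mem_insert_self a s)
    have h2 : ∀ i ∈ s, Sm (φ i) := fun i hi => hφ i (Finset.mem_insert_of_mem hi)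
    simp only [Finset.sum_insert ha]
    rw [D_add h1 (Sm.sum h2)]
    simp only [_root_.add_apply]
    rw [ih h2]

lemma D_nS {ι : Type*} [Fintype ι] {f : ι → M → ℂ} (hf : ∀ j, Sm (f j)) (x : M)
    (w : Fin n → ℂ) : D (nS f) x w = 2 * (nA f x w).re := by
  unfold nS nA
  rw [D_sumR _ (fun j _ => Hol.sm_normSq (hf j))]
  rw [Complex.re_sum, Finset.mul_sum]
  exact Finset.sum_congr rfl fun j _ => D_normSq (hf j) x w

lemma dsq_nS {ι : Type*} [Fintype ι] {f : ι → M → ℂ} (hf : ∀ j, Hol (f j)) (x : M)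
    (w : Fin n → ℂ) : dsq (nS f) x w = ‖nA f x w‖ ^ 2 := by
  unfold dsq
  rw [D_nS (fun j => (hf j).sm), D_nS (fun j => (hf j).sm)]
  have h1 : nA f x (I • w) = I * nA f x w := by
    unfold nA
    rw [Finset.mul_sum]
    refine Finset.sum_congr rfl fun j _ => ?_
    rw [(hf j).cl]; ring
  rw [h1]
  have h2 : ‖nA f x w‖ ^ 2 = (nA f x w).re ^ 2 + (nA f x w).im ^ 2 := by
    rw [← Complex.normSq_eq_norm_sq, Complex.normSq_apply]; ring
  rw [h2]
  simp only [Complex.mul_re, Complex.I_re, Complex.I_im]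
  ring

lemma nA_le {ι : Type*} [Fintype ι] (f : ι → M → ℂ) (x : M) (w : Fin n → ℂ) :
    ‖nA f x w‖ ^ 2 ≤ nS f x * nT f x w := by
  have h1 : ‖nA f x w‖ ≤ ∑ j, ‖f j x‖ * ‖D (f j) x w‖ := by
    unfold nA
    refine (norm_sum_le _ _).trans (Finset.sum_le_sum fun j _ => ?_)
    rw [norm_mul, RCLike.norm_conj, mul_comm]
  calc ‖nA f x w‖ ^ 2 ≤ (∑ j, ‖f j x‖ * ‖D (f j) x w‖) ^ 2 := by gcongr
    _ ≤ (∑ j, ‖f j x‖ ^ 2) * ∑ j, ‖D (f j) x w‖ ^ 2 := Finset.sum_mul_sq_le_sq_mul_sq _ _ _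
    _ = nS f x * nT f x w := rfl

/-- `log (∑ |f_j|² + δ)` -/
def lg {ι : Type*} [Fintype ι] (f : ι → M → ℂ) (δ : ℝ) (x : M) : ℝ := Real.log (nS f x + δ)

lemma sm_lg {ι : Type*} [Fintype ι] {f : ι → M → ℂ} (hf : ∀ j, Sm (f j)) {δ : ℝ}
    (hp : ∀ x, 0 < nS f x + δ) : Sm (lg f δ) := by
  unfold lg
  have h1 : Sm (fun x => nS f x + δ) := (sm_nS hf).add (Sm.const δ)
  exact Sm.comp_at h1 fun x => Real.contDiffAt_log.mpr (hp x).ne'

lemma sm_inv_nS {ι : Type*} [Fintype ι] {f : ι → M → ℂ} (hf : ∀ j, Sm (f j)) {δ : ℝ}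
    (hp : ∀ x, 0 < nS f x + δ) : Sm (fun x => (nS f x + δ)⁻¹) := by
  have h1 : Sm (fun x => nS f x + δ) := (sm_nS hf).add (Sm.const δ)
  exact Sm.comp_at (g := fun t : ℝ => t⁻¹) h1 fun x => contDiffAt_inv ℝ (hp x).ne'

lemma lev_lg {ι : Type*} [Fintype ι] {f : ι → M → ℂ} (hf : ∀ j, Hol (f j)) {δ : ℝ}
    (hp : ∀ x, 0 < nS f x + δ) (x : M) (w : Fin n → ℂ) :
    lev (lg f δ) x w = nT f x w / (nS f x + δ) - ‖nA f x w‖ ^ 2 / (nS f x + δ) ^ 2 := by
  have hsm : ∀ j, Sm (f j) := fun j => (hf j).sm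
  have hpos : 0 < nS f x + δ := hp x
  have hg' : ∀ᶠ t in 𝓝 (nS f x), HasDerivAt (fun t : ℝ => Real.log (t + δ))
      ((fun t : ℝ => (t + δ)⁻¹) t) t := by
    have : ∀ᶠ t in 𝓝 (nS f x), 0 < t + δ := by
      have hc : ContinuousAt (fun t : ℝ => t + δ) (nS f x) := by fun_prop
      exact hc.eventually (lt_mem_nhds hpos)
    filter_upwards [this] with t ht
    have h0 : HasDerivAt (fun t : ℝ => t + δ) 1 t := (hasDerivAt_id' t).add_const δ
    have h5 := h0.log ht.ne'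
    simpa [one_div] using h5
  have hg'' : HasDerivAt (fun t : ℝ => (t + δ)⁻¹) (-((nS f x + δ) ^ 2)⁻¹) (nS f x) := by
    have h2 : HasDerivAt (fun t : ℝ => t + δ) 1 (nS f x) := (hasDerivAt_id' _).add_const δ
    have h5 := h2.inv hpos.ne'
    have h6 : -(1 : ℝ) / (nS f x + δ) ^ 2 = -((nS f x + δ) ^ 2)⁻¹ := by
      rw [neg_div, one_div]
    rw [h6] at h5
    exact h5
  have h1 : lev (lg f δ) x w =
      (-((nS f x + δ) ^ 2)⁻¹) * dsq (nS f) x w + (nS f x + δ)⁻¹ * lev (nS f) x w :=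
    lev_comp (g := fun t : ℝ => Real.log (t + δ)) (g' := fun t : ℝ => (t + δ)⁻¹)
      (sm_nS hsm) x hg' hg'' w (sm_inv_nS hsm hp)
  rw [h1, dsq_nS hf, lev_nS hf]
  simp only [div_eq_mul_inv]
  ring

lemma lev_lg_ge {ι : Type*} [Fintype ι] {f : ι → M → ℂ} (hf : ∀ j, Hol (f j)) {δ : ℝ}
    (hp : ∀ x, 0 < nS f x + δ) (x : M) (w : Fin n → ℂ) :
    δ * nT f x w / (nS f x + δ) ^ 2 ≤ lev (lg f δ) x w := by
  have hpos : 0 < nS f x + δ := hp x
  rw [lev_lg hf hp]
  have h1 := nA_le f x w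
  have h2 : nT f x w / (nS f x + δ) - ‖nA f x w‖ ^ 2 / (nS f x + δ) ^ 2 =
      (nT f x w * (nS f x + δ) - ‖nA f x w‖ ^ 2) / (nS f x + δ) ^ 2 := by
    field_simp
  rw [h2]
  gcongr
  nlinarith

lemma lev_lg_nonneg {ι : Type*} [Fintype ι] {f : ι → M → ℂ} (hf : ∀ j, Hol (f j)) {δ : ℝ}
    (hδ : 0 ≤ δ) (hp : ∀ x, 0 < nS f x + δ) (x : M) (w : Fin n → ℂ) :
    0 ≤ lev (lg f δ) x w := by
  refine le_trans ?_ (lev_lg_ge hf hp x w)
  have := nT_nonneg f x w
  positivity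

omit [TopologicalSpace M] in
lemma lg_antitone {ι : Type*} [Fintype ι] (f : ι → M → ℂ) {δ δ' : ℝ} (h : δ ≤ δ')
    (x : M) (hp : 0 < nS f x + δ) : lg f δ x ≤ lg f δ' x :=
  Real.log_le_log hp (by linarith)

/-! ### Comparison with the Levi form of `H2_51` -/

lemma clm_wirtinger (A : (Fin n → ℂ) →L[ℝ] ℂ) (w : Fin n → ℂ) :
    A w = ∑ j, (wz j A * w j + wb j A * (starRingEnd ℂ) (w j)) := by
  have h1 : w = ∑ j, ((w j).re • (Pi.single j 1 : Fin n → ℂ) +
      (w j).im • (Pi.single j Complex.I : Fin n → ℂ)) := by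
    funext i
    simp only [Finset.sum_apply, Pi.add_apply, Pi.smul_apply]
    rw [Finset.sum_eq_single i]
    · simp only [Pi.single_eq_same, Complex.real_smul, mul_one]
      exact (Complex.re_add_im (w i)).symm
    · intro b _ hb
      simp [Pi.single_eq_of_ne (Ne.symm hb)]
    · intro h; exact absurd (Finset.mem_univ i) h
  conv_lhs => rw [h1]
  rw [map_sum]
  refine Finset.sum_congr rfl fun j _ => ?_
  rw [map_add, map_smul, map_smul]
  unfold wz wb
  simp only [Complex.real_smul]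
  have h2 : w j = (w j).re + (w j).im * Complex.I := (Complex.re_add_im (w j)).symm
  have h3 : (starRingEnd ℂ) (w j) = (w j).re - (w j).im * Complex.I := by
    apply Complex.ext <;> simp
  rw [h3]
  conv_rhs => rw [h2]
  simp only [Complex.add_re, Complex.ofReal_re, Complex.mul_re, Complex.I_re, mul_zero,
    Complex.ofReal_im, Complex.I_im, Complex.add_im, Complex.mul_im]
  push_cast
  linear_combination (((w j).im : ℂ) * A (Pi.single j Complex.I)) * Complex.I_mul_I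

lemma D_wirtinger (f : M → ℂ) (x : M) (w : Fin n → ℂ) :
    D f x w = ∑ j, (dz j f x * w j + db j f x * (starRingEnd ℂ) (w j)) :=
  clm_wirtinger (D f x) w

lemma D_sumC {ι : Type*} (s : Finset ι) {φ : ι → M → ℂ} (hφ : ∀ i ∈ s, Sm (φ i)) (x : M)
    (w : Fin n → ℂ) : D (fun y => ∑ i ∈ s, φ i y) x w = ∑ i ∈ s, D (φ i) x w := by
  classical
  induction s using Finset.induction_on with
  | empty => simp [D_const]
  | insert a s ha ih =>
    have h1 : Sm (φ a) := hφ a (Finset.mem_insert_self a s)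
    have h2 : ∀ i ∈ s, Sm (φ i) := fun i hi => hφ i (Finset.mem_insert_of_mem hi)
    simp only [Finset.sum_insert ha]
    rw [D_add h1 (Sm.sum h2)]
    simp only [_root_.add_apply]
    rw [ih h2]

lemma D2_wirtinger {f : M → ℂ} (hf : Sm f) (x : M) (w v : Fin n → ℂ) :
    D (fun y => D f y w) x v = ∑ j, ∑ k,
      ((dz k (dz j f) x * v k + db k (dz j f) x * (starRingEnd ℂ) (v k)) * w j +
       (dz k (db j f) x * v k + db k (db j f) x * (starRingEnd ℂ) (v k)) *
        (starRingEnd ℂ) (w j)) := by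
  have h1 : (fun y => D f y w) =
      fun y => ∑ j, (dz j f y * w j + db j f y * (starRingEnd ℂ) (w j)) := by
    funext y; exact D_wirtinger f y w
  have hs : ∀ j, Sm (fun y => dz j f y * w j) := fun j => (hf.dz j).mul (Sm.const _)
  have hs' : ∀ j, Sm (fun y => db j f y * (starRingEnd ℂ) (w j)) :=
    fun j => (hf.db j).mul (Sm.const _)
  rw [h1, D_sumC _ (fun j _ => (hs j).add (hs' j))]
  refine Finset.sum_congr rfl fun j _ => ?_
  rw [D_add (hs j) (hs' j), _root_.add_apply, D_mul (hf.dz j) (Sm.const _),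
    D_mul (hf.db j) (Sm.const _), D_const, D_const, D_wirtinger (dz j f), D_wirtinger (db j f)]
  simp only [_root_.zero_apply, mul_zero, add_zero]
  rw [Finset.sum_mul, Finset.sum_mul, ← Finset.sum_add_distrib]

lemma Levi_eq_lev {φ : M → ℝ} (hφ : Sm φ) (x : M) (w : Fin n → ℂ) :
    Levi φ x w = lev φ x w := by
  have hf : Sm (fun y => (φ y : ℂ)) := hφ.ofReal
  have hre : ∀ v u : Fin n → ℂ, ((D (fun y => D φ y v) x u : ℝ) : ℂ) =
      D (fun y => D (fun y => (φ y : ℂ)) y v) x u := by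
    intro v u
    rw [← D_ofReal (hφ.D.apply v)]
    congr 2
    funext y
    exact (D_ofReal hφ y v).symm
  have h4 : ((4 * lev φ x w : ℝ) : ℂ) = 4 * ((Levi φ x w : ℝ) : ℂ) := by
    have h5 : (4 * lev φ x w : ℝ) = D (fun y => D φ y w) x w +
        D (fun y => D φ y (I • w)) x (I • w) := by unfold lev; ring
    rw [h5]
    push_cast
    rw [hre, hre, D2_wirtinger hf, D2_wirtinger hf, Levi_eq hφ]
    have h6 : (4 : ℂ) * ∑ j, ∑ k, Lv φ x j k * w j * (starRingEnd ℂ) (w k) =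
        2 * (∑ j, ∑ k, Lv φ x j k * w j * (starRingEnd ℂ) (w k)) +
        2 * (∑ j, ∑ k, Lv φ x k j * w k * (starRingEnd ℂ) (w j)) := by
      rw [Finset.sum_comm (f := fun j k => Lv φ x k j * w k * (starRingEnd ℂ) (w j))]
      ring
    rw [h6, Finset.mul_sum, Finset.mul_sum, ← Finset.sum_add_distrib, ← Finset.sum_add_distrib]
    refine Finset.sum_congr rfl fun j _ => ?_
    rw [Finset.mul_sum, Finset.mul_sum, ← Finset.sum_add_distrib, ← Finset.sum_add_distrib]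
    refine Finset.sum_congr rfl fun k _ => ?_
    have h7 : Lv φ x j k = db k (dz j (fun y => (φ y : ℂ))) x := dz_db_comm hf j k x
    have h8 : Lv φ x k j = dz k (db j (fun y => (φ y : ℂ))) x := rfl
    rw [h7, h8]
    simp only [Pi.smul_apply, smul_eq_mul, map_mul, Complex.conj_I]
    ring_nf
    simp only [Complex.I_sq]
    ring
  have h9 : (4 * lev φ x w : ℝ) = 4 * Levi φ x w := by
    have : ((4 * lev φ x w : ℝ) : ℂ) = ((4 * Levi φ x w : ℝ) : ℂ) := by
      rw [h4]; push_cast; ring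
    exact_mod_cast this
  linarith

end Crest.Agent.R271.W792
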