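import Crest.Agent.R271.H3_51
import Crest.Agent.R271.W_792

/-!
# The Riemann domain `ball 0 r ⊆ ℂⁿ` (sup norm, i.e. a polydisc) (helper399, row 271)
-/

set_option autoImplicit false
set_option linter.unusedSectionVars false

noncomputable section

open Set Filter Topology MeasureTheory Metric

namespace Crest.Agent.R271.Ball399

open Crest.Agent.R271.Ho51 Crest.Agent.R271.W792

/-- the polydisc as a type -/
abbrev Bl (n : ℕ) (r : ℝ) : Type := ↥(Metric.ball (0 : Fin n → ℂ) r)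

instance instRDomBl (n : ℕ) (r : ℝ) : RDom n (Bl n r) where
  p := Subtype.val
  hp := isOpen_ball.isOpenEmbedding_subtypeVal.isLocalHomeomorph

variable {n : ℕ} {r : ℝ}

lemma cp_eq (x : Bl n r) : cp x = x.val := rfl

variable {G' : Type*} [NormedAddCommGroup G'] [NormedSpace ℝ G']

lemma symm_germ (f : (Fin n → ℂ) → G') (x : Bl n r) :
    ((fun y : Bl n r => f y.val) ∘ (ch x).symm) =ᶠ[𝓝 (cp x)] f := by
  filter_upwards [(ch x).open_target.mem_nhds ((isCh_ch x).cp_mem (mem_ch x))] with z hz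
  have := (isCh_ch x).cp_symm hz
  simp only [Function.comp_apply]
  rw [← cp_eq, this]

lemma ball_nhds (x : Bl n r) : ball (0 : Fin n → ℂ) r ∈ 𝓝 x.val := isOpen_ball.mem_nhds x.2

lemma Sm_restrict {f : (Fin n → ℂ) → G'} (hf : ContDiffOn ℝ (⊤ : ℕ∞) f (ball 0 r)) :
    Sm (fun x : Bl n r => f x.val) := fun x =>
  (hf.contDiffAt (ball_nhds x)).congr_of_eventuallyEq (symm_germ f x)

lemma D_restrict (f : (Fin n → ℂ) → G') (x : Bl n r) :
    D (fun x : Bl n r => f x.val) x = fderiv ℝ f x.val :=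
  (symm_germ f x).fderiv_eq

/-- flat Levi form -/
def lev0 (φ : (Fin n → ℂ) → ℝ) (z w : Fin n → ℂ) : ℝ :=
  (1 / 4) * (fderiv ℝ (fun y => fderiv ℝ φ y w) z w +
    fderiv ℝ (fun y => fderiv ℝ φ y (Complex.I • w)) z (Complex.I • w))

/-- flat `∂̄_j` -/
def dbar0 (j : Fin n) (φ : (Fin n → ℂ) → ℂ) (z : Fin n → ℂ) : ℂ :=
  (1 / 2 : ℂ) * (fderiv ℝ φ z (Pi.single j 1) + Complex.I * fderiv ℝ φ z (Pi.single j Complex.I))

lemma db_restrict (j : Fin n) (f : (Fin n → ℂ) → ℂ) (x : Bl n r) :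
    db j (fun x : Bl n r => f x.val) x = dbar0 j f x.val := by
  rw [db, D_restrict]; rfl

lemma lev_restrict (φ : (Fin n → ℂ) → ℝ) (x : Bl n r) (w : Fin n → ℂ) :
    lev (fun x : Bl n r => φ x.val) x w = lev0 φ x.val w := by
  unfold lev lev0
  simp only [D_restrict]
  rw [D_restrict (fun y => fderiv ℝ φ y w), D_restrict (fun y => fderiv ℝ φ y (Complex.I • w))]

lemma Levi_restrict {φ : (Fin n → ℂ) → ℝ} (hφ : ContDiffOn ℝ (⊤ : ℕ∞) φ (ball 0 r)) (x : Bl n r)
    (w : Fin n → ℂ) : Levi (fun x : Bl n r => φ x.val) x w = lev0 φ x.val w := by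
  rw [Levi_eq_lev (Sm_restrict hφ), lev_restrict]

/-! ## Exhaustion -/

lemma norm_coord_lt (x : Bl n r) (j : Fin n) : ‖x.val j‖ < r := by
  have := x.2
  rw [mem_ball_zero_iff] at this
  exact lt_of_le_of_lt (norm_le_pi_norm _ _) this

lemma hol_coord (j : Fin n) : W792.Hol (fun x : Bl n r => x.val j) where
  sm := Sm_restrict (f := fun z => z j) (contDiff_apply ℝ ℂ j).contDiffOn
  cl := by
    intro x w
    rw [D_restrict (fun z => z j)]
    have h : fderiv ℝ (fun z : Fin n → ℂ => z j) x.val = ContinuousLinearMap.proj (R := ℝ) j := by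
      exact (ContinuousLinearMap.proj (R := ℝ) (φ := fun _ : Fin n => ℂ) j).fderiv
    rw [h]
    simp

/-- the exhaustion function of the polydisc -/
def rho (n : ℕ) (r : ℝ) (x : Bl n r) : ℝ := ∑ j, r ^ 4 / (r ^ 2 - ‖x.val j‖ ^ 2)

lemma pos_aux (x : Bl n r) (j : Fin n) : 0 < r ^ 2 - ‖x.val j‖ ^ 2 := by
  have h1 := norm_coord_lt x j
  have h2 := norm_nonneg (x.val j)
  nlinarith

lemma Sm_nj (j : Fin n) : Sm (fun x : Bl n r => ‖x.val j‖ ^ 2) :=
  W792.Hol.sm_normSq (hol_coord j).sm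

lemma Sm_rhoj (j : Fin n) : Sm (fun x : Bl n r => r ^ 4 / (r ^ 2 - ‖x.val j‖ ^ 2)) := by
  apply Sm.comp_at (g := fun t : ℝ => r ^ 4 / (r ^ 2 - t)) (Sm_nj j)
  intro x
  have h := pos_aux x j
  exact contDiffAt_const.div (contDiffAt_const.sub contDiffAt_id) h.ne'

lemma Sm_rho : Sm (rho n r) := Sm.sum fun j _ => Sm_rhoj j

lemma lev_rhoj (j : Fin n) (x : Bl n r) (w : Fin n → ℂ) :
    ‖w j‖ ^ 2 ≤ lev (fun x : Bl n r => r ^ 4 / (r ^ 2 - ‖x.val j‖ ^ 2)) x w := by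
  have h := pos_aux x j
  have hr : 0 < r ^ 2 := by nlinarith [sq_nonneg ‖x.val j‖]
  have hg : ∀ t : ℝ, r ^ 2 - t ≠ 0 → HasDerivAt (fun t : ℝ => r ^ 4 / (r ^ 2 - t))
      (r ^ 4 / (r ^ 2 - t) ^ 2) t := by
    intro t ht
    have h1 : HasDerivAt (fun t : ℝ => r ^ 2 - t) (-1) t := by
      simpa using (hasDerivAt_id t).const_sub (r ^ 2)
    have h2 := (hasDerivAt_const t (r ^ 4)).div h1 ht
    refine h2.congr_deriv ?_
    ring
  have hg' : ∀ t : ℝ, r ^ 2 - t ≠ 0 → HasDerivAt (fun t : ℝ => r ^ 4 / (r ^ 2 - t) ^ 2)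
      (2 * r ^ 4 / (r ^ 2 - t) ^ 3) t := by
    intro t ht
    have h1 : HasDerivAt (fun t : ℝ => r ^ 2 - t) (-1) t := by
      simpa using (hasDerivAt_id t).const_sub (r ^ 2)
    have h3 := h1.pow 2
    have h2 := (hasDerivAt_const t (r ^ 4)).div h3 (pow_ne_zero 2 ht)
    refine h2.congr_deriv ?_
    simp only [Pi.pow_apply]
    field_simp
    ring
  have h5 := lev_comp (Sm_nj (r := r) j) (g := fun t : ℝ => r ^ 4 / (r ^ 2 - t))
    (g' := fun t : ℝ => r ^ 4 / (r ^ 2 - t) ^ 2)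
    (g'' := 2 * r ^ 4 / (r ^ 2 - ‖x.val j‖ ^ 2) ^ 3) x
    (by
      have h6 : ∀ᶠ t : ℝ in 𝓝 (‖x.val j‖ ^ 2), r ^ 2 - t ≠ 0 := by
        apply ContinuousAt.eventually_ne (by fun_prop) h.ne'
      filter_upwards [h6] with t ht using hg t ht)
    (hg' _ h.ne') w
    (by
      apply Sm.comp_at (g := fun t : ℝ => r ^ 4 / (r ^ 2 - t) ^ 2) (Sm_nj j)
      intro y
      have h := pos_aux y j
      exact contDiffAt_const.div ((contDiffAt_const.sub contDiffAt_id).pow 2)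
        (pow_ne_zero 2 h.ne'))
  rw [h5, lev_normSq (hol_coord j), D_restrict (fun z => z j)]
  have h7 : fderiv ℝ (fun z : Fin n → ℂ => z j) x.val = ContinuousLinearMap.proj (R := ℝ) j :=
    (ContinuousLinearMap.proj (R := ℝ) (φ := fun _ : Fin n => ℂ) j).fderiv
  rw [h7]
  have h8 : 0 ≤ 2 * r ^ 4 / (r ^ 2 - ‖x.val j‖ ^ 2) ^ 3 *
      dsq (fun x : Bl n r => ‖x.val j‖ ^ 2) x w :=
    mul_nonneg (by positivity) (dsq_nonneg _ _ _)
  have h9 : 1 ≤ r ^ 4 / (r ^ 2 - ‖x.val j‖ ^ 2) ^ 2 := by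
    rw [one_le_div (by positivity)]
    nlinarith [sq_nonneg ‖x.val j‖, sq_nonneg r]
  have h10 : 0 ≤ ‖w j‖ ^ 2 := by positivity
  simp only [ContinuousLinearMap.proj_apply]
  nlinarith

lemma nsq_le_Levi_rho (x : Bl n r) (w : Fin n → ℂ) : Ho51.nsq w ≤ Levi (rho n r) x w := by
  rw [Levi_eq_lev Sm_rho]
  unfold rho Ho51.nsq
  rw [lev_sum _ (fun j _ => Sm_rhoj j)]
  exact Finset.sum_le_sum fun j _ => lev_rhoj j x w

lemma isCompact_sublevel (hr : 0 < r) (c : ℝ) : IsCompact {x : Bl n r | rho n r x ≤ c} := by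
  set C : ℝ := max c (r ^ 2) with hC
  have hC0 : 0 < C := lt_of_lt_of_le (by positivity) (le_max_right _ _)
  have hCr : r ^ 2 ≤ C := le_max_right _ _
  have h1 : r ^ 4 / C ≤ r ^ 2 := by
    rw [div_le_iff₀ hC0]; nlinarith [sq_nonneg r]
  have h2 : 0 < r ^ 4 / C := by positivity
  set r' : ℝ := Real.sqrt (r ^ 2 - r ^ 4 / C) with hr'
  have hr'0 : 0 ≤ r' := Real.sqrt_nonneg _
  have hr'sq : r' ^ 2 = r ^ 2 - r ^ 4 / C := Real.sq_sqrt (by linarith)
  have hr'r : r' < r := by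
    by_contra h
    push Not at h
    nlinarith
  have hcpt : IsCompact ((Subtype.val : Bl n r → _) ⁻¹' (closedBall 0 r')) := by
    rw [IsInducing.subtypeVal.isCompact_preimage_iff]
    · exact isCompact_closedBall _ _
    · rw [Subtype.range_coe]
      exact closedBall_subset_ball hr'r
  refine hcpt.of_isClosed_subset ?_ ?_
  · exact isClosed_le Sm_rho.continuous continuous_const
  · intro x hx
    rw [mem_ofPred_eq] at hx
    rw [mem_preimage, mem_closedBall_zero_iff, pi_norm_le_iff_of_nonneg hr'0]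
    intro j
    have h3 : r ^ 4 / (r ^ 2 - ‖x.val j‖ ^ 2) ≤ c := by
      refine le_trans ?_ hx
      exact Finset.single_le_sum (f := fun j => r ^ 4 / (r ^ 2 - ‖x.val j‖ ^ 2))
        (fun i _ => div_nonneg (by positivity) (pos_aux x i).le) (Finset.mem_univ j)
    have h4 := pos_aux x j
    have h5 : r ^ 4 ≤ C * (r ^ 2 - ‖x.val j‖ ^ 2) := by
      rw [div_le_iff₀ h4] at h3
      exact h3.trans (by gcongr; exact le_max_left _ _)
    have h6 : r ^ 4 / C ≤ r ^ 2 - ‖x.val j‖ ^ 2 := by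
      rw [div_le_iff₀ hC0]; linarith
    have h7 : ‖x.val j‖ ^ 2 ≤ r' ^ 2 := by rw [hr'sq]; linarith
    exact (pow_le_pow_iff_left₀ (norm_nonneg _) hr'0 (by norm_num)).1 h7

/-! ## The measure -/

/-- the global chart -/
def e0 (n : ℕ) (r : ℝ) (hr : 0 < r) : OpenPartialHomeomorph (Bl n r) (Fin n → ℂ) :=
  haveI : Nonempty (Bl n r) := ⟨⟨0, mem_ball_self hr⟩⟩
  (isOpen_ball.isOpenEmbedding_subtypeVal).toOpenPartialHomeomorph (Subtype.val : Bl n r → _)

lemma isCh_e0 (hr : 0 < r) : IsCh (e0 n r hr) := rfl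

lemma e0_source (hr : 0 < r) : (e0 n r hr).source = univ := rfl

lemma e0_target (hr : 0 < r) : (e0 n r hr).target = ball 0 r := by
  have h : (e0 n r hr).target = range (Subtype.val : Bl n r → _) := by
    simp only [e0, Topology.IsOpenEmbedding.toOpenPartialHomeomorph_target]
  rw [h, Subtype.range_coe]

lemma e0_symm_val (hr : 0 < r) {z : Fin n → ℂ} (hz : z ∈ ball (0 : Fin n → ℂ) r) :
    ((e0 n r hr).symm z).val = z := by
  have := (isCh_e0 (n := n) hr).cp_symm (by rw [e0_target]; exact hz)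
  exact this

lemma lintegral_ball (hr : 0 < r) {μ : Measure (Bl n r)} (hμ : IsLeb μ)
    {f : Bl n r → ENNReal} (hf : AEMeasurable f μ) :
    ∫⁻ x, f x ∂μ = ∫⁻ z in ball (0 : Fin n → ℂ) r, f ((e0 n r hr).symm z) := by
  have h1 := lintegral_chart hμ (isCh_e0 (n := n) hr) (f := f) (by
    rw [e0_source, Measure.restrict_univ]; exact hf)
  rw [e0_source, Measure.restrict_univ, e0_target] at h1
  exact h1

end Crest.Agent.R271.Ball399
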