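import Mathlib

/-!
Row 271, (10.4) boundary lemma, flat pieces.
(BL2) `|t|^{-2}` is not integrable near a zero of a holomorphic function `t`.
-/

set_option autoImplicit false

open scoped ENNReal NNReal Topology BigOperators
open MeasureTheory Set Metric

noncomputable section

namespace Crest.Agent.R271.Bd741

theorem annulus_vol (a : ℂ) (r : ℝ) (hr : 0 < r) :
    volume (ball a r \ ball a (r / 2)) = ENNReal.ofReal (3 / 4 * Real.pi * r ^ 2) := by
  rw [measure_sdiff (ball_subset_ball (by linarith)) measurableSet_ball.nullMeasurableSet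
    measure_ball_lt_top.ne, Complex.volume_ball, Complex.volume_ball]
  have h1 : ((NNReal.pi : ℝ≥0) : ℝ≥0∞) = ENNReal.ofReal Real.pi := by
    rw [ENNReal.ofReal, ← NNReal.coe_real_pi, Real.toNNReal_coe]
  rw [h1, ← ENNReal.ofReal_pow hr.le, ← ENNReal.ofReal_pow (by positivity),
    ← ENNReal.ofReal_mul (by positivity), ← ENNReal.ofReal_mul (by positivity),
    ← ENNReal.ofReal_sub _ (by positivity)]
  congr 1
  ring

theorem lintegral_pole (a : ℂ) (ρ : ℝ) (hρ : 0 < ρ) :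
    ∫⁻ l in ball a ρ, (ENNReal.ofReal (‖l - a‖ ^ 2))⁻¹ = ∞ := by
  let A : ℕ → Set ℂ := fun k => ball a (ρ / 2 ^ k) \ ball a (ρ / 2 ^ k / 2)
  have hAm : ∀ k, MeasurableSet (A k) := fun k => measurableSet_ball.diff measurableSet_ball
  have hAd : Pairwise (Function.onFun Disjoint A) := by
    have key : ∀ i j : ℕ, i < j → Disjoint (A i) (A j) := by
      intro i j hij
      rw [Set.disjoint_left]
      rintro x ⟨-, hx2⟩ ⟨hx3, -⟩
      apply hx2
      refine ball_subset_ball ?_ hx3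
      rw [div_div, ← pow_succ]
      gcongr
      · norm_num
      · omega
    intro i j hij
    rcases lt_or_gt_of_ne hij with h | h
    · exact key i j h
    · exact (key j i h).symm
  have hAsub : (⋃ k, A k) ⊆ ball a ρ := by
    refine iUnion_subset fun k => ?_
    refine sdiff_subset.trans (ball_subset_ball ?_)
    exact div_le_self hρ.le (one_le_pow₀ (by norm_num))
  have hAint : ∀ k, ENNReal.ofReal (3 / 4 * Real.pi) ≤
      ∫⁻ l in A k, (ENNReal.ofReal (‖l - a‖ ^ 2))⁻¹ := by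
    intro k
    have hrk : 0 < ρ / 2 ^ k := by positivity
    calc ENNReal.ofReal (3 / 4 * Real.pi)
        = (ENNReal.ofReal ((ρ / 2 ^ k) ^ 2))⁻¹ * volume (A k) := by
          have h5 : ENNReal.ofReal (3 / 4 * Real.pi * (ρ / 2 ^ k) ^ 2) =
              ENNReal.ofReal (3 / 4 * Real.pi) * ENNReal.ofReal ((ρ / 2 ^ k) ^ 2) :=
            ENNReal.ofReal_mul (by positivity)
          rw [annulus_vol a _ hrk, h5,
            mul_comm (ENNReal.ofReal (3 / 4 * Real.pi)), ← mul_assoc, ENNReal.inv_mul_cancel, one_mul]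
          · simp only [ne_eq, ENNReal.ofReal_eq_zero, not_le]; positivity
          · exact ENNReal.ofReal_ne_top
      _ = ∫⁻ l in A k, (ENNReal.ofReal ((ρ / 2 ^ k) ^ 2))⁻¹ := by
          rw [setLIntegral_const]
      _ ≤ ∫⁻ l in A k, (ENNReal.ofReal (‖l - a‖ ^ 2))⁻¹ := by
          refine setLIntegral_mono' (hAm k) fun l hl => ?_
          apply ENNReal.inv_le_inv.2
          apply ENNReal.ofReal_le_ofReal
          have : ‖l - a‖ < ρ / 2 ^ k := by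
            have := hl.1
            rwa [mem_ball, dist_eq_norm] at this
          gcongr
  rw [eq_top_iff]
  calc (∞ : ℝ≥0∞) = ∑' _ : ℕ, ENNReal.ofReal (3 / 4 * Real.pi) := by
        rw [ENNReal.tsum_const_eq_top_of_ne_zero]
        simp only [ne_eq, ENNReal.ofReal_eq_zero, not_le]; positivity
    _ ≤ ∑' k, ∫⁻ l in A k, (ENNReal.ofReal (‖l - a‖ ^ 2))⁻¹ := ENNReal.tsum_le_tsum hAint
    _ = ∫⁻ l in ⋃ k, A k, (ENNReal.ofReal (‖l - a‖ ^ 2))⁻¹ := (lintegral_iUnion hAm hAd _).symm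
    _ ≤ ∫⁻ l in ball a ρ, (ENNReal.ofReal (‖l - a‖ ^ 2))⁻¹ := lintegral_mono_set hAsub

theorem lintegral_zero (f : ℂ → ℂ) (a : ℂ) (hf : DifferentiableAt ℂ f a) (h0 : f a = 0)
    (V : Set ℂ) (hV : V ∈ 𝓝 a) : ∫⁻ l in V, (ENNReal.ofReal (‖f l‖ ^ 2))⁻¹ = ∞ := by
  obtain ⟨C, hC0, hC⟩ := hf.isBigO_sub.exists_pos
  have h1 := hC.bound
  rw [h0] at h1
  simp only [sub_zero] at h1
  obtain ⟨ρ, hρ, hsub⟩ := Metric.mem_nhds_iff.1 (Filter.inter_mem hV h1)
  rw [eq_top_iff]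
  calc (∞ : ℝ≥0∞) = (ENNReal.ofReal (C ^ 2))⁻¹ *
        ∫⁻ l in ball a ρ, (ENNReal.ofReal (‖l - a‖ ^ 2))⁻¹ := by
        rw [lintegral_pole a ρ hρ, ENNReal.mul_top]
        simp
    _ = ∫⁻ l in ball a ρ, (ENNReal.ofReal (C ^ 2))⁻¹ * (ENNReal.ofReal (‖l - a‖ ^ 2))⁻¹ := by
        rw [lintegral_const_mul' _ _ (by
          simp only [ne_eq, ENNReal.inv_eq_top, ENNReal.ofReal_eq_zero, not_le]; positivity)]
    _ ≤ ∫⁻ l in ball a ρ, (ENNReal.ofReal (‖f l‖ ^ 2))⁻¹ := by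
        refine setLIntegral_mono' measurableSet_ball fun l hl => ?_
        have h2 : ‖f l‖ ≤ C * ‖l - a‖ := (hsub hl).2
        rw [← ENNReal.mul_inv (Or.inr ENNReal.ofReal_ne_top) (Or.inl ENNReal.ofReal_ne_top),
          ← ENNReal.ofReal_mul (by positivity)]
        apply ENNReal.inv_le_inv.2
        apply ENNReal.ofReal_le_ofReal
        rw [← mul_pow]
        gcongr
    _ ≤ ∫⁻ l in V, (ENNReal.ofReal (‖f l‖ ^ 2))⁻¹ :=
        lintegral_mono_set fun l hl => (hsub hl).1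

/-- (BL2) -/
theorem not_integrable_zero {n : ℕ} (t Q : (Fin n → ℂ) → ℂ) (ht : AnalyticAt ℂ t 0)
    (hQ : AnalyticAt ℂ Q 0) (ht0 : t 0 = 0) (hQ0 : ¬ ∀ᶠ ζ in 𝓝 (0 : Fin n → ℂ), Q ζ = 0)
    (htQ : ∀ᶠ ζ in 𝓝 (0 : Fin n → ℂ), t ζ = 0 → Q ζ = 0) (U : Set (Fin n → ℂ)) (hU : U ∈ 𝓝 0) :
    ∫⁻ ζ in U ∩ {ζ | Q ζ ≠ 0}, (ENNReal.ofReal (‖t ζ‖ ^ 2))⁻¹ = ∞ := by
  classical
  obtain ⟨R, hR, hsub⟩ := Metric.mem_nhds_iff.1 (Filter.inter_mem hU
    (Filter.inter_mem ht.eventually_analyticAt (Filter.inter_mem hQ.eventually_analyticAt htQ)))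
  have hBU : ball (0 : Fin n → ℂ) R ⊆ U := fun x hx => (hsub hx).1
  have hBt : ∀ x ∈ ball (0 : Fin n → ℂ) R, AnalyticAt ℂ t x := fun x hx => (hsub hx).2.1
  have hBQ : ∀ x ∈ ball (0 : Fin n → ℂ) R, AnalyticAt ℂ Q x := fun x hx => (hsub hx).2.2.1
  have hBtQ : ∀ x ∈ ball (0 : Fin n → ℂ) R, t x = 0 → Q x = 0 := fun x hx => (hsub hx).2.2.2
  -- a point with `Q p ≠ 0`
  obtain ⟨p, hpQ, hpR⟩ : ∃ p, Q p ≠ 0 ∧ p ∈ ball (0 : Fin n → ℂ) R :=
    ((Filter.not_eventually.1 hQ0).and_eventually (ball_mem_nhds 0 hR)).exists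
  have hp0 : p ≠ 0 := by
    rintro rfl
    exact hpQ (hBtQ 0 (mem_ball_self hR) ht0)
  have hpn : 0 < ‖p‖ := norm_pos_iff.2 hp0
  have hpR' : ‖p‖ < R := by simpa using hpR
  set r0 : ℝ := R / ‖p‖ with hr0
  have hr01 : 1 < r0 := by rw [hr0, lt_div_iff₀ hpn]; simpa using hpR'
  have hlin : ∀ (ζ : Fin n → ℂ) (l : ℂ), AnalyticAt ℂ (fun l : ℂ => ζ + l • p) l := by
    intro ζ l
    exact analyticAt_const.add (analyticAt_id.smul analyticAt_const)
  have hD0 : ∀ l ∈ ball (0 : ℂ) r0, (l • p) ∈ ball (0 : Fin n → ℂ) R := by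
    intro l hl
    rw [mem_ball_zero_iff] at hl ⊢
    rw [norm_smul]
    calc ‖l‖ * ‖p‖ < r0 * ‖p‖ := by gcongr
      _ = R := by rw [hr0]; field_simp
  have hF : AnalyticOnNhd ℂ (fun l : ℂ => Q (l • p)) (ball 0 r0) := by
    intro l hl
    have h1 := hlin 0 l
    simp only [zero_add] at h1
    exact AnalyticAt.fun_comp (f := fun l : ℂ => l • p) (x := l) (hBQ _ (hD0 l hl)) h1
  have hT : AnalyticOnNhd ℂ (fun l : ℂ => t (l • p)) (ball 0 r0) := by
    intro l hl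
    have h1 := hlin 0 l
    simp only [zero_add] at h1
    exact AnalyticAt.fun_comp (f := fun l : ℂ => l • p) (x := l) (hBt _ (hD0 l hl)) h1
  have hr0pos : 0 < r0 := by linarith
  have hFne : ¬ ∀ᶠ l in 𝓝 (0 : ℂ), Q (l • p) = 0 := by
    intro h
    have := hF.eqOn_zero_of_preconnected_of_eventuallyEq_zero
      (convex_ball _ _).isPreconnected (mem_ball_self hr0pos) h
    have h1 := this (show (1 : ℂ) ∈ ball (0 : ℂ) r0 by simpa using hr01)
    simp only [one_smul] at h1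
    exact hpQ h1
  have hTne : ¬ ∀ᶠ l in 𝓝 (0 : ℂ), t (l • p) = 0 := by
    intro h
    apply hFne
    filter_upwards [h, ball_mem_nhds (0 : ℂ) hr0pos] with l hl hl2
    exact hBtQ _ (hD0 l hl2) hl
  obtain ⟨δ0, hδ0, hδ0T⟩ : ∃ δ0 > 0, ∀ l : ℂ, l ≠ 0 → ‖l‖ < δ0 → t (l • p) ≠ 0 := by
    rcases (hT 0 (mem_ball_self hr0pos)).eventually_eq_zero_or_eventually_ne_zero with h | h
    · exact absurd h hTne
    · rw [eventually_nhdsWithin_iff] at h
      obtain ⟨δ0, hδ0, h2⟩ := Metric.mem_nhds_iff.1 h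
      exact ⟨δ0, hδ0, fun l hl0 hl => h2 (by simpa using hl) hl0⟩
  obtain ⟨δ, hδ, hδ1, hδ2⟩ : ∃ δ > 0, δ < δ0 ∧ 2 * δ * ‖p‖ < R / 2 := by
    refine ⟨min (δ0 / 2) (R / (8 * ‖p‖)), by positivity, ?_, ?_⟩
    · exact (min_le_left _ _).trans_lt (by linarith)
    · calc 2 * min (δ0 / 2) (R / (8 * ‖p‖)) * ‖p‖ ≤ 2 * (R / (8 * ‖p‖)) * ‖p‖ := by
            gcongr; exact min_le_right _ _
        _ = R / 4 := by field_simp; norm_num
        _ < R / 2 := by linarith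
  have hin : ∀ ζ ∈ ball (0 : Fin n → ℂ) (R / 2), ∀ l ∈ ball (0 : ℂ) (2 * δ),
      ζ + l • p ∈ ball (0 : Fin n → ℂ) R := by
    intro ζ hζ l hl
    rw [mem_ball_zero_iff] at hζ hl ⊢
    calc ‖ζ + l • p‖ ≤ ‖ζ‖ + ‖l‖ * ‖p‖ := (norm_add_le _ _).trans (by rw [norm_smul])
      _ < R / 2 + 2 * δ * ‖p‖ := by
        have : ‖l‖ * ‖p‖ ≤ 2 * δ * ‖p‖ := by gcongr
        linarith
      _ < R := by linarith
  -- minimum on the circle
  have hδr0 : closedBall (0 : ℂ) δ ⊆ ball (0 : ℂ) r0 := by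
    intro l hl
    rw [mem_closedBall_zero_iff] at hl
    rw [mem_ball_zero_iff, hr0, lt_div_iff₀ hpn]
    calc ‖l‖ * ‖p‖ ≤ δ * ‖p‖ := by gcongr
      _ < R := by nlinarith [mul_pos hδ hpn]
  obtain ⟨ε, hε, hεT⟩ : ∃ ε > 0, ∀ l ∈ sphere (0 : ℂ) δ, ε ≤ ‖t (l • p)‖ := by
    have hcont : ContinuousOn (fun l : ℂ => ‖t (l • p)‖) (sphere 0 δ) := fun l hl =>
      ((hT l (hδr0 (sphere_subset_closedBall hl))).continuousAt.norm).continuousWithinAt
    have hne : (sphere (0 : ℂ) δ).Nonempty := NormedSpace.sphere_nonempty.2 hδ.le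
    obtain ⟨l0, hl0, hmin⟩ := (isCompact_sphere (0 : ℂ) δ).exists_isMinOn hne hcont
    refine ⟨‖t (l0 • p)‖, ?_, fun l hl => hmin hl⟩
    rw [gt_iff_lt, norm_pos_iff]
    have h3 : ‖l0‖ = δ := by simpa using hl0
    refine hδ0T l0 ?_ (h3 ▸ hδ1)
    rw [← norm_pos_iff, h3]; exact hδ
  have hA : ∀ᶠ ζ in 𝓝 (0 : Fin n → ℂ), ∀ l ∈ sphere (0 : ℂ) δ, 3 * ε / 4 < ‖t (ζ + l • p)‖ := by
    refine (isCompact_sphere (0 : ℂ) δ).eventually_forall_of_forall_eventually ?_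
    intro l hl
    have h4 : ContinuousAt (fun q : (Fin n → ℂ) × ℂ => ‖t (q.1 + q.2 • p)‖) (0, l) := by
      apply ContinuousAt.norm
      have h5 : AnalyticAt ℂ t ((0 : Fin n → ℂ) + l • p) := by
        rw [zero_add]; exact hBt _ (hD0 l (hδr0 (sphere_subset_closedBall hl)))
      have h6 : ContinuousAt (fun q : (Fin n → ℂ) × ℂ => q.1 + q.2 • p) (0, l) := by fun_prop
      exact ContinuousAt.comp (f := fun q : (Fin n → ℂ) × ℂ => q.1 + q.2 • p)
        (x := ((0 : Fin n → ℂ), l)) h5.continuousAt h6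
    have h7 : 3 * ε / 4 < ‖t ((0 : Fin n → ℂ) + l • p)‖ := by
      rw [zero_add]; linarith [hεT l hl]
    exact h4.eventually (lt_mem_nhds h7)
  have hB : ∀ᶠ ζ in 𝓝 (0 : Fin n → ℂ), ‖t ζ‖ < ε / 4 := by
    have h8 : ContinuousAt (fun ζ => ‖t ζ‖) (0 : Fin n → ℂ) := ht.continuousAt.norm
    exact h8.eventually (gt_mem_nhds (by simp only [ht0, norm_zero]; positivity))
  obtain ⟨l1, hl1Q, hl1δ⟩ : ∃ l : ℂ, Q (l • p) ≠ 0 ∧ l ∈ ball (0 : ℂ) δ :=
    ((Filter.not_eventually.1 hFne).and_eventually (ball_mem_nhds 0 hδ)).exists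
  have hC : ∀ᶠ ζ in 𝓝 (0 : Fin n → ℂ), Q (ζ + l1 • p) ≠ 0 := by
    have h9 : AnalyticAt ℂ Q ((0 : Fin n → ℂ) + l1 • p) := by
      rw [zero_add]; exact hBQ _ (hD0 l1 (hδr0 (ball_subset_closedBall hl1δ)))
    have h10 : ContinuousAt (fun ζ : Fin n → ℂ => Q (ζ + l1 • p)) 0 := by
      have h11 : ContinuousAt (fun ζ : Fin n → ℂ => ζ + l1 • p) 0 := by fun_prop
      exact ContinuousAt.comp (f := fun ζ : Fin n → ℂ => ζ + l1 • p) (x := (0 : Fin n → ℂ))
        h9.continuousAt h11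
    exact h10.eventually_ne (by simpa using hl1Q)
  obtain ⟨ρ, hρ, hρsub⟩ := Metric.mem_nhds_iff.1 (Filter.inter_mem hA (Filter.inter_mem hB
    (Filter.inter_mem hC (ball_mem_nhds (0 : Fin n → ℂ) (half_pos hR)))))
  -- the measurable integrand
  let t' : (Fin n → ℂ) → ℂ := (ball (0 : Fin n → ℂ) R).piecewise t 0
  let Q' : (Fin n → ℂ) → ℂ := (ball (0 : Fin n → ℂ) R).piecewise Q 0
  have ht'm : Measurable t' :=
    ContinuousOn.measurable_piecewise (fun x hx => (hBt x hx).continuousAt.continuousWithinAt)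
      continuousOn_const measurableSet_ball
  have hQ'm : Measurable Q' :=
    ContinuousOn.measurable_piecewise (fun x hx => (hBQ x hx).continuousAt.continuousWithinAt)
      continuousOn_const measurableSet_ball
  have hSm : MeasurableSet {ζ | Q' ζ ≠ 0} := (measurableSet_eq_fun hQ'm measurable_const).compl
  have hS : {ζ | Q' ζ ≠ 0} = ball (0 : Fin n → ℂ) R ∩ {ζ | Q ζ ≠ 0} := by
    ext ζ
    show Q' ζ ≠ 0 ↔ ζ ∈ ball (0 : Fin n → ℂ) R ∧ Q ζ ≠ 0
    by_cases hζ : ζ ∈ ball (0 : Fin n → ℂ) R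
    · have h1 : Q' ζ = Q ζ := Set.piecewise_eq_of_mem _ _ _ hζ
      rw [h1]
      exact ⟨fun h => ⟨hζ, h⟩, fun h => h.2⟩
    · have h1 : Q' ζ = 0 := Set.piecewise_eq_of_notMem _ _ _ hζ
      rw [h1]
      exact ⟨fun h => absurd rfl h, fun h => absurd h.1 hζ⟩
  let g : (Fin n → ℂ) → ℝ≥0∞ :=
    {ζ | Q' ζ ≠ 0}.indicator fun ζ => (ENNReal.ofReal (‖t' ζ‖ ^ 2))⁻¹
  have hgm : Measurable g :=
    Measurable.indicator (by fun_prop) hSm
  -- the inner integral is infinite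
  have hinner : ∀ ζ ∈ ball (0 : Fin n → ℂ) ρ,
      ∫⁻ l in ball (0 : ℂ) (2 * δ), g (ζ + l • p) = ∞ := by
    intro ζ hζ
    obtain ⟨hζA, hζB, hζC, hζR⟩ := hρsub hζ
    simp only [Set.mem_ofPred_eq] at hζA hζB hζC
    have hfan : AnalyticOnNhd ℂ (fun l : ℂ => t (ζ + l • p)) (ball 0 (2 * δ)) := fun l hl =>
      AnalyticAt.fun_comp (f := fun l : ℂ => ζ + l • p) (x := l) (hBt _ (hin ζ hζR l hl)) (hlin ζ l)
    have hQan : AnalyticOnNhd ℂ (fun l : ℂ => Q (ζ + l • p)) (ball 0 (2 * δ)) := fun l hl =>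
      AnalyticAt.fun_comp (f := fun l : ℂ => ζ + l • p) (x := l) (hBQ _ (hin ζ hζR l hl)) (hlin ζ l)
    have hδ2δ : closedBall (0 : ℂ) δ ⊆ ball 0 (2 * δ) := closedBall_subset_ball (by linarith)
    -- zero in the closed disc
    obtain ⟨l0, hl0, hl0t⟩ : ∃ l ∈ closedBall (0 : ℂ) δ, t (ζ + l • p) = 0 := by
      have hdc : DiffContOnCl ℂ (fun l : ℂ => t (ζ + l • p)) (ball 0 δ) := by
        apply DifferentiableOn.diffContOnCl
        rw [closure_ball _ hδ.ne']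
        exact fun l hl => ((hfan l (hδ2δ hl)).differentiableAt).differentiableWithinAt
      have hsph : ∀ l ∈ sphere (0 : ℂ) δ, ε / 2 ≤
          ‖(fun l : ℂ => t (ζ + l • p)) l - (fun l : ℂ => t (ζ + l • p)) 0‖ := by
        intro l hl
        have h1 := hζA l hl
        simp only [zero_smul, add_zero]
        have h2 := norm_sub_norm_le (t (ζ + l • p)) (t ζ)
        linarith
      have hfreq : ∃ᶠ l in 𝓝 (0 : ℂ), (fun l : ℂ => t (ζ + l • p)) l ≠
          (fun l : ℂ => t (ζ + l • p)) 0 := by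
        intro hcon
        simp only [not_not] at hcon
        have h1 := hfan.eqOn_of_preconnected_of_eventuallyEq
          (g := fun _ => t (ζ + (0 : ℂ) • p)) (fun _ _ => analyticAt_const)
          (convex_ball _ _).isPreconnected (mem_ball_self (by linarith : 0 < 2 * δ)) hcon
        obtain ⟨l2, hl2⟩ : (sphere (0 : ℂ) δ).Nonempty := NormedSpace.sphere_nonempty.2 hδ.le
        have h2 := h1 (hδ2δ (sphere_subset_closedBall hl2))
        have h3 := hsph l2 hl2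
        simp only at h2 h3
        rw [h2, sub_self, norm_zero] at h3
        linarith
      have hsub2 := hdc.ball_subset_image_closedBall hδ hsph hfreq
      have h0 : (0 : ℂ) ∈ ball (t (ζ + (0 : ℂ) • p)) (ε / 2 / 2) := by
        rw [mem_ball, dist_eq_norm, zero_sub, norm_neg, zero_smul, add_zero]
        linarith
      obtain ⟨l, hl, hl'⟩ := hsub2 h0
      exact ⟨l, hl, hl'⟩
    have hl02 : l0 ∈ ball (0 : ℂ) (2 * δ) := hδ2δ hl0
    have hpole := lintegral_zero (fun l : ℂ => t (ζ + l • p)) l0 (hfan l0 hl02).differentiableAt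
      hl0t (ball (0 : ℂ) (2 * δ)) (isOpen_ball.mem_nhds hl02)
    rw [eq_top_iff, ← hpole]
    apply lintegral_mono_ae
    have hcod : (fun l : ℂ => Q (ζ + l • p)) ⁻¹' {0}ᶜ ∈
        Filter.codiscreteWithin (ball (0 : ℂ) (2 * δ)) :=
      hQan.preimage_zero_mem_codiscreteWithin hζC
        (hδ2δ (ball_subset_closedBall hl1δ))
        ((convex_ball _ _).isConnected ⟨0, mem_ball_self (by linarith)⟩)
    have hae := ae_restrict_le_codiscreteWithin (μ := (volume : Measure ℂ)) measurableSet_ball hcod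
    filter_upwards [hae, ae_restrict_mem measurableSet_ball] with l hl hl2
    have hmem : ζ + l • p ∈ ball (0 : Fin n → ℂ) R := hin ζ hζR l hl2
    have hmem2 : ζ + l • p ∈ {ζ | Q' ζ ≠ 0} := by
      rw [hS]; exact ⟨hmem, hl⟩
    simp only [g, Set.indicator_of_mem hmem2]
    simp only [t', Set.piecewise_eq_of_mem _ _ _ hmem]
    exact le_rfl
  -- Tonelli
  have hswap : ∫⁻ ζ in ball (0 : Fin n → ℂ) ρ, ∫⁻ l in ball (0 : ℂ) (2 * δ), g (ζ + l • p) =
      ∫⁻ l in ball (0 : ℂ) (2 * δ), ∫⁻ ζ in ball (0 : Fin n → ℂ) ρ, g (ζ + l • p) := by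
    apply lintegral_lintegral_swap
    apply Measurable.aemeasurable
    exact hgm.comp (by fun_prop)
  have hleft : ∫⁻ ζ in ball (0 : Fin n → ℂ) ρ, ∫⁻ l in ball (0 : ℂ) (2 * δ), g (ζ + l • p) = ∞ := by
    rw [setLIntegral_congr_fun measurableSet_ball hinner, setLIntegral_const, ENNReal.top_mul]
    exact (measure_ball_pos volume _ hρ).ne'
  have hright : ∫⁻ l in ball (0 : ℂ) (2 * δ), ∫⁻ ζ in ball (0 : Fin n → ℂ) ρ, g (ζ + l • p) ≤
      (∫⁻ ζ, g ζ) * volume (ball (0 : ℂ) (2 * δ)) := by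
    rw [← setLIntegral_const]
    refine lintegral_mono fun l => ?_
    calc ∫⁻ ζ in ball (0 : Fin n → ℂ) ρ, g (ζ + l • p) ≤ ∫⁻ ζ, g (ζ + l • p) :=
          setLIntegral_le_lintegral _ _
      _ = ∫⁻ ζ, g ζ := lintegral_add_right_eq_self g (l • p)
  have hg : ∫⁻ ζ, g ζ = ∞ := by
    by_contra hne
    have : (∫⁻ ζ, g ζ) * volume (ball (0 : ℂ) (2 * δ)) < ∞ :=
      ENNReal.mul_lt_top (lt_top_iff_ne_top.2 hne) measure_ball_lt_top
    rw [← hswap, hleft] at hright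
    exact absurd (lt_of_le_of_lt hright this) (lt_irrefl _)
  rw [eq_top_iff, ← hg]
  calc ∫⁻ ζ, g ζ ≤ ∫⁻ ζ in {ζ | Q' ζ ≠ 0}, (ENNReal.ofReal (‖t' ζ‖ ^ 2))⁻¹ :=
        lintegral_indicator_le _ _
    _ = ∫⁻ ζ in {ζ | Q' ζ ≠ 0}, (ENNReal.ofReal (‖t ζ‖ ^ 2))⁻¹ := by
        refine setLIntegral_congr_fun hSm fun ζ hζ => ?_
        rw [hS] at hζ
        simp only [t', Set.piecewise_eq_of_mem _ _ _ hζ.1]
    _ ≤ ∫⁻ ζ in U ∩ {ζ | Q ζ ≠ 0}, (ENNReal.ofReal (‖t ζ‖ ^ 2))⁻¹ := by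
        rw [hS]
        exact lintegral_mono_set (inter_subset_inter_left _ hBU)

end Crest.Agent.R271.Bd741
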