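import Mathlib
import Crest.Agent.R271.Defs_710

/-!
Row 271, (10.4) boundary lemma, flat pieces.
(BL1) change of variables: `∫_Ω g(s ζ) |det φ'|² ≤ lintM z g`.
(BL2) `|t|^{2e}`, `e ≤ -1`, is not integrable near a zero of a holomorphic function `t`.
-/

set_option autoImplicit false

open scoped ENNReal NNReal Topology BigOperators
open MeasureTheory Set

noncomputable section

namespace Crest.Agent.R271.Bd741

open Crest.Agent.R271.Defs710

/-- superadditivity of the lower integral for finite sums, without measurability -/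
theorem sum_lintegral_le {α ι : Type*} [MeasurableSpace α] (μ : Measure α) (s : Finset ι)
    (f : ι → α → ℝ≥0∞) : ∑ i ∈ s, ∫⁻ a, f i a ∂μ ≤ ∫⁻ a, ∑ i ∈ s, f i a ∂μ := by
  classical
  induction s using Finset.induction_on with
  | empty => simp
  | insert i s hi ih =>
    rw [Finset.sum_insert hi]
    calc (∫⁻ a, f i a ∂μ) + ∑ x ∈ s, ∫⁻ a, f x a ∂μ
        ≤ (∫⁻ a, f i a ∂μ) + ∫⁻ a, ∑ x ∈ s, f x a ∂μ := by gcongr
      _ ≤ ∫⁻ a, (f i a + ∑ x ∈ s, f x a) ∂μ := le_lintegral_add _ _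
      _ = ∫⁻ a, ∑ x ∈ insert i s, f x a ∂μ := by
          congr 1; ext a; rw [Finset.sum_insert hi]

/-- superadditivity of the lower integral for infinite sums, without measurability -/
theorem tsum_lintegral_le {α ι : Type*} [MeasurableSpace α] (μ : Measure α)
    (f : ι → α → ℝ≥0∞) : ∑' i, ∫⁻ a, f i a ∂μ ≤ ∫⁻ a, ∑' i, f i a ∂μ := by
  rw [ENNReal.tsum_eq_iSup_sum]
  refine iSup_le fun s => (sum_lintegral_le μ s f).trans ?_
  exact lintegral_mono fun a => ENNReal.sum_le_tsum s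

/-- real determinant of a complex linear map -/
theorem abs_det_real {n : ℕ} (L : (Fin n → ℂ) →L[ℂ] (Fin n → ℂ)) :
    |(L.restrictScalars ℝ).det| = ‖L.det‖ ^ 2 := by
  have h : (L.restrictScalars ℝ).det = Algebra.norm ℝ L.det := by
    simp only [ContinuousLinearMap.det]
    exact LinearMap.det_restrictScalars (R := ℝ) (S := ℂ) (f := (L : (Fin n → ℂ) →ₗ[ℂ] (Fin n → ℂ)))
  rw [h, Algebra.norm_complex_apply, Complex.normSq_eq_norm_sq, abs_of_nonneg (by positivity)]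

/-- (BL1), abstract fibre form. -/
theorem lintegral_fibre_ge {n : ℕ} {M : Type*} (p : M → (Fin n → ℂ)) (Ω : Set (Fin n → ℂ))
    (hΩ : IsOpen Ω) (s : (Fin n → ℂ) → M) (hs : InjOn s Ω)
    (φ' : (Fin n → ℂ) → ((Fin n → ℂ) →L[ℂ] (Fin n → ℂ)))
    (hφ : ∀ ζ ∈ Ω, HasStrictFDerivAt (fun ζ => p (s ζ)) (φ' ζ) ζ)
    (hdet : ∀ ζ ∈ Ω, (φ' ζ).det ≠ 0) (g : M → ℝ≥0∞) :
    ∫⁻ ζ in Ω, g (s ζ) * ENNReal.ofReal (‖(φ' ζ).det‖ ^ 2) ≤
      ∫⁻ ζ : Fin n → ℂ, ∑' y : {y : M // p y = ζ}, g y.1 := by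
  classical
  set φ : (Fin n → ℂ) → (Fin n → ℂ) := fun ζ => p (s ζ) with hφdef
  -- local injectivity
  have hloc : ∀ ζ ∈ Ω, ∃ U : Set (Fin n → ℂ), IsOpen U ∧ ζ ∈ U ∧ U ⊆ Ω ∧ InjOn φ U := by
    intro ζ hζ
    let e := (φ' ζ).toContinuousLinearEquivOfDetNeZero (hdet ζ hζ)
    have he : (e : (Fin n → ℂ) →L[ℂ] (Fin n → ℂ)) = φ' ζ :=
      ContinuousLinearMap.coe_toContinuousLinearEquivOfDetNeZero _ _
    have hd : HasStrictFDerivAt φ (e : (Fin n → ℂ) →L[ℂ] (Fin n → ℂ)) ζ := by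
      rw [he]; exact hφ ζ hζ
    refine ⟨(hd.toOpenPartialHomeomorph φ).source ∩ Ω,
      (hd.toOpenPartialHomeomorph φ).open_source.inter hΩ,
      ⟨hd.mem_toOpenPartialHomeomorph_source, hζ⟩, inter_subset_right, ?_⟩
    have := (hd.toOpenPartialHomeomorph φ).injOn
    rw [hd.toOpenPartialHomeomorph_coe] at this
    exact this.mono inter_subset_left
  choose! U hUo hUm hUs hUi using hloc
  -- countable subcover
  obtain ⟨T, hTΩ, hTc, hTcov⟩ : ∃ T ⊆ Ω, T.Countable ∧ Ω ⊆ ⋃ x ∈ T, U x :=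
    TopologicalSpace.countable_cover_nhdsWithin
      (f := U) (s := Ω) (fun x hx => mem_nhdsWithin_of_mem_nhds ((hUo x hx).mem_nhds (hUm x hx)))
  rcases T.eq_empty_or_nonempty with hTe | hTne
  · have : Ω = ∅ := by
      apply Set.eq_empty_of_subset_empty
      simpa [hTe] using hTcov
    simp [this]
  obtain ⟨u, hu⟩ := hTc.exists_eq_range hTne
  have huT : ∀ i, u i ∈ Ω := fun i => hTΩ (hu ▸ mem_range_self i)
  set E : ℕ → Set (Fin n → ℂ) := disjointed fun i => U (u i) with hE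
  have hEm : ∀ i, MeasurableSet (E i) := fun i =>
    MeasurableSet.disjointed (fun i => (hUo _ (huT i)).measurableSet) i
  have hEU : ∀ i, E i ⊆ U (u i) := fun i => disjointed_subset _ i
  have hEd : Pairwise (Function.onFun Disjoint E) := disjoint_disjointed _
  have hEun : ⋃ i, E i = Ω := by
    rw [hE, iUnion_disjointed]
    apply Subset.antisymm
    · exact iUnion_subset fun i => hUs _ (huT i)
    · intro x hx
      have := hTcov hx
      simp only [mem_iUnion] at this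
      obtain ⟨y, hy, hxy⟩ := this
      rw [hu] at hy
      obtain ⟨i, rfl⟩ := hy
      exact mem_iUnion.2 ⟨i, hxy⟩
  let G : ℕ → (Fin n → ℂ) → ℝ≥0∞ := fun i ξ =>
    if h : ∃ x ∈ E i, φ x = ξ then g (s h.choose) else 0
  have hG : ∀ i, ∀ x ∈ E i, G i (φ x) = g (s x) := by
    intro i x hx
    have h : ∃ x' ∈ E i, φ x' = φ x := ⟨x, hx, rfl⟩
    have hc := h.choose_spec
    have : h.choose = x := hUi _ (huT i) (hEU i hc.1) (hEU i hx) hc.2
    simp only [G, dif_pos h, this]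
  have step1 : ∀ i, ∫⁻ ζ in E i, g (s ζ) * ENNReal.ofReal (‖(φ' ζ).det‖ ^ 2) =
      ∫⁻ ξ in φ '' (E i), G i ξ := by
    intro i
    have hder : ∀ x ∈ E i, HasFDerivWithinAt φ ((φ' x).restrictScalars ℝ) (E i) x := by
      intro x hx
      have hxΩ : x ∈ Ω := hUs _ (huT i) (hEU i hx)
      exact ((hφ x hxΩ).hasFDerivAt.restrictScalars ℝ).hasFDerivWithinAt
    rw [lintegral_image_eq_lintegral_abs_det_fderiv_mul volume (hEm i) hder
      ((hUi _ (huT i)).mono (hEU i)) (G i)]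
    refine setLIntegral_congr_fun (hEm i) ?_
    intro x hx
    simp only
    rw [hG i x hx, abs_det_real, mul_comm]
  calc ∫⁻ ζ in Ω, g (s ζ) * ENNReal.ofReal (‖(φ' ζ).det‖ ^ 2)
      = ∑' i, ∫⁻ ζ in E i, g (s ζ) * ENNReal.ofReal (‖(φ' ζ).det‖ ^ 2) := by
        rw [← hEun, lintegral_iUnion hEm hEd]
    _ = ∑' i, ∫⁻ ξ in φ '' (E i), G i ξ := by simp_rw [step1]
    _ ≤ ∑' i, ∫⁻ ξ, G i ξ := ENNReal.tsum_le_tsum fun i => setLIntegral_le_lintegral _ _
    _ ≤ ∫⁻ ξ, ∑' i, G i ξ := tsum_lintegral_le _ _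
    _ ≤ ∫⁻ ζ : Fin n → ℂ, ∑' y : {y : M // p y = ζ}, g y.1 := by
        refine lintegral_mono fun ξ => ?_
        simp only
        -- indices with a preimage
        let I : Set ℕ := {i | ∃ x ∈ E i, φ x = ξ}
        have hsupp : Function.support (fun i => G i ξ) ⊆ I := by
          intro i hi
          by_contra h
          apply hi
          simp only [I, mem_ofPred_eq] at h
          simp only [G, dif_neg h]
        rw [← tsum_subtype_eq_of_support_subset hsupp]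
        let j : I → {y : M // p y = ξ} := fun i => ⟨s i.2.choose, i.2.choose_spec.2⟩
        have hj : Function.Injective j := by
          intro a b hab
          have h1 : s a.2.choose = s b.2.choose := congrArg Subtype.val hab
          have ha := a.2.choose_spec.1
          have hb := b.2.choose_spec.1
          have haΩ : a.2.choose ∈ Ω := hUs _ (huT a.1) (hEU a.1 ha)
          have hbΩ : b.2.choose ∈ Ω := hUs _ (huT b.1) (hEU b.1 hb)
          have h2 := hs haΩ hbΩ h1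
          by_contra hne
          have hne' : (a : ℕ) ≠ b := fun h => hne (Subtype.ext h)
          have hdisj := hEd hne'
          rw [Function.onFun, Set.disjoint_left] at hdisj
          exact hdisj ha (h2 ▸ hb)
        calc ∑' i : I, G i ξ = ∑' i : I, g (j i).1 := by
              refine tsum_congr fun i => ?_
              have h : ∃ x ∈ E i.1, φ x = ξ := i.2
              simp only [G, dif_pos h, j]
          _ ≤ ∑' y : {y : M // p y = ξ}, g y.1 :=
              ENNReal.tsum_comp_le_tsum_of_injective hj (fun y => g y.1)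

/-- (BL1) -/
theorem lintM_ge {n : ℕ} {B : Type} [CommRing B] [Algebra ℂ B] (z : Fin n → B)
    (Ω : Set (Fin n → ℂ)) (hΩ : IsOpen Ω) (s : (Fin n → ℂ) → (B →ₐ[ℂ] ℂ)) (hs : InjOn s Ω)
    (φ' : (Fin n → ℂ) → ((Fin n → ℂ) →L[ℂ] (Fin n → ℂ)))
    (hφ : ∀ ζ ∈ Ω, HasStrictFDerivAt (fun ζ i => s ζ (z i)) (φ' ζ) ζ)
    (hdet : ∀ ζ ∈ Ω, (φ' ζ).det ≠ 0) (g : (B →ₐ[ℂ] ℂ) → ℝ≥0∞) :
    ∫⁻ ζ in Ω, g (s ζ) * ENNReal.ofReal (‖(φ' ζ).det‖ ^ 2) ≤ lintM z g := by
  have := lintegral_fibre_ge (M := (B →ₐ[ℂ] ℂ)) (fun y i => y (z i)) Ω hΩ s hs φ' hφ hdet g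
  refine this.trans (le_of_eq ?_)
  unfold lintM
  refine lintegral_congr fun ζ => ?_
  exact Equiv.tsum_eq (Equiv.subtypeEquivRight (fun y : B →ₐ[ℂ] ℂ =>
    (funext_iff : (fun i => y (z i)) = ζ ↔ _)))
    (fun y : {y : B →ₐ[ℂ] ℂ // ∀ i, y (z i) = ζ i} => g y.1)

end Crest.Agent.R271.Bd741
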