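import Mathlib
import Crest.Agent.R271.Defs_710

/-!
Row 271, task B8 (11.6, C3): uniform jets.
-/

set_option autoImplicit false

open scoped BigOperators

namespace Crest.Agent.R271.Jets171

open Crest.Agent.R271.Defs710

variable {B : Type} [CommRing B] [Algebra ℂ B]

theorem mem_mI (y : B →ₐ[ℂ] ℂ) (b : B) : b ∈ mI y ↔ y b = 0 := by
  unfold mI
  rw [RingHom.mem_ker]
  rfl

theorem sub_mem_mI (y : B →ₐ[ℂ] ℂ) (b : B) : b - algebraMap ℂ B (y b) ∈ mI y := by
  rw [mem_mI]; simp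

/-- first order jets: `B = E + m²` for `E = span (1, S)` -/
theorem jet_one (S : Finset B) (hS : Algebra.adjoin ℂ (S : Set B) = ⊤) (y : B →ₐ[ℂ] ℂ) (b : B) :
    ∃ g ∈ Submodule.span ℂ (insert 1 (S : Set B)), b - g ∈ mI y ^ 2 := by
  have hb : b ∈ Algebra.adjoin ℂ (S : Set B) := by rw [hS]; trivial
  induction hb using Algebra.adjoin_induction with
  | mem x hx =>
    exact ⟨x, Submodule.subset_span (Set.mem_insert_of_mem _ hx), by simp⟩
  | algebraMap c =>
    refine ⟨algebraMap ℂ B c, ?_, by simp⟩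
    rw [Algebra.algebraMap_eq_smul_one]
    exact Submodule.smul_mem _ _ (Submodule.subset_span (Set.mem_insert _ _))
  | add x x' _ _ ih ih' =>
    obtain ⟨g, hg, h⟩ := ih
    obtain ⟨g', hg', h'⟩ := ih'
    refine ⟨g + g', Submodule.add_mem _ hg hg', ?_⟩
    have : x + x' - (g + g') = (x - g) + (x' - g') := by ring
    rw [this]
    exact Ideal.add_mem _ h h'
  | mul x x' _ _ ih ih' =>
    obtain ⟨g, hg, h⟩ := ih
    obtain ⟨g', hg', h'⟩ := ih'
    refine ⟨y x • g' + y x' • g - (y x * y x') • (1 : B), ?_, ?_⟩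
    · exact Submodule.sub_mem _ (Submodule.add_mem _ (Submodule.smul_mem _ _ hg')
        (Submodule.smul_mem _ _ hg))
        (Submodule.smul_mem _ _ (Submodule.subset_span (Set.mem_insert _ _)))
    · have h1 : (x - algebraMap ℂ B (y x)) * (x' - algebraMap ℂ B (y x')) ∈ mI y ^ 2 := by
        rw [pow_two]
        exact Ideal.mul_mem_mul (sub_mem_mI y x) (sub_mem_mI y x')
      have : x * x' - (y x • g' + y x' • g - (y x * y x') • (1 : B)) =
          (x - algebraMap ℂ B (y x)) * (x' - algebraMap ℂ B (y x')) +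
            (algebraMap ℂ B (y x) * (x' - g') + algebraMap ℂ B (y x') * (x - g)) := by
        simp only [Algebra.smul_def, map_mul]
        ring
      rw [this]
      exact Ideal.add_mem _ h1 (Ideal.add_mem _ (Ideal.mul_mem_left _ _ h')
        (Ideal.mul_mem_left _ _ h))

theorem jet_graded (S : Finset B) (hS : Algebra.adjoin ℂ (S : Set B) = ⊤) (y : B →ₐ[ℂ] ℂ)
    (e : ℕ) (x : B) (hx : x ∈ mI y ^ e) :
    ∃ f ∈ (Submodule.span ℂ (insert 1 (S : Set B))) ^ e, x - f ∈ mI y ^ (e + 1) := by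
  induction e generalizing x with
  | zero =>
    refine ⟨algebraMap ℂ B (y x), ?_, ?_⟩
    · rw [pow_zero]
      exact Submodule.algebraMap_mem _
    · simpa using sub_mem_mI y x
  | succ e ih =>
    rw [pow_succ] at hx
    refine Submodule.mul_induction_on hx ?_ ?_
    · intro p hp q hq
      obtain ⟨f, hf, hpf⟩ := ih p hp
      obtain ⟨g, hg, hqg⟩ := jet_one S hS y q
      refine ⟨f * g, ?_, ?_⟩
      · rw [pow_succ]
        exact Submodule.mul_mem_mul hf hg
      · have hf' : f ∈ mI y ^ e := by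
          have h1 : p - f ∈ mI y ^ e := Ideal.pow_le_pow_right (Nat.le_succ e) hpf
          have : f = p - (p - f) := by ring
          rw [this]
          exact Ideal.sub_mem _ hp h1
        have : p * q - f * g = (p - f) * q + f * (q - g) := by ring
        rw [this]
        refine Ideal.add_mem _ ?_ ?_
        · have := Ideal.mul_mem_mul hpf hq
          rwa [← pow_succ] at this
        · have := Ideal.mul_mem_mul hf' hqg
          rwa [← pow_add] at this
    · rintro a b ⟨f, hf, hfa⟩ ⟨g, hg, hgb⟩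
      refine ⟨f + g, Submodule.add_mem _ hf hg, ?_⟩
      have : a + b - (f + g) = (a - f) + (b - g) := by ring
      rw [this]
      exact Ideal.add_mem _ hfa hgb

theorem jet_full (S : Finset B) (hS : Algebra.adjoin ℂ (S : Set B) = ⊤) (y : B →ₐ[ℂ] ℂ)
    (e : ℕ) (x : B) :
    ∃ f ∈ (Submodule.span ℂ (insert 1 (S : Set B))) ^ e, x - f ∈ mI y ^ (e + 1) := by
  induction e with
  | zero => exact jet_graded S hS y 0 x (by simp)
  | succ e ih =>
    obtain ⟨f, hf, hxf⟩ := ih
    obtain ⟨f', hf', hxf'⟩ := jet_graded S hS y (e + 1) _ hxf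
    refine ⟨f + f', Submodule.add_mem _ ?_ hf', ?_⟩
    · have h1 : (1 : B) ∈ Submodule.span ℂ (insert 1 (S : Set B)) :=
        Submodule.subset_span (Set.mem_insert _ _)
      have := Submodule.mul_mem_mul hf h1
      rw [mul_one, ← pow_succ] at this
      exact this
    · have : x - (f + f') = x - f - f' := by ring
      rw [this]
      exact hxf'

/-- inverses modulo powers of the maximal ideal -/
theorem inv_mod (y : B →ₐ[ℂ] ℂ) (s : B) (hs : y s ≠ 0) (e : ℕ) : ∃ w : B, s * w - 1 ∈ mI y ^ e := by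
  set c : B := algebraMap ℂ B (y s)⁻¹ with hc
  set t : B := 1 - c * s with ht
  have htm : t ∈ mI y := by
    rw [mem_mI, ht, hc]
    simp [hs]
  refine ⟨c * ∑ i ∈ Finset.range e, t ^ i, ?_⟩
  have h1 : s * (c * ∑ i ∈ Finset.range e, t ^ i) = 1 - t ^ e := by
    have h2 : s * (c * ∑ i ∈ Finset.range e, t ^ i) = (1 - t) * ∑ i ∈ Finset.range e, t ^ i := by
      have : 1 - t = c * s := by rw [ht]; ring
      rw [this]; ring
    rw [h2]
    exact mul_neg_geom_sum t e
  rw [h1]
  have : (1 : B) - t ^ e - 1 = - t ^ e := by ring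
  rw [this]
  exact (Ideal.neg_mem_iff _).2 (Ideal.pow_mem_pow htm e)

variable (V : ℕ → Submodule ℂ B)

/-- a common denominator -/
theorem common_unit (hone : (1 : B) ∈ V 0)
    (hmul : ∀ m l a b, a ∈ V m → b ∈ V l → a * b ∈ V (m + l))
    (Q : ℕ) (S : Finset B) (hS : ∀ b ∈ S, ∃ g ∈ V Q, IsUnit g ∧ b * g ∈ V Q) :
    ∃ (N : ℕ) (u : B), IsUnit u ∧ u ∈ V N ∧ ∀ b ∈ S, b * u ∈ V N := by
  classical
  induction S using Finset.induction_on with
  | empty => exact ⟨0, 1, isUnit_one, hone, by simp⟩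
  | insert b S hb ih =>
    obtain ⟨N, u, hu, huV, hbu⟩ := ih (fun b' hb' => hS b' (Finset.mem_insert_of_mem hb'))
    obtain ⟨g, hg, hgu, hbg⟩ := hS b (Finset.mem_insert_self _ _)
    refine ⟨N + Q, u * g, hu.mul hgu, hmul _ _ _ _ huV hg, ?_⟩
    intro b' hb'
    rcases Finset.mem_insert.1 hb' with rfl | h
    · have : b' * (u * g) = u * (b' * g) := by ring
      rw [this]
      exact hmul _ _ _ _ huV hbg
    · have : b' * (u * g) = (b' * u) * g := by ring
      rw [this]
      exact hmul _ _ _ _ (hbu b' h) hg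

theorem pow_mem_V (hone : (1 : B) ∈ V 0)
    (hmul : ∀ m l a b, a ∈ V m → b ∈ V l → a * b ∈ V (m + l))
    (N : ℕ) (u : B) (S : Finset B) (huV : u ∈ V N) (hbu : ∀ b ∈ S, b * u ∈ V N) (e : ℕ) (g : B)
    (hg : g ∈ (Submodule.span ℂ (insert 1 (S : Set B))) ^ e) : g * u ^ e ∈ V (e * N) := by
  have h1 : ∀ x ∈ Submodule.span ℂ (insert 1 (S : Set B)), x * u ∈ V N := by
    intro x hx
    induction hx using Submodule.span_induction with
    | mem x hx =>
      rcases hx with rfl | hx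
      · simpa using huV
      · exact hbu x hx
    | zero => simp
    | add x x' _ _ h h' => rw [add_mul]; exact Submodule.add_mem _ h h'
    | smul c x _ h => rw [smul_mul_assoc]; exact Submodule.smul_mem _ _ h
  induction e generalizing g with
  | zero =>
    rw [pow_zero] at hg
    obtain ⟨c, rfl⟩ := Submodule.mem_one.1 hg
    simp only [pow_zero, mul_one, zero_mul]
    rw [Algebra.algebraMap_eq_smul_one]
    exact Submodule.smul_mem _ _ hone
  | succ e ih =>
    rw [pow_succ] at hg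
    refine Submodule.mul_induction_on hg ?_ ?_
    · intro p hp q hq
      have : p * q * u ^ (e + 1) = (p * u ^ e) * (q * u) := by ring
      rw [this, add_mul, one_mul]
      exact hmul _ _ _ _ (ih p hp) (h1 q hq)
    · intro a b ha hb
      rw [add_mul a b]
      exact Submodule.add_mem _ ha hb

/-- (B8) uniform jets (C3). -/
theorem jets (hone : (1 : B) ∈ V 0)
    (hmul : ∀ m l a b, a ∈ V m → b ∈ V l → a * b ∈ V (m + l))
    (k₀ : ℕ) (hbpf : ∀ m, k₀ ≤ m → ∀ y : B →ₐ[ℂ] ℂ, ∃ f ∈ V m, y f ≠ 0)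
    (hgen : ∃ (Q : ℕ) (S : Finset B), Algebra.adjoin ℂ (S : Set B) = ⊤ ∧
      ∀ b ∈ S, ∃ g ∈ V Q, IsUnit g ∧ b * g ∈ V Q) :
    ∀ e : ℕ, ∃ j₀ : ℕ, ∀ j, j₀ ≤ j → ∀ (y : B →ₐ[ℂ] ℂ) (b : B),
      ∃ f ∈ V j, f - b ∈ mI y ^ (e + 1) := by
  obtain ⟨Q, S, hadj, hS⟩ := hgen
  obtain ⟨N, u, hu, huV, hbu⟩ := common_unit V hone hmul Q S hS
  intro e
  refine ⟨e * N + k₀, fun j hj y b => ?_⟩
  obtain ⟨s, hsV, hys⟩ := hbpf (j - e * N) (by omega) y
  have hyu : y (u ^ e) ≠ 0 := by
    have : IsUnit (y (u ^ e)) := (hu.pow e).map y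
    exact this.ne_zero
  obtain ⟨w, hw⟩ := inv_mod y (s * u ^ e) (by rw [map_mul]; exact mul_ne_zero hys hyu) (e + 1)
  obtain ⟨g, hg, hwg⟩ := jet_full S hadj y e (w * b)
  have hgV := pow_mem_V V hone hmul N u S huV hbu e g hg
  refine ⟨s * (g * u ^ e), ?_, ?_⟩
  · have := hmul _ _ _ _ hsV hgV
    rwa [Nat.sub_add_cancel (by omega)] at this
  · have : s * (g * u ^ e) - b = (s * u ^ e * w - 1) * b - s * u ^ e * (w * b - g) := by ring
    rw [this]
    exact Ideal.sub_mem _ (Ideal.mul_mem_right _ _ hw) (Ideal.mul_mem_left _ _ hwg)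

end Crest.Agent.R271.Jets171
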