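import Mathlib
import Crest.Agent.R271.Defs_710
import Crest.Agent.R271.Jets_171

/-!
Row 271, task B9 part 1: derivations `∂/∂zᵢ` on an étale `ℂ[z]`-algebra and
orders of vanishing of polynomials in `z`.
-/

set_option autoImplicit false

open scoped BigOperators TensorProduct
open MvPolynomial

namespace Crest.Agent.R271.Ord171

open Crest.Agent.R271.Defs710 Crest.Agent.R271.Jets171

variable {B : Type} [CommRing B] [Algebra ℂ B] {n : ℕ}

/-- The coordinate derivations of an étale algebra over `ℂ[z]`. -/
theorem exists_deriv (z : Fin n → B)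
    (het : RingHom.Etale ((MvPolynomial.aeval z : MvPolynomial (Fin n) ℂ →ₐ[ℂ] B) :
      MvPolynomial (Fin n) ℂ →+* B)) :
    ∃ D : Fin n → Derivation ℂ B B, ∀ i (p : MvPolynomial (Fin n) ℂ),
      D i (aeval z p) = aeval z (pderiv i p) := by
  classical
  let _ : Algebra (MvPolynomial (Fin n) ℂ) B :=
    ((MvPolynomial.aeval z : MvPolynomial (Fin n) ℂ →ₐ[ℂ] B) :
      MvPolynomial (Fin n) ℂ →+* B).toAlgebra
  have : IsScalarTower ℂ (MvPolynomial (Fin n) ℂ) B :=
    IsScalarTower.of_algebraMap_eq (fun c => ((MvPolynomial.aeval z).commutes c).symm)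
  have : Algebra.Etale (MvPolynomial (Fin n) ℂ) B := het
  have halg : ∀ p : MvPolynomial (Fin n) ℂ,
      algebraMap (MvPolynomial (Fin n) ℂ) B p = aeval z p := fun p => rfl
  let d : Fin n → Derivation ℂ (MvPolynomial (Fin n) ℂ) B := fun i =>
    (Algebra.linearMap (MvPolynomial (Fin n) ℂ) B).compDer (pderiv i)
  let L : Fin n → (B ⊗[MvPolynomial (Fin n) ℂ] (Ω[MvPolynomial (Fin n) ℂ⁄ℂ]) →ₗ[B] B) := fun i =>
    LinearMap.liftBaseChange B (d i).liftKaehlerDifferential
  refine ⟨fun i => ((L i).comp (KaehlerDifferential.tensorKaehlerEquivOfFormallyEtale ℂ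
    (MvPolynomial (Fin n) ℂ) B).symm.toLinearMap).compDer (KaehlerDifferential.D ℂ B), ?_⟩
  intro i p
  rw [← halg p]
  change (L i) ((KaehlerDifferential.tensorKaehlerEquivOfFormallyEtale ℂ
    (MvPolynomial (Fin n) ℂ) B).symm ((KaehlerDifferential.D ℂ B)
      (algebraMap (MvPolynomial (Fin n) ℂ) B p))) = _
  rw [KaehlerDifferential.tensorKaehlerEquivOfFormallyEtale_symm_D_algebraMap]
  simp only [L, LinearMap.liftBaseChange_tmul, one_smul, Derivation.liftKaehlerDifferential_comp_D]
  rfl

/-- a derivation lowers the `I`-adic order by at most one -/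
theorem deriv_pow_mem (D : Derivation ℂ B B) (I : Ideal B) (e : ℕ) (x : B) (hx : x ∈ I ^ (e + 1)) :
    D x ∈ I ^ e := by
  induction e generalizing x with
  | zero => simp
  | succ e ih =>
    rw [pow_succ] at hx
    refine Submodule.mul_induction_on hx ?_ ?_
    · intro p hp q hq
      rw [D.leibniz, smul_eq_mul, smul_eq_mul]
      refine Ideal.add_mem _ (Ideal.mul_mem_right _ _ hp) ?_
      have := Ideal.mul_mem_mul hq (ih p hp)
      rwa [mul_comm I (I ^ e), ← pow_succ] at this
    · intro a b ha hb
      rw [map_add]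
      exact Ideal.add_mem _ ha hb

theorem totalDegree_pderiv_le (i : Fin n) (p : MvPolynomial (Fin n) ℂ) :
    (pderiv i p).totalDegree ≤ p.totalDegree - 1 := by
  classical
  rw [totalDegree, Finset.sup_le_iff]
  intro m hm
  rw [mem_support_iff, coeff_pderiv] at hm
  have h1 : p.coeff (m + Finsupp.single i 1) ≠ 0 := left_ne_zero_of_mul hm
  have h2 := le_totalDegree (mem_support_iff.2 h1)
  have h3 : ((m + Finsupp.single i 1).sum fun _ e => e) = (m.sum fun _ e => e) + 1 := by
    rw [Finsupp.sum_add_index' (by simp) (by simp), Finsupp.sum_single_index (by rfl)]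
  omega

theorem exists_pderiv_ne_zero (p : MvPolynomial (Fin n) ℂ) (hp : p.totalDegree ≠ 0) :
    ∃ i, pderiv i p ≠ 0 := by
  classical
  by_contra hcon
  push Not at hcon
  apply hp
  rw [totalDegree, ← Nat.bot_eq_zero, Finset.sup_eq_bot_iff]
  intro m hm
  rw [mem_support_iff] at hm
  have hm0 : m = 0 := by
    by_contra hne
    obtain ⟨i, hi⟩ : ∃ i, m i ≠ 0 := by
      by_contra h
      push Not at h
      exact hne (Finsupp.ext h)
    have h1 : coeff (m - Finsupp.single i 1) (pderiv i p) = 0 := by rw [hcon i]; simp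
    rw [coeff_pderiv] at h1
    have h2 : m - Finsupp.single i 1 + Finsupp.single i 1 = m := by
      ext j
      by_cases hj : i = j
      · subst hj
        simp only [Finsupp.coe_add, Finsupp.coe_tsub, Pi.add_apply, Pi.sub_apply,
          Finsupp.single_eq_same]
        omega
      · simp [Finsupp.single_apply, hj]
    rw [h2] at h1
    rcases mul_eq_zero.1 h1 with h | h
    · exact hm h
    · exact Nat.cast_add_one_ne_zero _ h
  rw [hm0]; simp

/-- the order of vanishing of a nonzero polynomial in the étale coordinates is at most its degree -/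
theorem order_le_totalDegree (z : Fin n → B)
    (het : RingHom.Etale ((MvPolynomial.aeval z : MvPolynomial (Fin n) ℂ →ₐ[ℂ] B) :
      MvPolynomial (Fin n) ℂ →+* B)) (y : B →ₐ[ℂ] ℂ) (p : MvPolynomial (Fin n) ℂ) (hp : p ≠ 0)
    (e : ℕ) (he : aeval z p ∈ mI y ^ e) : e ≤ p.totalDegree := by
  obtain ⟨D, hD⟩ := exists_deriv z het
  obtain ⟨d, hd⟩ : ∃ d, p.totalDegree = d := ⟨_, rfl⟩
  induction d using Nat.strong_induction_on generalizing p e with
  | _ d ih =>
    by_cases h0 : p.totalDegree = 0
    · have hc : p = C (coeff 0 p) := by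
        exact (totalDegree_eq_zero_iff_eq_C).1 h0
      have hc0 : coeff 0 p ≠ 0 := by
        intro h
        rw [h, C_0] at hc
        exact hp hc
      rcases Nat.eq_zero_or_pos e with rfl | hepos
      · exact Nat.zero_le _
      · exfalso
        have h1 : aeval z p ∈ mI y := Ideal.pow_le_self (by omega) he
        rw [hc, mem_mI] at h1
        simp at h1
        exact hc0 h1
    · rcases Nat.eq_zero_or_pos e with rfl | hepos
      · exact Nat.zero_le _
      obtain ⟨e', rfl⟩ : ∃ e', e = e' + 1 := ⟨e - 1, by omega⟩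
      obtain ⟨i, hi⟩ := exists_pderiv_ne_zero p h0
      have h1 := deriv_pow_mem (D i) _ _ _ he
      rw [hD] at h1
      have h2 := totalDegree_pderiv_le i p
      have h3 := ih ((pderiv i p).totalDegree) (by omega) (pderiv i p) hi e' h1 rfl
      omega

end Crest.Agent.R271.Ord171
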