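import Mathlib
import Crest.Agent.R271.Defs_710
import Crest.Agent.R271.Ord_969
import Crest.Agent.R271.Der_171
import Crest.Agent.R271.Rd3_692
import Crest.Agent.R271.Bd_741
import Crest.Agent.R271.Bd2_741

/-!
Row 271, (10.4) boundary lemma, part 3a: algebra.
-/

set_option autoImplicit false

open scoped ENNReal NNReal Topology BigOperators
open MeasureTheory Set Metric

noncomputable section

namespace Crest.Agent.R271.Bd741

open Crest.Agent.R271.Defs710

section alg

variable {n : ℕ} {A : Type} [CommRing A] [Algebra ℂ A]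

/-- a derivation vanishing on étale coordinates vanishes -/
theorem deriv_unique (w : Fin n → A)
    (het : RingHom.Etale ((MvPolynomial.aeval w : MvPolynomial (Fin n) ℂ →ₐ[ℂ] A) :
      MvPolynomial (Fin n) ℂ →+* A))
    {M : Type*} [AddCommGroup M] [Module A M] [Module ℂ M] [IsScalarTower ℂ A M]
    (Δ : Derivation ℂ A M) (h : ∀ i, Δ (w i) = 0) : Δ = 0 := by
  let _ : Algebra (MvPolynomial (Fin n) ℂ) A :=
    ((MvPolynomial.aeval w : MvPolynomial (Fin n) ℂ →ₐ[ℂ] A) :
      MvPolynomial (Fin n) ℂ →+* A).toAlgebra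
  have _ : IsScalarTower ℂ (MvPolynomial (Fin n) ℂ) A :=
    IsScalarTower.of_algebraMap_eq (fun c => ((MvPolynomial.aeval w).commutes c).symm)
  have _ : Algebra.Etale (MvPolynomial (Fin n) ℂ) A := het
  have halg : ∀ p : MvPolynomial (Fin n) ℂ,
      algebraMap (MvPolynomial (Fin n) ℂ) A p = MvPolynomial.aeval w p := fun p => rfl
  let _ : Module (MvPolynomial (Fin n) ℂ) M :=
    Module.compHom M (algebraMap (MvPolynomial (Fin n) ℂ) A)
  have _ : IsScalarTower (MvPolynomial (Fin n) ℂ) A M :=
    ⟨fun p a m => by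
      change ((p • a) • m : M) = (algebraMap (MvPolynomial (Fin n) ℂ) A p) • (a • m)
      rw [Algebra.smul_def, mul_smul]⟩
  have _ : IsScalarTower ℂ (MvPolynomial (Fin n) ℂ) M :=
    ⟨fun c p m => by
      change (algebraMap (MvPolynomial (Fin n) ℂ) A (c • p)) • m =
        c • ((algebraMap (MvPolynomial (Fin n) ℂ) A p) • m)
      rw [halg, halg, map_smul, smul_assoc]⟩
  have hP : ∀ p : MvPolynomial (Fin n) ℂ, Δ (algebraMap (MvPolynomial (Fin n) ℂ) A p) = 0 := by
    intro p
    have h1 : Δ.compAlgebraMap (MvPolynomial (Fin n) ℂ) = 0 := by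
      apply MvPolynomial.derivation_ext
      intro i
      change Δ (algebraMap (MvPolynomial (Fin n) ℂ) A (MvPolynomial.X i)) = 0
      rw [halg, MvPolynomial.aeval_X, h]
    exact congrArg (fun d : Derivation ℂ (MvPolynomial (Fin n) ℂ) M => d p) h1
  let Δ' : Derivation (MvPolynomial (Fin n) ℂ) A M :=
    Derivation.mk'
      { toFun := Δ
        map_add' := map_add Δ
        map_smul' := fun p a => by
          change Δ (p • a) = (algebraMap (MvPolynomial (Fin n) ℂ) A p) • Δ a
          rw [Algebra.smul_def, Δ.leibniz, hP p, smul_zero, add_zero] }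
      (fun a b => Δ.leibniz a b)
  ext a
  have h2 : Δ' a = Δ'.liftKaehlerDifferential (KaehlerDifferential.D (MvPolynomial (Fin n) ℂ) A a) :=
    (Δ'.liftKaehlerDifferential_comp_D a).symm
  have h3 : KaehlerDifferential.D (MvPolynomial (Fin n) ℂ) A a = 0 := Subsingleton.elim _ _
  rw [h3, map_zero] at h2
  exact h2

/-- the same with values in `ℂ` (the module structure through a point `s`) -/
theorem deriv_unique_C (w : Fin n → A)
    (het : RingHom.Etale ((MvPolynomial.aeval w : MvPolynomial (Fin n) ℂ →ₐ[ℂ] A) :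
      MvPolynomial (Fin n) ℂ →+* A))
    (s : A →ₐ[ℂ] ℂ) (δ : A →ₗ[ℂ] ℂ) (hl : ∀ a b, δ (a * b) = s a * δ b + s b * δ a)
    (h : ∀ i, δ (w i) = 0) (a : A) : δ a = 0 := by
  let _ : Module A ℂ := Module.compHom ℂ (s : A →+* ℂ)
  have _ : IsScalarTower ℂ A ℂ := ⟨fun c a x => by
    change s (c • a) * x = c * (s a * x)
    rw [map_smul, smul_eq_mul, mul_assoc]⟩
  have h1 := deriv_unique w het (M := ℂ) (Derivation.mk' δ (fun a b => hl a b)) h
  exact congrArg (fun d : Derivation ℂ A ℂ => d a) h1

/-- coordinate derivations -/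
theorem exists_coord_deriv (w : Fin n → A)
    (het : RingHom.Etale ((MvPolynomial.aeval w : MvPolynomial (Fin n) ℂ →ₐ[ℂ] A) :
      MvPolynomial (Fin n) ℂ →+* A)) :
    ∃ D : Fin n → Derivation ℂ A A, ∀ i j, D j (w i) = if i = j then 1 else 0 := by
  obtain ⟨D, hD⟩ := Crest.Agent.R271.Ord171.exists_deriv w het
  refine ⟨D, fun i j => ?_⟩
  have := hD j (MvPolynomial.X i)
  rw [MvPolynomial.aeval_X, MvPolynomial.pderiv_X] at this
  rw [this]
  rcases eq_or_ne i j with rfl | hij
  · simp
  · simp [hij]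

/-- derivatives of regular functions in a chart -/
theorem chart_deriv (w : Fin n → A)
    (het : RingHom.Etale ((MvPolynomial.aeval w : MvPolynomial (Fin n) ℂ →ₐ[ℂ] A) :
      MvPolynomial (Fin n) ℂ →+* A)) (D : Fin n → Derivation ℂ A A)
    (hD : ∀ i j, D j (w i) = if i = j then 1 else 0) {y : A →ₐ[ℂ] ℂ} (C : Chart w y)
    (ζ : Cn n) (hζ : ζ ∈ ball (0 : Cn n) C.r) (j : Fin n) (f : A) :
    fderiv ℂ (fun ζ' => C.s ζ' f) ζ (Pi.single j 1) = C.s ζ (D j f) := by
  have hd : ∀ f : A, DifferentiableAt ℂ (fun ζ' => C.s ζ' f) ζ := fun f =>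
    (C.anal f ζ hζ).differentiableAt
  let δ : A →ₗ[ℂ] ℂ :=
    { toFun := fun f => fderiv ℂ (fun ζ' => C.s ζ' f) ζ (Pi.single j 1) - C.s ζ (D j f)
      map_add' := fun f g => by
        have h1 : (fun ζ' => C.s ζ' (f + g)) = fun ζ' => C.s ζ' f + C.s ζ' g := by
          ext; simp
        rw [h1, fderiv_fun_add (hd f) (hd g)]
        simp only [_root_.add_apply, map_add]
        ring
      map_smul' := fun c f => by
        have h1 : (fun ζ' => C.s ζ' (c • f)) = fun ζ' => c • C.s ζ' f := by
          ext; simp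
        rw [h1, fderiv_fun_const_smul (hd f)]
        have h2 : D j (c • f) = c • D j f := by simp
        simp only [_root_.smul_apply, RingHom.id_apply, smul_eq_mul]
        rw [h2, map_smul, smul_eq_mul]
        ring }
  have h0 : δ f = 0 := by
    apply deriv_unique_C w het (C.s ζ) δ
    · intro a b
      change fderiv ℂ (fun ζ' => C.s ζ' (a * b)) ζ (Pi.single j 1) - C.s ζ (D j (a * b)) =
        C.s ζ a * (fderiv ℂ (fun ζ' => C.s ζ' b) ζ (Pi.single j 1) - C.s ζ (D j b)) +
        C.s ζ b * (fderiv ℂ (fun ζ' => C.s ζ' a) ζ (Pi.single j 1) - C.s ζ (D j a))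
      have h1 : (fun ζ' => C.s ζ' (a * b)) = fun ζ' => C.s ζ' a * C.s ζ' b := by
        ext; simp
      rw [h1, fderiv_fun_mul (hd a) (hd b)]
      simp only [_root_.add_apply, _root_.smul_apply, smul_eq_mul,
        Derivation.leibniz, map_add, map_mul]
      ring
    · intro i
      change fderiv ℂ (fun ζ' => C.s ζ' (w i)) ζ (Pi.single j 1) - C.s ζ (D j (w i)) = 0
      have h1 : (fun ζ' => C.s ζ' (w i)) =ᶠ[𝓝 ζ] fun ζ' => y (w i) + ζ' i := by
        filter_upwards [isOpen_ball.mem_nhds hζ] with ζ' hζ'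
        exact C.s_z ζ' hζ' i
      rw [h1.fderiv_eq, fderiv_const_add]
      have h2 : fderiv ℂ (fun ζ' : Cn n => ζ' i) ζ = ContinuousLinearMap.proj i :=
        (ContinuousLinearMap.proj (R := ℂ) (φ := fun _ : Fin n => ℂ) i).fderiv
      rw [h2, hD]
      rcases eq_or_ne i j with rfl | hij
      · simp
      · simp [hij]
  exact sub_eq_zero.1 h0

variable {K : Type} [Field K] [Algebra ℂ K] [Algebra A K] [IsScalarTower ℂ A K]

/-- the differential of a regular function in `Ω[K⁄ℂ]` -/
theorem D_K (w : Fin n → A)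
    (het : RingHom.Etale ((MvPolynomial.aeval w : MvPolynomial (Fin n) ℂ →ₐ[ℂ] A) :
      MvPolynomial (Fin n) ℂ →+* A)) (D : Fin n → Derivation ℂ A A)
    (hD : ∀ i j, D j (w i) = if i = j then 1 else 0)
    (f : A) : KaehlerDifferential.D ℂ K (algebraMap A K f) =
      ∑ j, algebraMap A K (D j f) • KaehlerDifferential.D ℂ K (algebraMap A K (w j)) := by
  let δ : A →ₗ[ℂ] Ω[K⁄ℂ] :=
    { toFun := fun f => KaehlerDifferential.D ℂ K (algebraMap A K f) -
        ∑ j, algebraMap A K (D j f) • KaehlerDifferential.D ℂ K (algebraMap A K (w j))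
      map_add' := fun f g => by
        simp only [map_add, add_smul, Finset.sum_add_distrib]
        abel
      map_smul' := fun c f => by
        simp only [Derivation.map_smul, RingHom.id_apply, smul_sub, Finset.smul_sum,
          ← smul_assoc]
        congr 1
        · rw [Algebra.smul_def c f, map_mul, ← IsScalarTower.algebraMap_apply, ← Algebra.smul_def,
            Derivation.map_smul]
        · refine Finset.sum_congr rfl fun j _ => ?_
          congr 1
          rw [Algebra.smul_def c (D j f), map_mul, ← IsScalarTower.algebraMap_apply,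
            ← Algebra.smul_def] }
  have h1 := deriv_unique w het (M := Ω[K⁄ℂ]) (Derivation.mk' δ (fun a b => by
    change KaehlerDifferential.D ℂ K (algebraMap A K (a * b)) -
        ∑ j, algebraMap A K (D j (a * b)) • KaehlerDifferential.D ℂ K (algebraMap A K (w j)) =
      a • (KaehlerDifferential.D ℂ K (algebraMap A K b) -
        ∑ j, algebraMap A K (D j b) • KaehlerDifferential.D ℂ K (algebraMap A K (w j))) +
      b • (KaehlerDifferential.D ℂ K (algebraMap A K a) -
        ∑ j, algebraMap A K (D j a) • KaehlerDifferential.D ℂ K (algebraMap A K (w j)))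
    rw [← algebraMap_smul K a, ← algebraMap_smul K b, map_mul, Derivation.leibniz]
    simp only [Derivation.leibniz, smul_eq_mul, map_add, map_mul, add_smul, mul_smul,
      Finset.sum_add_distrib, ← Finset.smul_sum, smul_sub]
    abel)) ?_
  · have h2 := congrArg (fun d : Derivation ℂ A (Ω[K⁄ℂ]) => d f) h1
    exact sub_eq_zero.1 h2
  · intro i
    change KaehlerDifferential.D ℂ K (algebraMap A K (w i)) -
        ∑ j, algebraMap A K (D j (w i)) • KaehlerDifferential.D ℂ K (algebraMap A K (w j)) = 0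
    simp [hD]

end alg

end Crest.Agent.R271.Bd741
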