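import Mathlib
import Crest.Agent.R271.Bd3_741

/-!
Row 271, (10.4) boundary lemma, part 3b: points of `B` from points of `A`.
-/

set_option autoImplicit false

open scoped ENNReal NNReal Topology BigOperators
open MeasureTheory Set Metric

noncomputable section

namespace Crest.Agent.R271.Bd741

open Crest.Agent.R271.Defs710

section pts

variable {A : Type} [CommRing A] [Algebra ℂ A] {B : Type} [CommRing B] [Algebra ℂ B]
  {K : Type} [Field K] [Algebra ℂ K] [Algebra A K] [IsScalarTower ℂ A K]
  [Algebra B K] [IsScalarTower ℂ B K]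

/-- order exactly `a` along `t` at `y` -/
def OrdAt (y : A →ₐ[ℂ] ℂ) (t : A) (f : K) (a : ℤ) : Prop :=
  ∃ u v : A, y u ≠ 0 ∧ y v ≠ 0 ∧ f * algebraMap A K v = algebraMap A K t ^ a * algebraMap A K u

/-- order at least `a` along `t` at `y` -/
def OrdGe (y : A →ₐ[ℂ] ℂ) (t : A) (f : K) (a : ℤ) : Prop :=
  ∃ u v : A, y v ≠ 0 ∧ f * algebraMap A K v = algebraMap A K t ^ a * algebraMap A K u

variable (K) in
/-- common denominator for a finite type algebra -/
theorem exists_denom [IsDomain A] [IsFractionRing A K] (hB : Algebra.FiniteType ℂ B) :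
    ∃ q : A, q ≠ 0 ∧ ∀ b : B, ∃ (M : ℕ) (a : A),
      algebraMap B K b * algebraMap A K q ^ M = algebraMap A K a := by
  classical
  obtain ⟨S, hS⟩ := hB.out
  have hinj : Function.Injective (algebraMap A K) := IsFractionRing.injective A K
  have h1 : ∀ b : B, ∃ v : A, v ≠ 0 ∧ ∃ u : A, algebraMap B K b * algebraMap A K v =
      algebraMap A K u := by
    intro b
    obtain ⟨u, v, hv, h⟩ := IsFractionRing.div_surjective (A := A) (algebraMap B K b)
    have hv0 : algebraMap A K v ≠ 0 := by
      intro h0
      exact nonZeroDivisors.ne_zero hv (hinj (by rw [h0, map_zero]))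
    refine ⟨v, nonZeroDivisors.ne_zero hv, u, ?_⟩
    rw [← h]; field_simp
  choose v hv0 u hu using h1
  refine ⟨∏ b ∈ S, v b, Finset.prod_ne_zero_iff.2 fun b _ => hv0 b, fun b => ?_⟩
  have hb : b ∈ Algebra.adjoin ℂ (S : Set B) := by rw [hS]; trivial
  induction hb using Algebra.adjoin_induction with
  | mem x hx =>
    refine ⟨1, u x * ∏ b ∈ S.erase x, v b, ?_⟩
    rw [pow_one, ← Finset.mul_prod_erase S v hx, map_mul, map_mul, ← mul_assoc, hu]
  | algebraMap r =>
    refine ⟨0, algebraMap ℂ A r, ?_⟩
    rw [pow_zero, mul_one, ← IsScalarTower.algebraMap_apply, ← IsScalarTower.algebraMap_apply]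
  | add x y _ _ hx hy =>
    obtain ⟨M, a, ha⟩ := hx
    obtain ⟨M', a', ha'⟩ := hy
    refine ⟨M + M', a * (∏ b ∈ S, v b) ^ M' + a' * (∏ b ∈ S, v b) ^ M, ?_⟩
    rw [map_add, map_add, map_mul, map_mul, map_pow, map_pow, ← ha, ← ha', pow_add]
    ring
  | mul x y _ _ hx hy =>
    obtain ⟨M, a, ha⟩ := hx
    obtain ⟨M', a', ha'⟩ := hy
    refine ⟨M + M', a * a', ?_⟩
    rw [map_mul, map_mul, ← ha, ← ha', pow_add]
    ring

/-- points of `B` from points of `A` off `q = 0` -/
theorem exists_pt (hinj : Function.Injective (algebraMap A K)) (q : A)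
    (hq : ∀ b : B, ∃ (M : ℕ) (a : A), algebraMap B K b * algebraMap A K q ^ M = algebraMap A K a)
    (s : A →ₐ[ℂ] ℂ) (hs : s q ≠ 0) :
    ∃ p : B →ₐ[ℂ] ℂ, ∀ (b : B) (u v : A),
      algebraMap B K b * algebraMap A K v = algebraMap A K u → p b * s v = s u := by
  choose M a ha using hq
  have hq0 : algebraMap A K q ≠ 0 := by
    intro h0
    have : q = 0 := hinj (by rw [h0, map_zero])
    rw [this, map_zero] at hs
    exact hs rfl
  let p0 : B → ℂ := fun b => s (a b) / s q ^ M b
  have key : ∀ (b : B) (u v : A), algebraMap B K b * algebraMap A K v = algebraMap A K u →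
      p0 b * s v = s u := by
    intro b u v h
    have h1 : a b * v = u * q ^ M b := by
      apply hinj
      rw [map_mul, map_mul, map_pow, ← ha b, ← h]
      ring
    have h2 := congrArg s h1
    rw [map_mul, map_mul, map_pow] at h2
    simp only [p0]
    field_simp
    exact h2.trans (mul_comm _ _)
  have key' : ∀ (b : B) (u : A) (N : ℕ), algebraMap B K b * algebraMap A K q ^ N =
      algebraMap A K u → p0 b = s u / s q ^ N := by
    intro b u N h
    have := key b u (q ^ N) (by rw [map_pow]; exact h)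
    rw [map_pow] at this
    field_simp
    exact this
  refine ⟨{ toFun := p0, map_one' := ?_, map_mul' := ?_, map_zero' := ?_, map_add' := ?_,
            commutes' := ?_ }, key⟩
  · rw [key' 1 1 0 (by simp)]; simp
  · intro x y
    change p0 (x * y) = p0 x * p0 y
    rw [key' (x * y) (a x * a y) (M x + M y) (by
      rw [map_mul, map_mul, ← ha x, ← ha y, pow_add]; ring)]
    simp only [p0, map_mul, pow_add]
    field_simp
  · change p0 0 = 0
    rw [key' 0 0 0 (by simp)]; simp
  · intro x y
    change p0 (x + y) = p0 x + p0 y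
    rw [key' (x + y) (a x * q ^ M y + a y * q ^ M x) (M x + M y) (by
      rw [map_add, map_add, map_mul, map_mul, map_pow, map_pow, ← ha x, ← ha y, pow_add]; ring)]
    simp only [p0, map_mul, map_add, map_pow, pow_add]
    field_simp
  · intro r
    change p0 (algebraMap ℂ B r) = r
    rw [key' (algebraMap ℂ B r) (algebraMap ℂ A r) 0 (by
      rw [pow_zero, mul_one, ← IsScalarTower.algebraMap_apply, ← IsScalarTower.algebraMap_apply])]
    simp

/-- the specification with integral powers of `t` -/
theorem pt_zpow {s : A →ₐ[ℂ] ℂ} {p : B →ₐ[ℂ] ℂ}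
    (hp : ∀ (b : B) (u v : A), algebraMap B K b * algebraMap A K v = algebraMap A K u →
      p b * s v = s u)
    {t : A} (ht : s t ≠ 0) (htK : algebraMap A K t ≠ 0) {b : B} {u v : A} {a : ℤ}
    (h : algebraMap B K b * algebraMap A K v = algebraMap A K t ^ a * algebraMap A K u) :
    p b * s v = s t ^ a * s u := by
  obtain ⟨N, hN | hN⟩ := Int.eq_nat_or_neg a
  · subst hN
    have := hp b (t ^ N * u) v (by rw [h, map_mul, map_pow, zpow_natCast])
    rw [this, map_mul, map_pow, zpow_natCast]
  · subst hN
    have := hp b u (v * t ^ N) (by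
      rw [map_mul, map_pow, ← mul_assoc, h, zpow_neg, zpow_natCast]
      field_simp)
    rw [map_mul, map_pow, ← mul_assoc] at this
    rw [zpow_neg, zpow_natCast, ← this]
    field_simp

/-- the same for identities inside `A` -/
theorem a_zpow (hinj : Function.Injective (algebraMap A K)) {s : A →ₐ[ℂ] ℂ}
    {t : A} (ht : s t ≠ 0) (htK : algebraMap A K t ≠ 0) {b u v : A} {a : ℤ}
    (h : algebraMap A K b * algebraMap A K v = algebraMap A K t ^ a * algebraMap A K u) :
    s b * s v = s t ^ a * s u := by
  obtain ⟨N, hN | hN⟩ := Int.eq_nat_or_neg a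
  · subst hN
    have : b * v = t ^ N * u := hinj (by rw [map_mul, h, map_mul, map_pow, zpow_natCast])
    rw [← map_mul, this, map_mul, map_pow, zpow_natCast]
  · subst hN
    have : b * (v * t ^ N) = u := hinj (by
      rw [map_mul, map_mul, map_pow, ← mul_assoc, h, zpow_neg, zpow_natCast]
      field_simp)
    rw [← this, map_mul, map_mul, map_pow, zpow_neg, zpow_natCast]
    field_simp

end pts

end Crest.Agent.R271.Bd741
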