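import Mathlib
import Crest.Agent.R271.Bd4_741

/-!
Row 271, (10.4) boundary lemma (BL3).
-/

set_option autoImplicit false

open scoped ENNReal NNReal Topology BigOperators
open MeasureTheory Set Metric

noncomputable section

namespace Crest.Agent.R271.Bd741

open Crest.Agent.R271.Defs710

theorem real_bound {τ cF cJ CY : ℝ} (hτ : 0 < τ) (hτ1 : τ ≤ 1) (hcF : 0 < cF) (hcJ : 0 < cJ)
    (hCY : 0 < CY) {a c e : ℤ} {m k : ℕ} (hk : 1 ≤ k) (hE : a + c - m * e ≤ -1) {f d S : ℝ}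
    (hf : cF * τ ^ a ≤ f) (hd : cJ * τ ^ c ≤ d) (hS : S ≤ CY * (τ ^ (k * e : ℤ)) ^ 2) :
    ENNReal.ofReal (cF ^ 2 * cJ ^ 2 * CY ^ (-((m : ℝ) / k))) * (ENNReal.ofReal (τ ^ 2))⁻¹ ≤
      ENNReal.ofReal (f ^ 2) * (ENNReal.ofReal S) ^ (-((m : ℝ) / k)) * ENNReal.ofReal (d ^ 2) := by
  have hk0 : (0 : ℝ) < k := by exact_mod_cast hk
  have hmk : 0 ≤ (m : ℝ) / k := by positivity
  have hpos : 0 < CY * (τ ^ (k * e : ℤ)) ^ 2 := by positivity
  have h1 : ENNReal.ofReal ((CY * (τ ^ (k * e : ℤ)) ^ 2) ^ (-((m : ℝ) / k))) ≤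
      (ENNReal.ofReal S) ^ (-((m : ℝ) / k)) := by
    rw [← ENNReal.ofReal_rpow_of_pos hpos, ENNReal.rpow_neg, ENNReal.rpow_neg]
    apply ENNReal.inv_le_inv.2
    apply ENNReal.rpow_le_rpow _ hmk
    exact ENNReal.ofReal_le_ofReal hS
  have h2 : (CY * (τ ^ (k * e : ℤ)) ^ 2) ^ (-((m : ℝ) / k)) =
      CY ^ (-((m : ℝ) / k)) * (τ ^ (-(m * e) : ℤ)) ^ 2 := by
    rw [Real.mul_rpow hCY.le (by positivity)]
    congr 1
    rw [← zpow_natCast (τ ^ (k * e : ℤ)) 2, ← zpow_natCast (τ ^ (-(m * e) : ℤ)) 2, ← zpow_mul,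
      ← zpow_mul, ← Real.rpow_intCast, ← Real.rpow_intCast, ← Real.rpow_mul hτ.le]
    congr 1
    push_cast
    field_simp
  have h3 : (ENNReal.ofReal (τ ^ 2))⁻¹ = ENNReal.ofReal ((τ ^ (-1 : ℤ)) ^ 2) := by
    rw [← ENNReal.ofReal_inv_of_pos (by positivity)]
    congr 1
    rw [zpow_neg_one, inv_pow]
  have h4 : (τ ^ (-1 : ℤ)) ≤ τ ^ (a + c - m * e) :=
    zpow_le_zpow_right_of_le_one₀ hτ hτ1 hE
  calc ENNReal.ofReal (cF ^ 2 * cJ ^ 2 * CY ^ (-((m : ℝ) / k))) * (ENNReal.ofReal (τ ^ 2))⁻¹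
      = ENNReal.ofReal (cF ^ 2 * cJ ^ 2 * CY ^ (-((m : ℝ) / k)) * (τ ^ (-1 : ℤ)) ^ 2) := by
        rw [h3, ← ENNReal.ofReal_mul (by positivity)]
    _ ≤ ENNReal.ofReal (cF ^ 2 * cJ ^ 2 * CY ^ (-((m : ℝ) / k)) * (τ ^ (a + c - m * e)) ^ 2) := by
        apply ENNReal.ofReal_le_ofReal
        gcongr
    _ = ENNReal.ofReal ((cF * τ ^ a) ^ 2 * (CY ^ (-((m : ℝ) / k)) * (τ ^ (-(m * e) : ℤ)) ^ 2) *
          (cJ * τ ^ c) ^ 2) := by
        congr 1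
        have : τ ^ (a + c - m * e) = τ ^ a * τ ^ c * τ ^ (-(m * e) : ℤ) := by
          rw [← zpow_add₀ hτ.ne', ← zpow_add₀ hτ.ne']; congr 1
        rw [this]; ring
    _ = ENNReal.ofReal ((cF * τ ^ a) ^ 2) *
          ENNReal.ofReal ((CY * (τ ^ (k * e : ℤ)) ^ 2) ^ (-((m : ℝ) / k))) *
          ENNReal.ofReal ((cJ * τ ^ c) ^ 2) := by
        rw [h2, ← ENNReal.ofReal_mul (by positivity), ← ENNReal.ofReal_mul (by positivity)]
    _ ≤ ENNReal.ofReal (f ^ 2) * (ENNReal.ofReal S) ^ (-((m : ℝ) / k)) * ENNReal.ofReal (d ^ 2) := by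
        gcongr

theorem quot_lower {p T su sv yu yv : ℝ} (h : p * sv = T * su) (hT : 0 ≤ T) (hsv : 0 < sv)
    (h1 : yu / 2 < su) (h2 : sv < 2 * yv) (hyu : 0 < yu) : yu / 2 / (2 * yv) * T ≤ p := by
  have hp : 0 ≤ p := by
    by_contra hneg
    have h3 : p * sv < 0 := mul_neg_of_neg_of_pos (not_le.1 hneg) hsv
    have h4 : 0 ≤ T * su := mul_nonneg hT (by linarith)
    linarith
  have hyv : 0 < 2 * yv := by linarith
  rw [div_mul_eq_mul_div, div_le_iff₀ hyv]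
  calc yu / 2 * T = T * (yu / 2) := mul_comm _ _
    _ ≤ T * su := by gcongr
    _ = p * sv := h.symm
    _ ≤ p * (2 * yv) := by gcongr

theorem quot_upper {p T su sv U V : ℝ} (h : p * sv = T * su) (hT : 0 ≤ T) (hp : 0 ≤ p) (hV : 0 < V)
    (h1 : V ≤ sv) (h2 : su ≤ U) : p ≤ T * (U / V) := by
  rw [← mul_div_assoc, le_div_iff₀ hV]
  calc p * V ≤ p * sv := by gcongr
    _ = T * su := h
    _ ≤ T * U := by gcongr

/-- **Boundary lemma**, general form. -/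
theorem boundary_core {n N : ℕ} {K : Type} [Field K] [Algebra ℂ K]
    {B : Type} [CommRing B] [IsDomain B] [Algebra ℂ B] (hB : Algebra.FiniteType ℂ B)
    [Algebra B K] [IsScalarTower ℂ B K] [IsFractionRing B K]
    {A : Type} [CommRing A] [IsDomain A] [Algebra ℂ A] (hA : Algebra.FiniteType ℂ A)
    [Algebra A K] [IsScalarTower ℂ A K] [IsFractionRing A K]
    (z : Fin n → B) (w : Fin n → A)
    (hw : RingHom.Etale ((MvPolynomial.aeval w : MvPolynomial (Fin n) ℂ →ₐ[ℂ] A) :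
      MvPolynomial (Fin n) ℂ →+* A))
    (y : A →ₐ[ℂ] ℂ) (t : A) (ht : y t = 0) (ht0 : t ≠ 0)
    (b b' : Module.Basis (Fin n) K (Ω[K⁄ℂ]))
    (hb : ∀ j, b j = KaehlerDifferential.D ℂ K (algebraMap A K (w j)))
    (hb' : ∀ j, b' j = KaehlerDifferential.D ℂ K (algebraMap B K (z j)))
    (x0 : B →ₐ[ℂ] ℂ) (m k : ℕ) (hk : 1 ≤ k) (F : B) (Y : Fin N → B) (a c e : ℤ)
    (hF : OrdAt y t (algebraMap B K F) a) (hJ : OrdAt y t (b.toMatrix b').det c)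
    (hY : ∀ j, OrdGe y t (algebraMap B K (Y j)) (k * e))
    (hfin : lintM z (fun y => ENNReal.ofReal (‖y F‖ ^ 2) *
      (ENNReal.ofReal (∑ j, ‖y (Y j)‖ ^ 2)) ^ (-((m : ℝ) / k))) < ∞) :
    0 ≤ a + c - m * e := by
  classical
  by_contra hneg
  have hE : a + c - m * e ≤ -1 := by omega
  have hinjA : Function.Injective (algebraMap A K) := IsFractionRing.injective A K
  have hinjB : Function.Injective (algebraMap B K) := IsFractionRing.injective B K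
  have hAK0 : ∀ x : A, x ≠ 0 → algebraMap A K x ≠ 0 := fun x hx h =>
    hx (hinjA (by rw [h, map_zero]))
  have htK : algebraMap A K t ≠ 0 := hAK0 t ht0
  have hNA : IsNoetherianRing A := by
    have := hA
    exact Algebra.FiniteType.isNoetherianRing ℂ A
  obtain ⟨C⟩ := Crest.Agent.R271.Rd692.nonempty_chart w hw y
  obtain ⟨D, hD⟩ := exists_coord_deriv w hw
  obtain ⟨q, hq0, hq⟩ := exists_denom (A := A) (B := B) K hB
  -- `w` in terms of `B`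
  obtain ⟨⟨b0, hb0⟩, hb0'⟩ := IsLocalization.exist_integer_multiples_of_finite (nonZeroDivisors B)
    (fun i => algebraMap A K (w i))
  have hb00 : b0 ≠ 0 := nonZeroDivisors.ne_zero hb0
  have hcw : ∀ i, ∃ cw : B, algebraMap B K cw = algebraMap B K b0 * algebraMap A K (w i) := by
    intro i
    obtain ⟨cw, hcw⟩ := hb0' i
    refine ⟨cw, ?_⟩
    rw [hcw, Algebra.smul_def]
  choose cw hcw using hcw
  obtain ⟨M0, u0, hu0⟩ := hq b0
  have hb0K : algebraMap B K b0 ≠ 0 := fun h => hb00 (hinjB (by rw [h, map_zero]))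
  have hu00 : u0 ≠ 0 := by
    rintro rfl
    rw [map_zero] at hu0
    exact (mul_ne_zero hb0K (pow_ne_zero _ (hAK0 q hq0))) hu0
  -- `z` in terms of `A`
  obtain ⟨⟨q2, hq2⟩, hq2'⟩ := IsLocalization.exist_integer_multiples_of_finite (nonZeroDivisors A)
    (fun i => algebraMap B K (z i))
  have hq20 : q2 ≠ 0 := nonZeroDivisors.ne_zero hq2
  have hβ : ∀ i, ∃ β : A, algebraMap A K β = algebraMap A K q2 * algebraMap B K (z i) := by
    intro i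
    obtain ⟨β, hβ⟩ := hq2' i
    refine ⟨β, ?_⟩
    rw [hβ, Algebra.smul_def]
  choose β hβ using hβ
  let Nm : Matrix (Fin n) (Fin n) A := Matrix.of fun j i => q2 * D j (β i) - β i * D j q2
  have hq2K : algebraMap A K q2 ≠ 0 := hAK0 q2 hq20
  have hb'sum : ∀ i, b' i = ∑ j, ((algebraMap A K q2 ^ 2)⁻¹ * algebraMap A K (Nm j i)) • b j := by
    intro i
    have e1 := D_K (K := K) w hw D hD (β i)
    have e2 := D_K (K := K) w hw D hD q2
    rw [hβ i, Derivation.leibniz] at e1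
    have e3 : (algebraMap A K q2) ^ 2 • b' i = ∑ j, (algebraMap A K (Nm j i)) • b j := by
      have e4 : (algebraMap A K q2) • KaehlerDifferential.D ℂ K (algebraMap B K (z i)) =
          ∑ j, algebraMap A K (D j (β i)) • KaehlerDifferential.D ℂ K (algebraMap A K (w j)) -
          algebraMap B K (z i) • KaehlerDifferential.D ℂ K (algebraMap A K q2) :=
        eq_sub_of_add_eq e1
      rw [hb', pow_two, mul_smul, e4, e2, smul_sub, smul_smul, ← hβ i, Finset.smul_sum,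
        Finset.smul_sum, ← Finset.sum_sub_distrib]
      refine Finset.sum_congr rfl fun j _ => ?_
      rw [smul_smul, smul_smul, ← sub_smul, ← map_mul, ← map_mul, ← map_sub, hb]
      rfl
    have e5 : b' i = ((algebraMap A K q2) ^ 2)⁻¹ • ((algebraMap A K q2) ^ 2 • b' i) := by
      rw [smul_smul, inv_mul_cancel₀ (pow_ne_zero _ hq2K), one_smul]
    rw [e5, e3, Finset.smul_sum]
    refine Finset.sum_congr rfl fun j _ => ?_
    rw [smul_smul]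
  have hmat : b.toMatrix b' = ((algebraMap A K q2 ^ 2)⁻¹ : K) • (Nm.map (algebraMap A K)) := by
    ext j i
    rw [Module.Basis.toMatrix_apply, hb'sum i, Module.Basis.repr_sum_self]
    rfl
  have hdetK : (b.toMatrix b').det * algebraMap A K (q2 ^ (2 * n)) = algebraMap A K Nm.det := by
    rw [hmat, Matrix.det_smul, Fintype.card_fin, RingHom.map_det, map_pow]
    rw [show (algebraMap A K).mapMatrix Nm = Nm.map (algebraMap A K) from rfl]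
    have : ((algebraMap A K q2 ^ 2)⁻¹ ^ n * (algebraMap A K q2) ^ (2 * n) : K) = 1 := by
      rw [pow_mul, ← mul_pow, inv_mul_cancel₀ (pow_ne_zero _ hq2K), one_pow]
    calc (algebraMap A K q2 ^ 2)⁻¹ ^ n * (Nm.map (algebraMap A K)).det *
          algebraMap A K q2 ^ (2 * n)
        = ((algebraMap A K q2 ^ 2)⁻¹ ^ n * (algebraMap A K q2) ^ (2 * n)) *
          (Nm.map (algebraMap A K)).det := by ring
      _ = _ := by rw [this, one_mul]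
  have hdet0 : (b.toMatrix b').det ≠ 0 := by
    intro h
    have h1 := congrArg Matrix.det (b.toMatrix_mul_toMatrix_flip b')
    rw [Matrix.det_mul, h, zero_mul, Matrix.det_one] at h1
    exact zero_ne_one h1
  have hNdet : Nm.det ≠ 0 := by
    intro h
    rw [h, map_zero] at hdetK
    have h1 : (b.toMatrix b').det = 0 :=
      (mul_eq_zero.1 hdetK).resolve_right (hAK0 _ (pow_ne_zero _ hq20))
    exact hdet0 h1
  -- the section of points of `B`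
  let s' : Cn n → (B →ₐ[ℂ] ℂ) := fun ζ =>
    if h : C.s ζ q ≠ 0 then (exists_pt hinjA q hq (C.s ζ) h).choose else x0
  have hs' : ∀ ζ, C.s ζ q ≠ 0 → ∀ (b : B) (u v : A),
      algebraMap B K b * algebraMap A K v = algebraMap A K u → s' ζ b * C.s ζ v = C.s ζ u := by
    intro ζ h
    simp only [s', dif_pos h]
    exact (exists_pt hinjA q hq (C.s ζ) h).choose_spec
  obtain ⟨uF, vF, huF, hvF, hFeq⟩ := hF
  obtain ⟨uJ, vJ, huJ, hvJ, hJeq⟩ := hJ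
  choose uY vY hvY hYeq using hY
  have hs0 : ∀ f, C.s 0 f = y f := by rw [C.s_zero]; exact fun _ => rfl
  have hcont : ∀ f : A, ContinuousAt (fun ζ => C.s ζ f) 0 := fun f =>
    (C.anal f 0 (mem_ball_self C.r_pos)).continuousAt
  have hev1 : ∀ u : A, y u ≠ 0 → ∀ᶠ ζ in 𝓝 (0 : Cn n),
      ‖y u‖ / 2 < ‖C.s ζ u‖ ∧ ‖C.s ζ u‖ < 2 * ‖y u‖ := by
    intro u hu
    have h1 : ContinuousAt (fun ζ => ‖C.s ζ u‖) 0 := (hcont u).norm
    have h2 : 0 < ‖y u‖ := norm_pos_iff.2 hu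
    refine (h1.eventually (lt_mem_nhds ?_)).and (h1.eventually (gt_mem_nhds ?_))
    · simp only [hs0]; linarith
    · simp only [hs0]; linarith
  have hev2 : ∀ u : A, ∀ᶠ ζ in 𝓝 (0 : Cn n), ‖C.s ζ u‖ < ‖y u‖ + 1 := by
    intro u
    have h1 : ContinuousAt (fun ζ => ‖C.s ζ u‖) 0 := (hcont u).norm
    refine h1.eventually (gt_mem_nhds ?_)
    simp only [hs0]; linarith
  obtain ⟨r1, hr1, hr1'⟩ : ∃ r1 > 0, ∀ ζ ∈ ball (0 : Cn n) r1,
      ζ ∈ ball (0 : Cn n) C.r ∧ ‖C.s ζ t‖ < 1 ∧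
      (‖y uF‖ / 2 < ‖C.s ζ uF‖ ∧ ‖C.s ζ uF‖ < 2 * ‖y uF‖) ∧
      (‖y vF‖ / 2 < ‖C.s ζ vF‖ ∧ ‖C.s ζ vF‖ < 2 * ‖y vF‖) ∧
      (‖y uJ‖ / 2 < ‖C.s ζ uJ‖ ∧ ‖C.s ζ uJ‖ < 2 * ‖y uJ‖) ∧
      (‖y vJ‖ / 2 < ‖C.s ζ vJ‖ ∧ ‖C.s ζ vJ‖ < 2 * ‖y vJ‖) ∧
      (∀ j, ‖C.s ζ (uY j)‖ < ‖y (uY j)‖ + 1) ∧
      (∀ j, ‖y (vY j)‖ / 2 < ‖C.s ζ (vY j)‖ ∧ ‖C.s ζ (vY j)‖ < 2 * ‖y (vY j)‖) := by
    have ht1 : ∀ᶠ ζ in 𝓝 (0 : Cn n), ‖C.s ζ t‖ < 1 := by
      have := hev2 t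
      rwa [ht, norm_zero, zero_add] at this
    have hb1 : ∀ᶠ ζ in 𝓝 (0 : Cn n), ζ ∈ ball (0 : Cn n) C.r := ball_mem_nhds (0 : Cn n) C.r_pos
    have hall := hb1.and
      (ht1.and ((hev1 uF huF).and ((hev1 vF hvF).and ((hev1 uJ huJ).and ((hev1 vJ hvJ).and
      ((Filter.eventually_all.2 fun j => hev2 (uY j)).and
      (Filter.eventually_all.2 fun j => hev1 (vY j) (hvY j))))))))
    obtain ⟨r1, hr1, h⟩ := Metric.eventually_nhds_iff_ball.1 hall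
    exact ⟨r1, hr1, h⟩
  -- the open set
  set Q : A := t * q * q2 * u0 * Nm.det with hQdef
  have hQ0 : Q ≠ 0 :=
    mul_ne_zero (mul_ne_zero (mul_ne_zero (mul_ne_zero ht0 hq0) hq20) hu00) hNdet
  set Ω : Set (Cn n) := ball (0 : Cn n) r1 ∩ {ζ | C.s ζ Q ≠ 0} with hΩdef
  have hΩ : ∀ ζ ∈ Ω, C.s ζ t ≠ 0 ∧ C.s ζ q ≠ 0 ∧ C.s ζ q2 ≠ 0 ∧ C.s ζ u0 ≠ 0 ∧
      C.s ζ Nm.det ≠ 0 := by
    intro ζ hζ
    have h1 : C.s ζ Q ≠ 0 := hζ.2
    rw [hQdef, map_mul, map_mul, map_mul, map_mul] at h1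
    refine ⟨?_, ?_, ?_, ?_, ?_⟩ <;> (intro h; apply h1; rw [h]; ring)
  have hball : ball (0 : Cn n) r1 ⊆ ball (0 : Cn n) C.r := fun ζ hζ => (hr1' ζ hζ).1
  have hΩo : IsOpen Ω := by
    have hc : ContinuousOn (fun ζ => C.s ζ Q) (ball (0 : Cn n) r1) := fun ζ hζ =>
      (C.anal Q ζ (hball hζ)).continuousAt.continuousWithinAt
    have := hc.isOpen_inter_preimage isOpen_ball (t := {0}ᶜ) isOpen_compl_singleton
    exact this
  -- derivative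
  let ψ : Cn n → Cn n := fun ζ i => C.s ζ (β i) / C.s ζ q2
  have hφψ : ∀ ζ ∈ Ω, (fun i => s' ζ (z i)) = ψ ζ := by
    intro ζ hζ
    obtain ⟨h1, h2, h3, h4, h5⟩ := hΩ ζ hζ
    funext i
    have := hs' ζ h2 (z i) (β i) q2 (by rw [hβ i, mul_comm])
    simp only [ψ]
    rw [← this]; field_simp
  have hψan : ∀ ζ ∈ Ω, ∀ i, AnalyticAt ℂ (fun ζ => ψ ζ i) ζ := by
    intro ζ hζ i
    exact (C.anal (β i) ζ (hball hζ.1)).div (C.anal q2 ζ (hball hζ.1)) (hΩ ζ hζ).2.2.1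
  have hψan' : ∀ ζ ∈ Ω, AnalyticAt ℂ ψ ζ := fun ζ hζ =>
    analyticAt_pi_iff.2 (fun i => hψan ζ hζ i)
  have hφ : ∀ ζ ∈ Ω, HasStrictFDerivAt (fun ζ i => s' ζ (z i)) (fderiv ℂ ψ ζ) ζ := by
    intro ζ hζ
    refine (hψan' ζ hζ).hasStrictFDerivAt.congr_of_eventuallyEq ?_
    filter_upwards [hΩo.mem_nhds hζ] with ζ' hζ'
    exact (hφψ ζ' hζ').symm
  have hψd : ∀ ζ ∈ Ω, ∀ i j, fderiv ℂ ψ ζ (Pi.single j 1) i =
      ((C.s ζ q2) ^ 2)⁻¹ * C.s ζ (Nm j i) := by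
    intro ζ hζ i j
    have hq2ζ := (hΩ ζ hζ).2.2.1
    have e0 : fderiv ℂ ψ ζ (Pi.single j 1) i = fderiv ℂ (fun ζ => ψ ζ i) ζ (Pi.single j 1) := by
      have h1 : HasFDerivAt ψ (fderiv ℂ ψ ζ) ζ := (hψan' ζ hζ).differentiableAt.hasFDerivAt
      have h2 := (hasFDerivAt_pi'.1 h1) i
      rw [h2.fderiv]
      rfl
    have e1 := chart_deriv w hw D hD C ζ (hball hζ.1) j (β i)
    have e2 := chart_deriv w hw D hD C ζ (hball hζ.1) j q2
    have e3 : (fun ζ' => C.s ζ' (β i)) =ᶠ[𝓝 ζ] fun ζ' => ψ ζ' i * C.s ζ' q2 := by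
      filter_upwards [hΩo.mem_nhds hζ] with ζ' hζ'
      have := (hΩ ζ' hζ').2.2.1
      simp only [ψ]
      field_simp
    rw [e3.fderiv_eq, fderiv_fun_mul (hψan ζ hζ i).differentiableAt
      (C.anal q2 ζ (hball hζ.1)).differentiableAt] at e1
    simp only [_root_.add_apply, _root_.smul_apply, smul_eq_mul, e2] at e1
    rw [e0]
    have e4 : ψ ζ i * C.s ζ q2 = C.s ζ (β i) := by
      simp only [ψ]; field_simp
    have e5 : C.s ζ (Nm j i) = C.s ζ q2 * C.s ζ (D j (β i)) - C.s ζ (β i) * C.s ζ (D j q2) := by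
      simp only [Nm, Matrix.of_apply, map_sub, map_mul]
    rw [e5, ← e4, ← e1]
    field_simp
    ring
  have hdetψ : ∀ ζ ∈ Ω, (fderiv ℂ ψ ζ).det * (C.s ζ q2) ^ (2 * n) = C.s ζ Nm.det := by
    intro ζ hζ
    have hq2ζ := (hΩ ζ hζ).2.2.1
    have e1 : LinearMap.toMatrix' (fderiv ℂ ψ ζ : Cn n →ₗ[ℂ] Cn n) =
        ((C.s ζ q2) ^ 2)⁻¹ • ((C.s ζ : A →+* ℂ).mapMatrix Nm).transpose := by
      ext i j
      rw [LinearMap.toMatrix'_apply]
      have := hψd ζ hζ i j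
      simpa using this
    have e2 : (fderiv ℂ ψ ζ).det = (((C.s ζ q2) ^ 2)⁻¹) ^ n * C.s ζ Nm.det := by
      rw [ContinuousLinearMap.det, ← LinearMap.det_toMatrix', e1, Matrix.det_smul,
        Matrix.det_transpose, Fintype.card_fin, ← RingHom.map_det]
      rfl
    rw [e2, pow_mul]
    have : ((((C.s ζ q2) ^ 2)⁻¹) ^ n * ((C.s ζ q2) ^ 2) ^ n : ℂ) = 1 := by
      rw [← mul_pow, inv_mul_cancel₀ (pow_ne_zero _ hq2ζ), one_pow]
    linear_combination (C.s ζ Nm.det) * this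
  have hdetne : ∀ ζ ∈ Ω, (fderiv ℂ ψ ζ).det ≠ 0 := by
    intro ζ hζ h
    have := hdetψ ζ hζ
    rw [h, zero_mul] at this
    exact (hΩ ζ hζ).2.2.2.2 this.symm
  -- injectivity
  have hinj : InjOn s' Ω := by
    intro ζ hζ ζ' hζ' heq
    have key : ∀ ζ ∈ Ω, s' ζ b0 ≠ 0 ∧ ∀ i, s' ζ (cw i) = s' ζ b0 * C.s ζ (w i) := by
      intro ζ hζ
      obtain ⟨h1, h2, h3, h4, h5⟩ := hΩ ζ hζ
      have e1 := hs' ζ h2 b0 u0 (q ^ M0) (by rw [map_pow]; exact hu0)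
      have hb : s' ζ b0 ≠ 0 := by
        intro h
        rw [h, zero_mul] at e1
        exact h4 e1.symm
      refine ⟨hb, fun i => ?_⟩
      have e2 := hs' ζ h2 (cw i) (u0 * w i) (q ^ M0) (by
        rw [hcw, map_pow, map_mul, ← hu0]; ring)
      rw [map_mul, ← e1, map_pow] at e2
      have hqp : (C.s ζ q) ^ M0 ≠ 0 := pow_ne_zero _ h2
      have : s' ζ (cw i) * (C.s ζ q) ^ M0 = (s' ζ b0 * C.s ζ (w i)) * (C.s ζ q) ^ M0 := by
        rw [e2]; ring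
      exact mul_right_cancel₀ hqp this
    obtain ⟨k1, k2⟩ := key ζ hζ
    obtain ⟨k1', k2'⟩ := key ζ' hζ'
    funext i
    have e1 := k2 i
    have e2 := k2' i
    rw [← heq, e1] at e2
    have e3 := mul_left_cancel₀ k1 e2
    rw [C.s_z ζ (hball hζ.1) i, C.s_z ζ' (hball hζ'.1) i] at e3
    exact add_left_cancel e3
  -- change of variables
  have hBL1 := lintM_ge z Ω hΩo s' hinj (fun ζ => fderiv ℂ ψ ζ) hφ hdetne
    (fun y => ENNReal.ofReal (‖y F‖ ^ 2) *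
      (ENNReal.ofReal (∑ j, ‖y (Y j)‖ ^ 2)) ^ (-((m : ℝ) / k)))
  -- pole
  have hBL2 := not_integrable_zero (fun ζ => C.s ζ t) (fun ζ => C.s ζ Q)
    (C.anal t 0 (mem_ball_self C.r_pos)) (C.anal Q 0 (mem_ball_self C.r_pos))
    (by rw [hs0, ht]) (fun h => hQ0 (Crest.Agent.R271.Ord969.eq_zero_of_eventually C
      (Crest.Agent.R271.Ord969.mI_le_of_unramified w y hw) h))
    (Filter.Eventually.of_forall fun ζ h => by rw [hQdef]; simp only [map_mul, h, zero_mul])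
    (ball (0 : Cn n) r1) (ball_mem_nhds _ hr1)
  -- lower bound
  set cF : ℝ := ‖y uF‖ / 2 / (2 * ‖y vF‖) with hcF
  set cJ : ℝ := ‖y uJ‖ / 2 / (2 * ‖y vJ‖) with hcJ
  set CY : ℝ := 1 + ∑ j, ((‖y (uY j)‖ + 1) / (‖y (vY j)‖ / 2)) ^ 2 with hCY
  have nuF := norm_pos_iff.2 huF
  have nvF := norm_pos_iff.2 hvF
  have nuJ := norm_pos_iff.2 huJ
  have nvJ := norm_pos_iff.2 hvJ
  have nvY : ∀ j, 0 < ‖y (vY j)‖ := fun j => norm_pos_iff.2 (hvY j)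
  have hcF0 : 0 < cF := by positivity
  have hcJ0 : 0 < cJ := by positivity
  have hCY0 : 0 < CY := by
    have : 0 ≤ ∑ j, ((‖y (uY j)‖ + 1) / (‖y (vY j)‖ / 2)) ^ 2 :=
      Finset.sum_nonneg fun j _ => by positivity
    linarith
  have hlower : ∀ ζ ∈ Ω, ENNReal.ofReal (cF ^ 2 * cJ ^ 2 * CY ^ (-((m : ℝ) / k))) *
      (ENNReal.ofReal (‖C.s ζ t‖ ^ 2))⁻¹ ≤
      (ENNReal.ofReal (‖s' ζ F‖ ^ 2) * (ENNReal.ofReal (∑ j, ‖s' ζ (Y j)‖ ^ 2)) ^
        (-((m : ℝ) / k))) * ENNReal.ofReal (‖(fderiv ℂ ψ ζ).det‖ ^ 2) := by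
    intro ζ hζ
    obtain ⟨h1, h2, h3, h4, h5⟩ := hΩ ζ hζ
    obtain ⟨-, g1, g2, g3, g4, g5, g6, g7⟩ := hr1' ζ hζ.1
    have τpos : 0 < ‖C.s ζ t‖ := norm_pos_iff.2 h1
    refine real_bound τpos g1.le hcF0 hcJ0 hCY0 hk hE (a := a) (c := c) (e := e) ?_ ?_ ?_
    · have e1 := pt_zpow (hs' ζ h2) h1 htK hFeq
      have e2 : ‖s' ζ F‖ * ‖C.s ζ vF‖ = ‖C.s ζ t‖ ^ a * ‖C.s ζ uF‖ := by
        rw [← norm_mul, e1, norm_mul, norm_zpow]
      exact quot_lower e2 (by positivity) (by linarith) g2.1 g3.2 nuF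
    · have e0 : algebraMap A K Nm.det * algebraMap A K vJ =
          algebraMap A K t ^ c * algebraMap A K (uJ * q2 ^ (2 * n)) := by
        rw [← hdetK, map_mul, ← mul_assoc (algebraMap A K t ^ c), ← hJeq]
        ring
      have e1 := a_zpow hinjA h1 htK e0
      rw [← hdetψ ζ hζ, map_mul, map_pow] at e1
      have hp : (C.s ζ q2) ^ (2 * n) ≠ 0 := pow_ne_zero _ h3
      have e2 : (fderiv ℂ ψ ζ).det * C.s ζ vJ = C.s ζ t ^ c * C.s ζ uJ := by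
        apply mul_right_cancel₀ hp
        linear_combination e1
      have e3 : ‖(fderiv ℂ ψ ζ).det‖ * ‖C.s ζ vJ‖ = ‖C.s ζ t‖ ^ c * ‖C.s ζ uJ‖ := by
        rw [← norm_mul, e2, norm_mul, norm_zpow]
      exact quot_lower e3 (by positivity) (by linarith) g4.1 g5.2 nuJ
    · have hτk : 0 ≤ ‖C.s ζ t‖ ^ (k * e : ℤ) := by positivity
      have e1 : ∀ j, ‖s' ζ (Y j)‖ ≤
          ‖C.s ζ t‖ ^ (k * e : ℤ) * ((‖y (uY j)‖ + 1) / (‖y (vY j)‖ / 2)) := by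
        intro j
        have e1 := pt_zpow (hs' ζ h2) h1 htK (hYeq j)
        have e2 : ‖s' ζ (Y j)‖ * ‖C.s ζ (vY j)‖ = ‖C.s ζ t‖ ^ (k * e : ℤ) * ‖C.s ζ (uY j)‖ := by
          rw [← norm_mul, e1, norm_mul, norm_zpow]
        exact quot_upper e2 hτk (norm_nonneg _) (by linarith [nvY j, (g7 j).1] : 0 < ‖y (vY j)‖ / 2)
          (g7 j).1.le (g6 j).le
      calc ∑ j, ‖s' ζ (Y j)‖ ^ 2
          ≤ ∑ j, (‖C.s ζ t‖ ^ (k * e : ℤ) * ((‖y (uY j)‖ + 1) / (‖y (vY j)‖ / 2))) ^ 2 :=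
            Finset.sum_le_sum fun j _ => pow_le_pow_left₀ (norm_nonneg _) (e1 j) 2
        _ = (∑ j, ((‖y (uY j)‖ + 1) / (‖y (vY j)‖ / 2)) ^ 2) * (‖C.s ζ t‖ ^ (k * e : ℤ)) ^ 2 := by
            rw [Finset.sum_mul]
            refine Finset.sum_congr rfl fun j _ => ?_
            ring
        _ ≤ CY * (‖C.s ζ t‖ ^ (k * e : ℤ)) ^ 2 := by
            rw [hCY]
            gcongr
            linarith
  have hfinal : ENNReal.ofReal (cF ^ 2 * cJ ^ 2 * CY ^ (-((m : ℝ) / k))) * ∞ ≤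
      lintM z (fun y => ENNReal.ofReal (‖y F‖ ^ 2) *
      (ENNReal.ofReal (∑ j, ‖y (Y j)‖ ^ 2)) ^ (-((m : ℝ) / k))) := by
    rw [← hBL2, ← lintegral_const_mul' _ _ ENNReal.ofReal_ne_top]
    refine le_trans ?_ hBL1
    exact setLIntegral_mono' hΩo.measurableSet hlower
  rw [ENNReal.mul_top (by simp only [ne_eq, ENNReal.ofReal_eq_zero, not_le]; positivity)] at hfinal
  exact absurd (lt_of_le_of_lt hfinal hfin) (lt_irrefl _)

/-- **Boundary lemma** for the context `FCtx`. -/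
theorem boundary {n : ℕ} (X : FCtx n) {K : Type} [Field K] [Algebra ℂ K] [Algebra X.B K]
    [IsScalarTower ℂ X.B K] [IsFractionRing X.B K]
    {A : Type} [CommRing A] [IsDomain A] [Algebra ℂ A] (hA : Algebra.FiniteType ℂ A)
    [Algebra A K] [IsScalarTower ℂ A K] [IsFractionRing A K] (w : Fin n → A)
    (hw : RingHom.Etale ((MvPolynomial.aeval w : MvPolynomial (Fin n) ℂ →ₐ[ℂ] A) :
      MvPolynomial (Fin n) ℂ →+* A))
    (y : A →ₐ[ℂ] ℂ) (t : A) (ht : y t = 0) (ht0 : t ≠ 0)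
    (b b' : Module.Basis (Fin n) K (Ω[K⁄ℂ]))
    (hb : ∀ j, b j = KaehlerDifferential.D ℂ K (algebraMap A K (w j)))
    (hb' : ∀ j, b' j = KaehlerDifferential.D ℂ K (algebraMap X.B K (X.z j)))
    (m : ℕ) (F : X.B) (a c e : ℤ)
    (hF : OrdAt y t (algebraMap X.B K F) a) (hJ : OrdAt y t (b.toMatrix b').det c)
    (hY : ∀ j, OrdGe y t (algebraMap X.B K (X.Y j)) (X.k * e))
    (hfin : lintM X.z (fun y => ENNReal.ofReal (‖y F‖ ^ 2) *
      (ENNReal.ofReal (∑ j, ‖y (X.Y j)‖ ^ 2)) ^ (-((m : ℝ) / X.k))) < ∞) :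
    0 ≤ a + c - m * e :=
  boundary_core X.ft hA X.z w hw y t ht ht0 b b' hb hb' X.x m X.k X.k_pos F X.Y a c e hF hJ hY hfin

end Crest.Agent.R271.Bd741
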