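import Mathlib
/-
ROW 271 (S0413) - FUJITA FREENESS.  COMPLETE PAPER PROOF (helper710), numbered for checking.

Theorem.  X smooth proper over C, dim n >= 1, L ample, x closed point, m >= n+1: K_X + mL has a section not
vanishing at x.  (Non-closed points of X reduce to closed points; K is locally principal by definition.)

==============================================================================================================
PART 0.  CONTEXT (purely algebraic data around x)
==============================================================================================================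
(0.1) CTX(n):  B = finitely generated C-algebra, domain, with z_1..z_n in B making B ETALE over C[z_1..z_n].
 M := Hom_{C-alg}(B,C) (closed points), m_y = ker y, ord_y f = max{e : f in m_y^e}.  x in M fixed.
 V_m (m in N) finite dimensional C-subspaces of B  [= H^0(X,mL), trivialised on the affine open Spec B]:
 (C1) V_0 = C, V_m V_l <= V_{m+l}.
 (C3) jets: for all e there is j0(e): for all j >= j0(e), all y in M:  V_j -> B/m_y^{e+1} is onto.
 (C4) there is C1: for m >= 0, 0 != f in V_m, y in M:  ord_y f <= C1 m.       [=> dim V_m <= C (m+1)^n]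
 (C5) for all d <= n, eps > 0 there is j1: for EVERY prime P of B with dim B/P = d, all j >= j1:
      dim V_j/(V_j n P) >= (1-eps) j^d/d!.          (uniform in P !  also P = 0, d = n.)
(0.2) M carries the classical topology; p = (z_1..z_n) : M -> C^n is a local homeomorphism; every b in B is holomorphic
 in the local coordinates z - z(y).  mu = pull back of Lebesgue measure.
 For nonzero ideals I_1..I_r of B, real exponents c_1..c_r (sign arbitrary), y in M:
   Int_y(I_1^{c_1} ... I_r^{c_r})  :<=>  prod_i |I_i|^{-2c_i} is mu-integrable near y,   |I|^2 := sum |generators|^2.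
(0.3) MAIN LOCAL THEOREM (MLT).  In CTX(n) there are finite nonempty sets S_i of nonzero elements of V_{m_i} and reals
 c_i > 0 (i=1..r) with sum c_i m_i < n+1 such that Phi := prod_i (sum_{f in S_i}|f|^2)^{-c_i} is NOT integrable near x but is
 locally integrable at every point of a shell {r1 <= |z - z(x)| <= r2} around x in a coordinate ball at x.
(0.4) Part 10: MLT => K+mL has a section non-vanishing at x.   Part 11: X, L, x give CTX(n).

==============================================================================================================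
PART 1.  ANALYTIC FACTS USED (all about germs / B)
==============================================================================================================
(AF1) Int_y is independent of generators; I <= J => |I|^2 <= C|J|^2; |IJ| ~ |I||J|; |I+J|^2 ~ |I|^2+|J|^2; decreasing c_i keeps Int.
(AF3) HOELDER: the set of c in R^r with Int_y(I^c) is convex.
(AF4) SUM THEOREM.  Germs at 0 in C^N: rho, phi_1..phi_k finite nonnegative combinations of log sum|h|^2. If
   exp(-rho - max_i phi_i) is integrable at 0 then for every eps>0 there is s in the simplex with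
   exp(-(1-eps)(rho + sum s_i phi_i)) integrable at 0.
(AF5) f holomorphic at y, c*ord_y f < 1  =>  |f|^{-2c} integrable at y.
(AF6) |f_j| <= C|z|^j-type: I <= m_y^j, cj >= n => not Int_y(I^c).
(AF7) MULTIPLIER IDEAL.  For ideals I_i of B, c_i >= 0: J := {f in B : |f|^2 prod|I_i|^{-2c_i} locally integrable at EVERY point of M} is an
   ideal of B and for y in M:  Int_y(I^c) <=> some f in J has f(y) != 0.   (So the non-integrable locus is Zariski closed.)
(AF8) FUBINI.  y in V(P), local coordinates w at y with P_y = (w_{d+1}..w_n).  If Int_y(I^c P^b m_y^g), c,b >= 0, g > d, then for all eps>0: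
   Int_y(I^{(1-eps)c} P^{(1-eps)b + g - d - eps}).
(AF9) SPECIALISATION.  f_i(z,tau) holomorphic near (x,0) in M x C; if (sum|f_i(.,0)|^2)^{-c} is integrable at x then for all eps>0
   (sum|f_i(z,tau)|^2)^{-(1-eps)c} is integrable near (x,0), hence for a.e. small tau integrable on a FIXED nbhd of x.

==============================================================================================================
PART 2.  PROOFS OF THE ANALYTIC FACTS
==============================================================================================================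
(2.1) ENGINE (Hoermander).  M Riemann domain: Hausdorff, 2nd countable, p : M -> C^n local homeo; s : M -> [0,inf) smooth strictly
 psh with compact sublevel sets; Phi smooth psh on M with Phi'' >= some positive definite smooth Q.  alpha smooth (0,1) form,
 dbar alpha = 0, I := int sum alpha_j Q^{jk} conj(alpha_k) e^{-Phi} < inf.  Then there is u in L2_loc, dbar u = alpha weakly (so if
 alpha = dbar G, G smooth, then G-u is (a.e.) holomorphic), and int |u|^2 e^{-Phi} <= 2I.
 PROOF.  Fix nu. Cutoffs eta_j = eta(s-nu-j), eta_j=1 on {s<=nu+1}; psi = kappa(s) >= 0, psi = 0 on {s<=nu}, |d eta_j|^2 <= e^psi; chi convex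
 increasing, chi=0 on s<=nu; phi = Phi+chi(s) with chi(s) >= 2psi, (chi(s))'' >= 2|d psi|^2, alpha in L2(phi_2); phi_1=phi-2psi, phi_2=phi-psi,
 phi_3=phi; T=dbar: L2(phi_1)->L2(phi_2), S=dbar: L2(phi_2)->L2(phi_3).  For f in C_c^inf:  e^psi T*f = -sum delta_j f_j - sum f_j d_j psi,
 delta_j w = e^phi d_j(e^{-phi} w);  int|sum delta_j f_j|^2 e^{-phi} + |Sf|^2_3 = int phi_{jk} f_j conj f_k e^{-phi} + sum int |dbar_j f_k|^2 e^{-phi}
 (integration by parts).  Hence 2|T*f|^2_1 + |Sf|^2_3 >= int(phi_{jk}f_j conj f_k - 2|d psi|^2|f|^2)e^{-phi} >= int Q(f,f)e^{-phi}.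
 Density of C_c^inf in Dom T* n Dom S for the graph norm: multiply by eta_j (|d eta_j|^2<=e^psi), then partition of unity and mollify
 e^{-phi_2}f in a chart (constant coefficient operators up to order zero).  So |<alpha,f>_2|^2 <= I (2|T*f|^2+|Sf|^2); split f = ker S + perp =>
 |<alpha,f>|^2 <= 2I|T*f|^2; Riesz: T u_nu = alpha, |u_nu|^2_1 <= 2I.  Weak limit nu -> inf.
(2.2) Weyl lemma: f in L2_loc, dbar f = 0 weakly => holomorphic (mollify; mean value property).  Montel: L2-bounded holomorphic
 functions have locally uniformly convergent subsequences.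
(2.3) PROOF OF AF4 for k=2.  On a small ball D, all h bounded by 1/..., so rho,phi_i <= 0.  For delta>0 replace every sum|h|^2 by sum|h|^2+delta
 (smooth psh, decreasing to the original; still <=0 after scaling).  u=phi_1-phi_2, G=chi(u), chi smooth, 0 for u<=-1, 1 for u>=1.
 Weight Phi_s=(1-eps)(rho+s phi_1+(1-s)phi_2)+eta log(e^{phi_1}+e^{phi_2}) (+ tiny |z|^2), 0<eta<=eps.  Curvature: i ddbar log(e^{phi_1}+e^{phi_2}) =
 sigma_1 ddbar phi_1+sigma_2 ddbar phi_2 + sigma_1 sigma_2 du ^ dbar u, sigma_i = e^{phi_i}/(e^{phi_1}+e^{phi_2}).  So |dbar G|^2_{Phi''} <= |chi'|^2/(eta sigma_1 sigma_2) <= C on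
 |u|<=1, and e^{-Phi_s} <= C e^{-rho-max} there.  Engine: holomorphic f with int_D |G-f|^2 e^{-Phi_s} <= C' (uniform in delta,s); delta->0 (Montel, Fatou).
 If |f(0)| >= 1/2: on {u<=-1} G=0, |f|>=1/4 near 0: e^{-Phi_s} integrable on {u<=-1} near 0.  If |f(0)|<1/2: on {u>=1}, |1-f|>=1/4: integrable on {u>=1}.
 With (1-eps)(rho+phi_2+s u): S_- = {s: integrable on {u<=-1}} is an initial interval containing 0, S_+ a final interval containing 1,
 S_- u S_+ = [0,1].  Let s* = sup S_-.  With exponent 1-2eps in place of 1-eps, s=s* works on both sides: on {u<=-1} compare with s1 in S_-,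
 s*-s1 <= eps s*, using phi_2+s u <= s u there (phi_1<=u since phi_2<=0): (1-eps)(rho+phi_2+s1 u)-(1-2eps)(rho+phi_2+s* u) <= u(eps s* -(1-eps)(s*-s1)) <= 0;
 symmetric on {u>=1}.  (On |u|<=1 everything is <= C e^{-rho-max}.)   k>2: induction (max(phi_1,max(phi_2..))).  The factor e^{-eta log(..)} is >= 1
 since phi_i <= -log 2.
(2.4) PROOF OF AF9.  (f(z,tau),tau)=(f(z,0),tau) as ideals.  (|f(z,0)|^2+|tau|^2)^{-(c+1)(1-e)} integrable (integrate tau first).  AF4 with phi_1=(c+1)(1-e)log|f(z,tau)|^2,
 phi_2=(c+1)(1-e)log|tau|^2: the exponent of |tau|^{-2} must be <1 (points of tau=0), so the exponent on |f(z,tau)|^2 is > c - O(e).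
(2.5) PROOF OF AF8.  y=0, w=(w',w''), w'' = last n-d.  On C^n x C^d, points (w,tau): ideals (w'-tau,w''),(tau): together ~ (w,tau).  int (|w|^2+|tau|^2)^{-(g+d)(1-e)}dtau <= C|w|^{-2g}.
 AF4 with rho = c log|I|^2 + b log|P|^2: exponent of |tau|^{-2} must be < d, so |I|^{-2(1-e)c}|P|^{-2(1-e)b}(|w'-tau|^2+|w''|^2)^{-(g-O(e))} integrable near 0 in C^{n+d};
 Fubini in tau: inner integral >= c|w''|^{-2(g-O(e)-d)}.
(2.6) AF5: choose a direction with d^q f/dz_n^q(0) != 0, q=ord; one variable: for z' near 0, f(z',.) has q zeros near 0, |f|>=c prod|z_n-a_i|, prod|z-a_i|^{-2c} <= sum |z-a_i|^{-2cq}, 2cq<2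
 (or sublevel set estimate |{|f(z',.)|<t}| <= C t^{2/q}).
(2.7) AF7: Part 10 (global solver with weight phi + n log|z-z(y)|^2 + N log(1+|z|^2)).

==============================================================================================================
PART 3.  FILTRATIONS AND THRESHOLDS
==============================================================================================================
(3.1) A filtration F: subspaces F(m,l) of V_m (m in N, l in R), decreasing and left-continuous in l, F(m,l)=V_m for l<=0, F(m,l)F(m',l')<=F(m+m',l+l').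
 d(F,F') <= e  :<=>  F(m,l) <= F'(m,l-em) and F'(m,l) <= F(m,l-em) for all m,l.   {F : d(F,trivial)<inf} is a complete metric space.
(3.2) a_l(F) = ideal of B generated by all F(m,l), m in N.  a_l a_l' <= a_{l+l'}.
 A_y(F) = sup{ l>=0 : exists k>=1: Int_y(a_{kl}^{1/k}) } in [0,inf]   (k can be replaced by multiples; l can be decreased).
 Lam_x(F;c) = sup{ l>=0 : exists k>=1: Int_x( (B F(floor(kc),kl))^{1/k} ) };  nondecreasing in c (multiply powers by a section not vanishing at x), <= A_x(F).
(3.3) (A3)  0!=f in F(m,l), l>0  =>  l <= A_x(F) ord_x(f).   [f^{ceil(k mu/l)} in a_{k mu}, AF5.]  So if A=A_x(F)<inf: jumps of F on V_m are <= A C1 m.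
(3.4) A_x is lower semicontinuous for d (a_{kl} has finitely many generators, of bounded degree).
(3.5) scaling: (sF)(m,l)=F(m,l/s), A(sF)=sA(F).   ord: F_s(m,l)=V_m n m_x^{ceil(l/s)}; A_x(F_s) <= sn by AF6.

==============================================================================================================
PART 4.  THE FUNCTIONAL
==============================================================================================================
(4.1) t in (0,1], kappa in [1/2,1].  Jumps l_i(m), i<=N_m=dim V_m.  Z_t(F)=sum_m e^{-t kappa m} sum_i e^{-t l_i(m)},  H_t(F)=A_x(F)+log Z_t(F);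
 J_t = Z_t(trivial).  E = expectation for the Gibbs weights e^{-t(kappa m+l_i(m))}/Z_t(F) on pairs (m,i).
(4.2) c t^{-n-1} <= J_t <= C t^{-n-1}.   H_t(F) >= -(n+1)log t - C, and H_t(F) <= -(n+1)log t + C' => A_x(F) <= C'', Z_t(F)>=c''t^{-n-1}, E[(tm)^2], E[(tl)^2] <= C''
 (all constants independent of kappa in [1/2,1], t<=t0).
(4.3) H_t(F) >= log J_t - C A_x(F) if A_x(F)<=1 (jumps <= A C1 m; convexity).  So H_t(F) <= log J_t - eta1/2  =>  A_x(F) >= eta0 := eta1/(2C).
(4.4) h(t)=inf_F H_t(F) = -(n+1)log t + O(1).  PIGEONHOLE: for all delta,eps' there are arbitrarily small t with h(t)-h(t e^delta) <= (n+1+eps')delta.  If H_t(F)<=h(t)+eps^2 then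
 h(t e^delta) <= H_{t e^delta}(F) <= H_t(F) - (e^delta-1)E[t(kappa m+l)] + C(e^delta-1)^2, so E[t(kappa m+l)] <= n+1+eps1.
(4.5) EKELAND: H_t is l.s.c. and bounded below on the complete metric space; so for all eps there is F0 with H_t(F0) <= h(t)+eps^2 and
   H_t(F') >= H_t(F0) - eps d(F0,F')  for all F'.

==============================================================================================================
PART 5.  DICHOTOMY AT THE TRIVIAL FILTRATION
==============================================================================================================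
(5.1) D_m(j) = dim (V_m n m_x^j)/(V_m n m_x^{j+1}) <= dim Sym^j = C(j+n-1,n-1).  c_n>0 small constant (e.g. (1/2)(n/(n+1))... any c_n < min ratio in (5.2)).
(5.2) CASE A: for some m,j>=1 with j/m > n/(n+1) arbitrarily large (or: for infinitely many m): D_m(j) > (1-c_n) dim Sym^j.  Choose real k with m/(n+1)<k<j/n, k close to j/n.
 S = basis of V_m n m_x^j, exponent 1/k: degree m/k<n+1; not integrable at x (AF6, j/k>n).  For q in P^{n-1}: {g in Sym^j: ord_q g >= k} has codimension >= C(ceil(k)-1+n-1,n-1)
 (n-1 dim'l affine conditions), about (k/j)^{n-1} ~ n^{-(n-1)} of dim Sym^j, so some initial form in_j f, f in V_m n m_x^j, has ord_q < k.  By rescaling f(r z)/r^j -> in_j f and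
 compactness, for small r every point y of |z|=r (and a thin shell) has some f in S with ord_y f < k => |f|^{-2/k} integrable at y (AF5).  => MLT.
(5.3) CASE B: otherwise D_m(j) <= (1-c_n)dim Sym^j for all large m, j/m>n/(n+1).  Counting (Part 9) => E_triv[t ord_x] >= n+eta3 for small t, uniformly in kappa in [1/2,1].
 Then H_t(F_s) <= sn + log J_t - s E_triv[t ord_x] + C s^2 <= log J_t - eta1 for suitable s.  So h(t) <= log J_t - eta1.
 FIX kappa := 1 - min(eta0,1)/(4(n+1)).

==============================================================================================================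
PART 6.  FIRST VARIATIONS at F0 (A := A_x(F0) >= eta0, t small, eps << t)
==============================================================================================================
(6.1) V0: F' = (1 -+ delta)F0, d(F0,F')<=delta A C1: |A - E[t l]| <= eps A C1.
(6.2) V1: F_mu := filtration generated by F0(m,l+mu m) at level l: F_mu(m,l)=sum_{j<=m} V_{m-j} F0(j,l+mu j) for l>0.  d(F0,F_mu)<=mu, jumps >= l_i(m)-mu m.  a_l(F_mu)=sum_j B F0(j,l+mu j).
 SUM THEOREM: if Int_x(a_{kl}(F_mu)^{1/k}) then (finitely many j_i) exponents s_i: Int_x(prod (B F0(j_i,kl+mu j_i))^{(1-e)s_i/k}); prod of these with rational weights lies in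
 F0(k'c', k'(l+mu c')(..)) with c'=sum s_i j_i/k  =>  Lam_x(F0;c'+) >= l+mu c' (up to e).  So A_x(F_mu) <= sup_c (Lam_x(F0;c)-mu c).
 Ekeland: A_x(F_mu)+mu E[tm]+C mu^2 >= A - eps mu  => for small mu there is c <= E[tm]+eps+C mu with Lam_x(F0;c) >= A-(..)mu.  mu->0: Lam_x(F0;c0)=A for every c0 > E[tm]+eps.
 By (4.4),(6.1): kappa E[tm] <= n+1+eps1-A+eps A C1  =>  c0 < n+1 possible since A>=eta0 and kappa=1-min(eta0,1)/(4(n+1)).

==============================================================================================================
PART 7.  THE CENTRE Y0 AND THE ISOLATED CASE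
==============================================================================================================
(7.1) By AF7 + Noetherian: NI(l)={y: no k has Int_y(a_{kl}^{1/k})} is Zariski closed and = {y: not Int_y(a_{kl}^{1/k})} for one k=k(l).  Y0:={y : A_y(F0)<=A} = NI(l1) for some l1>A. k1:=k(l1).  x in Y0.
(7.2) If x is isolated in Y0: pick S_2 finite in V_{m'} generating a_{k1 l1} (exponent 1/k1), tau small rational with (1-tau)c0+tau m'/k1 < n+1, rho small, k with
 Int_x(F0(floor(k c0),k(A-rho))^{1/k}), S_1 = basis of F0(floor(kc0),k(A-rho)).  Phi = |S_1|^{-2(1-tau)/k}|S_2|^{-2tau/k1}: integrable on a small shell around x by Hoelder;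
 not integrable at x: level (1-tau)(A-rho)+tau l1 > A.   => MLT.

==============================================================================================================
PART 8.  NON-ISOLATED CASE IS IMPOSSIBLE
==============================================================================================================
(8.0) J := multiplier ideal of a_{k1 l1}^{1/k1}, V(J)=Y0.  P minimal prime over J, P <= m_x, d := dim B/P >= 1.  h0 not in P, K with h0 P^K <= J.  sigma0 := (l1-A)/K.
 R_y := {(al,be,ga) in R>=0 x R x R>=0 : exists k: Int_y(a_{k al}^{1/k} P^be m_y^ga)}.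
(8.1) CLAIM (i): y in V(P), h0(y)!=0, (al,be,0) in R_y, be>=0 => al + sigma0 be <= A.   [(l1,-K,0) in R_y; Hoelder on the segment hits (al'',0,0), al''=(K al+be l1)/(K+be) <= A_y(F0) <= A.]
(8.2) P2: y in V(P) general (h0(y)h1(y)!=0, adapted coordinates, AF8), 0<s<=sigma<=sigma0, W_l := sum_{a+sigma b+s e>=l} a_a P^b m_y^e (b,e in N; finite sum: for each (b,e) take a = l-sigma b-se).
 Then sup{l : exists k Int_y(W_{kl}^{1/k})} <= A+sd.  [Sum Theorem: (al,be,ga)(1-e) in R_y with al+sigma be+s ga>=l.  If ga<=d drop it and use (i).  If ga>d: AF8 gives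
 (al,be+ga-d)(1-e) in R_y, (i): al+sigma0(be+ga-d)<=A/(1-e).]
(8.3) Parameters: p := ceil(C'/t) (C' from Part 9), s>0 tiny, sigma := s p <= sigma0.  D^ := degree bound, AA := jumps of F0 on V_m, 1<=m<=D^ (finite); for a in AA: a_{>a}=union_{l>a}a_l = a_{a+delta_a};
 require sigma <= delta_a.  Mbar_a := a_a/(P a_a + a_{>a}).  h2 not in P: (Mbar_a)_{h2} free over (B/P)_{h2}, all a in AA.  For y in V(P)n{h!=0}:
 U_{m,a,e}(y) := {f in F0(m,a) : [f] in m_y^e (Mbar_a)_y}, 0<=e<=p  (contains F0(m,>a)); its dimension is constant for y in V(P)n{h != 0} after enlarging h.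
(8.4) F''_y := filtration generated by F0 and the U_{m,a,e}(y) at level a+se (1<=m<=D^, 1<=e<=p).  Locally at y, a_l(F''_y) <= W_l.  So A_y(F''_y) <= A+sd.   d(F0,F''_y) <= sigma.
(8.5) DISC: holomorphic gamma: disc -> V(P), gamma(0)=x, h(gamma(tau))!=0 for tau!=0 (curve through x in V(P) not inside h=0).  U_{m,a,e}(x) := limit of U_{m,a,e}(gamma(tau)) (saturation over C{tau}), same
 dimension.  F''_x generated by F0 and U_{m,a,e}(x) at level a+se.  AF9 => A_x(F''_x) <= A+sd.   d(F0,F''_x)<=sigma.
(8.6) GAIN: for m<=D^ the jumps of F''_x on gr_a V_m = F0(m,a)/F0(m,>a) are >= a+s g_i, g_i := jumps of the filtration U_{m,a,e} (capped at p).  Hence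
 log Z_t(F''_x) <= log Z_t(F0) - s E[t g] + s^2 t^2 p^2/2.
(8.7) Part 9: E[t g] >= (1-eps5) d/kappa - tail(D^), tail->0 as D^->inf.
(8.8) Ekeland: A+sd+log Z - sE[tg] + s^2t^2p^2/2 >= A + log Z - eps s p  => E[tg] <= d + eps p + s t^2p^2/2.  With eps p <= eps2, s->0, D^->inf: (1-eps5)d/kappa <= d+eps2+small, contradiction (kappa<1 fixed first).

==============================================================================================================
PART 9.  COUNTING
==============================================================================================================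
(9.1) y in V(P) smooth point of V(P), local ring O=(B/P)_y regular with coordinates w_1..w_d.  For a finite dim'l subspace W of the free module O^r: leading exponents E(W) in {1..r} x N^d w.r.t. a monomial order
 refining total degree; |E(W)|=dim W; #{i: order jumps >= e} = #{(i,v) in E(W): |v|>=e}.  E(S_j)+E(W_m) <= E(W_{m+j}) if S_j W_m <= W_{m+j}.  S_j=image of V_j in O:
 |E(S_j)| >= (1-eps)j^d/d! (C5), E(S_{j0}) contains {v:|v|<=d} (C3).
(9.2) W_{m,a} := image of F0(m,a) in (Mbar_a)_y = O^r.  sum_i g_i(m,a) = sum_{(i,v) in E(W_{m,a})} min(|v|,p) + p dim ker.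
(9.3) COMBINATORIAL THEOREM (CNT).  E(m), Sig(j) finite subsets of N^d, E(m)+Sig(j)<=E(m+j), |Sig(j)|>=(1-eps)j^d/d! for j>=j1, {0,1}^d<=Sig(j0), Sig additive.  Then for tau<=tau0(eps',..), P>=C'/tau:
   sum_m e^{-tau m} sum_{v in E(m)} min(|v|,P) >= (1-eps')(d/tau) sum_m e^{-tau m}|E(m)|      (and the version for m<=M0 with error (P/tau)e^{-tau M0}|E(M0)|).
 Proof: R(m):=(d!|E(m)|)^{1/d}; discrete Brunn-Minkowski |A+B'+{0,1}^d|^{1/d}>=|A|^{1/d}+|B'|^{1/d} (unit cubes) gives R(m+j)>=R(m)+(1-eps)(j-j0); bathtub: sum_{v in E}min(|v|,P) >= Theta(R)-C|E|,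
 Theta(R)=int_0^R min(q,P)d(q^d/d!); integrate by parts.  Untruncated: int e^{-tau m}R^{d+1} >= ((d+1)/tau) int e^{-tau m}R^d when R'>=1.
(9.4) With density caps of Case B and Z=X, d=n: extra factor (1+eta5).

==============================================================================================================
PART 10.  GLOBAL SOLVER AND ENDGAME
==============================================================================================================
(10.1) Spec B = M = V minus {h=0}, V=X minus {y_0=0} affine, A=O(V) finite over C[z_1..z_n], z_i=y_i/y_0, y_0..y_n in H^0(kL) without common zeros on X, h in A, B=A[1/h].  Exhaustion s=|z|^2+|1/h|^2 (+|gens|^2).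
(10.2) GLOBAL SOLVER: phi=sum c_i log sum|f_ij|^2, f_ij in B, c_i>=0; psi0 smooth strictly psh on M, psi0 <= N log(1+|z|^2)+N log(1+|1/h|^2)+N; y in M, chi cutoff =1 near y supported in a chart, e^{-phi} integrable near
 supp d chi.  Then there is F in B... (F holomorphic on M, and F in Frac B by (10.3)) with int_M |F-chi|^2 e^{-phi-psi0} < inf.  [2.1 with phi_delta, delta->0.]
(10.3) ALGEBRAICITY: F holomorphic on M with int|F|^2(1+|z|^2)^{-N}min(1,|h|)^{2N}<inf is in Frac B: traces T_i(z)=sum_{y in p^{-1}(z)}(h^N F b_i)(y) over the finite cover over {Delta!=0} are L2_loc near {Delta=0} so extend to entire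
 functions of polynomial growth = polynomials.
(10.4) BOUNDARY LEMMA: for every prime divisor D of X, with general closed point y in D, etale coordinates w at y, D={w_1=0}: if F rational, locally L2 near y w.r.t. weight e^{-m phi_L} and dz_1..dz_n, then
 ord_D(F)+m ord_D(g_x)+m L_D + ord_D(dz) > -1, so >=0.   (|F|^2 e^{-m phi_L}dlambda(z) ~ |w_1|^{2e} dlambda(w).)   So F g_x^m dz is a section of K+mL over X.
(10.5) AF7: psi0=N log(1+|z|^2), phi + n log|z-z(y)|^2: F(y)=1 and |F|^2e^{-phi} locally integrable on M, F in B by (10.3),(10.4).
(10.6) ENDGAME: MLT weight phi, psi0=(m-sum c_i m_i) phi_L, phi_L=(1/k)log sum|y_j/g_x^k|^2 strictly psh: get F with F(x)=1 and int|F|^2 e^{-m phi_L} < inf since phi <= (sum c_i m_i) phi_L + C. QED.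

==============================================================================================================
PART 11.  BRIDGE  (schemes -> CTX)
==============================================================================================================
(11.1) K=function field, O(U) subset K, ord_z=DVR valuations, normality: O(U)={f: ord_z f>=0, z in U}.  closed points of affine U = Hom(O(U),C).
(11.2) L is locally principal at every closed point (regular local rings at closed points are UFD; or via power series).
(11.3) ampleness => for all k>=k0: sections y_0..y_n of kL without common zeros, y_0(x)!=0, z_i=y_i/y_0 local coordinates at x.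
(11.4) properness (valuative) => O({y_i!=0}) integral over C[y_j/y_i]; V_0=C.
(11.5) choose h: B=A[1/h] etale over C[z], L principal on Spec B (generator g_x), V_m := g_x^{-m}H^0(mL) in B.
(11.6) C3: sections of V_{k} containing y_0^? times algebra generators of A.  C4: norm to C[z].  C5: P prime, d=dim B/P; linear Noether normalisation t_1..t_d from span(y_i/y_0) [for kL and (k+1)L];
  D_k=[Frac(B/P):C(t)]; D_k/k^d independent of k (Hilbert function asymptotics) => D_k/k^d positive INTEGER (k,k+1 coprime) => D_k>=k^d; generator l of the field among linear combinations: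
  t^al l^i (i<k^d) independent mod P => C5 with j1 depending only on k,d.
-/
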