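import Mathlib

set_option autoImplicit false

namespace Crest.Agent.R271.Br958

/-- A Noetherian local integrally closed domain whose maximal ideal is contained in a colon ideal
`(b) : c` with `b ∤ c` has principal maximal ideal. -/
lemma maximalIdeal_principal_of_colon {R : Type*} [CommRing R] [IsDomain R] [IsLocalRing R]
    [IsNoetherianRing R] [IsIntegrallyClosed R] (b c : R) (hb : b ≠ 0)
    (hcb : ¬ b ∣ c) (h : ∀ a ∈ IsLocalRing.maximalIdeal R, b ∣ c * a) :
    ∃ π, IsLocalRing.maximalIdeal R = Ideal.span {π} := by
  classical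
  have hι : Function.Injective (algebraMap R (FractionRing R)) := IsFractionRing.injective R _
  have hb' : algebraMap R (FractionRing R) b ≠ 0 := fun h0 => hb (hι (by simpa using h0))
  obtain ⟨x, hxd⟩ : ∃ x : FractionRing R, x * algebraMap R (FractionRing R) b =
      algebraMap R (FractionRing R) c :=
    ⟨algebraMap R (FractionRing R) c / algebraMap R (FractionRing R) b, by field_simp⟩
  -- for a ∈ M, x * a ∈ R
  have hx : ∀ a ∈ IsLocalRing.maximalIdeal R, ∃ r : R, algebraMap R (FractionRing R) r =
      x * algebraMap R (FractionRing R) a := by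
    intro a ha
    obtain ⟨r, hr⟩ := h a ha
    refine ⟨r, ?_⟩
    apply mul_right_cancel₀ hb'
    have h1 : algebraMap R (FractionRing R) c * algebraMap R (FractionRing R) a =
        algebraMap R (FractionRing R) b * algebraMap R (FractionRing R) r := by
      rw [← map_mul, ← map_mul, hr]
    rw [← hxd] at h1
    linear_combination -h1
  by_cases hcase : ∀ a ∈ IsLocalRing.maximalIdeal R, ∃ r ∈ IsLocalRing.maximalIdeal R,
      algebraMap R (FractionRing R) r = x * algebraMap R (FractionRing R) a
  · -- x is integral, contradiction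
    exfalso
    have hint : IsIntegral R x := by
      by_cases hM : IsLocalRing.maximalIdeal R = ⊥
      · -- R is a field
        exfalso
        apply hcb
        have hbu : IsUnit b := by
          by_contra hbn
          have : b ∈ IsLocalRing.maximalIdeal R := (IsLocalRing.mem_maximalIdeal b).mpr hbn
          rw [hM] at this
          exact hb (by simpa using this)
        exact hbu.dvd
      obtain ⟨a0, ha0, ha0'⟩ := Submodule.exists_mem_ne_zero_of_ne_bot hM
      have hN : (Submodule.map (Algebra.linearMap R (FractionRing R))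
          (IsLocalRing.maximalIdeal R)).FG :=
        Submodule.FG.map _ (IsNoetherian.noetherian (IsLocalRing.maximalIdeal R))
      refine isIntegral_of_smul_mem_submodule (Submodule.map (Algebra.linearMap R (FractionRing R))
          (IsLocalRing.maximalIdeal R)) ?_ hN x ?_
      · intro h0
        apply ha0'
        apply hι
        have : algebraMap R (FractionRing R) a0 ∈
            Submodule.map (Algebra.linearMap R (FractionRing R))
          (IsLocalRing.maximalIdeal R) := ⟨a0, ha0, rfl⟩
        rw [h0] at this
        simpa using this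
      · rintro n ⟨a, ha, rfl⟩
        obtain ⟨r, hr, hr'⟩ := hcase a ha
        refine ⟨r, hr, ?_⟩
        simpa using hr'
    obtain ⟨y, hy⟩ := IsIntegrallyClosed.isIntegral_iff.mp hint
    apply hcb
    refine ⟨y, hι ?_⟩
    rw [map_mul, hy, ← hxd, mul_comm]
  · push Not at hcase
    obtain ⟨a, ha, hna⟩ := hcase
    obtain ⟨u, hu⟩ := hx a ha
    have huu : IsUnit u := by
      by_contra hn
      exact hna u ((IsLocalRing.mem_maximalIdeal u).mpr hn) hu
    obtain ⟨u, rfl⟩ := huu
    refine ⟨a, le_antisymm ?_ ?_⟩
    · intro m hm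
      obtain ⟨r, hr⟩ := hx m hm
      rw [Ideal.mem_span_singleton]
      refine ⟨(↑u⁻¹ : R) * r, hι ?_⟩
      have h1 : algebraMap R (FractionRing R) (↑u⁻¹ : R) *
          algebraMap R (FractionRing R) (↑u : R) = 1 := by rw [← map_mul]; simp
      rw [map_mul, map_mul, hr]
      rw [hu] at h1
      linear_combination (-algebraMap R (FractionRing R) m) * h1
    · rw [Ideal.span_singleton_le_iff_mem]
      exact ha

/-- **Algebraic Hartogs**: an element of the fraction field of a Noetherian integrally closed domain
which lies in all localizations at height one primes lies in the ring. -/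
theorem hartogs {A K : Type*} [CommRing A] [IsDomain A] [IsNoetherianRing A]
    [IsIntegrallyClosed A] [Field K] [Algebra A K] [IsFractionRing A K] (f : K)
    (hf : ∀ p : Ideal A, p.IsPrime → p.height = 1 → ∃ a b : A, b ∉ p ∧
      algebraMap A K b * f = algebraMap A K a) :
    ∃ a : A, algebraMap A K a = f := by
  classical
  obtain ⟨a, b, hb0, rfl⟩ := IsFractionRing.div_surjective (A := A) f
  have hb : b ≠ 0 := nonZeroDivisors.ne_zero hb0
  have hb' : algebraMap A K b ≠ 0 := by simpa using hb
  by_contra hcon
  push Not at hcon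
  have hab : ¬ b ∣ a := by
    rintro ⟨c, rfl⟩
    apply hcon c
    rw [map_mul]
    field_simp
  -- associated prime of A/(b) above the class of a
  have hne : (Ideal.Quotient.mk (Ideal.span {b}) a) ≠ 0 := by
    intro h0
    rw [Ideal.Quotient.eq_zero_iff_mem, Ideal.mem_span_singleton] at h0
    exact hab h0
  obtain ⟨p, hp, hle⟩ := exists_le_isAssociatedPrime_of_isNoetherianRing A
    (Ideal.Quotient.mk (Ideal.span {b}) a) hne
  obtain ⟨hpp, c', hc'⟩ := isAssociatedPrime_iff.mp hp
  obtain ⟨c, rfl⟩ := Ideal.Quotient.mk_surjective c'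
  have hcolon : ∀ d r : A, r ∈ (⊥ : Submodule A (A ⧸ Ideal.span {b})).colon
      {Ideal.Quotient.mk (Ideal.span {b}) d} ↔ b ∣ d * r := by
    intro d r
    rw [Submodule.mem_colon_singleton, Submodule.mem_bot]
    have : r • (Ideal.Quotient.mk (Ideal.span {b})) d =
        (Ideal.Quotient.mk (Ideal.span {b})) (d * r) := by
      rw [mul_comm d r, map_mul]; rfl
    rw [this, Ideal.Quotient.eq_zero_iff_mem, Ideal.mem_span_singleton]
  have hmem : ∀ r : A, r ∈ p ↔ b ∣ c * r := by
    intro r
    rw [hc']
    exact hcolon c r
  have hbp : b ∈ p := (hmem b).mpr (Dvd.intro_left c rfl)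
  -- localise
  have hpc : p.primeCompl ≤ nonZeroDivisors A := Ideal.primeCompl_le_nonZeroDivisors p
  have hic : IsIntegrallyClosed (Localization.AtPrime p) :=
    isIntegrallyClosed_of_isLocalization _ p.primeCompl hpc
  have hinj : Function.Injective (algebraMap A (Localization.AtPrime p)) :=
    IsLocalization.injective _ hpc
  have hcb : ¬ (algebraMap A (Localization.AtPrime p) b ∣ algebraMap A (Localization.AtPrime p) c) := by
    rintro ⟨d, hd⟩
    obtain ⟨t, s, rfl⟩ := IsLocalization.exists_mk'_eq p.primeCompl d
    have h1 : algebraMap A (Localization.AtPrime p) (c * s) =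
        algebraMap A (Localization.AtPrime p) (b * t) := by
      rw [map_mul, map_mul, hd, mul_assoc, IsLocalization.mk'_spec]
    exact s.2 ((hmem s).mpr ⟨t, hinj h1⟩)
  obtain ⟨π, hπ⟩ := maximalIdeal_principal_of_colon (R := Localization.AtPrime p)
    (algebraMap A (Localization.AtPrime p) b) (algebraMap A (Localization.AtPrime p) c)
    (by simpa using hb) hcb (by
      intro d hd
      obtain ⟨t, s, rfl⟩ := IsLocalization.exists_mk'_eq p.primeCompl d
      have ht : t ∈ p := (IsLocalization.AtPrime.mk'_mem_maximal_iff _ p t s).mp hd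
      obtain ⟨e, he⟩ := (hmem t).mp ht
      refine ⟨IsLocalization.mk' _ e s, ?_⟩
      rw [IsLocalization.mul_mk'_eq_mk'_of_mul, IsLocalization.mul_mk'_eq_mk'_of_mul, he])
  have hbp' : algebraMap A (Localization.AtPrime p) b ∈
      IsLocalRing.maximalIdeal (Localization.AtPrime p) :=
    (IsLocalization.AtPrime.to_map_mem_maximal_iff _ p b).mpr hbp
  have hle1 : (IsLocalRing.maximalIdeal (Localization.AtPrime p)).height ≤ 1 := by
    have : (IsLocalRing.maximalIdeal (Localization.AtPrime p)).IsPrincipal := ⟨⟨π, hπ⟩⟩
    refine Ideal.height_le_one_of_isPrincipal_of_mem_minimalPrimes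
      (IsLocalRing.maximalIdeal (Localization.AtPrime p)) _ ?_
    rw [Ideal.minimalPrimes_eq_subsingleton_self]
    rfl
  have hht : p.height = (IsLocalRing.maximalIdeal (Localization.AtPrime p)).height := by
    rw [← IsLocalization.height_under (A := Localization.AtPrime p) p.primeCompl
      (IsLocalRing.maximalIdeal (Localization.AtPrime p)), Localization.AtPrime.under_maximalIdeal]
  have hh1 : p.height = 1 := by
    apply le_antisymm (hht ▸ hle1)
    rw [Order.one_le_iff_ne_zero, Ne, Ideal.height_eq_zero_iff_eq_bot]
    rintro rfl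
    exact hb (by simpa using hbp)
  obtain ⟨a', b', hb'p, hab'⟩ := hf p hpp hh1
  apply hb'p
  apply hle
  rw [hcolon]
  refine ⟨a', IsFractionRing.injective A K ?_⟩
  rw [map_mul, map_mul, ← hab']
  field_simp

end Crest.Agent.R271.Br958
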