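import Crest.Agent.R271.Br1_958
import Crest.Agent.R271.Br2_958

set_option autoImplicit false
set_option linter.unusedSectionVars false

open AlgebraicGeometry Order CategoryTheory Crest.AlgGeometry.Divisors TopologicalSpace

namespace Crest.Agent.R271.Br958

variable {X : Scheme.{0}} [IsIntegral X] [IsLocallyNoetherian X]

/-- a rational function with nonnegative order at a point with DVR stalk is regular there -/
lemma mem_stalk_of_ord_nonneg {z : X} (hz : coheight z = 1)
    [IsDiscreteValuationRing (X.presheaf.stalk z)] {f : X.functionField} (hf0 : f ≠ 0)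
    (hf : 0 ≤ Scheme.ord f z) : ∃ a : X.presheaf.stalk z, algebraMap _ X.functionField a = f := by
  have h1 := (Scheme.le_ord_iff hz hf0 (n := 0)).mp hf
  have h2 : (1 : WithZero (Multiplicative ℤ)) ≤ Ring.ordFrac (X.presheaf.stalk z) f := by
    simpa [Scheme.ordHom] using h1
  rw [Ring.ordFrac_eq_valuation_inv] at h2
  apply IsDiscreteValuationRing.exists_lift_of_le_one
  have hv0 : (IsDiscreteValuationRing.maximalIdeal (X.presheaf.stalk z)).valuation
      X.functionField f ≠ 0 := by simpa using hf0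
  rw [one_le_inv₀ (zero_lt_iff.mpr hv0)] at h2
  exact h2

/-- regular functions have nonnegative order -/
lemma ord_nonneg_of_mem_stalk {z : X} (hz : coheight z = 1) (a : X.presheaf.stalk z) :
    0 ≤ Scheme.ord (algebraMap _ X.functionField a) z := by
  by_cases ha : a = 0
  · subst ha; simp
  have : Ring.KrullDimLE 1 (X.presheaf.stalk z) := krullDimLE_of_coheight_le hz.le
  rw [Scheme.le_ord_iff hz (by simpa using ha)]
  have := Ring.ordFrac_ge_one_of_ne_zero (R := X.presheaf.stalk z) (K := X.functionField) ha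
  simpa [Scheme.ordHom] using this


lemma coheight_fromSpec {U : X.Opens} (hU : IsAffineOpen U) (q : PrimeSpectrum Γ(X, U)) :
    coheight (hU.fromSpec q) = q.asIdeal.height := by
  rw [idealHeight_eq_coheight (CommRingCat.of Γ(X, U)) q]
  exact coheight_eq_of_isOpenImmersion hU.fromSpec

lemma fromSpec_mem {U : X.Opens} (hU : IsAffineOpen U) (q : PrimeSpectrum Γ(X, U)) :
    hU.fromSpec q ∈ U := by
  have : hU.fromSpec q ∈ Set.range hU.fromSpec := ⟨q, rfl⟩
  rw [hU.range_fromSpec] at this
  exact this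

lemma fromSpec_specializes {U : X.Opens} (hU : IsAffineOpen U) (q : PrimeSpectrum Γ(X, U))
    (x : U) (hq : q.asIdeal ≤ (hU.primeIdealOf x).asIdeal) : hU.fromSpec q ⤳ (x : X) := by
  rw [← hU.fromSpec_primeIdealOf x]
  exact ((PrimeSpectrum.le_iff_specializes q (hU.primeIdealOf x)).mp hq).map hU.fromSpec.continuous

/-- a rational function regular at the point given by the prime `q` of an affine chart is a fraction
with denominator outside `q`. -/
lemma exists_frac_of_mem_stalk {U : X.Opens} (hU : IsAffineOpen U) (q : PrimeSpectrum Γ(X, U))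
    (a : X.presheaf.stalk (hU.fromSpec q)) :
    haveI : Nonempty U := ⟨⟨_, fromSpec_mem hU q⟩⟩
    ∃ b c : Γ(X, U), c ∉ q.asIdeal ∧
      algebraMap Γ(X, U) X.functionField c * algebraMap _ X.functionField a =
        algebraMap Γ(X, U) X.functionField b := by
  have hne : Nonempty U := ⟨⟨_, fromSpec_mem hU q⟩⟩
  let _ : Algebra Γ(X, U) (X.presheaf.stalk (hU.fromSpec q)) :=
    TopCat.Presheaf.algebra_section_stalk X.presheaf (⟨hU.fromSpec q, fromSpec_mem hU q⟩ : U)
  have hloc : IsLocalization.AtPrime (X.presheaf.stalk (hU.fromSpec q)) q.asIdeal :=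
    hU.isLocalization_stalk' q (fromSpec_mem hU q)
  obtain ⟨⟨b, c⟩, hbc⟩ := IsLocalization.surj (S := X.presheaf.stalk (hU.fromSpec q))
    q.asIdeal.primeCompl a
  refine ⟨b, c.1, c.2, ?_⟩
  have := congrArg (algebraMap _ X.functionField) hbc
  rw [map_mul] at this
  have key : ∀ s : Γ(X, U), algebraMap (X.presheaf.stalk (hU.fromSpec q)) X.functionField
      (algebraMap Γ(X, U) (X.presheaf.stalk (hU.fromSpec q)) s) =
      algebraMap Γ(X, U) X.functionField s := by
    intro s
    exact Scheme.algebraMap_germ_eq_germToFunctionField X (fromSpec_mem hU q) s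
  rw [key, key] at this
  rw [mul_comm]
  exact this


/-- `X` is normal -/
class NormalSch (X : Scheme.{0}) [IsIntegral X] : Prop where
  normal : ∀ x : X, IsIntegrallyClosed (X.presheaf.stalk x)

lemma dvr_of_normal [NormalSch X] (z : X) (hz : coheight z = 1) :
    IsDiscreteValuationRing (X.presheaf.stalk z) := by
  have hn := NormalSch.normal z
  have hd : ringKrullDim (X.presheaf.stalk z) = 1 := by
    rw [ringKrullDim_stalk_eq_coheight, hz]; rfl
  have hle : Ring.KrullDimLE 1 (X.presheaf.stalk z) := krullDimLE_of_coheight_le hz.le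
  have h2 : ¬ IsField (X.presheaf.stalk z) := by
    intro h
    have := ringKrullDim_eq_zero_of_isField h
    rw [hd] at this
    exact one_ne_zero this
  have hmb : IsLocalRing.maximalIdeal (X.presheaf.stalk z) ≠ ⊥ :=
    IsLocalRing.isField_iff_maximalIdeal_eq.not.mp h2
  have h03 : IsDiscreteValuationRing (X.presheaf.stalk z) ↔
      (IsIntegrallyClosed (X.presheaf.stalk z) ∧
        ∃! P : Ideal (X.presheaf.stalk z), P ≠ ⊥ ∧ P.IsPrime) :=
    (IsDiscreteValuationRing.TFAE (X.presheaf.stalk z) h2).out 0 3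
  refine h03.mpr ⟨hn, IsLocalRing.maximalIdeal _, ⟨hmb, inferInstance⟩, ?_⟩
  rintro p ⟨hp, hp'⟩
  exact IsLocalRing.eq_maximalIdeal (Ideal.IsPrime.isMaximal_of_ne_bot hp' hp)

instance [NormalSch X] : StalkDVR X := ⟨dvr_of_normal⟩

/-- stalk version of Hartogs -/
theorem mem_stalk_of_ord_nonneg_all [NormalSch X] (x : X) (f : X.functionField) (hf0 : f ≠ 0)
    (hf : ∀ z : X, coheight z = 1 → z ⤳ x → 0 ≤ Scheme.ord f z) :
    ∃ a : X.presheaf.stalk x, algebraMap _ X.functionField a = f := by
  have hn := NormalSch.normal x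
  obtain ⟨U, hU, hxU, -⟩ := exists_isAffineOpen_mem_and_subset (X := X) (x := x) (U := ⊤) trivial
  have hne : Nonempty U := ⟨⟨x, hxU⟩⟩
  apply hartogs (A := X.presheaf.stalk x)
  intro p hp hp1
  let _ : Algebra Γ(X, U) (X.presheaf.stalk x) :=
    TopCat.Presheaf.algebra_section_stalk X.presheaf (⟨x, hxU⟩ : U)
  have hloc : IsLocalization.AtPrime (X.presheaf.stalk x) (hU.primeIdealOf ⟨x, hxU⟩).asIdeal :=
    hU.isLocalization_stalk ⟨x, hxU⟩
  have hq1 : (p.under Γ(X, U)).height = 1 := by
    rw [IsLocalization.height_under (hU.primeIdealOf ⟨x, hxU⟩).asIdeal.primeCompl p, hp1]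
  have hqle : p.under Γ(X, U) ≤ (hU.primeIdealOf ⟨x, hxU⟩).asIdeal := by
    rw [← IsLocalization.AtPrime.under_maximalIdeal (X.presheaf.stalk x)
      (hU.primeIdealOf ⟨x, hxU⟩).asIdeal]
    exact Ideal.comap_mono (IsLocalRing.le_maximalIdeal hp.ne_top)
  have hqp : (p.under Γ(X, U)).IsPrime := inferInstance
  let q : PrimeSpectrum Γ(X, U) := ⟨p.under Γ(X, U), hqp⟩
  have hz1 : coheight (hU.fromSpec q) = 1 := by rw [coheight_fromSpec hU q]; exact hq1
  have hzx : hU.fromSpec q ⤳ x := fromSpec_specializes hU q ⟨x, hxU⟩ hqle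
  have hdv := dvr_of_normal (X := X) _ hz1
  obtain ⟨a, ha⟩ := mem_stalk_of_ord_nonneg hz1 hf0 (hf _ hz1 hzx)
  obtain ⟨b, c, hc, hbc⟩ := exists_frac_of_mem_stalk hU q a
  rw [ha] at hbc
  have key : ∀ s : Γ(X, U), algebraMap (X.presheaf.stalk x) X.functionField
      (algebraMap Γ(X, U) (X.presheaf.stalk x) s) = algebraMap Γ(X, U) X.functionField s := by
    intro s
    exact Scheme.algebraMap_germ_eq_germToFunctionField X hxU s
  refine ⟨algebraMap _ _ b, algebraMap _ _ c, hc, ?_⟩
  rw [key, key]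
  exact hbc

end Crest.Agent.R271.Br958
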