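import Crest.Agent.R271.Br4_958

set_option autoImplicit false
set_option linter.unusedSectionVars false

open AlgebraicGeometry Order CategoryTheory Crest.AlgGeometry.Divisors TopologicalSpace

namespace Crest.Agent.R271.Br958

set_option warn.classDefReducibility false in
attribute [local instance] fnFieldAlgebra

variable {X : Scheme.{0}} [Algebra ℂ Γ(X, ⊤)] [IsIntegral X]

/-- Valuative criterion: valuation rings of the function field have a centre. -/
theorem exists_center (hX : IsProper (structureMorphism ℂ X))
    (O : ValuationSubring X.functionField)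
    (hO : ∀ c : ℂ, algebraMap ℂ X.functionField c ∈ O) :
    ∃ x : X, ∀ a : X.presheaf.stalk x, algebraMap _ X.functionField a ∈ O := by
  have hval : ValuativeCriterion.Existence (structureMorphism ℂ X) := by
    have h := hX
    rw [IsProper.eq_valuativeCriterion] at h
    exact h.1.1.1.existence
  let j : ℂ →+* O := (algebraMap ℂ X.functionField).codRestrict O.toSubring hO
  let i₁ : Spec (CommRingCat.of X.functionField) ⟶ X := X.fromSpecStalk (genericPoint X)
  let i₂ : Spec (CommRingCat.of O) ⟶ Spec (CommRingCat.of ℂ) := Spec.map (CommRingCat.ofHom j)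
  have hsq : CommSq i₁ (Spec.map (CommRingCat.ofHom (algebraMap O X.functionField)))
      (structureMorphism ℂ X) i₂ := by
    constructor
    change X.fromSpecStalk (genericPoint X) ≫ X.toSpecΓ ≫ _ = _
    rw [Scheme.fromSpecStalk_toSpecΓ_assoc, ← Spec.map_comp, ← Spec.map_comp]
    congr 1
  let S : ValuativeCommSq (structureMorphism ℂ X) :=
    { R := O, K := X.functionField, i₁ := i₁, i₂ := i₂, commSq := hsq }
  obtain ⟨l, hl₁, hl₂⟩ := (hval S).exists_lift
  change Spec (CommRingCat.of O) ⟶ X at l
  change Spec.map (CommRingCat.ofHom (algebraMap O X.functionField)) ≫ l = i₁ at hl₁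
  have h1 := Scheme.Spec_stalkClosedPointTo_fromSpecStalk (R := CommRingCat.of O) (f := l)
  have hsp : genericPoint X ⤳ l (IsLocalRing.closedPoint (CommRingCat.of O)) :=
    genericPoint_specializes _
  have h2 := Scheme.SpecMap_stalkSpecializes_fromSpecStalk hsp
  have h3 : Spec.map (CommRingCat.ofHom (algebraMap O X.functionField)) ≫
      Spec.map (Scheme.stalkClosedPointTo (R := CommRingCat.of O) l) =
      Spec.map (X.presheaf.stalkSpecializes hsp) := by
    rw [← cancel_mono (X.fromSpecStalk (l (IsLocalRing.closedPoint (CommRingCat.of O)))),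
      Category.assoc, h1, hl₁, h2]
  rw [← Spec.map_comp] at h3
  have h4 := Spec.map_injective h3
  refine ⟨l (IsLocalRing.closedPoint (CommRingCat.of O)), fun a => ?_⟩
  have h5 : algebraMap _ X.functionField a =
      algebraMap O X.functionField ((Scheme.stalkClosedPointTo (R := CommRingCat.of O) l).hom a) := by
    have := congrArg (fun φ => φ.hom a) h4
    exact this.symm
  rw [h5]
  exact ((Scheme.stalkClosedPointTo (R := CommRingCat.of O) l).hom a).2

end Crest.Agent.R271.Br958
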