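import Crest.Agent.R271.Br5_958

set_option autoImplicit false
set_option linter.unusedSectionVars false

open AlgebraicGeometry Order CategoryTheory Crest.AlgGeometry.Divisors TopologicalSpace

namespace Crest.Agent.R271.Br958

set_option warn.classDefReducibility false in
attribute [local instance] fnFieldAlgebra

/-- field theoretic core of graded integrality -/
theorem graded_integral_core {K : Type*} [Field K] [Algebra ℂ K] (W : Submodule ℂ K) (q : ℕ)
    (f : K) (hf0 : f ≠ 0)
    (H : ∀ O : ValuationSubring K, (∀ c : ℂ, algebraMap ℂ K c ∈ O) →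
      ∃ s ∈ W, s ≠ 0 ∧ f / s ^ q ∈ O) :
    ∃ r : ℕ, 1 ≤ r ∧ ∃ a : ℕ → K, (∀ i, a i ∈ W ^ (q * i)) ∧
      f ^ r = ∑ i ∈ Finset.range r, a (r - i) * f ^ i := by
  classical
  -- N = f⁻¹ W^q
  set N : Submodule ℂ K := (W ^ q).map (LinearMap.mulLeft ℂ f⁻¹) with hN
  have hNpow : ∀ i : ℕ, ∀ y ∈ N ^ i, f ^ i * y ∈ W ^ (q * i) := by
    intro i
    induction i with
    | zero => intro y hy; simpa using hy
    | succ i ih =>
      intro y hy
      rw [pow_succ] at hy
      rw [Nat.mul_succ, pow_add (M := Submodule ℂ K)]
      induction hy using Submodule.mul_induction_on' with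
      | mem_mul_mem m hm n hn =>
        obtain ⟨w, hw, rfl⟩ := hn
        have : f ^ (i + 1) * (m * (LinearMap.mulLeft ℂ f⁻¹) w) = (f ^ i * m) * w := by
          simp only [LinearMap.mulLeft_apply]
          field_simp
          ring
        rw [this]
        exact Submodule.mul_mem_mul (ih m hm) hw
      | add x _ y _ hx hy => rw [mul_add]; exact add_mem hx hy
  let A : Subalgebra ℂ K := Algebra.adjoin ℂ (N : Set K)
  let S : Submodule ℂ K := ⨆ i : ℕ, N ^ i
  let Q : Submodule ℂ K := ⨆ i : ℕ, N ^ (i + 1)
  have hSQ : N * S = Q := by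
    simp only [S, Q, Submodule.mul_iSup]
    congr 1; ext1 i; rw [pow_succ']
  have hAS : ∀ y ∈ A, y ∈ S := by
    intro y hy
    induction hy using Algebra.adjoin_induction with
    | mem x hx => exact (le_iSup (fun i : ℕ => N ^ i) 1) (by simpa using hx)
    | algebraMap c => exact (le_iSup (fun i : ℕ => N ^ i) 0) (by
        rw [pow_zero]; exact Submodule.algebraMap_mem c)
    | add x y _ _ hx hy => exact add_mem hx hy
    | mul x y _ _ hx hy =>
      have : x * y ∈ S * S := Submodule.mul_mem_mul hx hy
      have hSS : S * S ≤ S := by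
        simp only [S, Submodule.mul_iSup, Submodule.iSup_mul]
        refine iSup_le fun i => iSup_le fun j => ?_
        rw [← pow_add]
        exact le_iSup (fun i : ℕ => N ^ i) _
      exact hSS this
  let I : Ideal A.toSubring := Ideal.span {n | (n : K) ∈ N}
  by_cases hI : I = ⊤
  · -- relation
    have h1 : (1 : A.toSubring) ∈ I := hI ▸ Submodule.mem_top
    have hIQ : ∀ y : A.toSubring, y ∈ I → (y : K) ∈ Q := by
      intro y hy
      induction hy using Submodule.span_induction with
      | mem n hn =>
        rw [← hSQ, ← mul_one (n : K)]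
        refine Submodule.mul_mem_mul hn ?_
        exact (le_iSup (fun i : ℕ => N ^ i) 0) (by
          rw [pow_zero, ← map_one (algebraMap ℂ K)]; exact Submodule.algebraMap_mem (1 : ℂ))
      | zero => simp
      | add x y _ _ hx hy => simpa using add_mem hx hy
      | smul a x _ hx =>
        have ha : (a : K) ∈ S := hAS _ a.2
        have h2 : (a : K) * x ∈ S * Q := Submodule.mul_mem_mul ha hx
        have hSQ' : S * Q ≤ Q := by
          simp only [S, Q, Submodule.mul_iSup, Submodule.iSup_mul]
          refine iSup_le fun i => iSup_le fun j => ?_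
          rw [← pow_add]
          have : j + (i + 1) = (j + i) + 1 := by ring
          rw [this]; exact le_iSup (fun i : ℕ => N ^ (i + 1)) _
        simpa using hSQ' h2
    have h1Q : (1 : K) ∈ Q := by simpa using hIQ 1 h1
    rw [Submodule.mem_iSup_iff_exists_finsupp] at h1Q
    obtain ⟨b, hb, hb1⟩ := h1Q
    let r := b.support.sup id + 1
    refine ⟨r, by omega, fun i => if 1 ≤ i then f ^ i * b (i - 1) else 0, ?_, ?_⟩
    · intro i
      dsimp only
      split_ifs with hi
      · have := hNpow i (b (i - 1)) (by
          have h := hb (i - 1)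
          rwa [Nat.sub_add_cancel hi] at h)
        exact this
      · exact zero_mem _
    · have h2 : f ^ r = ∑ i ∈ Finset.range r, b i * f ^ r := by
        rw [← Finset.sum_mul]
        have h3 : ∑ i ∈ Finset.range r, b i = 1 := by
          rw [← hb1, Finsupp.sum]
          symm
          apply Finset.sum_subset
          · intro i hi
            have : i ≤ b.support.sup id := Finset.le_sup (f := id) hi
            rw [Finset.mem_range]; omega
          · intro i _ hi
            simpa using hi
        rw [h3, one_mul]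
      rw [h2, ← Finset.sum_range_reflect]
      apply Finset.sum_congr rfl
      intro i hi
      rw [Finset.mem_range] at hi
      have h4 : 1 ≤ r - i := by omega
      have h5 : r - i - 1 = r - 1 - i := by omega
      have h6 : f ^ r = f ^ (r - i) * f ^ i := by rw [← pow_add]; congr 1; omega
      simp only [h4, if_true, h5]
      rw [h6]
      ring
  · exfalso
    obtain ⟨O, hAO, hIO⟩ := Ideal.image_subset_nonunits_valuationSubring I hI
    obtain ⟨s, hs, hs0, hsO⟩ := H O (fun c => hAO (A.algebraMap_mem c))
    have hmem : s ^ q / f ∈ N := ⟨s ^ q, Submodule.pow_mem_pow W hs q, by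
      simp only [LinearMap.mulLeft_apply]; field_simp⟩
    have hmemA : s ^ q / f ∈ A.toSubring := Algebra.subset_adjoin hmem
    have hnon : s ^ q / f ∈ O.nonunits :=
      hIO ⟨⟨s ^ q / f, hmemA⟩, Ideal.subset_span hmem, rfl⟩
    have h5 : (f / s ^ q)⁻¹ ∈ O.nonunits := by rwa [inv_div]
    rw [ValuationSubring.inv_mem_nonunits_iff] at h5
    rcases h5 with h5 | h5
    · rw [div_eq_zero_iff] at h5
      rcases h5 with h5 | h5
      · exact hf0 h5
      · exact pow_ne_zero _ hs0 h5
    · exact h5 hsO


variable {X : Scheme.{0}} [Algebra ℂ Γ(X, ⊤)] [IsIntegral X] [IsLocallyNoetherian X]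

/-- `W` has no common zeros as a linear system of sections of `D` -/
def Bpf (W : Submodule ℂ X.functionField) (D : WeilDiv X) : Prop :=
  ∀ x : X, ∃ s ∈ W, s ≠ 0 ∧ NonvanishingAt D s x

/-- **Graded integrality**: if `W ⊆ H⁰(D)` has no common zeros on the proper normal `X`, every
section of `qD` is integral over the graded algebra generated by `W`. -/
theorem graded_integral [NormalSch X] (hX : IsProper (structureMorphism ℂ X)) (D : WeilDiv X)
    (W : Submodule ℂ X.functionField) (hbpf : Bpf W D) (q : ℕ)
    (f : X.functionField) (hf : f ∈ H0 (q • D)) :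
    ∃ r : ℕ, 1 ≤ r ∧ ∃ a : ℕ → X.functionField, (∀ i, a i ∈ W ^ (q * i)) ∧
      f ^ r = ∑ i ∈ Finset.range r, a (r - i) * f ^ i := by
  by_cases hf0 : f = 0
  · refine ⟨1, le_rfl, fun _ => 0, fun i => zero_mem _, ?_⟩
    simp [hf0]
  apply graded_integral_core W q f hf0
  intro O hO
  obtain ⟨x, hx⟩ := exists_center hX O hO
  obtain ⟨s, hs, hs0, hsx⟩ := hbpf x
  refine ⟨s, hs, hs0, ?_⟩
  obtain ⟨a, ha⟩ := mem_stalk_of_ord_nonneg_all x (f / s ^ q) (div_ne_zero hf0 (pow_ne_zero _ hs0))
    (by
      intro z hz hzx
      exact ord_div_pow_nonneg hs0 (isSection_of_mem hf hf0) ⟨z, hz⟩ (hsx ⟨z, hz⟩ hzx) (by simp))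
  rw [← ha]
  exact hx a

/-- global functions on `X` are constants -/
theorem H0_zero [NormalSch X] (hX : IsProper (structureMorphism ℂ X)) :
    H0 (0 : WeilDiv X) = 1 := by
  apply le_antisymm
  · intro f hf
    obtain ⟨r, hr, a, ha, hrel⟩ := graded_integral hX (0 : WeilDiv X) 1 (by
      intro x
      refine ⟨1, ?_, one_ne_zero, fun z _ => ?_⟩
      · rw [← map_one (algebraMap ℂ X.functionField)]; exact Submodule.algebraMap_mem (1 : ℂ)
      · rw [ord_one]; simp) 1 f (by simpa using hf)
    -- f is algebraic over ℂ
    have ha' : ∀ i, ∃ c : ℂ, algebraMap ℂ X.functionField c = a i := by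
      intro i
      have h := ha i
      rw [one_pow] at h
      exact Submodule.mem_one.mp h
    choose c hc using ha'
    have halg : IsAlgebraic ℂ f := by
      refine ⟨Polynomial.X ^ r - ∑ i ∈ Finset.range r, Polynomial.C (c (r - i)) * Polynomial.X ^ i,
        ?_, ?_⟩
      · intro h0
        have := congrArg (fun p => Polynomial.coeff p r) h0
        simp only [Polynomial.coeff_sub, Polynomial.coeff_X_pow, if_true, Polynomial.finsetSum_coeff,
          Polynomial.coeff_C_mul, Polynomial.coeff_zero] at this
        rw [Finset.sum_eq_zero] at this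
        · norm_num at this
        · intro i hi
          rw [Finset.mem_range] at hi
          have : r ≠ i := by omega
          simp [this]
      · simp only [map_sub, map_pow, Polynomial.aeval_X, map_sum, map_mul, Polynomial.aeval_C, hc]
        rw [hrel, sub_self]
    have hint : Algebra.IsIntegral ℂ (Algebra.adjoin ℂ {f}) :=
      Algebra.IsIntegral.adjoin (by rintro x rfl; exact halg.isIntegral)
    obtain ⟨c, hc⟩ := (IsAlgClosed.algebraMap_bijective_of_isIntegral (k := ℂ)
      (K := Algebra.adjoin ℂ {f})).2 ⟨f, Algebra.subset_adjoin rfl⟩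
    refine Submodule.mem_one.mpr ⟨c, ?_⟩
    exact congrArg Subtype.val hc
  · rw [Submodule.one_le]
    exact one_mem_H0

end Crest.Agent.R271.Br958
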