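import Crest.Agent.R271.Br6_958

set_option autoImplicit false
set_option linter.unusedSectionVars false

open AlgebraicGeometry Order CategoryTheory Crest.AlgGeometry.Divisors TopologicalSpace

namespace Crest.Agent.R271.Br958

set_option warn.classDefReducibility false in
attribute [local instance] fnFieldAlgebra

variable {X : Scheme.{0}} [Algebra ℂ Γ(X, ⊤)] [IsIntegral X] [IsLocallyNoetherian X]

section secAlg

/-- the ring of functions regular on `U`, as a subalgebra of the function field -/
noncomputable def secAlg (U : X.Opens) [Nonempty U] : Subalgebra ℂ X.functionField :=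
  { (algebraMap Γ(X, U) X.functionField).range with
    algebraMap_mem' := by
      intro c
      refine ⟨X.presheaf.map (homOfLE le_top).op (algebraMap ℂ Γ(X, ⊤) c), ?_⟩
      rw [algebraMap_eq_germ]
      exact TopCat.Presheaf.germ_res_apply X.presheaf _ _ _ _ }

lemma mem_secAlg {U : X.Opens} [Nonempty U] {f : X.functionField} :
    f ∈ secAlg U ↔ ∃ a : Γ(X, U), algebraMap Γ(X, U) X.functionField a = f := Iff.rfl

/-- every rational function is a quotient of functions regular on the affine open `U` -/
lemma secAlg_frac {U : X.Opens} (hU : IsAffineOpen U) [Nonempty U] (u : X.functionField) :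
    ∃ a b : secAlg U, (b : X.functionField) ≠ 0 ∧ u * b = a := by
  have := functionField_isFractionRing_of_isAffineOpen X U hU
  obtain ⟨a, b, hb, rfl⟩ := IsFractionRing.div_surjective (A := Γ(X, U)) u
  refine ⟨⟨_, a, rfl⟩, ⟨_, b, rfl⟩, ?_, ?_⟩
  · simpa using nonZeroDivisors.ne_zero hb
  · have : algebraMap Γ(X, U) X.functionField b ≠ 0 := by
      simpa using nonZeroDivisors.ne_zero hb
    change _ / _ * algebraMap Γ(X, U) X.functionField b = _
    field_simp

/-- functions regular on the nonvanishing locus of `s` -/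
theorem mem_secAlg_iff [CompactSpace X] [NormalSch X] {D : WeilDiv X} {s : X.functionField}
    (hs : IsSection D s) {U : X.Opens} (hUa : IsAffineOpen U) [Nonempty U]
    (hU : (U : Set X) = {y | NonvanishingAt D s y}) (f : X.functionField) :
    f ∈ secAlg U ↔ ∃ j : ℕ, f * s ^ j ∈ H0 (j • D) := by
  constructor
  · rintro ⟨a, rfl⟩
    obtain ⟨j, hj⟩ := mul_pow_mem_H0 hs hU (algebraMap Γ(X, U) X.functionField a)
      (fun z hz hzU => ord_section_nonneg a hz hzU)
    exact ⟨j, hj j le_rfl⟩
  · rintro ⟨j, hj⟩
    by_cases hf0 : f = 0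
    · rw [hf0]; exact zero_mem _
    have hne : f * s ^ j ≠ 0 := mul_ne_zero hf0 (pow_ne_zero _ hs.1)
    have hsec := isSection_of_mem hj hne
    have hfe : f = (f * s ^ j) / s ^ j := by
      have := pow_ne_zero j hs.1
      field_simp
    refine mem_section_of_ord_nonneg hUa f hf0 ?_
    intro z hz hzU
    have hnv : NonvanishingAt D s z := by
      have : z ∈ (U : Set X) := hzU
      rw [hU] at this; exact this
    rw [hfe]
    exact ord_div_pow_nonneg hs.1 hsec ⟨z, hz⟩ (hnv ⟨z, hz⟩ (specializes_refl z)) (by simp)

end secAlg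

section support

/-- the divisor of a nonzero rational function has finite support -/
theorem finite_support_ord [CompactSpace X] (f : X.functionField) (hf : f ≠ 0) :
    {z : X | coheight z = 1 ∧ Scheme.ord f z ≠ 0}.Finite := by
  obtain ⟨U, hU, hxU, -⟩ := exists_isAffineOpen_mem_and_subset (X := X) (x := genericPoint X)
    (U := ⊤) trivial
  have hne : Nonempty U := ⟨⟨_, hxU⟩⟩
  have := functionField_isFractionRing_of_isAffineOpen X U hU
  obtain ⟨a, b, hb, rfl⟩ := IsFractionRing.div_surjective (A := Γ(X, U)) f
  have hb0 : b ≠ 0 := nonZeroDivisors.ne_zero hb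
  have ha0 : a ≠ 0 := by
    rintro rfl
    apply hf; simp
  -- the open set where a b is invertible
  have hVne : ((X.basicOpen (a * b) : X.Opens) : Set X).Nonempty := by
    rw [Set.nonempty_iff_ne_empty]
    intro h
    have h' : X.basicOpen (a * b) = ⊥ := by ext1; simpa using h
    rw [basicOpen_eq_bot_iff] at h'
    exact mul_ne_zero ha0 hb0 h'
  refine (finite_primeDivisor_compl (X.basicOpen (a * b)) hVne).subset ?_
  rintro z ⟨hz1, hz2⟩
  refine ⟨hz1, fun hzV => hz2 ?_⟩
  have hle : X.basicOpen (a * b) ≤ U := X.basicOpen_le _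
  have hzU : z ∈ U := hle hzV
  have hVn : Nonempty (X.basicOpen (a * b)) := ⟨⟨z, hzV⟩⟩
  have hunit : IsUnit (X.presheaf.map (homOfLE hle).op (a * b)) := RingedSpace.isUnit_res_basicOpen _ _
  rw [map_mul] at hunit
  have hua := isUnit_of_mul_isUnit_left hunit
  have hub := isUnit_of_mul_isUnit_right hunit
  have key : ∀ c : Γ(X, U), algebraMap Γ(X, U) X.functionField c =
      X.germToFunctionField (X.basicOpen (a * b)) (X.presheaf.map (homOfLE hle).op c) := by
    intro c
    exact (TopCat.Presheaf.germ_res_apply X.presheaf _ _ _ _).symm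
  have h0 : ∀ c : Γ(X, U), c ≠ 0 → algebraMap Γ(X, U) X.functionField c ≠ 0 := by
    intro c hc; simpa using hc
  rw [ord_div (h0 a ha0) (h0 b hb0), key, key, Scheme.ord_of_isUnit hua hzV,
    Scheme.ord_of_isUnit hub hzV, sub_zero]

end support

end Crest.Agent.R271.Br958
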