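import Crest.Agent.R271.Br7_958

set_option autoImplicit false
set_option linter.unusedSectionVars false

open AlgebraicGeometry Order CategoryTheory Crest.AlgGeometry.Divisors TopologicalSpace

namespace Crest.Agent.R271.Br958

set_option warn.classDefReducibility false in
attribute [local instance] fnFieldAlgebra

variable {X : Scheme.{0}} [Algebra ℂ Γ(X, ⊤)] [IsIntegral X] [IsLocallyNoetherian X]

lemma algebraMap_section_ne_zero {U : X.Opens} [Nonempty U] {a : Γ(X, U)} (ha : a ≠ 0) :
    algebraMap Γ(X, U) X.functionField a ≠ 0 := by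
  intro h
  exact ha (Scheme.germToFunctionField_injective X U (h.trans (map_zero _).symm))

lemma algebraMap_stalkSpecializes {x z : X} (h : z ⤳ x) (a : X.presheaf.stalk x) :
    algebraMap (X.presheaf.stalk z) X.functionField ((X.presheaf.stalkSpecializes h).hom a) =
      algebraMap (X.presheaf.stalk x) X.functionField a := by
  have h1 : X.presheaf.stalkSpecializes h ≫
      X.presheaf.stalkSpecializes ((genericPoint_spec X).specializes trivial : genericPoint X ⤳ z) =
      X.presheaf.stalkSpecializes ((genericPoint_spec X).specializes trivial : genericPoint X ⤳ x) :=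
    TopCat.Presheaf.stalkSpecializes_comp _ _ _
  exact congrArg (fun φ => φ.hom a) h1

lemma ord_nonneg_of_specializes {x z : X} (hz : coheight z = 1) (h : z ⤳ x)
    (a : X.presheaf.stalk x) :
    0 ≤ Scheme.ord (algebraMap (X.presheaf.stalk x) X.functionField a) z := by
  rw [← algebraMap_stalkSpecializes h a]
  exact ord_nonneg_of_mem_stalk hz _

lemma ord_eq_zero_of_isUnit {x z : X} (hz : coheight z = 1) (h : z ⤳ x)
    {a : X.presheaf.stalk x} (ha : IsUnit a) :
    Scheme.ord (algebraMap (X.presheaf.stalk x) X.functionField a) z = 0 := by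
  obtain ⟨u, rfl⟩ := ha
  have h1 := ord_nonneg_of_specializes hz h (u : X.presheaf.stalk x)
  have h2 := ord_nonneg_of_specializes hz h (↑u⁻¹ : X.presheaf.stalk x)
  have h3 : algebraMap (X.presheaf.stalk x) X.functionField (↑u⁻¹ : X.presheaf.stalk x) =
      (algebraMap (X.presheaf.stalk x) X.functionField (u : X.presheaf.stalk x))⁻¹ := by
    apply eq_inv_of_mul_eq_one_left
    rw [← map_mul]; simp
  have h0 : algebraMap (X.presheaf.stalk x) X.functionField (u : X.presheaf.stalk x) ≠ 0 := by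
    simp
  rw [h3, ord_inv h0] at h2
  omega

lemma isUnit_of_ord_eq_zero [NormalSch X] {z : X} (hz : coheight z = 1) {a : X.presheaf.stalk z}
    (ha0 : a ≠ 0) (ha : Scheme.ord (algebraMap _ X.functionField a) z = 0) : IsUnit a := by
  have := dvr_of_normal (X := X) z hz
  rw [Ring.isUnit_iff_ordFrac_one_of_isDiscreteValuationRing (K := X.functionField)]
  have h1 := (Scheme.ord_eq_iff hz (by simpa using ha0)).mp ha
  simpa [Scheme.ordHom] using h1

lemma mem_primeIdealOf_iff {U : X.Opens} (hU : IsAffineOpen U) {x : X} (hx : x ∈ U) (a : Γ(X, U)) :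
    a ∈ (hU.primeIdealOf ⟨x, hx⟩).asIdeal ↔ ¬ IsUnit (X.presheaf.germ U x hx a) := by
  let _ : Algebra Γ(X, U) (X.presheaf.stalk x) :=
    TopCat.Presheaf.algebra_section_stalk X.presheaf (⟨x, hx⟩ : U)
  have hloc : IsLocalization.AtPrime (X.presheaf.stalk x) (hU.primeIdealOf ⟨x, hx⟩).asIdeal :=
    hU.isLocalization_stalk ⟨x, hx⟩
  have := IsLocalization.AtPrime.to_map_mem_maximal_iff (X.presheaf.stalk x)
    (hU.primeIdealOf ⟨x, hx⟩).asIdeal a
  rw [← this, IsLocalRing.mem_maximalIdeal, mem_nonunits_iff]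
  rfl

lemma ord_eq_zero_of_notMem {U : X.Opens} (hU : IsAffineOpen U) {x : X} (hx : x ∈ U) (a : Γ(X, U))
    (ha : a ∉ (hU.primeIdealOf ⟨x, hx⟩).asIdeal) {z : X} (hz : coheight z = 1) (hzx : z ⤳ x) :
    haveI : Nonempty U := ⟨⟨x, hx⟩⟩
    Scheme.ord (algebraMap Γ(X, U) X.functionField a) z = 0 := by
  have hne : Nonempty U := ⟨⟨x, hx⟩⟩
  rw [mem_primeIdealOf_iff, not_not] at ha
  have := ord_eq_zero_of_isUnit hz hzx ha
  rwa [Scheme.algebraMap_germ_eq_germToFunctionField X hx] at this

lemma one_le_ord_of_mem [NormalSch X] {U : X.Opens} (hU : IsAffineOpen U) {z : X} (hzU : z ∈ U)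
    (hz : coheight z = 1) (a : Γ(X, U)) (ha0 : a ≠ 0)
    (ha : a ∈ (hU.primeIdealOf ⟨z, hzU⟩).asIdeal) :
    haveI : Nonempty U := ⟨⟨z, hzU⟩⟩
    1 ≤ Scheme.ord (algebraMap Γ(X, U) X.functionField a) z := by
  have hne : Nonempty U := ⟨⟨z, hzU⟩⟩
  rw [mem_primeIdealOf_iff] at ha
  have h1 := ord_section_nonneg a hz hzU
  have h2 : Scheme.ord (algebraMap Γ(X, U) X.functionField a) z ≠ 0 := by
    intro h
    apply ha
    have h' : Scheme.ord (algebraMap (X.presheaf.stalk z) X.functionField
        (X.presheaf.germ U z hzU a)) z = 0 := by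
      rw [Scheme.algebraMap_germ_eq_germToFunctionField X hzU]; exact h
    refine isUnit_of_ord_eq_zero hz ?_ h'
    intro h0
    apply ha0
    exact germ_injective_of_isIntegral X z hzU (by rw [h0, map_zero])
  omega

lemma exists_notMem_of_not_specializes {U : X.Opens} (hU : IsAffineOpen U) {x z : X} (hx : x ∈ U)
    (hzU : z ∈ U) (h : ¬ z ⤳ x) :
    ∃ a : Γ(X, U), a ∈ (hU.primeIdealOf ⟨z, hzU⟩).asIdeal ∧ a ∉ (hU.primeIdealOf ⟨x, hx⟩).asIdeal := by
  by_contra hcon
  push Not at hcon
  apply h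
  have := fromSpec_specializes hU (hU.primeIdealOf ⟨z, hzU⟩) ⟨x, hx⟩ hcon
  rwa [hU.fromSpec_primeIdealOf] at this

/-- finiteness of the set of prime divisors where `div f + D` is nonzero -/
lemma finite_ord_add_ne [CompactSpace X] (D : WeilDiv X) (f : X.functionField) (hf : f ≠ 0) :
    {z : PrimeDivisor X | Scheme.ord f z.1 + D z ≠ 0}.Finite := by
  have h1 : {z : PrimeDivisor X | Scheme.ord f z.1 ≠ 0}.Finite := by
    have := finite_support_ord f hf
    refine Set.Finite.of_finite_image (f := fun z : PrimeDivisor X => z.1) (this.subset ?_)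
      (Subtype.val_injective.injOn)
    rintro _ ⟨z, hz, rfl⟩
    exact ⟨z.2, hz⟩
  have h2 : (D.support : Set (PrimeDivisor X)).Finite := D.support.finite_toSet
  refine (h1.union h2).subset ?_
  intro z hz
  by_cases h : Scheme.ord f z.1 = 0
  · right
    simp only [Set.mem_ofPred_eq, h, zero_add] at hz
    simpa using hz
  · left; exact h

lemma isOpen_nonvanishing [CompactSpace X] (D : WeilDiv X) (f : X.functionField) (hf : f ≠ 0) :
    IsOpen {y : X | NonvanishingAt D f y} := by
  have h : {y : X | NonvanishingAt D f y} =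
      (⋃ z ∈ {z : PrimeDivisor X | Scheme.ord f z.1 + D z ≠ 0}, closure {z.1})ᶜ := by
    ext y
    simp only [Set.mem_ofPred_eq, Set.mem_compl_iff, Set.mem_iUnion, not_exists, NonvanishingAt]
    constructor
    · intro h z hz hy
      exact hz (h z (specializes_iff_mem_closure.mpr hy))
    · intro h z hzy
      by_contra hne
      exact h z hne (specializes_iff_mem_closure.mp hzy)
  rw [h]
  exact ((finite_ord_add_ne D f hf).isClosed_biUnion (fun _ _ => isClosed_closure)).isOpen_compl

/-- local principality of divisors (to be supplied from unique factorization of the stalks) -/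
def LP (X : Scheme.{0}) [IsIntegral X] [IsLocallyNoetherian X] : Prop :=
  ∀ (x : X) (D : WeilDiv X), ∃ g : X.functionField, g ≠ 0 ∧
    ∀ z : PrimeDivisor X, z.1 ⤳ x → Scheme.ord g z.1 = D z

/-- `𝒪(D)` is generated at `x` by a section over a given affine neighbourhood -/
theorem exists_local_section [CompactSpace X] [NormalSch X] (hLP : LP X) {U : X.Opens}
    (hU : IsAffineOpen U) {x : X} (hx : x ∈ U) (D : WeilDiv X) :
    ∃ f : X.functionField, f ≠ 0 ∧ (∀ z : PrimeDivisor X, z.1 ∈ U → 0 ≤ Scheme.ord f z.1 + D z) ∧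
      NonvanishingAt D f x := by
  classical
  have hne : Nonempty U := ⟨⟨x, hx⟩⟩
  obtain ⟨g, hg0, hg⟩ := hLP x (-D)
  have hfin := finite_ord_add_ne D g hg0
  let T : Finset (PrimeDivisor X) := hfin.toFinset.filter (fun z => z.1 ∈ U ∧ Scheme.ord g z.1 + D z < 0)
  have hT : ∀ z ∈ T, ∃ a : Γ(X, U), (∀ h : z.1 ∈ U, a ∈ (hU.primeIdealOf ⟨z.1, h⟩).asIdeal) ∧
      a ∉ (hU.primeIdealOf ⟨x, hx⟩).asIdeal := by
    intro z hz
    have hz' := (Finset.mem_filter.mp hz).2
    have hns : ¬ z.1 ⤳ x := by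
      intro hs
      have h1 := hg z hs
      have h2 : (-D) z = - D z := by simp
      rw [h2] at h1
      omega
    obtain ⟨a, ha1, ha2⟩ := exists_notMem_of_not_specializes hU hx hz'.1 hns
    exact ⟨a, fun _ => ha1, ha2⟩
  choose! a ha1 ha2 using hT
  let A : Γ(X, U) := ∏ z ∈ T, a z
  have hAx : A ∉ (hU.primeIdealOf ⟨x, hx⟩).asIdeal := by
    intro h
    obtain ⟨z, hz, hz'⟩ := (Ideal.IsPrime.prod_mem_iff (p := (hU.primeIdealOf ⟨x, hx⟩).asIdeal)).mp h
    exact ha2 z hz hz'
  have hA0 : A ≠ 0 := by rintro h; apply hAx; rw [h]; exact zero_mem _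
  have hAK : algebraMap Γ(X, U) X.functionField A ≠ 0 := algebraMap_section_ne_zero hA0
  obtain ⟨N, hN⟩ : ∃ N : ℕ, ∀ z ∈ T, - (Scheme.ord g z.1 + D z) ≤ N := by
    refine ⟨(T.sup (fun z => (-(Scheme.ord g z.1 + D z)).toNat)), fun z hz => ?_⟩
    have := Finset.le_sup (f := fun z : PrimeDivisor X => (-(Scheme.ord g z.1 + D z)).toNat) hz
    have h2 := Int.self_le_toNat (-(Scheme.ord g z.1 + D z))
    omega
  refine ⟨g * (algebraMap Γ(X, U) X.functionField A) ^ N, mul_ne_zero hg0 (pow_ne_zero _ hAK), ?_, ?_⟩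
  · intro z hzU
    rw [Scheme.ord_mul hg0 (pow_ne_zero _ hAK), ord_pow hAK]
    have hA1 := ord_section_nonneg A z.2 hzU
    by_cases hz : z ∈ T
    · have h1 : 1 ≤ Scheme.ord (algebraMap Γ(X, U) X.functionField A) z.1 := by
        refine one_le_ord_of_mem hU hzU z.2 A hA0 ?_
        exact Ideal.mem_of_dvd _ (Finset.dvd_prod_of_mem a hz) (ha1 z hz hzU)
      have h2 := hN z hz
      nlinarith
    · have h3 : 0 ≤ Scheme.ord g z.1 + D z := by
        by_contra hlt
        push Not at hlt
        apply hz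
        refine Finset.mem_filter.mpr ⟨?_, hzU, hlt⟩
        rw [Set.Finite.mem_toFinset]
        simp only [Set.mem_ofPred_eq]
        omega
      have h4 : (0 : ℤ) ≤ N * Scheme.ord (algebraMap Γ(X, U) X.functionField A) z.1 := by positivity
      linarith
  · intro z hzx
    rw [Scheme.ord_mul hg0 (pow_ne_zero _ hAK), ord_pow hAK,
      ord_eq_zero_of_notMem hU hx A hAx z.2 hzx, hg z hzx]
    simp

end Crest.Agent.R271.Br958
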