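import Crest.Agent.R271.Br8_958

set_option autoImplicit false
set_option linter.unusedSectionVars false

open AlgebraicGeometry Order CategoryTheory Crest.AlgGeometry.Divisors TopologicalSpace

namespace Crest.Agent.R271.Br958

set_option warn.classDefReducibility false in
attribute [local instance] fnFieldAlgebra

variable {X : Scheme.{0}} [Algebra ℂ Γ(X, ⊤)] [IsIntegral X] [IsLocallyNoetherian X]

lemma nonvanishingAt_pow {D : WeilDiv X} {f : X.functionField} (hf : f ≠ 0) {k : ℕ} (hk : 1 ≤ k)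
    (y : X) : NonvanishingAt (k • D) (f ^ k) y ↔ NonvanishingAt D f y := by
  unfold NonvanishingAt
  constructor
  · intro h z hz
    have h1 := h z hz
    rw [ord_pow hf, Finsupp.smul_apply, nsmul_eq_mul] at h1
    have h2 : (k : ℤ) * (Scheme.ord f z.1 + D z) = 0 := by linarith
    rcases mul_eq_zero.mp h2 with h3 | h3
    · omega
    · exact h3
  · intro h z hz
    rw [ord_pow hf, Finsupp.smul_apply, nsmul_eq_mul, ← mul_add, h z hz, mul_zero]

lemma nonvanishingAt_mul {D E : WeilDiv X} {f g : X.functionField} (hf : f ≠ 0) (hg : g ≠ 0)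
    {y : X} (h1 : NonvanishingAt D f y) (h2 : NonvanishingAt E g y) :
    NonvanishingAt (D + E) (f * g) y := by
  intro z hz
  rw [Scheme.ord_mul hf hg, Finsupp.add_apply]
  have := h1 z hz
  have := h2 z hz
  omega

lemma isSection_pow {D : WeilDiv X} {f : X.functionField} (hf : IsSection D f) (k : ℕ) :
    IsSection (k • D) (f ^ k) := by
  refine ⟨pow_ne_zero _ hf.1, fun z => ?_⟩
  rw [ord_pow hf.1, Finsupp.smul_apply, nsmul_eq_mul, ← mul_add]
  exact mul_nonneg (by positivity) (hf.2 z)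

/-- ampleness gives finitely many sections of one multiple `qL` with affine nonvanishing loci
covering `X`. -/
theorem exists_cover [CompactSpace X] {L : WeilDiv X} (hL : IsAmple L) :
    ∃ q : ℕ, 1 ≤ q ∧ ∃ (ι : Type) (_ : Fintype ι) (s : ι → X.functionField) (U : ι → X.Opens),
      (∀ i, IsSection (q • L) (s i)) ∧ (∀ i, IsAffineOpen (U i)) ∧
      (∀ i, (U i : Set X) = {y | NonvanishingAt (q • L) (s i) y}) ∧ ∀ x, ∃ i, x ∈ U i := by
  classical
  choose m hm f hf U hU hxU hUeq using hL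
  obtain ⟨t, ht⟩ := isCompact_univ.elim_finite_subcover (fun x : X => (U x : Set X))
    (fun x => (U x).isOpen) (fun x _ => Set.mem_iUnion.mpr ⟨x, hxU x⟩)
  let q := ∏ x ∈ t, m x
  have hq : 1 ≤ q := Nat.one_le_iff_ne_zero.mpr (Finset.prod_ne_zero_iff.mpr
    (fun x _ => (hm x).ne'))
  have hdiv : ∀ x : {x // x ∈ t}, q / m x.1 * m x.1 = q := fun x =>
    Nat.div_mul_cancel (Finset.dvd_prod_of_mem m x.2)
  have hdiv1 : ∀ x : {x // x ∈ t}, 1 ≤ q / m x.1 := fun x =>
    Nat.div_pos (Nat.le_of_dvd hq (Finset.dvd_prod_of_mem m x.2)) (hm x.1)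
  have hsm : ∀ x : {x // x ∈ t}, q • L = (q / m x.1) • (m x.1 • L) := by
    intro x
    rw [smul_smul, hdiv x]
  refine ⟨q, hq, {x // x ∈ t}, inferInstance, fun x => f x.1 ^ (q / m x.1), fun x => U x.1,
    ?_, fun x => hU x.1, ?_, ?_⟩
  · intro x
    rw [hsm x]
    exact isSection_pow (hf x.1) _
  · intro x
    rw [hUeq x.1]
    ext y
    change NonvanishingAt _ _ _ ↔ NonvanishingAt _ _ _
    rw [hsm x]
    exact (nonvanishingAt_pow (hf x.1).1 (hdiv1 x) y).symm
  · intro x
    obtain ⟨y, hy, hxy⟩ := Set.mem_iUnion₂.mp (ht (Set.mem_univ x))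
    exact ⟨⟨y, hy⟩, hxy⟩

/-- twisted version of `mul_pow_mem_H0` -/
theorem mul_pow_mem_H0' [CompactSpace X] [StalkDVR X] {D E : WeilDiv X} {s : X.functionField}
    (hs : IsSection E s) {U : X.Opens} (hU : (U : Set X) = {y | NonvanishingAt E s y})
    (f : X.functionField) (hf0 : f ≠ 0)
    (hf : ∀ z : PrimeDivisor X, z.1 ∈ U → 0 ≤ Scheme.ord f z.1 + D z) :
    ∃ j : ℕ, ∀ i, j ≤ i → IsSection (D + i • E) (f * s ^ i) := by
  have hne : (U : Set X).Nonempty := by
    rw [hU]; exact ⟨_, nonvanishingAt_genericPoint E s⟩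
  have hfin : {z : PrimeDivisor X | z.1 ∉ U}.Finite := by
    refine Set.Finite.of_finite_image (f := fun z : PrimeDivisor X => z.1)
      ((finite_primeDivisor_compl U hne).subset ?_) (Subtype.val_injective.injOn)
    rintro _ ⟨z, hz, rfl⟩
    exact ⟨z.2, hz⟩
  obtain ⟨j, hj⟩ : ∃ j : ℕ, ∀ z : PrimeDivisor X, z.1 ∉ U → - (Scheme.ord f z.1 + D z) ≤ j := by
    obtain ⟨b, hb⟩ := (hfin.image (fun z => - (Scheme.ord f z.1 + D z))).bddAbove
    refine ⟨b.toNat, fun z hz => le_trans (hb ⟨z, hz, rfl⟩) (Int.self_le_toNat b)⟩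
  refine ⟨j, fun i hi => ⟨mul_ne_zero hf0 (pow_ne_zero _ hs.1), fun z => ?_⟩⟩
  rw [Scheme.ord_mul hf0 (pow_ne_zero _ hs.1), ord_pow hs.1]
  have hDz : (D + i • E) z = D z + i * E z := by simp
  rw [hDz]
  have h0 := hs.2 z
  by_cases hzU : z.1 ∈ U
  · have h1 := hf z hzU
    nlinarith
  · have h1 := hj z hzU
    have h2 : ¬ NonvanishingAt E s z.1 := by
      intro h
      apply hzU
      have : z.1 ∈ (U : Set X) := by rw [hU]; exact h
      exact this
    have h3 := one_le_of_vanishing hs z h2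
    have h4 : (i : ℤ) ≥ j := by exact_mod_cast hi
    nlinarith

/-- all large multiples of an ample divisor have no base points -/
theorem bpf_all [CompactSpace X] [NormalSch X] (hLP : LP X) {L : WeilDiv X} (hL : IsAmple L) :
    ∃ k₀ : ℕ, ∀ m, k₀ ≤ m → ∀ x : X, ∃ f : X.functionField,
      IsSection (m • L) f ∧ NonvanishingAt (m • L) f x := by
  classical
  obtain ⟨q, hq, ι, _, s, U, hs, hUa, hU, hcov⟩ := exists_cover hL
  choose c hc using hcov
  have hloc : ∀ (x : X) (r : ℕ), ∃ f : X.functionField, f ≠ 0 ∧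
      (∀ z : PrimeDivisor X, z.1 ∈ U (c x) → 0 ≤ Scheme.ord f z.1 + (r • L) z) ∧
      NonvanishingAt (r • L) f x := fun x r =>
    exists_local_section hLP (hUa (c x)) (hc x) (r • L)
  choose f hf0 hf hfx using hloc
  have hj : ∀ (x : X) (r : ℕ), ∃ j : ℕ, ∀ i, j ≤ i →
      IsSection (r • L + i • (q • L)) (f x r * s (c x) ^ i) := fun x r =>
    mul_pow_mem_H0' (hs (c x)) (hU (c x)) (f x r) (hf0 x r) (hf x r)
  choose j hj using hj
  -- neighbourhoods
  let W : X → Set X := fun x => (U (c x) : Set X) ∩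
    ⋂ r ∈ Finset.range q, {y | NonvanishingAt (r • L) (f x r) y}
  have hWo : ∀ x, IsOpen (W x) := fun x => (U (c x)).isOpen.inter
    (isOpen_biInter_finset (fun r _ => isOpen_nonvanishing _ _ (hf0 x r)))
  have hWx : ∀ x, x ∈ W x := fun x => ⟨hc x, Set.mem_iInter₂.mpr fun r _ => hfx x r⟩
  obtain ⟨t, ht⟩ := isCompact_univ.elim_finite_subcover W hWo
    (fun x _ => Set.mem_iUnion.mpr ⟨x, hWx x⟩)
  let J := t.sup (fun x => (Finset.range q).sup (j x))
  refine ⟨q * J, fun m hm y => ?_⟩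
  obtain ⟨x, hx, hyx⟩ := Set.mem_iUnion₂.mp (ht (Set.mem_univ y))
  have hr : m % q < q := Nat.mod_lt _ hq
  have hiJ : J ≤ m / q := (Nat.le_div_iff_mul_le hq).mpr (by rw [mul_comm]; exact hm)
  have hji : j x (m % q) ≤ m / q := by
    refine le_trans ?_ hiJ
    refine le_trans ?_ (Finset.le_sup (f := fun x => (Finset.range q).sup (j x)) hx)
    exact Finset.le_sup (f := j x) (Finset.mem_range.mpr hr)
  have hmL : m • L = (m % q) • L + (m / q) • (q • L) := by
    rw [smul_smul, ← add_smul]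
    congr 1
    rw [mul_comm]
    exact (Nat.mod_add_div m q).symm
  refine ⟨f x (m % q) * s (c x) ^ (m / q), ?_, ?_⟩
  · rw [hmL]; exact hj x (m % q) (m / q) hji
  · rw [hmL]
    refine nonvanishingAt_mul (hf0 x _) (pow_ne_zero _ (hs (c x)).1)
      (Set.mem_iInter₂.mp hyx.2 (m % q) (Finset.mem_range.mpr hr)) ?_
    have hsy : NonvanishingAt (q • L) (s (c x)) y := by
      have : y ∈ (U (c x) : Set X) := hyx.1
      rw [hU] at this; exact this
    intro z hz
    rw [ord_pow (hs (c x)).1, Finsupp.smul_apply (m / q), nsmul_eq_mul, ← mul_add, hsy z hz, mul_zero]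


/-- prime ideal form of base point freeness on the affine chart `X_s` (the field `bpf` of
`Ctx728.PCtx`). -/
theorem bpf_prime [CompactSpace X] [NormalSch X] (hLP : LP X) {L : WeilDiv X} (hL : IsAmple L)
    {q : ℕ} (hq : 1 ≤ q) {s : X.functionField} (hs : IsSection (q • L) s) {U : X.Opens}
    (hUa : IsAffineOpen U) [Nonempty U] (hU : (U : Set X) = {y | NonvanishingAt (q • L) s y}) :
    ∃ k₀ : ℕ, ∀ m, k₀ ≤ m → ∀ P : Ideal (secAlg U), P.IsPrime →
      ∃ (j : ℕ) (a b : X.functionField) (c : secAlg U), m ≤ q * j ∧ a ∈ H0 (m • L) ∧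
        b ∈ H0 ((q * j - m) • L) ∧ (c : X.functionField) * s ^ j = a * b ∧ c ∉ P := by
  obtain ⟨k₀, hk₀⟩ := bpf_all hLP hL
  refine ⟨k₀, fun m hm P hP => ?_⟩
  -- the point of `U` given by `P`
  let φ : Γ(X, U) →+* secAlg U := (algebraMap Γ(X, U) X.functionField).codRestrict
    (secAlg U).toSubring (fun a => ⟨a, rfl⟩)
  have hPp : (P.comap φ).IsPrime := Ideal.comap_isPrime φ P
  let p : PrimeSpectrum Γ(X, U) := ⟨P.comap φ, hPp⟩
  let y : X := hUa.fromSpec p
  have hy : y ∈ U := fromSpec_mem hUa p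
  have hyp : hUa.primeIdealOf ⟨y, hy⟩ = p := by
    apply hUa.fromSpec.isOpenEmbedding.injective
    exact hUa.fromSpec_primeIdealOf ⟨y, hy⟩
  obtain ⟨a, ha, hay⟩ := hk₀ m hm y
  -- choose j with q j ≥ m + k₀
  let j := m + k₀
  have hj : m + k₀ ≤ q * j := Nat.le_mul_of_pos_left _ hq
  obtain ⟨b, hb, hby⟩ := hk₀ (q * j - m) (by omega) y
  have hab0 : a * b ≠ 0 := mul_ne_zero ha.1 hb.1
  have hadd : m • L + (q * j - m) • L = j • (q • L) := by
    rw [← add_smul, smul_smul, mul_comm j q]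
    congr 1
    omega
  have habm : a * b ∈ H0 (j • (q • L)) := by
    rw [← hadd]; exact mul_mem_H0 (Or.inr ha) (Or.inr hb)
  have hc : a * b / s ^ j ∈ secAlg U := by
    rw [mem_secAlg_iff hs hUa hU]
    refine ⟨j, ?_⟩
    rwa [div_mul_cancel₀ _ (pow_ne_zero _ hs.1)]
  have hnv : NonvanishingAt (j • (q • L)) (a * b) y := by
    rw [← hadd]; exact nonvanishingAt_mul ha.1 hb.1 hay hby
  refine ⟨j, a, b, ⟨_, hc⟩, by omega, Or.inr ha, Or.inr hb, ?_, ?_⟩
  · exact div_mul_cancel₀ _ (pow_ne_zero _ hs.1)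
  · intro hcP
    obtain ⟨d, hd⟩ := id hc
    have hdP : d ∈ p.asIdeal := by
      change φ d ∈ P
      have : φ d = ⟨_, hc⟩ := Subtype.ext hd
      rw [this]; exact hcP
    rw [← hyp] at hdP
    rw [mem_primeIdealOf_iff] at hdP
    apply hdP
    -- the inverse is regular at y
    have hne : a * b / s ^ j ≠ 0 := div_ne_zero hab0 (pow_ne_zero _ hs.1)
    have hsy : NonvanishingAt (q • L) s y := by
      have : y ∈ (U : Set X) := hy
      rw [hU] at this; exact this
    obtain ⟨e, he⟩ := mem_stalk_of_ord_nonneg_all y (a * b / s ^ j)⁻¹ (inv_ne_zero hne) (by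
      intro z hz hzy
      have h1 := hnv ⟨z, hz⟩ hzy
      have h2 := hsy ⟨z, hz⟩ hzy
      rw [ord_inv hne, ord_div hab0 (pow_ne_zero _ hs.1), ord_pow hs.1]
      have h3 : (j • (q • L)) ⟨z, hz⟩ = j * (q • L) ⟨z, hz⟩ := by
        rw [Finsupp.smul_apply j, nsmul_eq_mul]
      rw [h3] at h1
      have h4 : Scheme.ord s z = - (q • L) ⟨z, hz⟩ := by linarith
      rw [h4]
      linarith)
    refine IsUnit.of_mul_eq_one e ?_
    apply FaithfulSMul.algebraMap_injective (X.presheaf.stalk y) X.functionField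
    rw [map_mul, map_one, he, Scheme.algebraMap_germ_eq_germToFunctionField X hy]
    have hd' : X.germToFunctionField U d = a * b / s ^ j := hd
    rw [hd']
    exact mul_inv_cancel₀ hne

end Crest.Agent.R271.Br958
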