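import Mathlib

/-!
# Row 271, bridge: the function-field ("Zariski") model of a smooth projective variety with a line bundle

Everything that the algebra part of the bridge uses about the scheme `X` and the ample divisor `L` is
recorded in `XModel`.  Points `p` are seen through their local rings `O p ⊆ K` (`K` = function field),
affine opens through their coordinate rings `R ⊆ K` (`IsChart`), `p ∈ U_R` is `R ≤ O p`,
`q ∈ closure p` is `O q ≤ O p`, the line bundle is given by local generators `g p ∈ K`.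
-/

set_option autoImplicit false

noncomputable section

namespace Crest.Agent.R271.Br713

open scoped Classical

/-- `z` are etale coordinates on `B`: `B` is etale over the polynomial ring `ℂ[z]`. -/
def EtaleCoords {n : ℕ} (B : Type) [CommRing B] [Algebra ℂ B] (z : Fin n → B) : Prop :=
  (MvPolynomial.aeval z : MvPolynomial (Fin n) ℂ →ₐ[ℂ] B).toRingHom.Etale

section
variable {K : Type} [Field K] [Algebra ℂ K]

/-- `a ∈ K` is a unit of the subring `O`. -/
def IsUnitIn (O : Subalgebra ℂ K) (a : K) : Prop := a ≠ 0 ∧ a ∈ O ∧ a⁻¹ ∈ O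

/-- `R` is the coordinate ring of an affine open subset of the space of points:
finitely generated, with fraction field `K`, its primes correspond to the points `p` with `R ≤ O p`,
and `O p` is the localisation of `R` at the corresponding prime. -/
structure IsChart {Pt : Type} (O : Pt → Subalgebra ℂ K) (R : Subalgebra ℂ K) : Prop where
  fg : R.FG
  frac : ∀ a : K, ∃ b ∈ R, ∃ s ∈ R, s ≠ 0 ∧ a = b * s⁻¹
  loc : ∀ p, R ≤ O p → ∀ a ∈ O p, ∃ b ∈ R, ∃ s ∈ R, IsUnitIn (O p) s ∧ a = b * s⁻¹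
  pt : ∀ P : Ideal R, P.IsPrime → ∃ p, R ≤ O p ∧ ∀ b : R, b ∈ P ↔ ¬ IsUnitIn (O p) (b : K)

/-- The sections of `m L`, for the line bundle with local generators `g p`. -/
def SecCarrier {Pt : Type} (O : Pt → Subalgebra ℂ K) (g : Pt → K) (m : ℕ) : Set K :=
  {f | ∀ p, f * (g p ^ m)⁻¹ ∈ O p}

/-- The function-field model of a smooth projective variety of dimension `n` over `ℂ` with an ample
line bundle. -/
structure XModel (n : ℕ) (K : Type) [Field K] [Algebra ℂ K] where
  /-- points -/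
  Pt : Type
  /-- local rings inside the function field -/
  O : Pt → Subalgebra ℂ K
  /-- local generators of `L` -/
  g : Pt → K
  nonempty : Nonempty Pt
  inj : Function.Injective O
  isLocal : ∀ p, IsLocalRing (O p)
  noeth : ∀ p, IsNoetherianRing (O p)
  normal : ∀ p, IsIntegrallyClosed (O p)
  /-- a finite cover by affine charts -/
  cover : ∃ S : Finset (Subalgebra ℂ K), (∀ R ∈ S, IsChart O R) ∧ ∀ p, ∃ R ∈ S, R ≤ O p
  /-- properness: every valuation ring of the residue field at `η` containing `ℂ` has a centre in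
  the closure of `η`. -/
  centre : ∀ (η : Pt), letI := isLocal η
    ∀ A : ValuationSubring (IsLocalRing.ResidueField (O η)),
    (∀ c : ℂ, algebraMap ℂ (IsLocalRing.ResidueField (O η)) c ∈ A) →
    ∃ (q : Pt) (h : O q ≤ O η), ∀ a : O q,
      IsLocalRing.residue (O η) (Subalgebra.inclusion h a) ∈ A
  /-- smoothness: at a closed point (residue field `ℂ`) the maximal ideal is generated by `n`
  elements -/
  smooth : ∀ (p : Pt), letI := isLocal p
    (∀ a : O p, ∃ c : ℂ, a - algebraMap ℂ (O p) c ∈ IsLocalRing.maximalIdeal (O p)) →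
    ∃ z : Fin n → O p, Ideal.span (Set.range z) = IsLocalRing.maximalIdeal (O p)
  /-- ... and `n` elements generating it up to constants are etale coordinates on a small chart,
  obtained from a given chart by inverting one element -/
  etale : ∀ (p : Pt), letI := isLocal p
    (∀ a : O p, ∃ c : ℂ, a - algebraMap ℂ (O p) c ∈ IsLocalRing.maximalIdeal (O p)) →
    ∀ (z : Fin n → O p) (c : Fin n → ℂ),
    Ideal.span (Set.range fun i => z i - algebraMap ℂ (O p) (c i)) =
      IsLocalRing.maximalIdeal (O p) →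
    ∀ R : Subalgebra ℂ K, IsChart O R → R ≤ O p →
    ∃ h ∈ R, IsUnitIn (O p) h ∧ ∃ hz : ∀ i, (z i : K) ∈ Algebra.adjoin ℂ ((R : Set K) ∪ {h⁻¹}),
      EtaleCoords (Algebra.adjoin ℂ ((R : Set K) ∪ {h⁻¹})) (fun i => ⟨z i, hz i⟩)
  g_ne : ∀ p, g p ≠ 0
  /-- the generator at `p` generates `L` on a chart around `p` -/
  g_loc : ∀ p, ∃ R, IsChart O R ∧ R ≤ O p ∧ ∀ q, R ≤ O q → IsUnitIn (O q) (g p * (g q)⁻¹)
  /-- ampleness -/
  ample : ∀ p, ∃ q : ℕ, 0 < q ∧ ∃ s ∈ SecCarrier O g q, IsUnitIn (O p) (s * (g p ^ q)⁻¹) ∧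
    ∃ R, IsChart O R ∧ ∀ p', R ≤ O p' ↔ IsUnitIn (O p') (s * (g p' ^ q)⁻¹)

namespace XModel

variable {n : ℕ} (M : XModel n K)

instance (p : M.Pt) : IsLocalRing (M.O p) := M.isLocal p
instance (p : M.Pt) : IsNoetherianRing (M.O p) := M.noeth p
instance (p : M.Pt) : IsIntegrallyClosed (M.O p) := M.normal p

/-- the point `p` is closed (residue field `ℂ`) -/
def IsCl (p : M.Pt) : Prop :=
  ∀ a : M.O p, ∃ c : ℂ, a - algebraMap ℂ (M.O p) c ∈ IsLocalRing.maximalIdeal (M.O p)

/-- The space of sections of `m L`. -/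
def Sec (m : ℕ) : Submodule ℂ K where
  carrier := SecCarrier M.O M.g m
  zero_mem' := fun p => by simp [(M.O p).zero_mem]
  add_mem' := fun {a b} ha hb p => by
    rw [add_mul]; exact (M.O p).add_mem (ha p) (hb p)
  smul_mem' := fun c f hf p => by
    rw [Algebra.smul_mul_assoc]; exact (M.O p).smul_mem (hf p) c

/-- `f`, as a section of `m L`, does not vanish at `p`. -/
def NV (m : ℕ) (f : K) (p : M.Pt) : Prop := IsUnitIn (M.O p) (f * (M.g p ^ m)⁻¹)

end XModel

/-- The algebraic context around a point handed to the analytic part (hypotheses (C1)-(C5)). -/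
structure AlgCtx (n : ℕ) (B : Type) [CommRing B] [IsDomain B] [Algebra ℂ B]
    (z : Fin n → B) (V : ℕ → Submodule ℂ B) : Prop where
  fg : Algebra.FiniteType ℂ B
  etale : EtaleCoords B z
  fin : ∀ m, Module.Finite ℂ (V m)
  V0 : V 0 = Submodule.span ℂ {1}
  mul : ∀ m l, V m * V l ≤ V (m + l)
  /-- (C3) -/
  jets : ∀ e : ℕ, ∃ j0 : ℕ, ∀ j, j0 ≤ j → ∀ y : B →ₐ[ℂ] ℂ,
    V j ⊔ ((RingHom.ker y) ^ (e + 1)).restrictScalars ℂ = ⊤
  /-- (C4) -/
  ordle : ∃ C1 : ℕ, ∀ m, ∀ f ∈ V m, f ≠ 0 → ∀ (y : B →ₐ[ℂ] ℂ) (e : ℕ), C1 * m < e →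
    f ∉ (RingHom.ker y) ^ e
  /-- (C5), with the dimension of `V(P)` measured by the transcendence degree -/
  vol : ∀ (d : ℕ) (ε : ℝ), 0 < ε → ∃ j1 : ℕ, ∀ P : Ideal B, P.IsPrime →
    Algebra.trdeg ℂ (B ⧸ P) = d → ∀ j, j1 ≤ j →
    (1 - ε) * ((j : ℝ) ^ d / (Nat.factorial d)) ≤
      Module.finrank ℂ ((V j).map (Ideal.Quotient.mkₐ ℂ P).toLinearMap)

/-- The global data (G) on top of `AlgCtx`: sections `y₀,…,yₙ` of `kL` without common zeros with
`z_i = y_i / y_0`, and the ring `A` integral over `ℂ[z]` with `B = A[1/h]`. -/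
structure AlgGlob (n : ℕ) (B : Type) [CommRing B] [IsDomain B] [Algebra ℂ B]
    (z : Fin n → B) (V : ℕ → Submodule ℂ B) (k : ℕ) (y : Fin (n + 1) → B) : Prop where
  kpos : 0 < k
  mem : ∀ i, y i ∈ V k
  unit0 : IsUnit (y 0)
  succ : ∀ i : Fin n, y i.succ = z i * y 0
  integral : ∃ (A : Subalgebra ℂ B) (h : B), h ∈ A ∧ IsUnit h ∧
    (∀ a ∈ A, IsIntegral (MvPolynomial.aeval z : MvPolynomial (Fin n) ℂ →ₐ[ℂ] B).range a) ∧
    (∀ i, z i ∈ A) ∧ A.FG ∧ ∀ b : B, ∃ a ∈ A, ∃ r : ℕ, b * h ^ r = a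

/-- An etale chart of `X` with a generator of `L`, seen from `B ⊆ K`: the sections `y_j` divided by
`γ ^ k` are regular on it and have no common zero. -/
structure EtChart {n : ℕ} {B : Type} [CommRing B] [IsDomain B] [Algebra ℂ B] [Algebra B K]
    (k : ℕ) (y : Fin (n + 1) → B) (R : Subalgebra ℂ K) (w : Fin n → R) (γ : K) : Prop where
  fg : R.FG
  frac : ∀ a : K, ∃ b ∈ R, ∃ s ∈ R, s ≠ 0 ∧ a = b * s⁻¹
  etale : EtaleCoords R w
  ne : γ ≠ 0
  mem : ∀ j, algebraMap B K (y j) * (γ ^ k)⁻¹ ∈ R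
  gen : Ideal.span (Set.range fun j => (⟨algebraMap B K (y j) * (γ ^ k)⁻¹, mem j⟩ : R)) = ⊤

/-- THE MAIN ALGEBRAIC STATEMENT: what the analytic part has to prove and what the bridge uses. -/
def MainAlg (n : ℕ) : Prop :=
  ∀ (K B : Type) [Field K] [Algebra ℂ K] [CommRing B] [IsDomain B] [Algebra ℂ B] [Algebra B K]
    [IsScalarTower ℂ B K] [IsFractionRing B K]
    (z : Fin n → B) (V : ℕ → Submodule ℂ B) (k : ℕ) (y : Fin (n + 1) → B),
    AlgCtx n B z V → AlgGlob n B z V k y → ∀ (x : B →ₐ[ℂ] ℂ) (m : ℕ), n + 1 ≤ m →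
    ∃ F : B, x F = 1 ∧ ∀ (R : Subalgebra ℂ K) (w : Fin n → R) (γ : K),
      EtChart (B := B) k y R w γ → ∀ J : Matrix (Fin n) (Fin n) K,
      (∀ i, KaehlerDifferential.D ℂ K (algebraMap B K (z i)) =
        ∑ j, J i j • KaehlerDifferential.D ℂ K ((w j : R) : K)) →
      algebraMap B K F * (γ ^ m)⁻¹ * J.det ∈ R

end

end Crest.Agent.R271.Br713
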