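import Mathlib
import Crest.Agent.R271.BrModel_713

/-!
# Row 271, bridge: the work packages of the algebra side, as exact Lean statements

Every `def W.. : Prop` below is to be proved by its owner as `theorem w.. : W..` (in his own file and
namespace, under `Crest/Agent/R271/`).  You may use the other packages as hypotheses.
-/

set_option autoImplicit false

noncomputable section

namespace Crest.Agent.R271.Br713

open scoped Classical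

/-- `R[1/h]` inside `K`. -/
def locAt {K : Type} [Field K] [Algebra ℂ K] (R : Subalgebra ℂ K) (h : K) : Subalgebra ℂ K :=
  Algebra.adjoin ℂ ((R : Set K) ∪ {h⁻¹})

namespace XModel
variable {n : ℕ} {K : Type} [Field K] [Algebra ℂ K] (M : XModel n K)

/-- the residue field at `p` -/
abbrev κ (p : M.Pt) : Type := IsLocalRing.ResidueField (M.O p)

/-- value at `p` of an element of `K` (`0` if not regular at `p`) -/
def ev (p : M.Pt) (a : K) : M.κ p :=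
  if h : a ∈ M.O p then IsLocalRing.residue (M.O p) ⟨a, h⟩ else 0

/-- the prime of the chart `R` at `p` (meaningful for `R ≤ O p`) -/
def primeAt (R : Subalgebra ℂ K) (p : M.Pt) : Set R := {b | ¬ IsUnitIn (M.O p) (b : K)}

/-- `z₁..zₙ ∈ K` are local coordinates at the closed point `p`. -/
def IsCoord (p : M.Pt) (z : Fin n → K) : Prop :=
  ∃ (hz : ∀ i, z i ∈ M.O p) (c : Fin n → ℂ),
    Ideal.span (Set.range fun i => (⟨z i, hz i⟩ : M.O p) - algebraMap ℂ (M.O p) (c i)) =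
      IsLocalRing.maximalIdeal (M.O p)

end XModel

/-! ### W1: points and charts -/

/-- W1a: localising a chart. -/
def W1a : Prop := ∀ (n : ℕ) (K : Type) [Field K] [Algebra ℂ K] (M : XModel n K)
  (R : Subalgebra ℂ K) (h : K), IsChart M.O R → h ∈ R → h ≠ 0 →
  IsChart M.O (locAt R h) ∧
    (∀ p, locAt R h ≤ M.O p ↔ R ≤ M.O p ∧ IsUnitIn (M.O p) h) ∧
    (∀ a, a ∈ locAt R h ↔ ∃ b ∈ R, ∃ r : ℕ, a * h ^ r = b)

/-- W1b: points of a chart are its primes; specialisation is inclusion. -/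
def W1b : Prop := ∀ (n : ℕ) (K : Type) [Field K] [Algebra ℂ K] (M : XModel n K)
  (R : Subalgebra ℂ K), IsChart M.O R →
  (∀ p, R ≤ M.O p → ∃ P : Ideal R, P.IsPrime ∧ ∀ b : R, b ∈ P ↔ ¬ IsUnitIn (M.O p) (b : K)) ∧
  (∀ p q, R ≤ M.O p → R ≤ M.O q →
    (M.O q ≤ M.O p ↔ ∀ b ∈ R, IsUnitIn (M.O q) b → IsUnitIn (M.O p) b)) ∧
  (∀ p q, M.O q ≤ M.O p → R ≤ M.O q → R ≤ M.O p)

/-- W1c: a chart ring is the intersection of its local rings. -/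
def W1c : Prop := ∀ (n : ℕ) (K : Type) [Field K] [Algebra ℂ K] (M : XModel n K)
  (R : Subalgebra ℂ K), IsChart M.O R → ∀ a : K, (∀ p, R ≤ M.O p → a ∈ M.O p) → a ∈ R

/-- W1d: closed points. -/
def W1d : Prop := ∀ (n : ℕ) (K : Type) [Field K] [Algebra ℂ K] (M : XModel n K),
  (∀ p q, M.IsCl q → M.O p ≤ M.O q → p = q) ∧
  (∀ (R : Subalgebra ℂ K) (p : M.Pt), IsChart M.O R → R ≤ M.O p →
    ∃ q, M.IsCl q ∧ R ≤ M.O q ∧ M.O q ≤ M.O p) ∧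
  (∀ (R : Subalgebra ℂ K), IsChart M.O R → ∀ y : R →ₐ[ℂ] ℂ,
    ∃ q, M.IsCl q ∧ R ≤ M.O q ∧ ∀ b : R, IsUnitIn (M.O q) (b : K) ↔ y b ≠ 0) ∧
  (∀ (R : Subalgebra ℂ K) (q : M.Pt), IsChart M.O R → R ≤ M.O q → M.IsCl q →
    ∃ y : R →ₐ[ℂ] ℂ, ∀ b : R, IsUnitIn (M.O q) (b : K) ↔ y b ≠ 0)

/-- W1f: transcendence degrees of residue fields drop under specialisation. -/
def W1f : Prop := ∀ (n : ℕ) (K : Type) [Field K] [Algebra ℂ K] (M : XModel n K),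
  (∀ p q, M.O q ≤ M.O p → q ≠ p → Algebra.trdeg ℂ (M.κ q) < Algebra.trdeg ℂ (M.κ p)) ∧
  (∀ p, ∃ d : ℕ, d ≤ n ∧ Algebra.trdeg ℂ (M.κ p) = d) ∧
  Algebra.trdeg ℂ K = n ∧
  (∃ p, M.O p = ⊤)

/-! ### W2: sections -/

/-- W2b: clearing poles along the complement of `X_s`. -/
def W2b : Prop := ∀ (n : ℕ) (K : Type) [Field K] [Algebra ℂ K] (M : XModel n K)
  (q m : ℕ) (s a : K), 0 < q → s ∈ M.Sec q → s ≠ 0 →
  (∀ p, M.NV q s p → a * (M.g p ^ m)⁻¹ ∈ M.O p) →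
  ∃ j0 : ℕ, ∀ j, j0 ≤ j → a * s ^ j ∈ M.Sec (m + q * j)

/-- W2c: `H⁰(X, O) = ℂ` and sections multiply. -/
def W2c : Prop := ∀ (n : ℕ) (K : Type) [Field K] [Algebra ℂ K] (M : XModel n K),
  M.Sec 0 = Submodule.span ℂ {1} ∧ ∀ a b, M.Sec a * M.Sec b ≤ M.Sec (a + b)

/-! ### W3: `kL` is globally generated and separates jets -/

/-- W3a -/
def W3a : Prop := ∀ (n : ℕ) (K : Type) [Field K] [Algebra ℂ K] (M : XModel n K),
  ∃ k0 : ℕ, ∀ k, k0 ≤ k → ∀ p, ∃ s ∈ M.Sec k, M.NV k s p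

/-- W3b -/
def W3b : Prop := ∀ (n : ℕ) (K : Type) [Field K] [Algebra ℂ K] (M : XModel n K) (p : M.Pt),
  M.IsCl p → ∀ e : ℕ, ∃ k0 : ℕ, ∀ k, k0 ≤ k → ∀ a : M.O p, ∃ s ∈ M.Sec k,
    ∃ hs : s * (M.g p ^ k)⁻¹ ∈ M.O p,
      (⟨s * (M.g p ^ k)⁻¹, hs⟩ : M.O p) - a ∈ IsLocalRing.maximalIdeal (M.O p) ^ (e + 1)

/-! ### W4: general sections without common zeros (avoid finitely many proper subspaces) -/

/-- W4a: on the closure of `η`, of dimension `d`, inside any space `W` of sections of `kL` without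
common zeros there, the first one prescribed. -/
def W4a : Prop := ∀ (n : ℕ) (K : Type) [Field K] [Algebra ℂ K] (M : XModel n K)
  (k d : ℕ) (η : M.Pt) (W : Submodule ℂ K) (s0 : K),
  Algebra.trdeg ℂ (M.κ η) = d → W ≤ M.Sec k →
  (∀ q, M.O q ≤ M.O η → ∃ s ∈ W, M.NV k s q) → s0 ∈ W → M.NV k s0 η →
  ∃ τ : Fin (d + 1) → K, τ 0 = s0 ∧ (∀ i, τ i ∈ W) ∧
    ∀ q, M.O q ≤ M.O η → ∃ i, M.NV k (τ i) q

/-- W4b: coordinates at the closed point `x` given by sections of `kL` without common zeros. -/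
def W4b : Prop := ∀ (n : ℕ) (K : Type) [Field K] [Algebra ℂ K] (M : XModel n K) (x : M.Pt),
  M.IsCl x → ∃ k0 : ℕ, ∀ k, k0 ≤ k →
  ∃ y : Fin (n + 1) → K, (∀ i, y i ∈ M.Sec k) ∧ (∀ q, ∃ i, M.NV k (y i) q) ∧ M.NV k (y 0) x ∧
    M.IsCoord x (fun i : Fin n => y i.succ * (y 0)⁻¹)

/-! ### W5: integrality from properness -/

/-- W5: if `τ₀,…,τ_d ∈ H⁰(kL)` have no common zero on the closure of `η` and `τ₀` does not vanish at
`η`, then for `f ∈ H⁰(mL)` the value at `η` of `f^k / τ₀^m` is integral over the algebra generated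
by the values of `τ_j / τ₀`. -/
def W5 : Prop := ∀ (n : ℕ) (K : Type) [Field K] [Algebra ℂ K] (M : XModel n K)
  (k d m : ℕ) (η : M.Pt) (τ : Fin (d + 1) → K) (i0 : Fin (d + 1)) (f : K), 0 < k →
  (∀ i, τ i ∈ M.Sec k) → (∀ q, M.O q ≤ M.O η → ∃ i, M.NV k (τ i) q) → M.NV k (τ i0) η →
  f ∈ M.Sec m →
  f ^ k * (τ i0 ^ m)⁻¹ ∈ M.O η ∧ (∀ i, τ i * (τ i0)⁻¹ ∈ M.O η) ∧
  IsIntegral (Algebra.adjoin ℂ (Set.range fun i => M.ev η (τ i * (τ i0)⁻¹)))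
    (M.ev η (f ^ k * (τ i0 ^ m)⁻¹))

/-! ### W6: the affine open set `y₀ ≠ 0` -/

/-- W6: if `y₀,…,y_N ∈ H⁰(kL)` have no common zero, then `{y₀ ≠ 0}` is a chart `A`, integral over
`ℂ[y_j/y₀]`. -/
def W6 : Prop := ∀ (n : ℕ) (K : Type) [Field K] [Algebra ℂ K] (M : XModel n K)
  (N k : ℕ) (y : Fin (N + 1) → K), 0 < k → (∀ i, y i ∈ M.Sec k) → (∀ q, ∃ i, M.NV k (y i) q) →
  y 0 ≠ 0 →
  ∃ A : Subalgebra ℂ K, IsChart M.O A ∧ (∀ q, A ≤ M.O q ↔ M.NV k (y 0) q) ∧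
    (∀ i, y i * (y 0)⁻¹ ∈ A) ∧
    ∀ a ∈ A, IsIntegral (Algebra.adjoin ℂ (Set.range fun i => y i * (y 0)⁻¹)) a

/-! ### The chart `B` at `x` and W7, W8, W9 -/

/-- The sections of `mL` in the trivialisation `γ`, as a subspace of `B ≤ K`. -/
def XModel.V {n : ℕ} {K : Type} [Field K] [Algebra ℂ K] (M : XModel n K)
    (B : Subalgebra ℂ K) (γ : K) (m : ℕ) : Submodule ℂ B where
  carrier := {b | (b : K) * γ ^ m ∈ M.Sec m}
  zero_mem' := by simp [(M.Sec m).zero_mem]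
  add_mem' := fun {a b} ha hb => by
    simp only [Set.mem_ofPred_eq, Subalgebra.coe_add, add_mul] at *
    exact (M.Sec m).add_mem ha hb
  smul_mem' := fun c f hf => by
    simp only [Set.mem_ofPred_eq, Subalgebra.coe_smul, Algebra.smul_mul_assoc] at *
    exact (M.Sec m).smul_mem c hf

/-- The situation around `x`: `y₀..yₙ ∈ H⁰(kL)` without common zeros, `A = O({y₀ ≠ 0})`,
`B = A[1/h]` a chart on which `γ` generates `L` and `z_i = y_i/y₀` are etale coordinates. -/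
structure BData {n : ℕ} {K : Type} [Field K] [Algebra ℂ K] (M : XModel n K)
    (k : ℕ) (y : Fin (n + 1) → K) (A B : Subalgebra ℂ K) (h γ : K) (z : Fin n → B) : Prop where
  kpos : 0 < k
  mem : ∀ i, y i ∈ M.Sec k
  nocz : ∀ q, ∃ i, M.NV k (y i) q
  y0 : y 0 ≠ 0
  chartA : IsChart M.O A
  ptA : ∀ q, A ≤ M.O q ↔ M.NV k (y 0) q
  intA : ∀ a ∈ A, IsIntegral (Algebra.adjoin ℂ (Set.range fun i => y i * (y 0)⁻¹)) a
  hA : h ∈ A
  h0 : h ≠ 0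
  B_eq : B = locAt A h
  gen : ∀ q, B ≤ M.O q → IsUnitIn (M.O q) (γ * (M.g q)⁻¹)
  gne : γ ≠ 0
  z_eq : ∀ i : Fin n, (z i : K) = y i.succ * (y 0)⁻¹
  etale : EtaleCoords B z

/-- W7 = (C3). -/
def W7 : Prop := ∀ (n : ℕ) (K : Type) [Field K] [Algebra ℂ K] (M : XModel n K)
  (k : ℕ) (y : Fin (n + 1) → K) (A B : Subalgebra ℂ K) (h γ : K) (z : Fin n → B),
  BData M k y A B h γ z →
  ∀ e : ℕ, ∃ j0 : ℕ, ∀ j, j0 ≤ j → ∀ y : B →ₐ[ℂ] ℂ,
    M.V B γ j ⊔ ((RingHom.ker y) ^ (e + 1)).restrictScalars ℂ = ⊤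

/-- W8 = (C4) and finiteness. -/
def W8 : Prop := ∀ (n : ℕ) (K : Type) [Field K] [Algebra ℂ K] (M : XModel n K)
  (k : ℕ) (y : Fin (n + 1) → K) (A B : Subalgebra ℂ K) (h γ : K) (z : Fin n → B),
  BData M k y A B h γ z →
  (∃ C1 : ℕ, ∀ m, ∀ f ∈ M.V B γ m, f ≠ 0 → ∀ (y : B →ₐ[ℂ] ℂ) (e : ℕ), C1 * m < e →
    f ∉ (RingHom.ker y) ^ e) ∧ ∀ m, Module.Finite ℂ (M.V B γ m)

/-- W9 = (C5). -/
def W9 : Prop := ∀ (n : ℕ) (K : Type) [Field K] [Algebra ℂ K] (M : XModel n K)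
  (k : ℕ) (y : Fin (n + 1) → K) (A B : Subalgebra ℂ K) (h γ : K) (z : Fin n → B),
  BData M k y A B h γ z →
  ∀ (d : ℕ) (ε : ℝ), 0 < ε → ∃ j1 : ℕ, ∀ P : Ideal B, P.IsPrime →
    Algebra.trdeg ℂ (B ⧸ P) = d → ∀ j, j1 ≤ j →
    (1 - ε) * ((j : ℝ) ^ d / (Nat.factorial d)) ≤
      Module.finrank ℂ ((M.V B γ j).map (Ideal.Quotient.mkₐ ℂ P).toLinearMap)

/-- W10: existence of the data around a closed point. -/
def W10 : Prop := ∀ (n : ℕ) (K : Type) [Field K] [Algebra ℂ K] (M : XModel n K) (x : M.Pt),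
  M.IsCl x → ∃ (k : ℕ) (y : Fin (n + 1) → K) (A B : Subalgebra ℂ K) (h : K) (z : Fin n → B),
    BData M k y A B h (M.g x) z ∧ B ≤ M.O x

/-- W11: the conclusion of the algebra side, from `MainAlg`. -/
def W11 : Prop := ∀ (n : ℕ) (K : Type) [Field K] [Algebra ℂ K] (M : XModel n K),
  MainAlg n → ∀ x, M.IsCl x → ∀ m, n + 1 ≤ m →
  ∃ (F : K) (z : Fin n → K), IsUnitIn (M.O x) F ∧ M.IsCoord x z ∧
    ∀ q, M.IsCl q → ∀ w : Fin n → K, M.IsCoord q w → ∀ J : Matrix (Fin n) (Fin n) K,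
      (∀ i, KaehlerDifferential.D ℂ K (z i) =
        ∑ j, J i j • KaehlerDifferential.D ℂ K (w j)) →
      F * (M.g x * (M.g q)⁻¹) ^ m * J.det ∈ M.O q

end Crest.Agent.R271.Br713
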