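import Crest.Agent.R271.Ctx0_728

/-!
Row 271, team B (helper728): exact targets for the fields `jets`, `growth`, `ordbd`, `FSbd` of `FCtx`.
-/

set_option autoImplicit false

open scoped BigOperators
open Crest.Agent.R271.Defs710

noncomputable section

namespace Crest.Agent.R271.Ctx728

/-- The section ring of an ample divisor, trivialised on `Spec B` (same as helper756's `GSec`). -/
structure GSec (B : Type) [CommRing B] [IsDomain B] [Algebra ℂ B] (V : ℕ → Submodule ℂ B)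
    (k₀ : ℕ) : Prop where
  zero : V 0 = 1
  mul : ∀ m l a b, a ∈ V m → b ∈ V l → a * b ∈ V (m + l)
  fin : ∀ m, FiniteDimensional ℂ (V m)
  bpf : ∀ m, k₀ ≤ m → ∀ P : Ideal B, P.IsPrime → ∃ f ∈ V m, f ∉ P
  gen : ∃ (Q : ℕ) (S : Finset B), Algebra.adjoin ℂ (S : Set B) = ⊤ ∧
    ∀ b ∈ S, ∃ g ∈ V Q, IsUnit g ∧ b * g ∈ V Q
  int : ∀ k, k₀ ≤ k → ∀ q, ∀ f ∈ V (q * k), GInt (V k) q f

/-- (C3) [helper171] -/
def JetsProp : Prop :=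
  ∀ (B : Type) [CommRing B] [IsDomain B] [Algebra ℂ B] (V : ℕ → Submodule ℂ B) (k₀ : ℕ),
    GSec B V k₀ → ∀ e : ℕ, ∃ j₀ : ℕ, ∀ j, j₀ ≤ j → ∀ (y : B →ₐ[ℂ] ℂ) (b : B),
      ∃ f ∈ V j, f - b ∈ mI y ^ (e + 1)

/-- (C5) [helper756, helper661] -/
def GrowthProp : Prop :=
  ∀ (B : Type) [CommRing B] [IsDomain B] [Algebra ℂ B] (V : ℕ → Submodule ℂ B) (k₀ : ℕ),
    GSec B V k₀ → ∀ (d : ℕ) (ε : ℝ), 0 < ε → ∃ j₁ : ℕ, ∀ P : Ideal B, P.IsPrime →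
    ringKrullDim (B ⧸ P) = d → ∀ j, j₁ ≤ j →
      (1 - ε) * (j : ℝ) ^ d / (d.factorial : ℝ) ≤
        (Module.finrank ℂ ((V j).map (Ideal.Quotient.mkₐ ℂ P).toLinearMap) : ℝ)

/-- graded integrality over the polynomial ring (helper54's (GI)) -/
def GIY {B : Type} [CommRing B] [Algebra ℂ B] {n : ℕ} (Y : Fin (n + 1) → B)
    (V : ℕ → Submodule ℂ B) (k : ℕ) : Prop :=
  ∀ m, ∀ f ∈ V (m * k), ∃ r : ℕ, 1 ≤ r ∧ ∃ p : ℕ → MvPolynomial (Fin (n + 1)) ℂ,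
    (∀ i, (p i).IsHomogeneous (m * i)) ∧
      f ^ r = ∑ i ∈ Finset.range r, MvPolynomial.aeval Y (p (r - i)) * f ^ i

/-- (C4) and the Fubini–Study bound [helper54] -/
def OrdFSProp : Prop :=
  ∀ (n : ℕ) (B : Type) [CommRing B] [IsDomain B] [Algebra ℂ B] (V : ℕ → Submodule ℂ B)
    (z : Fin n → B) (k : ℕ) (Y : Fin (n + 1) → B), 1 ≤ n → Algebra.FiniteType ℂ B →
    RingHom.Etale ((MvPolynomial.aeval z : MvPolynomial (Fin n) ℂ →ₐ[ℂ] B) :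
      MvPolynomial (Fin n) ℂ →+* B) →
    V 0 = 1 → (∀ m l a b, a ∈ V m → b ∈ V l → a * b ∈ V (m + l)) →
    (∀ m, FiniteDimensional ℂ (V m)) → 1 ≤ k → (∀ j, Y j ∈ V k) → IsUnit (Y 0) →
    (∀ i : Fin n, z i * Y 0 = Y i.succ) → GIY Y V k →
    (∃ C₁ : ℕ, ∀ m, ∀ f ∈ V m, f ≠ 0 → ∀ (y : B →ₐ[ℂ] ℂ) (e : ℕ), f ∈ mI y ^ e → e ≤ C₁ * m) ∧
    ∀ m, ∀ f ∈ V m, ∃ C : ℝ, ∀ y : B →ₐ[ℂ] ℂ, ‖y f‖ ^ (2 * k) ≤ C * (∑ j, ‖y (Y j)‖ ^ 2) ^ m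

end Crest.Agent.R271.Ctx728
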