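import Mathlib
import Crest.Prelude.Def_SmoothDivisors

set_option autoImplicit false

open AlgebraicGeometry Crest.AlgGeometry.Divisors Order CategoryTheory

noncomputable section

namespace Crest.Agent.R271.Bs960

variable (X : Scheme.{0}) [Algebra ℂ Γ(X, ⊤)]

/-- the `ℂ`-algebra structure on sections over an open set -/
@[reducible] def secAlg (V : X.Opens) : Algebra ℂ Γ(X, V) :=
  ((X.presheaf.map (homOfLE (le_top : V ≤ ⊤)).op).hom.comp (algebraMap ℂ Γ(X, ⊤))).toAlgebra

lemma structure_appTop :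
    (Scheme.ΓSpecIso (CommRingCat.of ℂ)).inv ≫ (structureMorphism ℂ X).appTop =
      CommRingCat.ofHom (algebraMap ℂ Γ(X, ⊤)) := by
  unfold structureMorphism
  rw [Scheme.Hom.comp_appTop, Scheme.toSpecΓ_appTop, ← Category.assoc,
    ← Scheme.ΓSpecIso_inv_naturality, Category.assoc, Iso.inv_hom_id, Category.comp_id]

lemma structure_appLE (V : X.Opens) (e : V ≤ (structureMorphism ℂ X) ⁻¹ᵁ ⊤) :
    (Scheme.ΓSpecIso (CommRingCat.of ℂ)).inv ≫ (structureMorphism ℂ X).appLE ⊤ V e =
      CommRingCat.ofHom (algebraMap ℂ Γ(X, ⊤)) ≫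
        X.presheaf.map (homOfLE (le_top : V ≤ ⊤)).op := by
  rw [← structure_appTop, Category.assoc]
  rfl

variable {X}

lemma exists_etale_chart {n : ℕ} (hX : IsSmoothProperVariety ℂ X n) (x : X) :
    ∃ V : X.Opens, IsAffineOpen V ∧ x ∈ V ∧ ∃ w : Fin n → Γ(X, V),
      letI := secAlg X V
      RingHom.Etale ((MvPolynomial.aeval w : MvPolynomial (Fin n) ℂ →ₐ[ℂ] Γ(X, V)) :
        MvPolynomial (Fin n) ℂ →+* Γ(X, V)) := by
  have hs := hX.2.2
  obtain ⟨U, hU, V, hV, hxV, e, h⟩ :=
    hs.exists_isStandardSmoothOfRelativeDimension x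
  have hUt : U = ⊤ := by
    have hsub : ∀ a b : Spec (CommRingCat.of ℂ), a = b := fun a b =>
      (inferInstance : Subsingleton (PrimeSpectrum ℂ)).elim a b
    ext a
    simp only [TopologicalSpace.Opens.coe_top, Set.mem_univ, iff_true]
    rw [hsub a ((structureMorphism ℂ X) x)]
    exact e hxV
  subst hUt
  refine ⟨V, hV, hxV, ?_⟩
  letI := secAlg X V
  have h2 : (algebraMap ℂ Γ(X, V)).IsStandardSmoothOfRelativeDimension n := by
    have h3 := congrArg CommRingCat.Hom.hom (structure_appLE X V e)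
    rw [CommRingCat.hom_comp, CommRingCat.hom_comp] at h3
    have h4 : (algebraMap ℂ Γ(X, V)) =
      ((structureMorphism ℂ X).appLE ⊤ V e).hom.comp
        (Scheme.ΓSpecIso (CommRingCat.of ℂ)).inv.hom := h3.symm
    rw [h4]
    exact RingHom.isStandardSmoothOfRelativeDimension_respectsIso.right _
      ((Scheme.ΓSpecIso (CommRingCat.of ℂ)).symm.commRingCatIsoToRingEquiv) h
  obtain ⟨g, hg1, hg2⟩ := h2.exists_etale_mvPolynomial
  refine ⟨fun i => g (MvPolynomial.X i), ?_⟩
  have : ((MvPolynomial.aeval (fun i => g (MvPolynomial.X i)) :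
      MvPolynomial (Fin n) ℂ →ₐ[ℂ] Γ(X, V)) : MvPolynomial (Fin n) ℂ →+* Γ(X, V)) = g := by
    apply MvPolynomial.ringHom_ext
    · intro r
      have := congrArg (fun f => f r) hg1
      simpa using this.symm
    · intro i
      simp
  rw [this]
  exact hg2

end Crest.Agent.R271.Bs960
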