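import Mathlib
import Crest.Agent.R271.Et_960

set_option autoImplicit false
set_option linter.style.haveILetI false

open KaehlerDifferential TensorProduct AlgebraicGeometry Crest.AlgGeometry.Divisors Order
  CategoryTheory

noncomputable section

namespace Crest.Agent.R271.Bs960

/-- étale coordinates (in the formal sense) -/
def FECoord {n : ℕ} {S : Type} [CommRing S] [Algebra ℂ S] (w : Fin n → S) : Prop :=
  RingHom.FormallyEtale ((MvPolynomial.aeval w : MvPolynomial (Fin n) ℂ →ₐ[ℂ] S) :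
      MvPolynomial (Fin n) ℂ →+* S)

/-- étale coordinates -/
def ECoord {n : ℕ} {S : Type} [CommRing S] [Algebra ℂ S] (w : Fin n → S) : Prop :=
  RingHom.Etale ((MvPolynomial.aeval w : MvPolynomial (Fin n) ℂ →ₐ[ℂ] S) :
      MvPolynomial (Fin n) ℂ →+* S)

theorem ECoord.fe {n : ℕ} {S : Type} [CommRing S] [Algebra ℂ S] {w : Fin n → S}
    (h : ECoord w) : FECoord w := by
  letI : Algebra (MvPolynomial (Fin n) ℂ) S :=
    ((MvPolynomial.aeval w : MvPolynomial (Fin n) ℂ →ₐ[ℂ] S) :
      MvPolynomial (Fin n) ℂ →+* S).toAlgebra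
  have h2 : Algebra.Etale (MvPolynomial (Fin n) ℂ) S := h
  exact h2.formallyEtale

/-- étale coordinates give a basis of the Kähler differentials -/
theorem exists_basis_of_formallyEtale {n : ℕ} {S : Type} [CommRing S] [Algebra ℂ S]
    (w : Fin n → S) (h : FECoord w) :
    ∃ b : Module.Basis (Fin n) S (Ω[S⁄ℂ]), ∀ i, b i = KaehlerDifferential.D ℂ S (w i) := by
  letI : Algebra (MvPolynomial (Fin n) ℂ) S :=
    ((MvPolynomial.aeval w : MvPolynomial (Fin n) ℂ →ₐ[ℂ] S) :
      MvPolynomial (Fin n) ℂ →+* S).toAlgebra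
  have : IsScalarTower ℂ (MvPolynomial (Fin n) ℂ) S :=
    IsScalarTower.of_algebraMap_eq fun r => by
      rw [RingHom.algebraMap_toAlgebra]
      simp
  have h2 : Algebra.FormallyEtale (MvPolynomial (Fin n) ℂ) S := h
  let b0 := (mvPolynomialBasis ℂ (Fin n)).baseChange S
  refine ⟨b0.map (KaehlerDifferential.tensorKaehlerEquivOfFormallyEtale ℂ
    (MvPolynomial (Fin n) ℂ) S), fun i => ?_⟩
  rw [Module.Basis.map_apply, Module.Basis.baseChange_apply, mvPolynomialBasis_apply,
    tensorKaehlerEquivOfFormallyEtale_apply, mapBaseChange_tmul]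
  simp [RingHom.algebraMap_toAlgebra]

/-- composition with a formally étale map -/
theorem FECoord.comp {n : ℕ} {S T : Type} [CommRing S] [Algebra ℂ S] [CommRing T] [Algebra ℂ T]
    [Algebra S T] [IsScalarTower ℂ S T] [Algebra.FormallyEtale S T] {w : Fin n → S}
    (h : FECoord w) : FECoord (fun i => algebraMap S T (w i)) := by
  letI : Algebra (MvPolynomial (Fin n) ℂ) S :=
    ((MvPolynomial.aeval w : MvPolynomial (Fin n) ℂ →ₐ[ℂ] S) :
      MvPolynomial (Fin n) ℂ →+* S).toAlgebra
  letI : Algebra (MvPolynomial (Fin n) ℂ) T :=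
    ((MvPolynomial.aeval (fun i => algebraMap S T (w i)) : MvPolynomial (Fin n) ℂ →ₐ[ℂ] T) :
      MvPolynomial (Fin n) ℂ →+* T).toAlgebra
  have h2 : Algebra.FormallyEtale (MvPolynomial (Fin n) ℂ) S := h
  have : IsScalarTower (MvPolynomial (Fin n) ℂ) S T := IsScalarTower.of_algebraMap_eq' (by
    rw [RingHom.algebraMap_toAlgebra, RingHom.algebraMap_toAlgebra]
    apply MvPolynomial.ringHom_ext
    · intro r
      simp [← IsScalarTower.algebraMap_apply ℂ S T]
    · intro i
      simp)
  exact Algebra.FormallyEtale.comp (MvPolynomial (Fin n) ℂ) S T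

theorem FECoord.loc {n : ℕ} {S T : Type} [CommRing S] [Algebra ℂ S] [CommRing T] [Algebra ℂ T]
    [Algebra S T] [IsScalarTower ℂ S T] (M : Submonoid S) [IsLocalization M T] {w : Fin n → S}
    (h : FECoord w) : FECoord (fun i => algebraMap S T (w i)) := by
  have := Algebra.FormallyEtale.of_isLocalization (Rₘ := T) M
  exact h.comp

/-- composition of étale coordinates with a localisation at an element -/
theorem ECoord.away {n : ℕ} {S T : Type} [CommRing S] [Algebra ℂ S] [CommRing T] [Algebra ℂ T]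
    [Algebra S T] [IsScalarTower ℂ S T] (r : S) [IsLocalization.Away r T] {w : Fin n → S}
    (h : ECoord w) : ECoord (fun i => algebraMap S T (w i)) := by
  letI : Algebra (MvPolynomial (Fin n) ℂ) S :=
    ((MvPolynomial.aeval w : MvPolynomial (Fin n) ℂ →ₐ[ℂ] S) :
      MvPolynomial (Fin n) ℂ →+* S).toAlgebra
  letI : Algebra (MvPolynomial (Fin n) ℂ) T :=
    ((MvPolynomial.aeval (fun i => algebraMap S T (w i)) : MvPolynomial (Fin n) ℂ →ₐ[ℂ] T) :
      MvPolynomial (Fin n) ℂ →+* T).toAlgebra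
  have h2 : Algebra.Etale (MvPolynomial (Fin n) ℂ) S := h
  have : IsScalarTower (MvPolynomial (Fin n) ℂ) S T := IsScalarTower.of_algebraMap_eq' (by
    rw [RingHom.algebraMap_toAlgebra, RingHom.algebraMap_toAlgebra]
    apply MvPolynomial.ringHom_ext
    · intro r
      simp [← IsScalarTower.algebraMap_apply ℂ S T]
    · intro i
      simp)
  have := Algebra.Etale.of_isLocalizationAway (A := T) r
  exact Algebra.Etale.comp (MvPolynomial (Fin n) ℂ) S T

section scheme

variable (X : Scheme.{0}) [Algebra ℂ Γ(X, ⊤)]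

lemma tower_sec_stalk (V : X.Opens) (z : X) (hz : z ∈ V) :
    letI := secAlg X V
    letI := stalkAlgebra ℂ X z
    letI : Algebra Γ(X, V) (X.presheaf.stalk z) := (X.presheaf.germ V z hz).hom.toAlgebra
    IsScalarTower ℂ Γ(X, V) (X.presheaf.stalk z) := by
  letI := secAlg X V
  letI := stalkAlgebra ℂ X z
  letI : Algebra Γ(X, V) (X.presheaf.stalk z) := (X.presheaf.germ V z hz).hom.toAlgebra
  refine IsScalarTower.of_algebraMap_eq' ?_
  change (X.presheaf.germ ⊤ z trivial).hom.comp (algebraMap ℂ Γ(X, ⊤)) =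
    (X.presheaf.germ V z hz).hom.comp
      ((X.presheaf.map (homOfLE (le_top : V ≤ ⊤)).op).hom.comp (algebraMap ℂ Γ(X, ⊤)))
  rw [← RingHom.comp_assoc, ← CommRingCat.hom_comp, X.presheaf.germ_res]

lemma tower_stalk_fn [IrreducibleSpace X] (z : X) :
    letI := fnFieldAlgebra ℂ X
    letI := stalkAlgebra ℂ X z
    IsScalarTower ℂ (X.presheaf.stalk z) X.functionField := by
  letI := fnFieldAlgebra ℂ X
  letI := stalkAlgebra ℂ X z
  refine IsScalarTower.of_algebraMap_eq' ?_
  have h := X.presheaf.germ_stalkSpecializes (U := ⊤) (y := z) (x := genericPoint X) trivial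
    ((genericPoint_spec X).specializes trivial)
  have h2 := congrArg (fun f => (CommRingCat.Hom.hom f).comp (algebraMap ℂ Γ(X, ⊤))) h
  exact h2.symm

lemma tower_sec_fn [IrreducibleSpace X] (V : X.Opens) [Nonempty V] :
    letI := fnFieldAlgebra ℂ X
    letI := secAlg X V
    IsScalarTower ℂ Γ(X, V) X.functionField := by
  letI := fnFieldAlgebra ℂ X
  letI := secAlg X V
  refine IsScalarTower.of_algebraMap_eq' ?_
  change (X.presheaf.germ ⊤ (genericPoint X) trivial).hom.comp (algebraMap ℂ Γ(X, ⊤)) =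
    (X.presheaf.germ V _ _).hom.comp
      ((X.presheaf.map (homOfLE (le_top : V ≤ ⊤)).op).hom.comp (algebraMap ℂ Γ(X, ⊤)))
  rw [← RingHom.comp_assoc, ← CommRingCat.hom_comp, X.presheaf.germ_res]

/-- étale coordinates on an affine open set give a local frame at each of its points -/
theorem frame_of_etale [IsIntegral X] {n : ℕ} {V : X.Opens} (hV : IsAffineOpen V) [Nonempty V]
    (w : Fin n → Γ(X, V)) (hw : letI := secAlg X V; FECoord w) :
    letI := fnFieldAlgebra ℂ X
    ∃ b : Module.Basis (Fin n) X.functionField (Ω[X.functionField⁄ℂ]),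
      (∀ i, b i = KaehlerDifferential.D ℂ X.functionField (X.germToFunctionField V (w i))) ∧
      ∀ z ∈ V, IsLocalFrameAt ℂ X z ⇑b := by
  letI := fnFieldAlgebra ℂ X
  letI := secAlg X V
  have ht := tower_sec_fn X V
  have hfr := functionField_isFractionRing_of_isAffineOpen X V hV
  have h1 : FECoord (fun i => algebraMap Γ(X, V) X.functionField (w i)) :=
    hw.loc (nonZeroDivisors Γ(X, V))
  obtain ⟨b, hb⟩ := exists_basis_of_formallyEtale _ h1
  refine ⟨b, hb, fun z hz => ?_⟩
  letI := stalkAlgebra ℂ X z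
  letI : Algebra Γ(X, V) (X.presheaf.stalk z) := (X.presheaf.germ V z hz).hom.toAlgebra
  have ht2 := tower_sec_stalk X V z hz
  have hloc : IsLocalization.AtPrime (X.presheaf.stalk z) (hV.primeIdealOf ⟨z, hz⟩).asIdeal :=
    hV.isLocalization_stalk ⟨z, hz⟩
  have h2 : FECoord (fun i => algebraMap Γ(X, V) (X.presheaf.stalk z) (w i)) :=
    hw.loc (hV.primeIdealOf ⟨z, hz⟩).asIdeal.primeCompl
  obtain ⟨b', hb'⟩ := exists_basis_of_formallyEtale _ h2
  have ht3 := tower_stalk_fn X z
  refine ⟨ht3, ⇑b', fun i => ?_, b'.span_eq⟩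
  rw [hb', KaehlerDifferential.map_D, hb]
  congr 1
  exact Scheme.algebraMap_germ_eq_germToFunctionField X hz (w i)

end scheme

end Crest.Agent.R271.Bs960
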