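import Mathlib
import Crest.Agent.R271.Ctx1_728
import Crest.Agent.R271.Fr_960

/-!
Row 271, team B: interface of the final assembly (B10, helper713).

* `PLink` / `PctxProp` : what the scheme side delivers at a closed point (helper961).
* `OrdersProp`         : the boundary lemma on the scheme (helper960 from helper741's `boundary`).
* `ModelProp`          : `FCtx` from `PCtx` (helper728).
-/

set_option autoImplicit false

open AlgebraicGeometry Crest.AlgGeometry.Divisors Order CategoryTheory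
open Crest.Agent.R271.Defs710 Crest.Agent.R271.Ctx728 Crest.Agent.R271.Bs960
open scoped ENNReal

noncomputable section

namespace Crest.Agent.R271.Bridge713

/-- The projective context `P` comes from `X`, `L` and the closed point `x`. -/
structure PLink {X : Scheme.{0}} [Algebra ℂ Γ(X, ⊤)] [IsIntegral X] [IsLocallyNoetherian X]
    {n : ℕ} (L : WeilDiv X) (x : X) (P : PCtx n) : Type where
  /-- identification of the function fields -/
  φ : letI := fnFieldAlgebra ℂ X; P.K ≃ₐ[ℂ] X.functionField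
  mem_R : letI := fnFieldAlgebra ℂ X; ∀ (m : ℕ) (f : P.K), f ∈ P.R m → φ f ≠ 0 →
    IsSection (m • L) (φ f)
  /-- the affine open neighbourhood `X_s` of `x` -/
  U : X.Opens
  hU : IsAffineOpen U
  hx : x ∈ U
  [ne : Nonempty U]
  mem_A : letI := fnFieldAlgebra ℂ X; ∀ f : P.K, f ∈ P.A ↔ ∃ a : Γ(X, U), φ f = X.germToFunctionField U a
  /-- `s` generates `qL` at `x` -/
  s_nv : letI := fnFieldAlgebra ℂ X; NonvanishingAt (P.q • L) (φ P.s) x
  /-- `P.x` is evaluation at `x` -/
  x_iff : letI := fnFieldAlgebra ℂ X; ∀ (a : P.A) (b : Γ(X, U)), φ a = X.germToFunctionField U b →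
    P.x a ≠ 0 → IsUnit (X.presheaf.germ U x hx b)

/-- [helper961] -/
def PctxProp : Prop :=
  ∀ (X : Scheme.{0}) [Algebra ℂ Γ(X, ⊤)] [IsIntegral X] [IsLocallyNoetherian X]
    (n : ℕ) (_hn : 1 ≤ n) (_hX : IsSmoothProperVariety ℂ X n)
    (L : WeilDiv X) (_hL : IsAmple L) (x : X) (_hx : IsClosed ({x} : Set X)),
    ∃ P : PCtx n, Nonempty (PLink L x P)

/-- [helper728] -/
def ModelProp : Prop := ∀ (n : ℕ) (P : PCtx n), 1 ≤ n → Nonempty (Model P)

/-- [helper960] -/
def OrdersProp : Prop :=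
  ∀ (X : Scheme.{0}) [Algebra ℂ Γ(X, ⊤)] [IsIntegral X] [IsLocallyNoetherian X]
    (n : ℕ) (_hn : 1 ≤ n) (_hX : IsSmoothProperVariety ℂ X n) (C : FCtx n)
    [Algebra C.B X.functionField],
    letI := fnFieldAlgebra ℂ X
    ∀ [IsScalarTower ℂ C.B X.functionField] [IsFractionRing C.B X.functionField]
    (b' : Module.Basis (Fin n) X.functionField (Ω[X.functionField⁄ℂ]))
    (_hb' : ∀ j, b' j = KaehlerDifferential.D ℂ X.functionField
      (algebraMap C.B X.functionField (C.z j)))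
    (m : ℕ) (F : C.B) (_hF : F ≠ 0)
    (_hfin : lintM C.z (fun y => ENNReal.ofReal (‖y F‖ ^ 2) *
      (ENNReal.ofReal (∑ j, ‖y (C.Y j)‖ ^ 2)) ^ (-((m : ℝ) / C.k))) < ∞)
    (z : PrimeDivisor X) (e : ℤ)
    (_hY : ∀ j, C.Y j ≠ 0 → C.k * e ≤ Scheme.ord (algebraMap C.B X.functionField (C.Y j)) z.1),
    ∃ b : Module.Basis (Fin n) X.functionField (Ω[X.functionField⁄ℂ]), IsLocalFrameAt ℂ X z.1 ⇑b ∧
      0 ≤ Scheme.ord (algebraMap C.B X.functionField F) z.1 + Scheme.ord (b.toMatrix b').det z.1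
        - m * e

/-- closed point reduction -/
def ClosedRed : Prop :=
  ∀ (X : Scheme.{0}) [Algebra ℂ Γ(X, ⊤)] [IsIntegral X] [IsLocallyNoetherian X]
    (n : ℕ) (_hX : IsSmoothProperVariety ℂ X n) (x : X),
    ∃ x' : X, IsClosed ({x'} : Set X) ∧ x ⤳ x'

end Crest.Agent.R271.Bridge713
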