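import Mathlib
import Crest.Agent.R271.Bridge0_713

/-!
Row 271, team B: B10, elementary scheme lemmas for the final assembly (helper713).
-/

set_option autoImplicit false

open AlgebraicGeometry Crest.AlgGeometry.Divisors Order CategoryTheory
open Crest.Agent.R271.Defs710 Crest.Agent.R271.Ctx728 Crest.Agent.R271.Bs960
open scoped ENNReal

noncomputable section

namespace Crest.Agent.R271.Bridge713

theorem closedRed : ClosedRed := by
  intro X _ _ _ n hX x
  have hp := hX.2.1
  have hq : QuasiCompact (structureMorphism ℂ X) := inferInstance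
  have hc : CompactSpace X := (quasiCompact_iff_compactSpace (structureMorphism ℂ X)).mp hq
  obtain ⟨x', hx', hcl⟩ := (isClosed_closure (s := ({x} : Set X))).exists_closed_singleton
    ⟨x, subset_closure rfl⟩
  exact ⟨x', hcl, specializes_iff_mem_closure.mpr hx'⟩

section ord
variable {X : Scheme.{0}} [IsIntegral X] [IsLocallyNoetherian X]

lemma ord_eq_zero_of_unit_germ {U : X.Opens} [Nonempty U] {x : X} (hx : x ∈ U) (b : Γ(X, U))
    (hu : IsUnit (X.presheaf.germ U x hx b)) {z : X} (hz : z ⤳ x) :
    Scheme.ord (X.germToFunctionField U b) z = 0 := by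
  have hxb : x ∈ X.basicOpen b := (Scheme.mem_basicOpen X b x hx).mpr hu
  have hzb : z ∈ X.basicOpen b := hz.mem_open (X.basicOpen b).isOpen hxb
  have : Nonempty (X.basicOpen b) := ⟨⟨z, hzb⟩⟩
  have h1 : IsUnit (X.presheaf.map (homOfLE (X.basicOpen_le b)).op b) :=
    X.toRingedSpace.isUnit_res_basicOpen b
  have h2 := Scheme.ord_of_isUnit h1 hzb
  have h3 : X.germToFunctionField (X.basicOpen b)
      (X.presheaf.map (homOfLE (X.basicOpen_le b)).op b) = X.germToFunctionField U b := by
    unfold Scheme.germToFunctionField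
    rw [X.presheaf.germ_res_apply]
  rwa [h3] at h2

lemma ord_one' (z : X) : Scheme.ord (1 : X.functionField) z = 0 := by
  have h := Scheme.ord_mul (x := z) (one_ne_zero (α := X.functionField)) (one_ne_zero (α := X.functionField))
  rw [mul_one] at h
  omega

lemma ord_inv' {f : X.functionField} (hf : f ≠ 0) (z : X) :
    Scheme.ord f⁻¹ z = - Scheme.ord f z := by
  have h := Scheme.ord_mul (x := z) hf (inv_ne_zero hf)
  rw [mul_inv_cancel₀ hf, ord_one'] at h
  omega

lemma ord_pow' {f : X.functionField} (hf : f ≠ 0) (z : X) (k : ℕ) :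
    Scheme.ord (f ^ k) z = k * Scheme.ord f z := by
  induction k with
  | zero => simp [ord_one']
  | succ k ih =>
    rw [pow_succ, Scheme.ord_mul (pow_ne_zero k hf) hf, ih]
    push_cast
    ring

lemma ord_div' {f g : X.functionField} (hf : f ≠ 0) (hg : g ≠ 0) (z : X) :
    Scheme.ord (f / g) z = Scheme.ord f z - Scheme.ord g z := by
  rw [div_eq_mul_inv, Scheme.ord_mul hf (inv_ne_zero hg), ord_inv' hg]
  ring

end ord

end Crest.Agent.R271.Bridge713
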