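import Mathlib
import Crest.Agent.R271.Bridge1_713

/-!
Row 271, team B: B10, the final assembly `bridgeMain` (helper713).
-/

set_option autoImplicit false

open AlgebraicGeometry Crest.AlgGeometry.Divisors Order CategoryTheory
open Crest.Agent.R271.Defs710 Crest.Agent.R271.Ctx728 Crest.Agent.R271.Bs960
open scoped ENNReal

noncomputable section

namespace Crest.Agent.R271.Bridge713

section closed

variable {X : Scheme.{0}} [Algebra ℂ Γ(X, ⊤)] [IsIntegral X] [IsLocallyNoetherian X]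
  {n : ℕ} {L : WeilDiv X} {x : X} {P : PCtx n}

/-- the embedding of `B` into the function field -/
def psi (lk : PLink L x P) (Md : Model P) :
    letI := fnFieldAlgebra ℂ X
    Md.X.B →ₐ[ℂ] X.functionField :=
  letI := fnFieldAlgebra ℂ X
  (lk.φ.toAlgHom.comp Md.Bs.val).comp Md.e.toAlgHom

lemma psi_apply (lk : PLink L x P) (Md : Model P) (b : Md.X.B) :
    letI := fnFieldAlgebra ℂ X
    psi lk Md b = lk.φ (Md.e b : P.K) := rfl

lemma psi_injective (lk : PLink L x P) (Md : Model P) :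
    letI := fnFieldAlgebra ℂ X
    Function.Injective (psi lk Md) := by
  letI := fnFieldAlgebra ℂ X
  intro a b h
  rw [psi_apply, psi_apply] at h
  exact Md.e.injective (Subtype.ext (lk.φ.injective h))

/-- functions in `A` not vanishing at `x` have no zeros or poles along divisors through `x` -/
lemma ord_A (lk : PLink L x P) (a : P.A) (ha : P.x a ≠ 0) {z : X} (hz : z ⤳ x) :
    letI := fnFieldAlgebra ℂ X
    Scheme.ord (lk.φ (a : P.K)) z = 0 := by
  letI := fnFieldAlgebra ℂ X
  haveI := lk.ne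
  obtain ⟨b, hb⟩ := (lk.mem_A a).mp a.2
  rw [hb]
  exact ord_eq_zero_of_unit_germ lk.hx b (lk.x_iff a b hb ha) hz

lemma x_ne_zero_of_unit {n : ℕ} {P : PCtx n} (Md : Model P) {u : Md.X.B} (hu : IsUnit u) :
    Md.X.x u ≠ 0 := (hu.map Md.X.x).ne_zero

lemma P_coe_ne_zero {a : P.A} (ha : P.x a ≠ 0) : (a : P.K) ≠ 0 := by
  intro h
  apply ha
  have : a = 0 := Subtype.ext h
  rw [this, map_zero]

/-- functions in `B` not vanishing at `x` have no zeros or poles along divisors through `x` -/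
lemma ord_B (lk : PLink L x P) (Md : Model P) (u : Md.X.B) (hu : Md.X.x u ≠ 0) {z : X}
    (hz : z ⤳ x) :
    letI := fnFieldAlgebra ℂ X
    Scheme.ord (psi lk Md u) z = 0 := by
  letI := fnFieldAlgebra ℂ X
  obtain ⟨N, hN⟩ := Md.loc (Md.e u : P.K) (Md.e u).2
  set a : P.A := ⟨(Md.e u : P.K) * (Md.h : P.K) ^ N, hN⟩ with ha
  have h1 : Md.e.symm ⟨(a : P.K), Md.A_le a.2⟩ =
      u * (Md.e.symm ⟨(Md.h : P.K), Md.A_le Md.h.2⟩) ^ N := by
    apply Md.e.injective
    apply Subtype.ext
    simp [ha]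
  have h2 : P.x a = Md.X.x u * P.x Md.h ^ N := by
    rw [← Md.x_e a, h1, map_mul, map_pow, Md.x_e]
  have hxa : P.x a ≠ 0 := by
    rw [h2]
    exact mul_ne_zero hu (pow_ne_zero _ Md.x_h)
  have h3 := ord_A lk a hxa hz
  have h4 := ord_A lk Md.h Md.x_h hz
  have hu0 : u ≠ 0 := by
    rintro rfl
    exact hu (map_zero _)
  have hpu : psi lk Md u ≠ 0 := fun h => hu0 (psi_injective lk Md (h.trans (map_zero _).symm))
  have hph : lk.φ (Md.h : P.K) ≠ 0 := by
    rw [Ne, map_eq_zero_iff _ lk.φ.injective]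
    exact P_coe_ne_zero Md.x_h
  have h5 : lk.φ (a : P.K) = psi lk Md u * lk.φ (Md.h : P.K) ^ N := by
    rw [psi_apply, ha, map_mul, map_pow]
  rw [h5, Scheme.ord_mul hpu (pow_ne_zero _ hph), ord_pow' hph, h4] at h3
  simpa using h3

end closed

end Crest.Agent.R271.Bridge713
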