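import Mathlib
import Crest.Agent.R271.Bridge2_713

/-!
Row 271, team B: B10, the chart `V = X_s ∩ {h ≠ 0}` with ring `B`, local frame at `x` (helper713).
-/

set_option autoImplicit false
set_option linter.style.haveILetI false

open AlgebraicGeometry Crest.AlgGeometry.Divisors Order CategoryTheory
open Crest.Agent.R271.Defs710 Crest.Agent.R271.Ctx728 Crest.Agent.R271.Bs960
open scoped ENNReal

noncomputable section

namespace Crest.Agent.R271.Bridge713

section closed

variable {X : Scheme.{0}} [Algebra ℂ Γ(X, ⊤)] [IsIntegral X] [IsLocallyNoetherian X]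
  {n : ℕ} {L : WeilDiv X} {x : X} {P : PCtx n}

omit [Algebra ℂ Γ(X, ⊤)] [IsLocallyNoetherian X] in
lemma germ_res_fn {U : X.Opens} [Nonempty U] (b a : Γ(X, U)) [Nonempty (X.basicOpen b)] :
    X.germToFunctionField (X.basicOpen b)
      (X.presheaf.map (homOfLE (X.basicOpen_le b)).op a) = X.germToFunctionField U a := by
  unfold Scheme.germToFunctionField
  rw [X.presheaf.germ_res_apply]

/-- `B` is the ring of an affine open neighbourhood `V` of `x`. -/
theorem exists_chart (lk : PLink L x P) (Md : Model P) :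
    letI := fnFieldAlgebra ℂ X
    ∃ (V : X.Opens) (_ : IsAffineOpen V) (_ : x ∈ V) (_ : Nonempty V),
      ∃ θ : Md.X.B ≃+* Γ(X, V),
        (∀ c : ℂ, θ (algebraMap ℂ Md.X.B c) =
          (letI := secAlg X V; algebraMap ℂ Γ(X, V) c)) ∧
        ∀ b, X.germToFunctionField V (θ b) = psi lk Md b := by
  letI := fnFieldAlgebra ℂ X
  haveI := lk.ne
  obtain ⟨bh, hbh⟩ := (lk.mem_A Md.h).mp Md.h.2
  have hxV : x ∈ X.basicOpen bh := (Scheme.mem_basicOpen X bh x lk.hx).mpr
    (lk.x_iff Md.h bh hbh Md.x_h)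
  haveI hne : Nonempty (X.basicOpen bh) := ⟨⟨x, hxV⟩⟩
  have hV : IsAffineOpen (X.basicOpen bh) := lk.hU.basicOpen bh
  refine ⟨X.basicOpen bh, hV, hxV, hne, ?_⟩
  letI := secAlg X (X.basicOpen bh)
  have ht := tower_sec_fn X (X.basicOpen bh)
  let γ : Γ(X, X.basicOpen bh) →ₐ[ℂ] X.functionField :=
    IsScalarTower.toAlgHom ℂ Γ(X, X.basicOpen bh) X.functionField
  have hγ : ∀ s, γ s = X.germToFunctionField (X.basicOpen bh) s := fun s => rfl
  have hγinj : Function.Injective γ := X.germToFunctionField_injective (X.basicOpen bh)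
  have hψinj := psi_injective lk Md
  have hφh : lk.φ (Md.h : P.K) ≠ 0 := by
    rw [Ne, map_eq_zero_iff _ lk.φ.injective]
    exact P_coe_ne_zero Md.x_h
  have hh : (Md.h : P.K) ≠ 0 := P_coe_ne_zero Md.x_h
  have hrange : (psi lk Md).range = γ.range := by
    apply le_antisymm
    · rintro _ ⟨b, rfl⟩
      obtain ⟨N, hN⟩ := Md.loc (Md.e b : P.K) (Md.e b).2
      obtain ⟨a, ha⟩ := (lk.mem_A _).mp hN
      obtain ⟨u, hu⟩ : IsUnit (X.presheaf.map (homOfLE (X.basicOpen_le bh)).op bh) :=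
        X.toRingedSpace.isUnit_res_basicOpen bh
      refine ⟨X.presheaf.map (homOfLE (X.basicOpen_le bh)).op a * ((u⁻¹ : Units _) : _) ^ N, ?_⟩
      have h1 : γ (X.presheaf.map (homOfLE (X.basicOpen_le bh)).op a) =
          psi lk Md b * lk.φ (Md.h : P.K) ^ N := by
        rw [hγ, germ_res_fn, ← ha, map_mul, map_pow]
        rfl
      have h2 : γ (u : Γ(X, X.basicOpen bh)) = lk.φ (Md.h : P.K) := by
        rw [hu, hγ, germ_res_fn, ← hbh]
      have h3 : γ ((u⁻¹ : Units _) : Γ(X, X.basicOpen bh)) = (lk.φ (Md.h : P.K))⁻¹ := by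
        refine eq_inv_of_mul_eq_one_left ?_
        rw [← h2, ← map_mul, Units.inv_mul, map_one]
      change γ _ = psi lk Md b
      rw [map_mul, map_pow, h1, h3, mul_assoc, ← mul_pow, mul_inv_cancel₀ hφh, one_pow, mul_one]
    · rintro _ ⟨s, rfl⟩
      haveI := lk.hU.isLocalization_basicOpen bh
      obtain ⟨⟨a, d⟩, had⟩ := IsLocalization.surj (Submonoid.powers bh) s
      obtain ⟨N, hN⟩ := d.2
      have h1 : γ s * lk.φ (Md.h : P.K) ^ N = X.germToFunctionField lk.U a := by
        have h2 := congrArg γ had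
        rw [map_mul] at h2
        have h3 : γ (algebraMap Γ(X, lk.U) Γ(X, X.basicOpen bh) a) =
            X.germToFunctionField lk.U a := by
          rw [hγ]; exact germ_res_fn bh a
        have h4 : γ (algebraMap Γ(X, lk.U) Γ(X, X.basicOpen bh) d) =
            lk.φ (Md.h : P.K) ^ N := by
          rw [hγ, ← hN]
          refine (germ_res_fn bh _).trans ?_
          rw [map_pow, ← hbh]
        rw [h3, h4] at h2
        exact h2
      have ha : lk.φ.symm (X.germToFunctionField lk.U a) ∈ P.A :=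
        (lk.mem_A _).mpr ⟨a, by simp⟩
      have hmem : lk.φ.symm (X.germToFunctionField lk.U a) * ((Md.h : P.K)⁻¹) ^ N ∈ Md.Bs :=
        Md.Bs.mul_mem (Md.A_le ha) (Md.Bs.pow_mem Md.h_inv N)
      refine ⟨Md.e.symm ⟨_, hmem⟩, ?_⟩
      change psi lk Md _ = γ s
      rw [psi_apply]
      simp only [AlgEquiv.apply_symm_apply, map_mul, map_pow, map_inv₀]
      rw [← h1, mul_assoc, ← mul_pow, mul_inv_cancel₀ hφh, one_pow, mul_one]
  let θ : Md.X.B ≃ₐ[ℂ] Γ(X, X.basicOpen bh) :=
    ((AlgEquiv.ofInjective (psi lk Md) hψinj).trans (Subalgebra.equivOfEq _ _ hrange)).trans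
      (AlgEquiv.ofInjective γ hγinj).symm
  refine ⟨θ.toRingEquiv, fun c => θ.commutes c, fun b => ?_⟩
  have h5 : γ (θ b) = psi lk Md b := by
    have h6 : (AlgEquiv.ofInjective γ hγinj) (θ b) =
        (Subalgebra.equivOfEq _ _ hrange) (AlgEquiv.ofInjective (psi lk Md) hψinj b) := by
      simp [θ]
    have h7 := congrArg Subtype.val h6
    simpa using h7
  exact h5

/-- the differentials of the coordinates of `B` are a basis of `Ω[K⁄ℂ]` and a local frame at every
point specialising to `x` -/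
theorem exists_frame (lk : PLink L x P) (Md : Model P) :
    letI := fnFieldAlgebra ℂ X
    ∃ b' : Module.Basis (Fin n) X.functionField (Ω[X.functionField⁄ℂ]),
      (∀ i, b' i = KaehlerDifferential.D ℂ X.functionField (psi lk Md (Md.X.z i))) ∧
      ∀ z : X, z ⤳ x → IsLocalFrameAt ℂ X z ⇑b' := by
  letI := fnFieldAlgebra ℂ X
  obtain ⟨V, hV, hxV, hne, θ, hθ1, hθ2⟩ := exists_chart lk Md
  haveI := hne
  letI := secAlg X V
  letI : Algebra Md.X.B Γ(X, V) := θ.toRingHom.toAlgebra
  have htow : IsScalarTower ℂ Md.X.B Γ(X, V) := IsScalarTower.of_algebraMap_eq fun c =>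
    (hθ1 c).symm
  haveI : IsLocalization.Away (1 : Md.X.B) Γ(X, V) :=
    IsLocalization.away_of_isUnit_of_bijective _ isUnit_one θ.bijective
  have hE : ECoord Md.X.z := Md.X.etale
  have hE2 : ECoord (fun i => algebraMap Md.X.B Γ(X, V) (Md.X.z i)) := hE.away 1
  obtain ⟨b, hb1, hb2⟩ := frame_of_etale X hV (fun i => algebraMap Md.X.B Γ(X, V) (Md.X.z i)) hE2.fe
  refine ⟨b, fun i => ?_, fun z hz => hb2 z (hz.mem_open V.isOpen hxV)⟩
  rw [hb1]
  congr 1
  exact hθ2 _

end closed

end Crest.Agent.R271.Bridge713
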