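import Mathlib
import Crest.Agent.R271.Bridge3_713

/-!
Row 271, team B: B10, the final assembly `bridgeMain` (helper713).
-/

set_option autoImplicit false
set_option linter.style.haveILetI false

open AlgebraicGeometry Crest.AlgGeometry.Divisors Order CategoryTheory
open Crest.Agent.R271.Defs710 Crest.Agent.R271.Ctx728 Crest.Agent.R271.Bs960
open scoped ENNReal

noncomputable section

namespace Crest.Agent.R271.Bridge713

theorem main_closed (hO : OrdersProp) (X : Scheme.{0}) [Algebra ℂ Γ(X, ⊤)] [IsIntegral X]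
    [IsLocallyNoetherian X] (n : ℕ) (hn : 1 ≤ n) (hX : IsSmoothProperVariety ℂ X n)
    (L : WeilDiv X) (K : WeilDiv X) (hK : IsCanonicalDivisor ℂ X n K)
    (m : ℕ) (x : X) (P : PCtx n) (lk : PLink L x P) (Md : Model P)
    (hG : GlobalOut Md.X m) :
    ∃ f : X.functionField, IsSection (K + m • L) f ∧ NonvanishingAt (K + m • L) f x := by
  letI := fnFieldAlgebra ℂ X
  obtain ⟨F, hFx, hfin⟩ := hG
  have hψinj := psi_injective lk Md
  letI : Algebra Md.X.B X.functionField := (psi lk Md).toRingHom.toAlgebra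
  have hψ : ∀ b, algebraMap Md.X.B X.functionField b = psi lk Md b := fun b => rfl
  haveI htow : IsScalarTower ℂ Md.X.B X.functionField :=
    IsScalarTower.of_algebraMap_eq fun c => ((psi lk Md).commutes c).symm
  haveI hfaith : FaithfulSMul Md.X.B X.functionField :=
    (faithfulSMul_iff_algebraMap_injective _ _).mpr hψinj
  haveI hfr : IsFractionRing Md.X.B X.functionField := by
    refine IsFractionRing.of_field (R := Md.X.B) (K := X.functionField) fun u => ?_
    obtain ⟨a, b, hb, hab⟩ := P.frac (lk.φ.symm u)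
    refine ⟨Md.e.symm ⟨(a : P.K), Md.A_le a.2⟩, Md.e.symm ⟨(b : P.K), Md.A_le b.2⟩, ?_⟩
    rw [hψ, hψ, psi_apply, psi_apply]
    simp only [AlgEquiv.apply_symm_apply]
    have hb' : lk.φ (b : P.K) ≠ 0 := by
      rwa [Ne, map_eq_zero_iff _ lk.φ.injective]
    rw [eq_div_iff hb', ← hab, map_mul, AlgEquiv.apply_symm_apply]
  obtain ⟨b', hb', hframe⟩ := exists_frame lk Md
  obtain ⟨ω, ⟨b0, hb0⟩, hω⟩ := hK
  have hcoef : ∀ b, ω.coef b ≠ 0 := by
    intro b h
    apply hb0
    rw [← ω.law b0 b, h, zero_mul]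
  set G : X.functionField := lk.φ Md.g with hGdef
  have hG0 : G ≠ 0 := by
    rw [hGdef, Ne, map_eq_zero_iff _ lk.φ.injective]
    exact Md.g_ne
  have hF0 : F ≠ 0 := by
    rintro rfl
    exact hFx (map_zero _)
  have hpF : psi lk Md F ≠ 0 := fun h => hF0 (hψinj (h.trans (map_zero _).symm))
  have hf0 : psi lk Md F * G ^ m * (ω.coef b')⁻¹ ≠ 0 :=
    mul_ne_zero (mul_ne_zero hpF (pow_ne_zero _ hG0)) (inv_ne_zero (hcoef b'))
  have hordf : ∀ z : X, Scheme.ord (psi lk Md F * G ^ m * (ω.coef b')⁻¹) z =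
      Scheme.ord (psi lk Md F) z + m * Scheme.ord G z - Scheme.ord (ω.coef b') z := by
    intro z
    rw [Scheme.ord_mul (mul_ne_zero hpF (pow_ne_zero _ hG0)) (inv_ne_zero (hcoef b')),
      Scheme.ord_mul hpF (pow_ne_zero _ hG0), ord_pow' hG0, ord_inv' (hcoef b')]
    ring
  refine ⟨psi lk Md F * G ^ m * (ω.coef b')⁻¹, ⟨hf0, fun z => ?_⟩, fun z hz => ?_⟩
  · -- section
    have hY : ∀ j, Md.X.Y j ≠ 0 → (Md.X.k : ℤ) * (-(L z + Scheme.ord G z.1)) ≤
        Scheme.ord (algebraMap Md.X.B X.functionField (Md.X.Y j)) z.1 := by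
      intro j hj
      have h1 : ((Md.e (Md.X.Y j) : P.K)) * Md.g ^ Md.X.k ∈ P.R Md.X.k :=
        (Md.V_e _ _).mp (Md.X.Y_mem j)
      have hpY : psi lk Md (Md.X.Y j) ≠ 0 := fun h => hj (hψinj (h.trans (map_zero _).symm))
      have h2 : lk.φ ((Md.e (Md.X.Y j) : P.K) * Md.g ^ Md.X.k) =
          psi lk Md (Md.X.Y j) * G ^ Md.X.k := by
        rw [map_mul, map_pow, psi_apply]
      have h3 := (lk.mem_R _ _ h1 (by
        rw [h2]; exact mul_ne_zero hpY (pow_ne_zero _ hG0))).2 z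
      rw [h2, Scheme.ord_mul hpY (pow_ne_zero _ hG0), ord_pow' hG0, Finsupp.smul_apply,
        nsmul_eq_mul] at h3
      rw [hψ]
      linarith
    obtain ⟨b, hbf, hle⟩ := hO X n hn hX Md.X b' (fun j => hb' j) m F hF0 hfin z _ hY
    have hKz := hω z b hbf
    have hlaw := ω.law b b'
    have hdet : (b.toMatrix b').det ≠ 0 := by
      intro h
      apply hcoef b
      rw [← hlaw, h, mul_zero]
    have h4 : Scheme.ord (ω.coef b) z.1 = Scheme.ord (ω.coef b') z.1 +
        Scheme.ord (b.toMatrix b').det z.1 := by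
      rw [← hlaw, Scheme.ord_mul (hcoef b') hdet]
    rw [hordf, Finsupp.add_apply, Finsupp.smul_apply, nsmul_eq_mul, hKz, h4]
    rw [hψ] at hle
    linarith
  · -- non-vanishing at `x`
    have h1 : Scheme.ord (psi lk Md F) z.1 = 0 := ord_B lk Md F hFx hz
    have h2 := ord_B lk Md _ (x_ne_zero_of_unit Md Md.s_unit) hz
    have hs0 : lk.φ P.s ≠ 0 := by
      rw [Ne, map_eq_zero_iff _ lk.φ.injective]
      exact P.s_ne
    have h3 : psi lk Md (Md.e.symm ⟨P.s / Md.g ^ P.q, Md.R_B _ _ P.s_mem⟩) =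
        lk.φ P.s / G ^ P.q := by
      rw [psi_apply]
      simp [hGdef]
    rw [h3, ord_div' hs0 (pow_ne_zero _ hG0), ord_pow' hG0] at h2
    have h5 := lk.s_nv z hz
    rw [Finsupp.smul_apply, nsmul_eq_mul] at h5
    have hq : (P.q : ℤ) ≠ 0 := by
      have := P.q_pos
      omega
    have h6 : Scheme.ord G z.1 + L z = 0 := by
      have : (P.q : ℤ) * (Scheme.ord G z.1 + L z) = 0 := by linarith
      exact (mul_eq_zero.mp this).resolve_left hq
    have hKz := hω z b' (hframe z.1 hz)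
    rw [hordf, Finsupp.add_apply, Finsupp.smul_apply, nsmul_eq_mul, hKz, h1]
    have h7 : (m : ℤ) * Scheme.ord G z.1 + m * L z = 0 := by rw [← mul_add, h6, mul_zero]
    linarith

/-- FINAL ASSEMBLY OF THE BRIDGE (B10) -/
theorem bridgeMain_of (hP : PctxProp) (hM : ModelProp) (hO : OrdersProp) : BridgeMain := by
  intro hGO X _ _ _ n hn hX L hL K hK m hm x
  obtain ⟨x', hcl, hxx'⟩ := closedRed X n hX x
  obtain ⟨P, ⟨lk⟩⟩ := hP X n hn hX L hL x' hcl
  obtain ⟨Md⟩ := hM n P hn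
  obtain ⟨f, hf1, hf2⟩ := main_closed hO X n hn hX L K hK m x' P lk Md (hGO n Md.X hn m hm)
  exact ⟨f, hf1, fun z hz => hf2 z (hz.trans hxx')⟩

end Crest.Agent.R271.Bridge713
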