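import Mathlib

set_option autoImplicit false

/-!
# Row 271, part (B3) of the bridge, step 1: `k[[z_0, …, z_{n-1}]]` is a UFD (k infinite field)

Weierstrass preparation (Mathlib) + Gauss lemma + Kaplansky's criterion.
-/

namespace Crest.Agent.R271.UFD243

open IsLocalRing

section WeierstrassStep

variable {A : Type*} [CommRing A] [IsDomain A] [UniqueFactorizationMonoid A] [IsLocalRing A]
  [IsAdicComplete (maximalIdeal A) A]

/-- A distinguished irreducible polynomial is prime in the power series ring. -/
theorem prime_coe_of_distinguished {p : Polynomial A}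
    (hp : p.IsDistinguishedAt (maximalIdeal A)) (hirr : Irreducible p) :
    Prime (p : PowerSeries A) := by
  have hprime : Prime p := hirr.prime
  have h1 : (Ideal.span {p}).IsPrime := (Ideal.span_singleton_prime hprime.ne_zero).2 hprime
  have hdom : IsDomain (Polynomial A ⧸ Ideal.span {p}) := Ideal.Quotient.isDomain _
  have e := hp.algEquivQuotient
  have hdom2 : IsDomain (PowerSeries A ⧸ Ideal.span {(p : PowerSeries A)}) :=
    MulEquiv.isDomain (Polynomial A ⧸ Ideal.span {p}) e.symm.toRingEquiv.toMulEquiv
  have h2 : (Ideal.span {(p : PowerSeries A)}).IsPrime :=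
    (Ideal.Quotient.isDomain_iff_prime _).1 hdom2
  have hne : (p : PowerSeries A) ≠ 0 := by
    intro h
    exact hprime.ne_zero (by exact_mod_cast h)
  exact (Ideal.span_singleton_prime hne).1 h2

omit [IsAdicComplete (maximalIdeal A) A] in
/-- A distinguished polynomial lying in a prime ideal of `A⟦X⟧` has a distinguished irreducible
factor lying in it. -/
theorem exists_distinguished_factor {w : Polynomial A}
    (hw : w.IsDistinguishedAt (maximalIdeal A)) (P : Ideal (PowerSeries A)) [hP : P.IsPrime]
    (hwP : (w : PowerSeries A) ∈ P) :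
    ∃ q : Polynomial A, q.IsDistinguishedAt (maximalIdeal A) ∧ Irreducible q ∧
      (q : PowerSeries A) ∈ P := by
  classical
  have hw0 : w ≠ 0 := hw.monic.ne_zero
  -- some irreducible factor lies in P
  obtain ⟨q, hq, hqw, hqP⟩ : ∃ q : Polynomial A, Irreducible q ∧ q ∣ w ∧
      (q : PowerSeries A) ∈ P := by
    set P' : Ideal (Polynomial A) := P.comap (Polynomial.coeToPowerSeries.ringHom) with hP'
    have hP'prime : P'.IsPrime := Ideal.IsPrime.comap _
    have hmem : w ∈ P' := by
      rw [hP', Ideal.mem_comap]; simpa using hwP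
    obtain ⟨f, hf, u, hu⟩ := UniqueFactorizationMonoid.exists_prime_factors w hw0
    have hprod : f.prod ∈ P' := by
      rw [← hu] at hmem
      rcases hP'prime.mem_or_mem hmem with h | h
      · exact h
      · exact absurd (Ideal.eq_top_of_isUnit_mem _ h u.isUnit) hP'prime.ne_top
    obtain ⟨q, hqf, hq⟩ := (Ideal.IsPrime.multiset_prod_mem_iff_exists_mem hP'prime f).1 hprod
    refine ⟨q, (hf q hqf).irreducible, ?_, ?_⟩
    · rw [← hu]
      exact (Multiset.dvd_prod hqf).mul_right _
    · rw [hP', Ideal.mem_comap] at hq; simpa using hq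
  obtain ⟨r, hr⟩ := hqw
  have hlc : q.leadingCoeff * r.leadingCoeff = 1 := by
    have := hw.monic
    rw [Polynomial.Monic, hr, Polynomial.leadingCoeff_mul] at this
    exact this
  have hlcu : IsUnit q.leadingCoeff := IsUnit.of_mul_eq_one _ hlc
  obtain ⟨u, hu⟩ := hlcu
  -- normalise
  set q' : Polynomial A := Polynomial.C (↑u⁻¹ : A) * q with hq'
  have hmon : q'.Monic := by
    rw [Polynomial.Monic, hq', Polynomial.leadingCoeff_mul, Polynomial.leadingCoeff_C, ← hu]
    simp
  have hassoc : Associated q q' := by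
    refine ⟨Units.map (Polynomial.C : A →+* Polynomial A).toMonoidHom u⁻¹, ?_⟩
    rw [hq', mul_comm]; rfl
  have hirr' : Irreducible q' := hassoc.irreducible hq
  have hq'P : (q' : PowerSeries A) ∈ P := by
    rw [hq', Polynomial.coe_mul]
    exact P.mul_mem_left _ hqP
  have hq'dvd : q' ∣ w := by
    have : q' ∣ q := hassoc.symm.dvd
    exact this.trans ⟨r, hr⟩
  refine ⟨q', ?_, hirr', hq'P⟩
  -- distinguishedness
  have hmap : w.map (Ideal.Quotient.mk (maximalIdeal A)) = Polynomial.X ^ w.natDegree :=
    hw.map_eq_X_pow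
  have : IsDomain (A ⧸ maximalIdeal A) := Ideal.Quotient.isDomain _
  have hdvd : q'.map (Ideal.Quotient.mk (maximalIdeal A)) ∣ Polynomial.X ^ w.natDegree := by
    rw [← hmap]
    exact Polynomial.map_dvd _ hq'dvd
  obtain ⟨i, hi, hassoc2⟩ := (dvd_prime_pow Polynomial.prime_X _).1 hdvd
  have hmon2 : (q'.map (Ideal.Quotient.mk (maximalIdeal A))).Monic := hmon.map _
  have heq : q'.map (Ideal.Quotient.mk (maximalIdeal A)) = Polynomial.X ^ i :=
    Polynomial.eq_of_monic_of_associated hmon2 (Polynomial.monic_X_pow i) hassoc2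
  have hdeg : q'.natDegree = i := by
    have h1 : (q'.map (Ideal.Quotient.mk (maximalIdeal A))).natDegree = q'.natDegree :=
      hmon.natDegree_map _
    rw [heq, Polynomial.natDegree_X_pow] at h1
    exact h1.symm
  refine { mem := ?_, monic := hmon }
  intro j hj
  have h1 : (q'.map (Ideal.Quotient.mk (maximalIdeal A))).coeff j = 0 := by
    rw [heq, Polynomial.coeff_X_pow, if_neg (by omega)]
  rw [Polynomial.coeff_map] at h1
  exact Ideal.Quotient.eq_zero_iff_mem.1 h1

/-- If `f ∈ P` has non-zero reduction, then `P` contains a prime element. -/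
theorem exists_prime_mem {f : PowerSeries A} (hf : f.map (residue A) ≠ 0)
    (P : Ideal (PowerSeries A)) [hP : P.IsPrime] (hfP : f ∈ P) :
    ∃ q : PowerSeries A, q ∈ P ∧ Prime q := by
  obtain ⟨w, h, hw⟩ := PowerSeries.exists_isWeierstrassFactorization hf
  have hwP : (w : PowerSeries A) ∈ P := by
    have : f = w * h := hw.eq_mul
    rw [this] at hfP
    rcases hP.mem_or_mem hfP with h1 | h1
    · exact h1
    · exact absurd (Ideal.eq_top_of_isUnit_mem _ h1 hw.isUnit) hP.ne_top
  obtain ⟨q, h1, h2, h3⟩ := exists_distinguished_factor hw.isDistinguishedAt P hwP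
  exact ⟨q, h3, prime_coe_of_distinguished h1 h2⟩

end WeierstrassStep

end Crest.Agent.R271.UFD243
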