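import Mathlib
import Crest.Agent.R271.UfdA_243

set_option autoImplicit false

/-!
# Row 271, part (B3), step 2: `k[[z_0, …, z_{n-1}]]` is a UFD (k infinite field)
-/

namespace Crest.Agent.R271.UFD243

open IsLocalRing

variable {k : Type*} [Field k]

/-- The elements of `k[[z]]` with zero constant coefficient form the ideal of the variables. -/
theorem mem_span_range_X_iff {n : ℕ} (f : MvPowerSeries (Fin n) k) :
    f ∈ Ideal.span (Set.range (MvPowerSeries.X : Fin n → MvPowerSeries (Fin n) k)) ↔
      MvPowerSeries.constantCoeff f = 0 := by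
  constructor
  · intro hf
    have : Ideal.span (Set.range (MvPowerSeries.X : Fin n → MvPowerSeries (Fin n) k)) ≤
        RingHom.ker (MvPowerSeries.constantCoeff (σ := Fin n) (R := k)) := by
      rw [Ideal.span_le]
      rintro _ ⟨i, rfl⟩
      simp [RingHom.mem_ker]
    exact this hf
  · intro hf
    induction n with
    | zero =>
      have : f = 0 := by
        ext d
        have hd : d = 0 := Subsingleton.elim _ _
        rw [hd]
        simpa using hf
      rw [this]; exact Ideal.zero_mem _
    | succ n ih =>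
      set e := (MvPowerSeries.finSuccEquiv k n) with he
      set g := e f with hg
      set a0 := PowerSeries.coeff 0 g with ha0
      have h1 : MvPowerSeries.constantCoeff a0 = 0 := by
        have := MvPowerSeries.coeff_coeff_finSuccEquiv (R := k) (n := n) f (k := 0) (x := 0)
        rw [← he, ← hg, ← ha0] at this
        rw [← MvPowerSeries.coeff_zero_eq_constantCoeff_apply, this]
        have h0 : Finsupp.cons 0 (0 : Fin n →₀ ℕ) = 0 := Finsupp.cons_zero_zero
        rw [h0]; simpa using hf
      have h2 := ih a0 h1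
      -- g = C a0 + X * h
      obtain ⟨h, hh⟩ : (PowerSeries.X : PowerSeries (MvPowerSeries (Fin n) k)) ∣
          g - PowerSeries.C a0 := by
        rw [PowerSeries.X_dvd_iff]
        simp [ha0]
      have h3 : g = PowerSeries.C a0 + PowerSeries.X * h := by rw [← hh]; ring
      have h4 : f = e.symm (PowerSeries.C a0) + MvPowerSeries.X 0 * e.symm h := by
        have h5 : e (MvPowerSeries.X 0) = PowerSeries.X := MvPowerSeries.finSuccEquiv_X_zero
        apply e.injective
        rw [map_add, map_mul, e.apply_symm_apply, e.apply_symm_apply, h5, ← h3]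
      rw [h4]
      refine Ideal.add_mem _ ?_ (Ideal.mul_mem_right _ _ (Ideal.subset_span ⟨0, rfl⟩))
      -- a0 in the span
      have h6 : Ideal.span (Set.range (MvPowerSeries.X : Fin n → MvPowerSeries (Fin n) k)) ≤
          (Ideal.span (Set.range (MvPowerSeries.X : Fin (n+1) → MvPowerSeries (Fin (n+1)) k))).comap
            ((e.symm : PowerSeries (MvPowerSeries (Fin n) k) ≃ₐ[k] _).toRingEquiv.toRingHom.comp
              (PowerSeries.C (R := MvPowerSeries (Fin n) k))) := by
        rw [Ideal.span_le]
        rintro _ ⟨i, rfl⟩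
        simp only [SetLike.mem_coe, Ideal.mem_comap]
        have h7 : (MvPowerSeries.X i.succ : MvPowerSeries (Fin (n+1)) k) =
            e.symm (PowerSeries.C (MvPowerSeries.X i)) := by
          apply e.injective
          rw [e.apply_symm_apply]
          exact MvPowerSeries.finSuccEquiv_X_succ i
        refine Ideal.subset_span ⟨i.succ, ?_⟩
        rw [h7]; rfl
      exact h6 h2

theorem maximalIdeal_eq_span (n : ℕ) :
    maximalIdeal (MvPowerSeries (Fin n) k) =
      Ideal.span (Set.range (MvPowerSeries.X : Fin n → MvPowerSeries (Fin n) k)) := by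
  ext f
  rw [mem_span_range_X_iff, mem_maximalIdeal, mem_nonunits_iff, MvPowerSeries.isUnit_iff_constantCoeff,
    isUnit_iff_ne_zero, not_not]

instance isDomain_mvPowerSeries (n : ℕ) : IsDomain (MvPowerSeries (Fin n) k) :=
  NoZeroDivisors.to_isDomain _

instance isAdicComplete_maximalIdeal (n : ℕ) :
    IsAdicComplete (maximalIdeal (MvPowerSeries (Fin n) k)) (MvPowerSeries (Fin n) k) := by
  rw [maximalIdeal_eq_span]
  infer_instance

/-! ### The linear change of variables -/

section Subst

variable {n : ℕ}

/-- `X_0 ↦ c_0 X_0`, `X_{j+1} ↦ X_{j+1} + c_{j+1} X_0`. -/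
noncomputable def subA (c : Fin (n+1) → k) : Fin (n+1) → MvPowerSeries (Fin (n+1)) k :=
  fun j => (if j = 0 then 0 else MvPowerSeries.X j) + c j • MvPowerSeries.X 0

theorem subA_hasSubst (c : Fin (n+1) → k) : MvPowerSeries.HasSubst (subA c) := by
  apply MvPowerSeries.hasSubst_of_constantCoeff_zero
  intro j
  by_cases h : j = 0
  · simp [subA, h]
  · simp [subA, h]

theorem subst_subA_X (c : Fin (n+1) → k) (j : Fin (n+1)) :
    MvPowerSeries.subst (subA c) (MvPowerSeries.X j : MvPowerSeries (Fin (n+1)) k) = subA c j :=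
  MvPowerSeries.subst_X (subA_hasSubst c) j

theorem subst_subA_smul_X (c : Fin (n+1) → k) (j : Fin (n+1)) (a : k) :
    MvPowerSeries.subst (subA c) (a • MvPowerSeries.X j : MvPowerSeries (Fin (n+1)) k) =
      a • subA c j := by
  rw [MvPowerSeries.subst_smul (subA_hasSubst c), subst_subA_X]

/-- parameters of the inverse substitution -/
noncomputable def invC (c : Fin (n+1) → k) : Fin (n+1) → k :=
  fun j => if j = 0 then (c 0)⁻¹ else - (c j * (c 0)⁻¹)

theorem subst_subA_comp (c d : Fin (n+1) → k) (hd0 : d 0 * c 0 = 1)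
    (hd : ∀ j, j ≠ 0 → c j + d j * c 0 = 0) (j : Fin (n+1)) :
    MvPowerSeries.subst (subA c) (subA d j) = MvPowerSeries.X j := by
  have hc := subA_hasSubst c
  by_cases h : j = 0
  · subst h
    simp only [subA, if_true, zero_add]
    rw [MvPowerSeries.subst_smul hc, MvPowerSeries.subst_X hc]
    simp only [subA, if_true, zero_add]
    rw [smul_smul, hd0, one_smul]
  · have h1 : subA d j = MvPowerSeries.X j + d j • MvPowerSeries.X 0 := by simp [subA, h]
    rw [h1, MvPowerSeries.subst_add hc, MvPowerSeries.subst_smul hc, MvPowerSeries.subst_X hc,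
      MvPowerSeries.subst_X hc]
    simp only [subA, h, if_true, if_false, zero_add]
    rw [smul_smul, add_assoc, ← add_smul, hd j h, zero_smul, add_zero]

/-- The linear change of variables as an algebra automorphism. -/
noncomputable def linAut (c : Fin (n+1) → k) (hc : c 0 ≠ 0) :
    MvPowerSeries (Fin (n+1)) k ≃ₐ[k] MvPowerSeries (Fin (n+1)) k :=
  AlgEquiv.ofAlgHom (MvPowerSeries.substAlgHom (subA_hasSubst c))
    (MvPowerSeries.substAlgHom (subA_hasSubst (invC c)))
    (by
      apply AlgHom.ext
      intro f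
      simp only [AlgHom.comp_apply, MvPowerSeries.substAlgHom_apply, AlgHom.id_apply]
      rw [MvPowerSeries.subst_comp_subst_apply (subA_hasSubst _) (subA_hasSubst _)]
      have : (fun s => MvPowerSeries.subst (subA c) (subA (invC c) s)) =
          (MvPowerSeries.X : Fin (n+1) → MvPowerSeries (Fin (n+1)) k) := by
        funext j
        refine subst_subA_comp c (invC c) ?_ ?_ j
        · simp [invC, hc]
        · intro i hi
          simp [invC, hi, hc]
      rw [this, MvPowerSeries.subst_self]; rfl)
    (by
      apply AlgHom.ext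
      intro f
      simp only [AlgHom.comp_apply, MvPowerSeries.substAlgHom_apply, AlgHom.id_apply]
      rw [MvPowerSeries.subst_comp_subst_apply (subA_hasSubst _) (subA_hasSubst _)]
      have : (fun s => MvPowerSeries.subst (subA (invC c)) (subA c s)) =
          (MvPowerSeries.X : Fin (n+1) → MvPowerSeries (Fin (n+1)) k) := by
        funext j
        refine subst_subA_comp (invC c) c ?_ ?_ j
        · simp [invC, hc]
        · intro i hi
          simp [invC, hi]
      rw [this, MvPowerSeries.subst_self]; rfl)

theorem linAut_apply (c : Fin (n+1) → k) (hc : c 0 ≠ 0) (f : MvPowerSeries (Fin (n+1)) k) :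
    linAut c hc f = MvPowerSeries.subst (subA c) f := by
  simp [linAut, MvPowerSeries.substAlgHom_apply]

/-- Setting all variables but `X_0` to zero. -/
noncomputable def slice : MvPowerSeries (Fin (n+1)) k →+* PowerSeries k :=
  (PowerSeries.map (MvPowerSeries.constantCoeff (σ := Fin n) (R := k))).comp
    (MvPowerSeries.finSuccEquiv k n).toRingEquiv.toRingHom

theorem coeff_slice (f : MvPowerSeries (Fin (n+1)) k) (D : ℕ) :
    PowerSeries.coeff D (slice f) = MvPowerSeries.coeff (Finsupp.single 0 D) f := by
  have := MvPowerSeries.coeff_coeff_finSuccEquiv (R := k) (n := n) f (k := D) (x := 0)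
  have h2 : (Finsupp.cons D (0 : Fin n →₀ ℕ)) = Finsupp.single 0 D := by
    ext i
    refine Fin.cases ?_ (fun j => ?_) i
    · simp
    · simp
  rw [h2] at this
  rw [← this]
  simp [slice, PowerSeries.coeff_map]

theorem slice_subA (c : Fin (n+1) → k) (j : Fin (n+1)) :
    slice (subA c j) = PowerSeries.C (c j) * PowerSeries.X := by
  have h0 : (slice (MvPowerSeries.X 0 : MvPowerSeries (Fin (n+1)) k)) = PowerSeries.X := by
    simp [slice]
  have h1 : ∀ a : k, slice (MvPowerSeries.C a : MvPowerSeries (Fin (n+1)) k) =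
      PowerSeries.C a := by
    intro a
    simp [slice]
  have h2 : ∀ i : Fin n, slice (MvPowerSeries.X i.succ : MvPowerSeries (Fin (n+1)) k) = 0 := by
    intro i
    simp [slice]
  rw [subA, map_add, MvPowerSeries.smul_eq_C_mul, map_mul, h0, h1]
  refine Fin.cases ?_ (fun i => ?_) j
  · simp
  · simp [h2]

theorem coeff_subst_subA (c : Fin (n+1) → k) (f : MvPowerSeries (Fin (n+1)) k) (D : ℕ) :
    MvPowerSeries.coeff (Finsupp.single 0 D) (MvPowerSeries.subst (subA c) f) =
      finsum (fun d : Fin (n+1) →₀ ℕ =>
        MvPowerSeries.coeff d f * (if d.degree = D then d.prod (fun s e => c s ^ e) else 0)) := by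
  rw [MvPowerSeries.coeff_subst (subA_hasSubst c)]
  apply finsum_congr
  intro d
  rw [smul_eq_mul]
  congr 1
  rw [← coeff_slice, Finsupp.prod, map_prod]
  have h1 : ∀ s ∈ d.support, slice (subA c s ^ d s) =
      PowerSeries.C (c s ^ d s) * PowerSeries.X ^ (d s) := by
    intro s _
    rw [map_pow, slice_subA, mul_pow, map_pow]
  rw [Finset.prod_congr rfl h1, Finset.prod_mul_distrib, ← map_prod, Finset.prod_pow_eq_pow_sum]
  rw [PowerSeries.coeff_C_mul, PowerSeries.coeff_X_pow]
  have h2 : ∑ i ∈ d.support, d i = d.degree := rfl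
  rw [h2]
  by_cases h : d.degree = D
  · simp [h, Finsupp.prod]
  · rw [if_neg h, if_neg (fun h' => h h'.symm), mul_zero]

theorem exists_slice_linAut_ne_zero [Infinite k] {f : MvPowerSeries (Fin (n+1)) k} (hf : f ≠ 0) :
    ∃ (c : Fin (n+1) → k) (hc : c 0 ≠ 0), slice (linAut c hc f) ≠ 0 := by
  classical
  obtain ⟨d0, hd0⟩ : ∃ d0, MvPowerSeries.coeff d0 f ≠ 0 := by
    by_contra hcon
    push Not at hcon
    exact hf (by ext d; simpa using hcon d)
  set D := d0.degree with hD
  -- the homogeneous component as a polynomial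
  set S : Finset (Fin (n+1) →₀ ℕ) := Finset.finsuppAntidiag Finset.univ D with hS
  have hSmem : ∀ d : Fin (n+1) →₀ ℕ, d ∈ S ↔ d.degree = D := by
    intro d
    rw [hS, Finset.mem_finsuppAntidiag]
    simp [Finsupp.degree_eq_sum]
  set p : MvPolynomial (Fin (n+1)) k := ∑ d ∈ S, MvPolynomial.monomial d (MvPowerSeries.coeff d f)
    with hp
  have hpc : ∀ d ∈ S, p.coeff d = MvPowerSeries.coeff d f := by
    intro d hd
    rw [hp, MvPolynomial.coeff_sum, Finset.sum_eq_single d]
    · simp
    · intro b _ hb
      rw [MvPolynomial.coeff_monomial, if_neg hb]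
    · intro h; exact absurd hd h
  have hpne : p ≠ 0 := by
    intro h
    have := hpc d0 ((hSmem d0).2 rfl)
    rw [h, MvPolynomial.coeff_zero] at this
    exact hd0 this.symm
  have hne : p * MvPolynomial.X 0 ≠ 0 := mul_ne_zero hpne (MvPolynomial.X_ne_zero 0)
  obtain ⟨c, hc⟩ : ∃ c : Fin (n+1) → k, MvPolynomial.eval c (p * MvPolynomial.X 0) ≠ 0 := by
    by_contra hcon
    push Not at hcon
    exact hne (MvPolynomial.funext (fun c => by simpa using hcon c))
  rw [map_mul, MvPolynomial.eval_X] at hc
  have hc0 : c 0 ≠ 0 := right_ne_zero_of_mul hc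
  have hcp : MvPolynomial.eval c p ≠ 0 := left_ne_zero_of_mul hc
  refine ⟨c, hc0, ?_⟩
  intro hsl
  apply hcp
  have h1 : PowerSeries.coeff D (slice (linAut c hc0 f)) = 0 := by rw [hsl]; simp
  rw [coeff_slice, linAut_apply, coeff_subst_subA] at h1
  rw [finsum_eq_sum_of_support_subset (s := S)] at h1
  · rw [← h1, hp, map_sum]
    apply Finset.sum_congr rfl
    intro d hd
    rw [MvPolynomial.eval_monomial, if_pos ((hSmem d).1 hd)]
  · intro d hd
    rw [Function.mem_support] at hd
    rw [Finset.mem_coe, hSmem]
    by_contra hne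
    rw [if_neg hne, mul_zero] at hd
    exact hd rfl

end Subst

/-- `k[[z_0, …, z_{n-1}]]` is a UFD for an infinite field `k`. -/
theorem mvPowerSeries_ufd [Infinite k] (n : ℕ) :
    UniqueFactorizationMonoid (MvPowerSeries (Fin n) k) := by
  induction n with
  | zero =>
    have e : MvPowerSeries (Fin 0) k ≃ₐ[k] k := MvPowerSeries.isEmptyEquiv (Fin 0) k
    exact MulEquiv.uniqueFactorizationMonoid e.symm.toRingEquiv.toMulEquiv inferInstance
  | succ n ih =>
    have := ih
    rw [UniqueFactorizationMonoid.iff_exists_prime_mem_of_isPrime]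
    intro P hP hPp
    obtain ⟨f, hfP, hf⟩ := Submodule.exists_mem_ne_zero_of_ne_bot hP
    obtain ⟨c, hc, hsl⟩ := exists_slice_linAut_ne_zero hf
    set E : MvPowerSeries (Fin (n+1)) k ≃+* PowerSeries (MvPowerSeries (Fin n) k) :=
      (linAut c hc).toRingEquiv.trans (MvPowerSeries.finSuccEquiv k n).toRingEquiv with hE
    set P' : Ideal (PowerSeries (MvPowerSeries (Fin n) k)) := P.comap E.symm.toRingHom with hP'
    have hP'p : P'.IsPrime := Ideal.IsPrime.comap _
    have hmem : E f ∈ P' := by
      rw [hP', Ideal.mem_comap]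
      change E.symm (E f) ∈ P
      rw [E.symm_apply_apply]; exact hfP
    have hred : (E f).map (residue (MvPowerSeries (Fin n) k)) ≠ 0 := by
      intro h0
      apply hsl
      ext D
      have h1 : PowerSeries.coeff D ((E f).map (residue (MvPowerSeries (Fin n) k))) = 0 := by
        rw [h0]; simp
      rw [PowerSeries.coeff_map, residue_eq_zero_iff, mem_maximalIdeal, mem_nonunits_iff,
        MvPowerSeries.isUnit_iff_constantCoeff, isUnit_iff_ne_zero, not_not] at h1
      rw [map_zero]
      exact h1
    obtain ⟨q, hq, hqp⟩ := exists_prime_mem hred P' hmem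
    refine ⟨E.symm q, hq, ?_⟩
    exact (MulEquiv.prime_iff E.symm.toMulEquiv).2 hqp

end Crest.Agent.R271.UFD243
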