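import Mathlib
import Crest.Agent.R271.UfdB_243

set_option autoImplicit false

/-!
# Row 271, part (B3), step 3: descent of factoriality along flat local homomorphisms
-/

namespace Crest.Agent.R271.UFD243

open IsLocalRing TensorProduct

section Descent

variable {R S : Type*} [CommRing R] [CommRing S] [Algebra R S] [Module.Flat R S]

/-- Relations `b • s = a • t` over a flat algebra. -/
theorem exists_of_smul_eq {a b : R} {s t : S}
    (h : algebraMap R S b * s = algebraMap R S a * t) :
    ∃ (κ : ℕ) (u v : Fin κ → R) (y : Fin κ → S),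
      (∀ j, b * u j = a * v j) ∧ s = ∑ j, algebraMap R S (u j) * y j ∧
        t = ∑ j, algebraMap R S (v j) * y j := by
  obtain ⟨κ, A, y, h1, h2⟩ := Module.Flat.isTrivialRelation_of_sum_smul_eq_zero
    (f := (![b, -a] : Fin 2 → R)) (x := (![s, t] : Fin 2 → S)) (by
      simp [Fin.sum_univ_two, Algebra.smul_def, h])
  refine ⟨κ, fun j => A 0 j, fun j => A 1 j, y, ?_, ?_, ?_⟩
  · intro j
    have := h2 j
    simp only [Fin.sum_univ_two, Matrix.cons_val_zero, Matrix.cons_val_one, neg_mul] at this
    linear_combination this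
  · have := h1 0
    simpa [Algebra.smul_def] using this
  · have := h1 1
    simpa [Algebra.smul_def] using this

variable [IsLocalRing R] [IsLocalRing S] [IsLocalHom (algebraMap R S)]

omit [IsLocalRing R] in
/-- Divisibility descends along flat local homomorphisms. -/
theorem dvd_of_algebraMap_dvd {a b : R} (h : algebraMap R S a ∣ algebraMap R S b) : a ∣ b := by
  obtain ⟨t, ht⟩ := h
  obtain ⟨κ, u, v, y, h1, h2, h3⟩ := exists_of_smul_eq (R := R) (S := S) (a := a) (b := b)
    (s := 1) (t := t) (by rw [mul_one, ht])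
  -- some u j is a unit
  obtain ⟨j, hj⟩ : ∃ j, IsUnit (u j) := by
    by_contra hcon
    push Not at hcon
    have hmem : (1 : S) ∈ maximalIdeal S := by
      rw [h2]
      refine Ideal.sum_mem _ (fun j _ => Ideal.mul_mem_right _ _ ?_)
      rw [mem_maximalIdeal, mem_nonunits_iff]
      intro hu
      exact hcon j (isUnit_of_map_unit (algebraMap R S) _ hu)
    exact (Ideal.ne_top_iff_one _).1 (maximalIdeal.isMaximal S).ne_top hmem
  obtain ⟨w, hw⟩ := hj
  refine ⟨v j * ↑w⁻¹, ?_⟩
  have := h1 j
  rw [← hw] at this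
  calc b = b * w * ↑w⁻¹ := by rw [mul_assoc, Units.mul_inv, mul_one]
    _ = a * (v j * ↑w⁻¹) := by rw [this]; ring

/-- The colon ideal `(a) : (b)`. -/
def colon (a b : R) : Ideal R where
  carrier := {r | a ∣ r * b}
  add_mem' := by
    intro x y hx hy
    simp only [Set.mem_ofPred_eq] at *
    rw [add_mul]; exact dvd_add hx hy
  zero_mem' := by simp
  smul_mem' := by
    intro c x hx
    simp only [Set.mem_ofPred_eq, smul_eq_mul] at *
    rw [mul_assoc]; exact hx.mul_left c

omit [Module.Flat R S] [IsLocalRing R] [IsLocalRing S] [IsLocalHom (algebraMap R S)] [Algebra R S]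
  [CommRing S] in
theorem mem_colon {a b r : R} : r ∈ colon a b ↔ a ∣ r * b := Iff.rfl

variable (S) in
/-- Main descent step: colon ideals are principal. -/
theorem colon_principal [IsDomain R] [IsDomain S] [UniqueFactorizationMonoid S]
    (hinj : Function.Injective (algebraMap R S)) (a b : R) (ha : a ≠ 0) :
    ∃ r ∈ colon a b, ∀ x ∈ colon a b, r ∣ x := by
  classical
  let _ : GCDMonoid S := UniqueFactorizationMonoid.toGCDMonoid S
  set α := algebraMap R S a with hα
  set β := algebraMap R S b with hβ
  have hα0 : α ≠ 0 := by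
    rw [hα]; exact (map_ne_zero_iff _ hinj).2 ha
  obtain ⟨α', β', hα', hβ', hrel⟩ := extract_gcd α β
  -- α = gcd * α', β = gcd * β'
  set g := gcd α β with hg
  have hg0 : g ≠ 0 := by
    intro h
    rw [h, zero_mul] at hα'
    exact hα0 hα'
  have hα'0 : α' ≠ 0 := by
    intro h
    rw [h, mul_zero] at hα'
    exact hα0 hα'
  have hkey : ∀ s : S, α ∣ s * β ↔ α' ∣ s := by
    intro s
    constructor
    · intro h
      rw [hα', hβ'] at h
      have h1 : α' ∣ s * β' := by
        have : g * α' ∣ g * (s * β') := by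
          convert h using 1
          ring
        exact (mul_dvd_mul_iff_left hg0).1 this
      have h2 : IsUnit (gcd α' β') := hrel
      exact ((gcd_isUnit_iff_isRelPrime).1 h2).dvd_of_dvd_mul_right h1
    · rintro ⟨c, rfl⟩
      rw [hα', hβ']
      exact ⟨c * β', by ring⟩
  -- α' is a combination of images of elements of the colon ideal
  have hmem : α ∣ α' * β := (hkey α').2 dvd_rfl
  obtain ⟨t, ht⟩ := hmem
  obtain ⟨κ, u, v, y, h1, h2, h3⟩ := exists_of_smul_eq (R := R) (S := S) (a := a) (b := b)
    (s := α') (t := t) (by rw [← hα, ← hβ, mul_comm, ht])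
  have hu : ∀ j, u j ∈ colon a b := by
    intro j
    rw [mem_colon]
    exact ⟨v j, by rw [mul_comm]; exact h1 j⟩
  have hdiv : ∀ x ∈ colon a b, α' ∣ algebraMap R S x := by
    intro x hx
    rw [← hkey, hα, hβ, ← map_mul]
    exact map_dvd _ hx
  -- write algebraMap (u j) = α' * c j
  choose c hc using fun j => hdiv (u j) (hu j)
  have hone : ∑ j, c j * y j = 1 := by
    have h4 : α' * ∑ j, c j * y j = α' * 1 := by
      rw [mul_one, Finset.mul_sum]
      conv_rhs => rw [h2]
      exact Finset.sum_congr rfl (fun j _ => by rw [hc j]; ring)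
    exact mul_left_cancel₀ hα'0 h4
  obtain ⟨j, hj⟩ : ∃ j, IsUnit (c j) := by
    by_contra hcon
    push Not at hcon
    have hmem : (1 : S) ∈ maximalIdeal S := by
      rw [← hone]
      refine Ideal.sum_mem _ (fun j _ => Ideal.mul_mem_right _ _ ?_)
      rw [mem_maximalIdeal, mem_nonunits_iff]
      exact hcon j
    exact (Ideal.ne_top_iff_one _).1 (maximalIdeal.isMaximal S).ne_top hmem
  refine ⟨u j, hu j, ?_⟩
  intro x hx
  apply dvd_of_algebraMap_dvd (S := S)
  have h5 : algebraMap R S (u j) ∣ α' := by
    rw [hc j]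
    obtain ⟨w, hw⟩ := hj
    rw [← hw]
    exact ⟨↑w⁻¹, by rw [mul_assoc, Units.mul_inv, mul_one]⟩
  exact h5.trans (hdiv x hx)

variable (R S) in
/-- Factoriality descends along flat local homomorphisms from Noetherian domains. -/
theorem ufd_of_flat_local [IsDomain R] [IsNoetherianRing R] [IsDomain S]
    [UniqueFactorizationMonoid S] : UniqueFactorizationMonoid R := by
  have hinj : Function.Injective (algebraMap R S) := by
    rw [injective_iff_map_eq_zero]
    intro a ha
    have : (0 : R) ∣ a := dvd_of_algebraMap_dvd (S := S) (by rw [ha]; exact dvd_zero _)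
    exact zero_dvd_iff.1 this
  have hirr : ∀ {p : R}, Irreducible p → Prime p := by
    intro p hp
    refine ⟨hp.ne_zero, hp.not_isUnit, ?_⟩
    intro b c hbc
    by_cases hb : p ∣ b
    · exact Or.inl hb
    right
    obtain ⟨r, hr, hr2⟩ := colon_principal (R := R) S hinj p b hp.ne_zero
    have h1 : r ∣ p := hr2 p (by rw [mem_colon]; exact dvd_mul_right p b)
    have h2 : r ∣ c := hr2 c (by rw [mem_colon, mul_comm]; exact hbc)
    obtain ⟨e, he⟩ := h1
    rcases hp.isUnit_or_isUnit he with h | h
    · exfalso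
      apply hb
      rw [mem_colon] at hr
      obtain ⟨w, hw⟩ := h
      rw [← hw] at hr
      exact (Units.dvd_mul_left).1 hr
    · have : p ∣ r := by
        obtain ⟨w, hw⟩ := h
        exact ⟨↑w⁻¹, by rw [he, ← hw, mul_assoc, Units.mul_inv, mul_one]⟩
      exact this.trans h2
  exact { (inferInstance : IsWellFounded R DvdNotUnit) with
    irreducible_iff_prime := ⟨hirr, fun h => h.irreducible⟩ }

end Descent

end Crest.Agent.R271.UFD243
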