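import Mathlib
import Crest.Agent.R271.UfdC_243

set_option autoImplicit false

/-!
# Row 271, part (B3), step 4: local rings of étale algebras over `k[t_1..t_n]` at rational points
-/

namespace Crest.Agent.R271.UFD243

open IsLocalRing TensorProduct

/-- If `B → A` is étale, `B → S` flat and `A → S` is compatible, then `A → S` is flat. -/
theorem flat_of_etale {B A S : Type*} [CommRing B] [CommRing A] [CommRing S] [Algebra B A]
    [Algebra B S] [Algebra A S] [IsScalarTower B A S] [Algebra.Etale B A] [Module.Flat B S] :
    Module.Flat A S := by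
  let φ : A ⊗[B] S →ₐ[A] S :=
    Algebra.TensorProduct.lift (Algebra.ofId A S) (AlgHom.id B S)
      (fun _ _ => Commute.all _ _)
  algebraize [φ.toRingHom]
  let _ : Algebra S (A ⊗[B] S) := Algebra.TensorProduct.rightAlgebra
  have h1 : IsScalarTower S (A ⊗[B] S) S := by
    refine IsScalarTower.of_algebraMap_eq' ?_
    ext x
    change x = φ ((1 : A) ⊗ₜ[B] x)
    simp [φ]
  have h2 : Algebra.Etale S (A ⊗[B] S) :=
    Algebra.Etale.of_equiv (Algebra.TensorProduct.commRight B S A)
  have h3 : Algebra.Etale (A ⊗[B] S) S := .of_restrictScalars S _ _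
  have h4 : Module.Flat (A ⊗[B] S) S := Algebra.Smooth.flat (A ⊗[B] S) S
  have h5 : Module.Flat A (A ⊗[B] S) := inferInstance
  have h6 : IsScalarTower A (A ⊗[B] S) S := by
    refine IsScalarTower.of_algebraMap_eq' ?_
    ext x
    change algebraMap A S x = φ (x ⊗ₜ[B] (1 : S))
    simp [φ, Algebra.ofId_apply]
  exact Module.Flat.trans A (A ⊗[B] S) S

/-- `k[[z]]` is flat over `k[z]`. -/
theorem flat_mvPowerSeries (k : Type*) [Field k] (n : ℕ) :
    Module.Flat (MvPolynomial (Fin n) k) (MvPowerSeries (Fin n) k) :=
  Module.Flat.of_linearEquiv (MvPowerSeries.toAdicCompletionAlgEquiv (Fin n) k).toLinearEquiv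

section Point

universe u

variable {k : Type u} [Field k] {n : ℕ} {A : Type u} [CommRing A] [Algebra k A]

/-- Translation `X_i ↦ X_i - a_i` on the polynomial ring. -/
noncomputable def translate (a : Fin n → k) :
    MvPolynomial (Fin n) k ≃ₐ[k] MvPolynomial (Fin n) k :=
  AlgEquiv.ofAlgHom
    (MvPolynomial.aeval (fun i => MvPolynomial.X i - MvPolynomial.C (a i)))
    (MvPolynomial.aeval (fun i => MvPolynomial.X i + MvPolynomial.C (a i)))
    (by ext i; simp)
    (by ext i; simp)

theorem translate_X (a : Fin n → k) (i : Fin n) :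
    translate a (MvPolynomial.X i) = MvPolynomial.X i - MvPolynomial.C (a i) := by
  simp [translate]

/-- The formal expansion at a rational point of an étale algebra over `k[t_1, …, t_n]`:
a flat homomorphism to `k[[z]]` sending `t_i` to `ev t_i + z_i` and compatible with `ev`. -/
theorem exists_expansion (g : MvPolynomial (Fin n) k →ₐ[k] A) (hg : g.toRingHom.Etale)
    (ev : A →ₐ[k] k) :
    ∃ h : A →ₐ[k] MvPowerSeries (Fin n) k,
      (∀ i, h (g (MvPolynomial.X i)) =
        MvPowerSeries.C (ev (g (MvPolynomial.X i))) + MvPowerSeries.X i) ∧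
      (∀ a, MvPowerSeries.constantCoeff (h a) = ev a) ∧ h.toRingHom.Flat := by
  set a : Fin n → k := fun i => ev (g (MvPolynomial.X i)) with ha
  set g' : MvPolynomial (Fin n) k →ₐ[k] A := g.comp (translate a).toAlgHom with hg'
  have hg'X : ∀ i, g' (MvPolynomial.X i) = g (MvPolynomial.X i) - algebraMap k A (a i) := by
    intro i
    have h1 : g' (MvPolynomial.X i) = g (translate a (MvPolynomial.X i)) := rfl
    rw [h1, translate_X, map_sub]
    congr 1
    exact g.commutes _
  have het : g'.toRingHom.Etale := by
    have h1 : g'.toRingHom = g.toRingHom.comp (translate a).toRingEquiv.toRingHom := rfl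
    rw [h1]
    exact RingHom.Etale.stableUnderComposition (translate a).toRingEquiv.toRingHom g.toRingHom
      (RingHom.Etale.of_bijective (translate a).bijective) hg
  algebraize [g'.toRingHom]
  have hst : IsScalarTower k (MvPolynomial (Fin n) k) A := by
    refine IsScalarTower.of_algebraMap_eq' ?_
    ext c
    exact (g'.commutes c).symm
  -- the residual map
  have hev : ∀ b : MvPolynomial (Fin n) k,
      ev (algebraMap (MvPolynomial (Fin n) k) A b) = MvPolynomial.constantCoeff b := by
    intro b
    have h1 : (ev.comp g') = (MvPolynomial.aeval (fun _ => (0 : k))) := by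
      ext i
      rw [AlgHom.comp_apply, hg'X, map_sub, MvPolynomial.aeval_X]
      simp [ha]
    have h2 := congrArg (fun f => f b) h1
    simp only [AlgHom.comp_apply] at h2
    change ev (g' b) = _
    rw [h2]
    simp [MvPolynomial.aeval_eq_constantCoeff_of_vars, MvPolynomial.constantCoeff_eq]
  set m := maximalIdeal (MvPowerSeries (Fin n) k) with hm
  have hmem : ∀ f : MvPowerSeries (Fin n) k, f ∈ m ↔ MvPowerSeries.constantCoeff f = 0 := by
    intro f
    rw [hm, maximalIdeal_eq_span, mem_span_range_X_iff]
  let f : A →ₐ[MvPolynomial (Fin n) k] MvPowerSeries (Fin n) k ⧸ m :=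
    { toRingHom := (Ideal.Quotient.mk m).comp ((MvPowerSeries.C (σ := Fin n) (R := k)).comp
        ev.toRingHom)
      commutes' := by
        intro b
        change Ideal.Quotient.mk m (MvPowerSeries.C (ev (algebraMap _ A b))) =
          Ideal.Quotient.mk m (algebraMap (MvPolynomial (Fin n) k) (MvPowerSeries (Fin n) k) b)
        rw [hev, Ideal.Quotient.eq, hmem, map_sub]
        have h3 : algebraMap (MvPolynomial (Fin n) k) (MvPowerSeries (Fin n) k) b =
            (b : MvPowerSeries (Fin n) k) := by
          simp [MvPowerSeries.algebraMap_apply']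
        rw [h3, MvPowerSeries.constantCoeff_C, sub_eq_zero]
        rw [← MvPowerSeries.coeff_zero_eq_constantCoeff_apply, MvPolynomial.coeff_coe,
          MvPolynomial.constantCoeff_eq] }
  obtain ⟨h, hh⟩ := Algebra.FormallySmooth.exists_mkₐ_comp_eq_of_isAdicComplete
    (R := MvPolynomial (Fin n) k) (A := A) (I := m) f
  have hcc : ∀ x, MvPowerSeries.constantCoeff (h x) = ev x := by
    intro x
    have h4 : (Ideal.Quotient.mkₐ (MvPolynomial (Fin n) k) m) (h x) = f x := by
      rw [← hh]; rfl
    have h5 : Ideal.Quotient.mk m (h x) = Ideal.Quotient.mk m (MvPowerSeries.C (ev x)) := h4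
    rw [Ideal.Quotient.eq, hmem, map_sub, MvPowerSeries.constantCoeff_C, sub_eq_zero] at h5
    exact h5
  have hcomm : ∀ b : MvPolynomial (Fin n) k, h (g' b) = (b : MvPowerSeries (Fin n) k) := by
    intro b
    have := h.commutes b
    have h3 : algebraMap (MvPolynomial (Fin n) k) (MvPowerSeries (Fin n) k) b =
        (b : MvPowerSeries (Fin n) k) := by
      simp [MvPowerSeries.algebraMap_apply']
    rw [h3] at this
    exact this
  let h' : A →ₐ[k] MvPowerSeries (Fin n) k :=
    { toRingHom := h.toRingHom
      commutes' := by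
        intro c
        change h (algebraMap k A c) = _
        have h6 : algebraMap k A c = g' (MvPolynomial.C c) := (g'.commutes c).symm
        rw [h6, hcomm, MvPolynomial.coe_C]
        rfl }
  refine ⟨h', ?_, hcc, ?_⟩
  · intro i
    have h7 : g (MvPolynomial.X i) = g' (MvPolynomial.X i) + g' (MvPolynomial.C (a i)) := by
      rw [hg'X]
      have : g' (MvPolynomial.C (a i)) = algebraMap k A (a i) := g'.commutes _
      rw [this]; ring
    have h8 : h (g (MvPolynomial.X i)) = MvPowerSeries.C (a i) + MvPowerSeries.X i := by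
      rw [h7, map_add, hcomm, hcomm, MvPolynomial.coe_C, MvPolynomial.coe_X, add_comm]
    exact h8
  · algebraize [h.toRingHom]
    have hst2 : IsScalarTower (MvPolynomial (Fin n) k) A (MvPowerSeries (Fin n) k) := by
      refine IsScalarTower.of_algebraMap_eq' ?_
      ext x
      · exact (congrArg _ (h.commutes _)).symm
      · exact (congrArg _ (h.commutes _)).symm
    have := flat_mvPowerSeries k n
    exact flat_of_etale (B := MvPolynomial (Fin n) k) (A := A) (S := MvPowerSeries (Fin n) k)

end Point

end Crest.Agent.R271.UFD243
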