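import Mathlib
import Crest.Agent.R271.UfdD_243

set_option autoImplicit false

/-!
# Row 271, part (B3), step 5: local rings at rational points of étale `k[t_1..t_n]`-algebras
-/

namespace Crest.Agent.R271.UFD243

open IsLocalRing TensorProduct

universe u

section Local

variable {k : Type u} [Field k] {n : ℕ} {A : Type u} [CommRing A] [Algebra k A]
  (g : MvPolynomial (Fin n) k →ₐ[k] A) (hg : g.toRingHom.Etale) (ev : A →ₐ[k] k)
  (P : Ideal A) [P.IsPrime] (hP : RingHom.ker ev = P)
  (R : Type u) [CommRing R] [Algebra A R] [IsLocalization.AtPrime R P]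

include hg hP in
/-- The formal expansion on the local ring at a rational point: a faithfully flat local
homomorphism `R → k[[z]]`. -/
theorem exists_expansion_local [IsLocalRing R] :
    ∃ h : R →+* MvPowerSeries (Fin n) k,
      (∀ i, h (algebraMap A R (g (MvPolynomial.X i))) =
        MvPowerSeries.C (ev (g (MvPolynomial.X i))) + MvPowerSeries.X i) ∧
      (∀ c : k, h (algebraMap A R (algebraMap k A c)) = MvPowerSeries.C c) ∧
      (∀ a : A, MvPowerSeries.constantCoeff (h (algebraMap A R a)) = ev a) ∧
      h.Flat ∧ IsLocalHom h := by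
  subst hP
  obtain ⟨h, h1, h2, h3⟩ := exists_expansion g hg ev
  have hunit : ∀ y : (RingHom.ker ev).primeCompl, IsUnit (h.toRingHom y) := by
    rintro ⟨y, hy⟩
    rw [MvPowerSeries.isUnit_iff_constantCoeff, isUnit_iff_ne_zero]
    change MvPowerSeries.constantCoeff (h y) ≠ 0
    rw [h2]
    intro h0
    exact hy (by rw [SetLike.mem_coe, RingHom.mem_ker]; exact h0)
  set H : R →+* MvPowerSeries (Fin n) k := IsLocalization.lift hunit with hH
  have hHa : ∀ a : A, H (algebraMap A R a) = h a := fun a => IsLocalization.lift_eq hunit a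
  refine ⟨H, ?_, ?_, ?_, ?_, ?_⟩
  · intro i; rw [hHa]; exact h1 i
  · intro c; rw [hHa, h.commutes]; rfl
  · intro a; rw [hHa]; exact h2 a
  · algebraize [h.toRingHom, H]
    have : IsScalarTower A R (MvPowerSeries (Fin n) k) := by
      refine IsScalarTower.of_algebraMap_eq' ?_
      ext a : 1
      exact (hHa a).symm
    exact (Module.flat_iff_of_isLocalization (R := A) R (RingHom.ker ev).primeCompl _).2 h3
  · refine ⟨fun r hr => ?_⟩
    obtain ⟨a, s, rfl⟩ := IsLocalization.exists_mk'_eq (RingHom.ker ev).primeCompl r
    have h4 : H (IsLocalization.mk' R a s) * H (algebraMap A R s) = h a := by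
      rw [← map_mul, IsLocalization.mk'_spec, hHa]
    have h5 : IsUnit (h a) := by
      rw [← h4, hHa]
      exact hr.mul (hunit s)
    rw [MvPowerSeries.isUnit_iff_constantCoeff, isUnit_iff_ne_zero, h2] at h5
    have h6 : a ∈ (RingHom.ker ev).primeCompl := by
      intro h0
      rw [SetLike.mem_coe, RingHom.mem_ker] at h0
      exact h5 h0
    rw [IsLocalization.AtPrime.isUnit_mk'_iff (S := R) (I := RingHom.ker ev)]
    exact h6

include hg hP in
/-- The local ring at a rational point of an étale `k[t_1, …, t_n]`-algebra is a UFD. -/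
theorem etale_point_ufd [Infinite k] [IsLocalRing R] [IsDomain R] [IsNoetherianRing R] :
    UniqueFactorizationMonoid R := by
  obtain ⟨h, _, _, _, h4, h5⟩ := exists_expansion_local g hg ev P hP R
  algebraize [h]
  have := mvPowerSeries_ufd (k := k) n
  exact ufd_of_flat_local R (MvPowerSeries (Fin n) k)

include hg hP in
/-- The maximal ideal is generated by the `t_i - t_i(x)`. -/
theorem etale_point_maximalIdeal [IsLocalRing R] :
    maximalIdeal R = Ideal.span (Set.range fun i => algebraMap A R
      (g (MvPolynomial.X i) - algebraMap k A (ev (g (MvPolynomial.X i))))) := by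
  obtain ⟨h, h1, h2, h3, h4, h5⟩ := exists_expansion_local g hg ev P hP R
  algebraize [h]
  have hff : Module.FaithfullyFlat R (MvPowerSeries (Fin n) k) :=
    Module.FaithfullyFlat.of_flat_of_isLocalHom
  set I := Ideal.span (Set.range fun i => algebraMap A R
      (g (MvPolynomial.X i) - algebraMap k A (ev (g (MvPolynomial.X i))))) with hI
  have hmap : I.map (algebraMap R (MvPowerSeries (Fin n) k)) =
      maximalIdeal (MvPowerSeries (Fin n) k) := by
    rw [hI, Ideal.map_span, maximalIdeal_eq_span, ← Set.range_comp]
    congr 1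
    congr 1
    funext i
    change h (algebraMap A R _) = _
    rw [map_sub, map_sub, h1, h2]
    ring
  have h6 : I = (maximalIdeal (MvPowerSeries (Fin n) k)).comap
      (algebraMap R (MvPowerSeries (Fin n) k)) := by
    rw [← hmap, Ideal.comap_map_eq_self_of_faithfullyFlat]
  rw [h6]
  have h7 := ((local_hom_TFAE (algebraMap R (MvPowerSeries (Fin n) k))).out 0 4).1 h5
  exact h7.symm

include hg hP in
/-- Powers of the maximal ideal are detected on the formal expansion. -/
theorem exists_expansion_pow [IsLocalRing R] :
    ∃ h : R →+* MvPowerSeries (Fin n) k,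
      (∀ i, h (algebraMap A R (g (MvPolynomial.X i))) =
        MvPowerSeries.C (ev (g (MvPolynomial.X i))) + MvPowerSeries.X i) ∧
      (∀ c : k, h (algebraMap A R (algebraMap k A c)) = MvPowerSeries.C c) ∧
      (∀ a : A, MvPowerSeries.constantCoeff (h (algebraMap A R a)) = ev a) ∧
      Function.Injective h ∧
      (∀ (e : ℕ) (r : R), r ∈ maximalIdeal R ^ e ↔
        h r ∈ Ideal.span (Set.range (MvPowerSeries.X : Fin n → MvPowerSeries (Fin n) k)) ^ e) := by
  obtain ⟨h, h1, h2, h3, h4, h5⟩ := exists_expansion_local g hg ev P hP R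
  refine ⟨h, h1, h2, h3, ?_, ?_⟩
  · algebraize [h]
    have hff : Module.FaithfullyFlat R (MvPowerSeries (Fin n) k) :=
      Module.FaithfullyFlat.of_flat_of_isLocalHom
    exact FaithfulSMul.algebraMap_injective R (MvPowerSeries (Fin n) k)
  · intro e r
    algebraize [h]
    have hff : Module.FaithfullyFlat R (MvPowerSeries (Fin n) k) :=
      Module.FaithfullyFlat.of_flat_of_isLocalHom
    have hmap : (maximalIdeal R).map (algebraMap R (MvPowerSeries (Fin n) k)) =
        Ideal.span (Set.range (MvPowerSeries.X : Fin n → MvPowerSeries (Fin n) k)) := by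
      rw [etale_point_maximalIdeal g hg ev P hP R, Ideal.map_span, ← Set.range_comp]
      congr 1
      congr 1
      funext i
      change h (algebraMap A R _) = _
      rw [map_sub, map_sub, h1, h2]
      ring
    have h6 : maximalIdeal R ^ e = (Ideal.span (Set.range
        (MvPowerSeries.X : Fin n → MvPowerSeries (Fin n) k)) ^ e).comap
        (algebraMap R (MvPowerSeries (Fin n) k)) := by
      rw [← hmap, ← Ideal.map_pow, Ideal.comap_map_eq_self_of_faithfullyFlat]
    rw [h6]
    rfl

end Local

end Crest.Agent.R271.UFD243
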