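import Mathlib
import Crest.Agent.R271.UfdE_243

set_option autoImplicit false

/-!
# Row 271, part (B3), step 6: all local rings of étale `ℂ[t_1..t_n]`-algebras are UFDs
-/

namespace Crest.Agent.R271.UFD243

open IsLocalRing

/-- Localisations of UFDs (away from 0) are UFDs. -/
theorem ufd_localization {R S : Type*} [CommRing R] [IsDomain R] [UniqueFactorizationMonoid R]
    [CommRing S] [IsDomain S] [Algebra R S] (M : Submonoid R) (hM : M ≤ nonZeroDivisors R)
    [IsLocalization M S] : UniqueFactorizationMonoid S := by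
  rw [UniqueFactorizationMonoid.iff_exists_prime_mem_of_isPrime]
  intro Q hQ hQp
  have hinj : Function.Injective (algebraMap R S) := IsLocalization.injective S hM
  set Q' : Ideal R := Q.comap (algebraMap R S) with hQ'
  have hQ'p : Q'.IsPrime := Ideal.IsPrime.comap _
  have hQ'ne : Q' ≠ ⊥ := by
    intro h
    apply hQ
    have h1 : Ideal.map (algebraMap R S) Q' = Q := IsLocalization.map_under M S Q
    rw [← h1, h, Ideal.map_bot]
  obtain ⟨p, hp, hpp⟩ := hQ'p.exists_mem_prime_of_ne_bot hQ'ne
  refine ⟨algebraMap R S p, hp, ?_⟩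
  have hsp : (Ideal.span {p}).IsPrime := (Ideal.span_singleton_prime hpp.ne_zero).2 hpp
  have hdisj : Disjoint (M : Set R) (Ideal.span {p} : Ideal R) := by
    rw [Set.disjoint_left]
    intro m hm hmp
    have h2 : m ∈ Q' := by
      have : Ideal.span {p} ≤ Q' := by
        rw [Ideal.span_singleton_le_iff_mem]; exact hp
      exact this hmp
    have h3 : IsUnit (algebraMap R S m) := IsLocalization.map_units S ⟨m, hm⟩
    exact hQp.ne_top (Ideal.eq_top_of_isUnit_mem _ h2 h3)
  have h4 := IsLocalization.isPrime_of_isPrime_disjoint M S (Ideal.span {p}) hsp hdisj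
  rw [Ideal.map_span, Set.image_singleton] at h4
  exact (Ideal.span_singleton_prime ((map_ne_zero_iff _ hinj).2 hpp.ne_zero)).1 h4

section Chart

variable {n : ℕ} {A : Type} [CommRing A] [IsDomain A] [Algebra ℂ A]
  (g : MvPolynomial (Fin n) ℂ →ₐ[ℂ] A) (hg : g.toRingHom.Etale)

omit [IsDomain A] in
include hg in
theorem finiteType_of_etale : Algebra.FiniteType ℂ A := by
  algebraize [g.toRingHom]
  have : IsScalarTower ℂ (MvPolynomial (Fin n) ℂ) A := by
    refine IsScalarTower.of_algebraMap_eq' ?_
    ext c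
    exact (g.commutes c).symm
  exact Algebra.FiniteType.trans (S := MvPolynomial (Fin n) ℂ) inferInstance inferInstance

/-- The rational point of a maximal ideal (Nullstellensatz). -/
theorem exists_ev (A : Type) [CommRing A] [Algebra ℂ A] [Algebra.FiniteType ℂ A] (m : Ideal A)
    [m.IsMaximal] : ∃ ev : A →ₐ[ℂ] ℂ, RingHom.ker ev = m := by
  let _ := Ideal.Quotient.field m
  have h1 : Module.Finite ℂ (A ⧸ m) := finite_of_finite_type_of_isJacobsonRing ℂ (A ⧸ m)
  have h2 : Function.Bijective (algebraMap ℂ (A ⧸ m)) :=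
    IsAlgClosed.algebraMap_bijective_of_isIntegral
  let e : ℂ ≃ₐ[ℂ] (A ⧸ m) := AlgEquiv.ofBijective (Algebra.ofId ℂ (A ⧸ m)) h2
  refine ⟨e.symm.toAlgHom.comp (Ideal.Quotient.mkₐ ℂ m), ?_⟩
  ext a
  rw [RingHom.mem_ker]
  change e.symm (Ideal.Quotient.mk m a) = 0 ↔ _
  rw [map_eq_zero_iff _ e.symm.injective, Ideal.Quotient.eq_zero_iff_mem]

include hg in
/-- All local rings of an étale `ℂ[t_1, …, t_n]`-algebra (domain) are UFDs. -/
theorem chart_ufd (P : Ideal A) [P.IsPrime] (R : Type) [CommRing R] [Algebra A R] [IsDomain R]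
    [IsLocalization.AtPrime R P] : UniqueFactorizationMonoid R := by
  have hft : Algebra.FiniteType ℂ A := finiteType_of_etale g hg
  have hN : IsNoetherianRing A := Algebra.FiniteType.isNoetherianRing ℂ A
  obtain ⟨m, hm, hPm⟩ := P.exists_le_maximal (Ideal.IsPrime.ne_top ‹_›)
  obtain ⟨ev, hev⟩ := exists_ev A m
  set R1 := Localization.AtPrime m with hR1
  have hM1 : m.primeCompl ≤ nonZeroDivisors A := m.primeCompl_le_nonZeroDivisors
  have hdom : IsDomain R1 := IsLocalization.isDomain_localization hM1
  have hNR : IsNoetherianRing R1 := IsLocalization.isNoetherianRing m.primeCompl R1 hN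
  have hufd : UniqueFactorizationMonoid R1 := etale_point_ufd g hg ev m hev R1
  have hle : m.primeCompl ≤ P.primeCompl := by
    intro a ha haP
    exact ha (hPm haP)
  let _ : Algebra R1 R := IsLocalization.localizationAlgebraOfSubmonoidLe R1 R m.primeCompl
    P.primeCompl hle
  have hst : IsScalarTower A R1 R :=
    IsLocalization.localization_isScalarTower_of_submonoid_le R1 R m.primeCompl P.primeCompl hle
  have hloc : IsLocalization (P.primeCompl.map (algebraMap A R1)) R :=
    IsLocalization.isLocalization_of_submonoid_le R1 R m.primeCompl P.primeCompl hle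
  refine ufd_localization (R := R1) (P.primeCompl.map (algebraMap A R1)) ?_
  rintro _ ⟨a, ha, rfl⟩
  rw [mem_nonZeroDivisors_iff_ne_zero]
  have hinj : Function.Injective (algebraMap A R1) := IsLocalization.injective R1 hM1
  rw [Ne, map_eq_zero_iff _ hinj]
  rintro rfl
  exact ha P.zero_mem

end Chart

/-- A Noetherian local UFD of Krull dimension one is a DVR. -/
theorem isDVR_of_ufd_of_dim_one (R : Type*) [CommRing R] [IsDomain R] [IsLocalRing R]
    [IsNoetherianRing R] [UniqueFactorizationMonoid R] (hdim : ringKrullDim R = 1) :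
    IsDiscreteValuationRing R := by
  have hnf : ¬ IsField R := by
    intro h
    rw [ringKrullDim_eq_zero_of_isField h] at hdim
    exact absurd hdim (by norm_num)
  have hne : maximalIdeal R ≠ ⊥ := by
    intro h
    exact hnf (isField_iff_maximalIdeal_eq.2 h)
  obtain ⟨p, hp, hpp⟩ := (maximalIdeal.isMaximal R).isPrime.exists_mem_prime_of_ne_bot hne
  have hsp : (Ideal.span {p}).IsPrime := (Ideal.span_singleton_prime hpp.ne_zero).2 hpp
  have hdl : Ring.KrullDimLE 1 R := by
    rw [Ring.krullDimLE_iff, hdim]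
    rfl
  have hspm : (Ideal.span {p}).IsMaximal :=
    Ring.krullDimLE_one_iff_of_noZeroDivisors.1 hdl _ (by
      rw [Ne, Ideal.span_singleton_eq_bot]; exact hpp.ne_zero) hsp
  have heq : maximalIdeal R = Ideal.span {p} := (eq_maximalIdeal hspm).symm
  have hpr : (maximalIdeal R).IsPrincipal := ⟨p, heq⟩
  exact ((IsDiscreteValuationRing.TFAE R hnf).out 0 4).2 hpr

end Crest.Agent.R271.UFD243
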