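import Mathlib
import Crest.Agent.R271.Fr_960
import Crest.Agent.R271.UfdF_243

set_option autoImplicit false
set_option linter.style.haveILetI false
set_option linter.unusedSectionVars false

open AlgebraicGeometry Crest.AlgGeometry.Divisors Order CategoryTheory

noncomputable section

namespace Crest.Agent.R271.Bs960

/-- local equation of a prime divisor and factorisation of rational functions along it -/
theorem exists_local_eq {A R K : Type} [CommRing A] [IsDomain A] [CommRing R] [IsDomain R]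
    [IsDiscreteValuationRing R] [Ring.KrullDimLE 1 R] [Field K] [Algebra A R] [Algebra A K]
    [Algebra R K] [IsScalarTower A R K] [IsFractionRing R K] (p : Ideal A) [p.IsPrime]
    [IsLocalization.AtPrime R p] :
    ∃ t ∈ p, t ≠ 0 ∧ ∀ f : K, f ≠ 0 → ∃ (a : ℤ) (u v : A), u ∉ p ∧ v ∉ p ∧
      f * algebraMap A K v = algebraMap A K t ^ a * algebraMap A K u ∧
      Ring.ordFrac R f = WithZero.exp a := by
  obtain ⟨ϖ, hϖ⟩ := IsDiscreteValuationRing.exists_irreducible R
  obtain ⟨⟨t, s⟩, hts⟩ := IsLocalization.surj p.primeCompl ϖ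
  have hs : IsUnit (algebraMap A R s) := IsLocalization.map_units R s
  have htirr : Irreducible (algebraMap A R t) := by
    have h1 : Associated ϖ (algebraMap A R t) := ⟨hs.unit, hts⟩
    exact h1.irreducible hϖ
  have htK : algebraMap R K (algebraMap A R t) = algebraMap A K t :=
    (IsScalarTower.algebraMap_apply A R K t).symm
  have hinjRK : Function.Injective (algebraMap R K) := IsFractionRing.injective R K
  have ht0 : algebraMap A K t ≠ 0 := by
    rw [← htK]
    exact (map_ne_zero_iff _ hinjRK).2 htirr.ne_zero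
  refine ⟨t, ?_, ?_, ?_⟩
  · by_contra h
    exact htirr.not_isUnit (IsLocalization.map_units R (⟨t, h⟩ : p.primeCompl))
  · rintro rfl
    simp at ht0
  · intro f hf
    have hof : Ring.ordFrac R f ≠ 0 := (map_ne_zero _).2 hf
    obtain ⟨a, ha⟩ : ∃ a : ℤ, Ring.ordFrac R f = WithZero.exp a :=
      ⟨_, (WithZero.exp_log hof).symm⟩
    have hot : Ring.ordFrac R (algebraMap A K t) = WithZero.exp 1 := by
      rw [← htK]
      exact Ring.ordFrac_irreducible htirr
    have h1 : Ring.ordFrac R f = Ring.ordFrac R (algebraMap A K t ^ a) := by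
      rw [map_zpow₀, hot, ha, ← WithZero.exp_zsmul]
      simp
    obtain ⟨U, hU⟩ := Ring.associated_of_ordFrac_eq (R := R) _ _ h1
    obtain ⟨⟨u, v⟩, huv⟩ := IsLocalization.surj p.primeCompl ((U⁻¹ : Rˣ) : R)
    simp only at huv
    have hv : IsUnit (algebraMap A R v) := IsLocalization.map_units R v
    have hu : IsUnit (algebraMap A R u) := by
      rw [← huv]
      exact (U⁻¹).isUnit.mul hv
    have hf2 : f = algebraMap R K ((U⁻¹ : Rˣ) : R) * algebraMap A K t ^ a := by
      rw [← hU, Units.smul_def, Algebra.smul_def, ← mul_assoc, ← map_mul, Units.inv_mul, map_one,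
        one_mul]
    refine ⟨a, u, v, (IsLocalization.AtPrime.isUnit_to_map_iff R p u).1 hu, v.2, ?_, ha⟩
    have h3 := congrArg (algebraMap R K) huv
    rw [map_mul, ← IsScalarTower.algebraMap_apply, ← IsScalarTower.algebraMap_apply] at h3
    rw [hf2, ← h3]
    ring

/-- closed points of `V(p)` outside `V(h)` -/
theorem exists_point {A : Type} [CommRing A] [Algebra ℂ A] [Algebra.FiniteType ℂ A] (p : Ideal A)
    [hp : p.IsPrime] (h : A) (hh : h ∉ p) :
    ∃ y : A →ₐ[ℂ] ℂ, (∀ a ∈ p, y a = 0) ∧ y h ≠ 0 := by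
  have hJ : IsJacobsonRing A := isJacobsonRing_of_finiteType (A := ℂ)
  have h1 : p.jacobson = p := hJ.out hp.isRadical
  have h2 : h ∉ p.jacobson := by rwa [h1]
  rw [Ideal.jacobson, Ideal.mem_sInf] at h2
  push Not at h2
  obtain ⟨m, ⟨hpm, hm⟩, hhm⟩ := h2
  obtain ⟨y, hy⟩ := UFD243.exists_ev A m
  refine ⟨y, fun a ha => ?_, fun hy0 => hhm ?_⟩
  · have : a ∈ RingHom.ker y := by rw [hy]; exact hpm ha
    exact this
  · rw [← hy]; exact hy0

section scheme

variable (X : Scheme.{0}) [Algebra ℂ Γ(X, ⊤)] [IsIntegral X] [IsLocallyNoetherian X]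

/-- Local model of `X` at a prime divisor `z`: étale chart, local equation, factorisation of
rational functions. -/
theorem exists_factor {V : X.Opens} (hV : IsAffineOpen V) [Nonempty V] (z : PrimeDivisor X)
    (hz : z.1 ∈ V) [IsDiscreteValuationRing (X.presheaf.stalk z.1)] :
    ∃ t ∈ (hV.primeIdealOf ⟨z.1, hz⟩).asIdeal, t ≠ 0 ∧ ∀ f : X.functionField, f ≠ 0 →
      ∃ u v : Γ(X, V), u ∉ (hV.primeIdealOf ⟨z.1, hz⟩).asIdeal ∧
        v ∉ (hV.primeIdealOf ⟨z.1, hz⟩).asIdeal ∧
        f * algebraMap Γ(X, V) X.functionField v =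
          algebraMap Γ(X, V) X.functionField t ^ (Scheme.ord f z.1) *
            algebraMap Γ(X, V) X.functionField u := by
  letI : Algebra Γ(X, V) (X.presheaf.stalk z.1) := (X.presheaf.germ V z.1 hz).hom.toAlgebra
  have hloc : IsLocalization.AtPrime (X.presheaf.stalk z.1) (hV.primeIdealOf ⟨z.1, hz⟩).asIdeal :=
    hV.isLocalization_stalk ⟨z.1, hz⟩
  have hk : Ring.KrullDimLE 1 (X.presheaf.stalk z.1) := krullDimLE_of_coheight_le z.2.le
  have ht : IsScalarTower Γ(X, V) (X.presheaf.stalk z.1) X.functionField :=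
    functionField_isScalarTower X V ⟨z.1, hz⟩
  obtain ⟨t, ht1, ht2, h⟩ := exists_local_eq (A := Γ(X, V)) (R := X.presheaf.stalk z.1)
    (K := X.functionField) (hV.primeIdealOf ⟨z.1, hz⟩).asIdeal
  refine ⟨t, ht1, ht2, fun f hf => ?_⟩
  obtain ⟨a, u, v, hu, hv, h1, h2⟩ := h f hf
  have h3 : Scheme.ord f z.1 = a := by
    rw [Scheme.ord_eq_iff z.2 hf]
    exact h2
  rw [h3]
  exact ⟨u, v, hu, hv, h1⟩

end scheme

end Crest.Agent.R271.Bs960
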