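import Mathlib
import Crest.Prelude.Def_SmoothDivisors
import Crest.Agent.R271.UfdF_243

set_option autoImplicit false

/-!
# Row 271, part (B3), step 7: scheme level
-/

open AlgebraicGeometry CategoryTheory Order TopologicalSpace
open Crest.AlgGeometry.Divisors

namespace Crest.Agent.R271.UFD243

/-- the structure homomorphism `ℂ → Γ(X, V)` -/
noncomputable def resC (X : Scheme.{0}) [Algebra ℂ Γ(X, ⊤)] (V : X.Opens) : ℂ →+* Γ(X, V) :=
  (X.presheaf.map (homOfLE (le_top : V ≤ ⊤)).op).hom.comp (algebraMap ℂ Γ(X, ⊤))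

section Scheme

variable (X : Scheme.{0}) [Algebra ℂ Γ(X, ⊤)]

theorem structureMorphism_appLE (V : X.Opens)
    (e : V ≤ (structureMorphism ℂ X) ⁻¹ᵁ ⊤) :
    ((structureMorphism ℂ X).appLE ⊤ V e).hom.comp
      (Scheme.ΓSpecIso (CommRingCat.of ℂ)).inv.hom = resC X V := by
  have h1 : (Scheme.ΓSpecIso (CommRingCat.of ℂ)).inv ≫ (structureMorphism ℂ X).appTop =
      CommRingCat.ofHom (algebraMap ℂ Γ(X, ⊤)) := by
    rw [structureMorphism, Scheme.Hom.comp_appTop, ← Category.assoc,
      ← Scheme.ΓSpecIso_inv_naturality, Category.assoc, Scheme.toSpecΓ_appTop]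
    simp
  have h2 : (structureMorphism ℂ X).appLE ⊤ V e =
      (structureMorphism ℂ X).appTop ≫ X.presheaf.map (homOfLE (le_top : V ≤ ⊤)).op := by
    rw [Scheme.Hom.appLE]
    rfl
  rw [h2, ← CommRingCat.hom_comp, ← Category.assoc, h1]
  rfl

variable [IsIntegral X] [IsLocallyNoetherian X] {n : ℕ} (hX : IsSmoothProperVariety ℂ X n)

omit [IsIntegral X] [IsLocallyNoetherian X] in
include hX in
/-- Étale charts. -/
theorem chart_exists (x : X) : ∃ (V : X.Opens) (_ : IsAffineOpen V) (_ : x ∈ V)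
    (g : MvPolynomial (Fin n) ℂ →+* Γ(X, V)), g.Etale ∧ g.comp MvPolynomial.C = resC X V := by
  have := hX.2.2
  obtain ⟨U, hU, V, hV, hx, e, hf⟩ :=
    SmoothOfRelativeDimension.exists_isStandardSmoothOfRelativeDimension
      (n := n) (f := structureMorphism ℂ X) x
  have hUtop : U = ⊤ := by
    ext y
    simp only [Opens.coe_top, Set.mem_univ, iff_true, SetLike.mem_coe]
    have : y = (structureMorphism ℂ X) x := Subsingleton.elim _ _
    rw [this]
    exact e hx
  subst hUtop
  have h1 := structureMorphism_appLE X V e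
  have h2 : RingHom.IsStandardSmoothOfRelativeDimension n (resC X V) := by
    rw [← h1]
    have h3 : RingHom.IsStandardSmoothOfRelativeDimension 0
        (Scheme.ΓSpecIso (CommRingCat.of ℂ)).inv.hom :=
      RingHom.IsStandardSmoothOfRelativeDimension.equiv
        (Scheme.ΓSpecIso (CommRingCat.of ℂ)).symm.commRingCatIsoToRingEquiv
    have h4 := hf.comp h3
    rwa [add_zero] at h4
  obtain ⟨g, hg1, hg2⟩ := h2.exists_etale_mvPolynomial
  exact ⟨V, hV, hx, g, hg2, hg1⟩

include hX in
/-- Every local ring of `X` is a UFD. -/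
theorem stalk_ufd (x : X) : UniqueFactorizationMonoid (X.presheaf.stalk x) := by
  obtain ⟨V, hV, hx, g, hg, hgC⟩ := chart_exists X hX x
  let _ : Algebra ℂ Γ(X, V) := (resC X V).toAlgebra
  let g' : MvPolynomial (Fin n) ℂ →ₐ[ℂ] Γ(X, V) :=
    { g with
      commutes' := by
        intro c
        change g (MvPolynomial.C c) = resC X V c
        rw [← hgC]
        rfl }
  have : Nonempty V := ⟨⟨x, hx⟩⟩
  let _ := TopCat.Presheaf.algebra_section_stalk X.presheaf (⟨x, hx⟩ : V)
  have := hV.isLocalization_stalk ⟨x, hx⟩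
  exact chart_ufd g' hg (hV.primeIdealOf ⟨x, hx⟩).asIdeal (X.presheaf.stalk x)

include hX in
/-- The local ring at a prime divisor is a DVR. -/
theorem dvr_stalk (z : X) (hz : coheight z = 1) :
    IsDiscreteValuationRing (X.presheaf.stalk z) := by
  have := stalk_ufd X hX z
  apply isDVR_of_ufd_of_dim_one
  rw [ringKrullDim_stalk_eq_coheight, hz]
  rfl

end Scheme

end Crest.Agent.R271.UFD243
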