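import Mathlib
import Crest.Agent.R271.Bs1_960
import Crest.Agent.R271.UfdG_243
import Crest.Agent.R271.Defs_710
import Crest.Agent.R271.Rd3_692

set_option autoImplicit false
set_option linter.style.haveILetI false
set_option linter.unusedSectionVars false

open AlgebraicGeometry Crest.AlgGeometry.Divisors Order CategoryTheory
open Crest.Agent.R271.Defs710
open scoped ENNReal

noncomputable section

namespace Crest.Agent.R271.Bs960

/-- order exactly `a` (helper741's `OrdAt`) -/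
def OrdAt' {A K : Type} [CommRing A] [Algebra ℂ A] [Field K] [Algebra A K]
    (y : A →ₐ[ℂ] ℂ) (t : A) (f : K) (a : ℤ) : Prop :=
  ∃ u v : A, y u ≠ 0 ∧ y v ≠ 0 ∧ f * algebraMap A K v = algebraMap A K t ^ a * algebraMap A K u

/-- order at least `a` (helper741's `OrdGe`) -/
def OrdGe' {A K : Type} [CommRing A] [Algebra ℂ A] [Field K] [Algebra A K]
    (y : A →ₐ[ℂ] ℂ) (t : A) (f : K) (a : ℤ) : Prop :=
  ∃ u v : A, y v ≠ 0 ∧ f * algebraMap A K v = algebraMap A K t ^ a * algebraMap A K u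

/-- statement of helper741's `boundary` -/
def BoundaryStmt : Prop :=
  ∀ {n : ℕ} (X : FCtx n) {K : Type} [Field K] [Algebra ℂ K] [Algebra X.B K]
    [IsScalarTower ℂ X.B K] [IsFractionRing X.B K]
    {A : Type} [CommRing A] [IsDomain A] [Algebra ℂ A] (_hA : Algebra.FiniteType ℂ A)
    [Algebra A K] [IsScalarTower ℂ A K] [IsFractionRing A K]
    (w : Fin n → A) (_hw : RingHom.Etale ((MvPolynomial.aeval w : MvPolynomial (Fin n) ℂ →ₐ[ℂ] A) :
      MvPolynomial (Fin n) ℂ →+* A)) (y : A →ₐ[ℂ] ℂ)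
    (t : A) (_ht : y t = 0) (_ht0 : t ≠ 0) (b b' : Module.Basis (Fin n) K (Ω[K⁄ℂ]))
    (_hb : ∀ j, b j = KaehlerDifferential.D ℂ K (algebraMap A K (w j)))
    (_hb' : ∀ j, b' j = KaehlerDifferential.D ℂ K (algebraMap X.B K (X.z j)))
    (m : ℕ) (F : X.B) (a c e : ℤ) (_hF : OrdAt' y t (algebraMap X.B K F) a)
    (_hJ : OrdAt' y t (b.toMatrix b').det c)
    (_hY : ∀ j, OrdGe' y t (algebraMap X.B K (X.Y j)) (X.k * e))
    (_hfin : lintM X.z (fun y => ENNReal.ofReal (‖y F‖ ^ 2) *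
      (ENNReal.ofReal (∑ j, ‖y (X.Y j)‖ ^ 2)) ^ (-((m : ℝ) / X.k))) < ∞), 0 ≤ a + c - m * e

section scheme

variable (X : Scheme.{0}) [Algebra ℂ Γ(X, ⊤)] [IsIntegral X] [IsLocallyNoetherian X]

/-- **Scheme form of the boundary lemma (10.4).** -/
theorem orders_nonneg (hbd : BoundaryStmt) {n : ℕ} (hX : IsSmoothProperVariety ℂ X n)
    (P : FCtx n) [Algebra P.B X.functionField]
    (htow : letI := fnFieldAlgebra ℂ X; IsScalarTower ℂ P.B X.functionField)
    [IsFractionRing P.B X.functionField] :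
    letI := fnFieldAlgebra ℂ X
    ∀ (b' : Module.Basis (Fin n) X.functionField (Ω[X.functionField⁄ℂ]))
    (_hb' : ∀ j, b' j =
      KaehlerDifferential.D ℂ X.functionField (algebraMap P.B X.functionField (P.z j)))
    (m : ℕ) (F : P.B) (_hF0 : F ≠ 0)
    (_hfin : lintM P.z (fun y => ENNReal.ofReal (‖y F‖ ^ 2) *
      (ENNReal.ofReal (∑ j, ‖y (P.Y j)‖ ^ 2)) ^ (-((m : ℝ) / P.k))) < ∞)
    (z : PrimeDivisor X) (e : ℤ)
    (_hY : ∀ j, P.Y j = 0 ∨
      P.k * e ≤ Scheme.ord (algebraMap P.B X.functionField (P.Y j)) z.1),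
    ∃ b : Module.Basis (Fin n) X.functionField (Ω[X.functionField⁄ℂ]),
      IsLocalFrameAt ℂ X z.1 ⇑b ∧ (b.toMatrix b').det ≠ 0 ∧
      0 ≤ Scheme.ord (algebraMap P.B X.functionField F) z.1 +
        Scheme.ord (b.toMatrix b').det z.1 - m * e := by
  letI := fnFieldAlgebra ℂ X
  intro b' hb' m F hF0 hfin z e hY
  obtain ⟨V, hV, hzV, w, hw⟩ := exists_etale_chart hX z.1
  letI := secAlg X V
  have hne : Nonempty V := ⟨⟨z.1, hzV⟩⟩
  have hdvr : IsDiscreteValuationRing (X.presheaf.stalk z.1) := UFD243.dvr_stalk X hX z.1 z.2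
  have hft : Algebra.FiniteType ℂ Γ(X, V) :=
    UFD243.finiteType_of_etale (MvPolynomial.aeval w : MvPolynomial (Fin n) ℂ →ₐ[ℂ] Γ(X, V)) hw
  have htw := tower_sec_fn X V
  have hfr := functionField_isFractionRing_of_isAffineOpen X V hV
  obtain ⟨b, hb, hbf⟩ := frame_of_etale X hV w (ECoord.fe hw)
  obtain ⟨t, htp, ht0, hfac⟩ := exists_factor X hV z hzV
  have hdet : (b.toMatrix b').det ≠ 0 := by
    have h1 := congrArg Matrix.det (b.toMatrix_mul_toMatrix_flip b')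
    rw [Matrix.det_mul, Matrix.det_one] at h1
    exact left_ne_zero_of_mul_eq_one h1
  set p := (hV.primeIdealOf ⟨z.1, hzV⟩).asIdeal with hp
  have hFK : algebraMap P.B X.functionField F ≠ 0 := by
    rw [map_ne_zero_iff _ (IsFractionRing.injective P.B X.functionField)]
    exact hF0
  obtain ⟨uF, vF, huF, hvF, hF⟩ := hfac _ hFK
  obtain ⟨uJ, vJ, huJ, hvJ, hJ⟩ := hfac _ hdet
  have hYfac : ∀ j, ∃ u v : Γ(X, V), v ∉ p ∧
      algebraMap P.B X.functionField (P.Y j) * algebraMap Γ(X, V) X.functionField v =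
        algebraMap Γ(X, V) X.functionField t ^ (P.k * e) *
          algebraMap Γ(X, V) X.functionField u := by
    intro j
    rcases hY j with h0 | h0
    · exact ⟨0, 1, fun h => (hV.primeIdealOf ⟨z.1, hzV⟩).2.ne_top
        ((Ideal.eq_top_iff_one _).2 h), by rw [h0]; simp⟩
    · by_cases h1 : P.Y j = 0
      · exact ⟨0, 1, fun h => (hV.primeIdealOf ⟨z.1, hzV⟩).2.ne_top
          ((Ideal.eq_top_iff_one _).2 h), by rw [h1]; simp⟩
      have h2 : algebraMap P.B X.functionField (P.Y j) ≠ 0 := by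
        rw [map_ne_zero_iff _ (IsFractionRing.injective P.B X.functionField)]
        exact h1
      obtain ⟨u, v, hu, hv, h3⟩ := hfac _ h2
      obtain ⟨k, hk⟩ := Int.eq_ofNat_of_zero_le (sub_nonneg.2 h0)
      have htK : algebraMap Γ(X, V) X.functionField t ≠ 0 := by
        rw [map_ne_zero_iff _ (IsFractionRing.injective Γ(X, V) X.functionField)]
        exact ht0
      refine ⟨t ^ k * u, v, hv, ?_⟩
      rw [h3, map_mul, map_pow, ← mul_assoc, ← zpow_natCast, ← zpow_add₀ htK]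
      congr 2
      omega
  choose uY vY hvY hYe using hYfac
  have hprod : (uF * vF * uJ * vJ * ∏ j, vY j) ∉ p := by
    have hpp : p.IsPrime := (hV.primeIdealOf ⟨z.1, hzV⟩).2
    refine hpp.mul_notMem (hpp.mul_notMem (hpp.mul_notMem (hpp.mul_notMem huF hvF) huJ) hvJ) ?_
    rw [hpp.prod_mem_iff]
    rintro ⟨j, -, hj⟩
    exact hvY j hj
  obtain ⟨y, hy0, hyn⟩ := exists_point p _ hprod
  simp only [map_mul, map_prod, mul_ne_zero_iff, Finset.prod_ne_zero_iff] at hyn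
  obtain ⟨⟨⟨⟨hy1, hy2⟩, hy3⟩, hy4⟩, hy5⟩ := hyn
  refine ⟨b, hbf z.1 hzV, hdet, ?_⟩
  exact hbd P hft w hw y t (hy0 t htp) ht0 b b' hb hb' m F _ _ e
    ⟨uF, vF, hy1, hy2, hF⟩ ⟨uJ, vJ, hy3, hy4, hJ⟩
    (fun j => ⟨uY j, vY j, hy5 j (Finset.mem_univ j), hYe j⟩) hfin

end scheme

end Crest.Agent.R271.Bs960
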