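import Mathlib
import Crest.Agent.R271.Bridge4_713
import Crest.Agent.R271.Bs2_960

/-!
Row 271, team B: `OrdersProp` from helper960's `orders_nonneg` (helper713).
-/

set_option autoImplicit false
set_option linter.style.haveILetI false

open AlgebraicGeometry Crest.AlgGeometry.Divisors Order CategoryTheory
open Crest.Agent.R271.Defs710 Crest.Agent.R271.Ctx728 Crest.Agent.R271.Bs960
open scoped ENNReal

noncomputable section

namespace Crest.Agent.R271.Bridge713

theorem ordersProp_of (hbd : BoundaryStmt) : OrdersProp := by
  intro X _ _ _ n _hn hX C _ htow hfr b' hb' m F hF hfin z e hY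
  obtain ⟨b, hb, -, hle⟩ := orders_nonneg X hbd hX C htow b' hb' m F hF hfin z e
    (fun j => or_iff_not_imp_left.mpr (hY j))
  exact ⟨b, hb, hle⟩

end Crest.Agent.R271.Bridge713
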