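import Mathlib
import Crest.Agent.R271.Bs2_960
import Crest.Agent.R271.Bridge0_713

set_option autoImplicit false
set_option linter.style.haveILetI false

open AlgebraicGeometry Crest.AlgGeometry.Divisors Order CategoryTheory
open Crest.Agent.R271.Defs710
open scoped ENNReal

noncomputable section

namespace Crest.Agent.R271.Bs960

theorem ordersProp_of (hbd : BoundaryStmt) : Bridge713.OrdersProp := by
  intro X _ _ _ n hn hX C _
  letI := fnFieldAlgebra ℂ X
  intro htow _ b' hb' m F hF hfin z e hY
  obtain ⟨b, h1, h2, h3⟩ := orders_nonneg X hbd hX C htow b' hb' m F hF hfin z e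
    (fun j => (em (C.Y j = 0)).imp id (fun h => hY j h))
  exact ⟨b, h1, h3⟩

end Crest.Agent.R271.Bs960
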