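import Mathlib
import Crest.Agent.R271.Bs3_960
import Crest.Agent.R271.Bd5_741

set_option autoImplicit false

open AlgebraicGeometry Crest.AlgGeometry.Divisors Order CategoryTheory
open Crest.Agent.R271.Defs710
open scoped ENNReal

noncomputable section

namespace Crest.Agent.R271.Bs960

theorem boundaryStmt : BoundaryStmt := by
  intro n X K _ _ _ _ _ A _ _ _ hA _ _ _ w hw y t ht ht0 b b' hb hb' m F a c e hF hJ hY hfin
  exact Bd741.boundary X hA w hw y t ht ht0 b b' hb hb' m F a c e hF hJ hY hfin

theorem ordersProp : Bridge713.OrdersProp := ordersProp_of boundaryStmt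

end Crest.Agent.R271.Bs960
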