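import Mathlib

/-!
Row 271 (S0413), Part 11.6 (C5): linear graded Noether normalisation.
-/

set_option autoImplicit false
set_option maxHeartbeats 400000

namespace Crest.Agent.R271.C5_756

open Polynomial

universe u v

section top

variable {σ : Type*} {k : Type*} {A : Type*} [Field k] [CommRing A] [Algebra k A]

/-- products: degrees add up and so do top coefficients -/
theorem prod_top (s : Finset σ) (g : σ → A[X]) (c : σ → A) (m : σ → ℕ)
    (h1 : ∀ i ∈ s, (g i).natDegree ≤ 1) (h2 : ∀ i ∈ s, (g i).coeff 1 = c i) :
    (∏ i ∈ s, g i ^ m i).natDegree ≤ ∑ i ∈ s, m i ∧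
      (∏ i ∈ s, g i ^ m i).coeff (∑ i ∈ s, m i) = ∏ i ∈ s, c i ^ m i := by
  classical
  induction s using Finset.induction_on with
  | empty => simp
  | insert a s ha ih =>
    have ih' := ih (fun i hi => h1 i (Finset.mem_insert_of_mem hi))
      (fun i hi => h2 i (Finset.mem_insert_of_mem hi))
    have ha1 := h1 a (Finset.mem_insert_self a s)
    have ha2 := h2 a (Finset.mem_insert_self a s)
    have hp : (g a ^ m a).natDegree ≤ m a := by
      refine natDegree_pow_le.trans ?_
      calc m a * (g a).natDegree ≤ m a * 1 := Nat.mul_le_mul_left _ ha1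
        _ = m a := mul_one _
    have hc : (g a ^ m a).coeff (m a) = c a ^ m a := by
      have := coeff_pow_of_natDegree_le (m := m a) ha1
      rw [mul_one] at this
      rw [this, ha2]
    rw [Finset.prod_insert ha, Finset.sum_insert ha, Finset.prod_insert ha]
    refine ⟨natDegree_mul_le.trans (add_le_add hp ih'.1), ?_⟩
    rw [coeff_mul_add_eq_of_natDegree_le hp ih'.1, hc, ih'.2]

/-- the value at `u + c Z` of a homogeneous polynomial of degree `r` has top coefficient `F(c)` -/
theorem aeval_top [Fintype σ] (F : MvPolynomial σ k) (r : ℕ) (hF : F.IsHomogeneous r)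
    (g : σ → A[X]) (c : σ → k) (h1 : ∀ i, (g i).natDegree ≤ 1)
    (h2 : ∀ i, (g i).coeff 1 = algebraMap k A (c i)) :
    (MvPolynomial.aeval g F).natDegree ≤ r ∧
      (MvPolynomial.aeval g F).coeff r = algebraMap k A (MvPolynomial.eval c F) := by
  classical
  have key : ∀ m ∈ F.support, (∏ i, g i ^ m i).natDegree ≤ r ∧
      (∏ i, g i ^ m i).coeff r = ∏ i, (algebraMap k A (c i)) ^ m i := by
    intro m hm
    have hr : ∑ i, m i = r := by
      have := hF (MvPolynomial.mem_support_iff.1 hm)
      rw [Finsupp.weight_apply, Finsupp.sum_fintype] at this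
      · simpa using this
      · simp
    have := prod_top Finset.univ g (fun i => algebraMap k A (c i)) m (fun i _ => h1 i)
      (fun i _ => h2 i)
    rwa [hr] at this
  have e1 : MvPolynomial.aeval g F
      = ∑ m ∈ F.support, Polynomial.C (algebraMap k A (MvPolynomial.coeff m F)) *
        ∏ i, g i ^ m i := by
    rw [MvPolynomial.aeval_def, MvPolynomial.eval₂_eq']
    rfl
  have e2 : MvPolynomial.eval c F
      = ∑ m ∈ F.support, MvPolynomial.coeff m F * ∏ i, c i ^ m i := by
    rw [MvPolynomial.eval_eq']
  rw [e1, e2]
  refine ⟨?_, ?_⟩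
  · refine natDegree_sum_le_of_forall_le _ _ fun m hm => ?_
    exact (natDegree_C_mul_le _ _).trans (key m hm).1
  · rw [finsetSum_coeff, map_sum]
    refine Finset.sum_congr rfl fun m hm => ?_
    rw [coeff_C_mul, (key m hm).2, map_mul, map_prod]
    simp

theorem integral_step [Fintype σ] {S : Type*} [CommRing S] [Algebra A S] [Algebra k S]
    [IsScalarTower k A S] (G : MvPolynomial σ k) (r : ℕ) (hG : G.IsHomogeneous r) (u : σ → A)
    (a : σ → k) (z : S) (ha : MvPolynomial.eval a G ≠ 0)
    (h0 : MvPolynomial.aeval (fun i => algebraMap A S (u i) + algebraMap k S (a i) * z) G = 0) :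
    IsIntegral A z := by
  have h1 : ∀ i, (Polynomial.C (algebraMap k A (a i)) * X + Polynomial.C (u i)).natDegree ≤ 1 :=
    fun i => natDegree_linear_le
  have h2 : ∀ i, (Polynomial.C (algebraMap k A (a i)) * X + Polynomial.C (u i)).coeff 1
      = algebraMap k A (a i) := by
    intro i
    simp [coeff_C]
  have htop := aeval_top G r hG (fun i => Polynomial.C (algebraMap k A (a i)) * X +
    Polynomial.C (u i)) a h1 h2
  refine ⟨Polynomial.C (algebraMap k A (MvPolynomial.eval a G)⁻¹) *
    MvPolynomial.aeval (fun i => Polynomial.C (algebraMap k A (a i)) * X +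
      Polynomial.C (u i)) G, ?_, ?_⟩
  · refine monic_of_natDegree_le_of_coeff_eq_one r
      ((natDegree_C_mul_le _ _).trans htop.1) ?_
    rw [coeff_C_mul, htop.2, ← map_mul, inv_mul_cancel₀ ha, map_one]
  · have e1 := MvPolynomial.comp_aeval_apply (R := k) (fun i => Polynomial.C
      (algebraMap k A (a i)) * X + Polynomial.C (u i))
      ((Polynomial.aeval z : A[X] →ₐ[A] S).restrictScalars k) G
    have e2 : (fun i => ((Polynomial.aeval z : A[X] →ₐ[A] S).restrictScalars k)
        (Polynomial.C (algebraMap k A (a i)) * X + Polynomial.C (u i)))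
        = fun i => algebraMap A S (u i) + algebraMap k S (a i) * z := by
      funext i
      simp only [AlgHom.coe_restrictScalars', map_add, map_mul, aeval_C, aeval_X,
        ← IsScalarTower.algebraMap_apply k A S]
      rw [add_comm]
    rw [e2, h0] at e1
    rw [eval₂_mul]
    have e3 : eval₂ (algebraMap A S) z (MvPolynomial.aeval (fun i => Polynomial.C
      (algebraMap k A (a i)) * X + Polynomial.C (u i)) G) = 0 := e1
    rw [e3, mul_zero]

end top

section nn

variable {k : Type*} {C : Type*} [Field k] [CommRing C] [Algebra k C]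

theorem aeval_monomial_one {σ : Type*} [Fintype σ] (x : σ → C) (F : MvPolynomial σ k) (r : ℕ)
    (hF : F.IsHomogeneous r) :
    MvPolynomial.aeval (fun i => (monomial 1 (x i) : C[X])) F
      = monomial r (MvPolynomial.aeval x F) := by
  classical
  rw [MvPolynomial.aeval_def, MvPolynomial.eval₂_eq', MvPolynomial.aeval_def,
    MvPolynomial.eval₂_eq', map_sum]
  refine Finset.sum_congr rfl fun m hm => ?_
  have hr : ∑ i, m i = r := by
    have := hF (MvPolynomial.mem_support_iff.1 hm)
    rw [Finsupp.weight_apply, Finsupp.sum_fintype] at this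
    · simpa using this
    · simp
  have h1 : ∀ s : Finset σ, ∏ i ∈ s, (monomial 1 (x i) : C[X]) ^ m i
      = monomial (∑ i ∈ s, m i) (∏ i ∈ s, x i ^ m i) := by
    intro s
    induction s using Finset.induction_on with
    | empty => simp
    | insert a s ha ih =>
      rw [Finset.prod_insert ha, Finset.sum_insert ha, Finset.prod_insert ha, ih, monomial_pow,
        monomial_mul_monomial, one_mul]
  rw [h1, hr, Polynomial.algebraMap_apply, C_mul_monomial]

theorem coeff_aeval_monomial_one {σ : Type*} [Fintype σ] (x : σ → C) (F : MvPolynomial σ k)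
    (r : ℕ) :
    (MvPolynomial.aeval (fun i => (monomial 1 (x i) : C[X])) F).coeff r
      = MvPolynomial.aeval x (MvPolynomial.homogeneousComponent r F) := by
  classical
  conv_lhs => rw [← MvPolynomial.sum_homogeneousComponent F]
  rw [map_sum, finsetSum_coeff]
  have h1 : ∀ i, (MvPolynomial.aeval (fun i => (monomial 1 (x i) : C[X]))
      (MvPolynomial.homogeneousComponent i F)).coeff r
      = if i = r then MvPolynomial.aeval x (MvPolynomial.homogeneousComponent r F) else 0 := by
    intro i
    rw [aeval_monomial_one x _ i (MvPolynomial.homogeneousComponent_isHomogeneous i F),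
      coeff_monomial]
    split_ifs with h
    · rw [h]
    · rfl
  simp_rw [h1]
  rw [Finset.sum_ite_eq']
  split_ifs with h
  · rfl
  · rw [MvPolynomial.homogeneousComponent_eq_zero, map_zero]
    rw [Finset.mem_range] at h
    omega


/-- one step: a linear projection from a general point -/
theorem nn_step {M : ℕ} (x : Fin (M + 1) → C) (G : MvPolynomial (Fin (M + 1)) k) (r : ℕ)
    (hGh : G.IsHomogeneous r) (hGx : MvPolynomial.aeval x G = 0) (a : Fin (M + 1) → k)
    (ha1 : MvPolynomial.eval a G ≠ 0) (ha2 : a (Fin.last M) ≠ 0)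
    (A' : Subalgebra k C[X])
    (hy : ∀ i : Fin M, IsIntegral A' (monomial 1 (x i.castSucc -
      (a i.castSucc * (a (Fin.last M))⁻¹) • x (Fin.last M)) : C[X])) :
    ∀ i, IsIntegral A' (monomial 1 (x i) : C[X]) := by
  set b : k := (a (Fin.last M))⁻¹ with hb
  let A := integralClosure A' C[X]
  let z : C[X] := monomial 1 (b • x (Fin.last M))
  let u : Fin (M + 1) → A := Fin.lastCases 0 (fun i => ⟨_, hy i⟩)
  have hul : u (Fin.last M) = 0 := Fin.lastCases_last
  have huc : ∀ i : Fin M, u i.castSucc = ⟨_, hy i⟩ := fun i => Fin.lastCases_castSucc i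
  have htower : IsScalarTower k A C[X] := IsScalarTower.of_algebraMap_eq (fun _ => rfl)
  have hz : IsIntegral A z := by
    refine integral_step G r hGh u a z ha1 ?_
    have e2 : (fun i => algebraMap A C[X] (u i) + algebraMap k C[X] (a i) * z)
        = fun i => (monomial 1 (x i) : C[X]) := by
      funext i
      refine Fin.lastCases ?_ (fun i => ?_) i
      · rw [hul, map_zero, zero_add, Polynomial.algebraMap_apply]
        simp only [z]
        rw [C_mul_monomial, ← Algebra.smul_def, smul_smul, hb, mul_inv_cancel₀ ha2, one_smul]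
      · rw [huc, Polynomial.algebraMap_apply]
        simp only [z]
        rw [C_mul_monomial, ← Algebra.smul_def, smul_smul]
        show (monomial 1 (x i.castSucc - (a i.castSucc * b) • x (Fin.last M)) : C[X])
          + monomial 1 ((a i.castSucc * b) • x (Fin.last M)) = monomial 1 (x i.castSucc)
        rw [← map_add, sub_add_cancel]
    rw [e2, aeval_monomial_one x G r hGh, hGx, map_zero]
  have hzA : IsIntegral A' z := isIntegral_trans z hz
  have hk : ∀ c : k, IsIntegral A' (algebraMap k C[X] c) := fun c => by
    rw [IsScalarTower.algebraMap_apply k A' C[X]]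
    exact isIntegral_algebraMap
  have hlast : IsIntegral A' (monomial 1 (x (Fin.last M)) : C[X]) := by
    have h1 : (monomial 1 (x (Fin.last M)) : C[X]) = algebraMap k C[X] (a (Fin.last M)) * z := by
      rw [Polynomial.algebraMap_apply]
      simp only [z]
      rw [C_mul_monomial, ← Algebra.smul_def, smul_smul, hb, mul_inv_cancel₀ ha2, one_smul]
    rw [h1]
    exact (hk _).mul hzA
  intro i
  refine Fin.lastCases hlast (fun i => ?_) i
  have h1 : (monomial 1 (x i.castSucc) : C[X]) = monomial 1 (x i.castSucc -
        (a i.castSucc * b) • x (Fin.last M))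
      + algebraMap k C[X] (a i.castSucc * b) * monomial 1 (x (Fin.last M)) := by
    rw [Polynomial.algebraMap_apply, C_mul_monomial, ← Algebra.smul_def, ← map_add,
      sub_add_cancel]
  rw [h1]
  exact (hy i).add ((hk _).mul hlast)

/-- Linear graded Noether normalisation. -/
theorem nn [Infinite k] [IsDomain C] : ∀ (N : ℕ) (x : Fin N → C), ∃ (e : ℕ) (t : Fin e → C),
    (∀ j, t j ∈ Submodule.span k (Set.range x)) ∧
    AlgebraicIndependent k (fun j => (monomial 1 (t j) : C[X])) ∧
    ∀ i, IsIntegral (Algebra.adjoin k (Set.range fun j => (monomial 1 (t j) : C[X])))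
      (monomial 1 (x i) : C[X]) := by
  intro N
  induction N with
  | zero =>
    intro x
    refine ⟨0, x, fun j => j.elim0, ?_, fun i => i.elim0⟩
    rw [algebraicIndependent_empty_type_iff]
    exact FaithfulSMul.algebraMap_injective k C[X]
  | succ M ih =>
    intro x
    by_cases hx : AlgebraicIndependent k (fun j => (monomial 1 (x j) : C[X]))
    · refine ⟨M + 1, x, fun j => Submodule.subset_span ⟨j, rfl⟩, hx, fun i => ?_⟩
      exact isIntegral_algebraMap (R := Algebra.adjoin k (Set.range fun j =>
        (monomial 1 (x j) : C[X]))) (x := ⟨_, Algebra.subset_adjoin ⟨i, rfl⟩⟩)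
    · obtain ⟨F, hF0, hFne⟩ : ∃ F : MvPolynomial (Fin (M + 1)) k,
          MvPolynomial.aeval (fun j => (monomial 1 (x j) : C[X])) F = 0 ∧ F ≠ 0 := by
        by_contra hcon
        push Not at hcon
        exact hx (algebraicIndependent_iff.2 hcon)
      obtain ⟨r, hr⟩ : ∃ r, MvPolynomial.homogeneousComponent r F ≠ 0 := by
        by_contra hcon
        push Not at hcon
        apply hFne
        rw [← MvPolynomial.sum_homogeneousComponent F]
        exact Finset.sum_eq_zero fun i _ => hcon i
      have hGh : (MvPolynomial.homogeneousComponent r F).IsHomogeneous r :=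
        MvPolynomial.homogeneousComponent_isHomogeneous r F
      have hGx : MvPolynomial.aeval x (MvPolynomial.homogeneousComponent r F) = 0 := by
        have := coeff_aeval_monomial_one x F r
        rw [hF0, coeff_zero] at this
        exact this.symm
      generalize MvPolynomial.homogeneousComponent r F = G at hr hGh hGx
      obtain ⟨a, ha⟩ : ∃ a : Fin (M + 1) → k,
          MvPolynomial.eval a (G * MvPolynomial.X (Fin.last M)) ≠ 0 := by
        by_contra hcon
        push Not at hcon
        have : G * MvPolynomial.X (Fin.last M) = 0 :=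
          MvPolynomial.funext fun a => by rw [hcon a, map_zero]
        rcases mul_eq_zero.1 this with h | h
        · exact hr h
        · exact MvPolynomial.X_ne_zero _ h
      rw [map_mul, MvPolynomial.eval_X] at ha
      have ha1 : MvPolynomial.eval a G ≠ 0 := left_ne_zero_of_mul ha
      have ha2 : a (Fin.last M) ≠ 0 := right_ne_zero_of_mul ha
      obtain ⟨e, t, ht1, ht2, ht3⟩ := ih (fun i => x i.castSucc -
        (a i.castSucc * (a (Fin.last M))⁻¹) • x (Fin.last M))
      have hspan : Submodule.span k (Set.range (fun i : Fin M => x i.castSucc -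
        (a i.castSucc * (a (Fin.last M))⁻¹) • x (Fin.last M))) ≤
          Submodule.span k (Set.range x) := by
        rw [Submodule.span_le]
        rintro _ ⟨i, rfl⟩
        exact Submodule.sub_mem _ (Submodule.subset_span ⟨_, rfl⟩)
          (Submodule.smul_mem _ _ (Submodule.subset_span ⟨_, rfl⟩))
      exact ⟨e, t, fun j => hspan (ht1 j), ht2, nn_step x G r hGh hGx a ha1 ha2 _ ht3⟩

end nn

end Crest.Agent.R271.C5_756
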