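import Mathlib
import Crest.Agent.R271.C5a_756

/-!
Row 271 (S0413), Part 11.6 (C5): field theory (primitive element among linear combinations, bounded
denominators of integral elements).
-/

set_option autoImplicit false
set_option maxHeartbeats 400000

namespace Crest.Agent.R271.C5_756

open Polynomial IntermediateField

section ft

variable {k R F L : Type*} [Field k] [Infinite k] [CommRing R] [IsDomain R]
  [IsIntegrallyClosed R] [Field F] [CharZero F] [Field L] [Algebra k L] [Algebra R F]
  [IsFractionRing R F] [Algebra R L] [Algebra F L] [IsScalarTower R F L]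
  [Algebra k F] [IsScalarTower k F L] {N : ℕ}

/-- a primitive element among the `k`-linear combinations of generators -/
theorem exists_linear_primitive (w : Fin N → L) [FiniteDimensional F L]
    (hgen : IntermediateField.adjoin F (Set.range w) = ⊤) :
    ∃ c : Fin N → k, F⟮∑ j, c j • w j⟯ = ⊤ := by
  classical
  by_contra hcon
  push Not at hcon
  have hfin : Finite (IntermediateField F L) :=
    Field.finite_intermediateField_of_exists_primitive_element F L
      (Field.exists_primitive_element F L)
  let p : {M : IntermediateField F L // M ≠ ⊤} → Subspace k (Fin N → k) := fun M =>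
    { carrier := {c | ∑ j, c j • w j ∈ M.1}
      add_mem' := by
        intro a b ha hb
        have : ∑ j, (a + b) j • w j = ∑ j, a j • w j + ∑ j, b j • w j := by
          rw [← Finset.sum_add_distrib]
          exact Finset.sum_congr rfl fun j _ => by rw [Pi.add_apply, add_smul]
        show ∑ j, (a + b) j • w j ∈ M.1
        rw [this]
        exact add_mem ha hb
      zero_mem' := by
        show ∑ j, (0 : Fin N → k) j • w j ∈ M.1
        simp
      smul_mem' := by
        intro r a ha
        have : ∑ j, (r • a) j • w j = algebraMap F L (algebraMap k F r) * ∑ j, a j • w j := by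
          rw [Finset.mul_sum]
          refine Finset.sum_congr rfl fun j _ => ?_
          rw [Pi.smul_apply, smul_eq_mul, mul_smul, ← IsScalarTower.algebraMap_apply,
            ← Algebra.smul_def]
        show ∑ j, (r • a) j • w j ∈ M.1
        rw [this]
        exact mul_mem (M.1.algebraMap_mem _) ha }
  have hcov : ⋃ M, (p M : Set (Fin N → k)) = Set.univ := by
    rw [Set.eq_univ_iff_forall]
    intro c
    rw [Set.mem_iUnion]
    exact ⟨⟨_, hcon c⟩, IntermediateField.mem_adjoin_simple_self F _⟩
  obtain ⟨M, hM⟩ := Subspace.exists_eq_top_of_iUnion_eq_univ hcov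
  apply M.2
  refine top_le_iff.1 (hgen.symm.le.trans (IntermediateField.adjoin_le_iff.2 ?_))
  rintro _ ⟨j, rfl⟩
  have : Pi.single j (1 : k) ∈ p M := by rw [hM]; trivial
  have h2 : ∑ i, (Pi.single j (1 : k) : Fin N → k) i • w i ∈ M.1 := this
  have h3 : ∑ i, (Pi.single j (1 : k) : Fin N → k) i • w i = w j := by
    rw [Finset.sum_eq_single j]
    · simp
    · intro i _ hij
      rw [Pi.single_eq_of_ne hij, zero_smul]
    · intro h; exact absurd (Finset.mem_univ _) h
  rwa [h3] at h2

theorem ft1 (w : Fin N → L) (hw : ∀ i, IsIntegral R (w i))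
    (hk : ∀ (c : k) (z : L), IsIntegral R z → IsIntegral R (c • z))
    (hgen : IntermediateField.adjoin F (Set.range w) = ⊤) :
    ∃ (c : Fin N → k) (D : ℕ), 0 < D ∧ FiniteDimensional F L ∧
      (∀ r : Fin D → R, ∑ i, algebraMap R L (r i) * (∑ j, c j • w j) ^ (i : ℕ) = 0 →
        ∀ i, r i = 0) ∧
      ∃ δ : R, δ ≠ 0 ∧ ∀ z : L, IsIntegral R z → ∃ r : Fin D → R,
        algebraMap R L δ * z = ∑ i, algebraMap R L (r i) * (∑ j, c j • w j) ^ (i : ℕ) := by
  classical
  have hwF : ∀ i, IsIntegral F (w i) := fun i => (hw i).tower_top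
  have hfd : FiniteDimensional F L := by
    have h1 : FiniteDimensional F (IntermediateField.adjoin F (Set.range w)) :=
      IntermediateField.finiteDimensional_adjoin (by rintro _ ⟨i, rfl⟩; exact hwF i)
    rw [hgen] at h1
    exact IntermediateField.topEquiv.toLinearEquiv.finiteDimensional
  obtain ⟨c, hc⟩ := exists_linear_primitive (k := k) w hgen
  set ℓ : L := ∑ j, c j • w j with hℓ
  have hℓint : IsIntegral R ℓ := IsIntegral.sum _ fun j _ => hk _ _ (hw j)
  have hℓF : IsIntegral F ℓ := hℓint.tower_top
  let B : PowerBasis F L := (IntermediateField.adjoin.powerBasis hℓF).map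
    ((IntermediateField.equivOfEq hc).trans IntermediateField.topEquiv)
  have hgenB : B.gen = ℓ := by
    simp [B]
  refine ⟨c, B.dim, ?_, hfd, ?_, ?_⟩
  · exact B.dim_pos
  · intro r hr i
    have h1 : ∑ i, algebraMap R F (r i) • B.basis i = 0 := by
      rw [← hr]
      refine Finset.sum_congr rfl fun i _ => ?_
      rw [B.basis_eq_pow, hgenB, Algebra.smul_def, ← IsScalarTower.algebraMap_apply]
    have h2 := (Fintype.linearIndependent_iff.1 B.basis.linearIndependent) _ h1 i
    exact (IsFractionRing.injective R F) (by rw [h2, map_zero])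
  · have hsep : Algebra.IsSeparable F L := inferInstance
    have hbi : ∀ i, IsIntegral R (B.basis i) := by
      intro i
      rw [B.basis_eq_pow, hgenB]
      exact hℓint.pow _
    have hδ0 : Algebra.discr F B.basis ≠ 0 := Algebra.discr_not_zero_of_basis F B.basis
    obtain ⟨δ, hδ⟩ := IsIntegrallyClosed.algebraMap_eq_of_integral
      (Algebra.discr_isIntegral F hbi)
    refine ⟨δ, ?_, ?_⟩
    · rintro rfl
      rw [map_zero] at hδ
      exact hδ0 hδ.symm
    · intro z hz
      have h1 := Algebra.discr_mul_isIntegral_mem_adjoin F (B := B) (by rw [hgenB]; exact hℓint) hz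
      rw [hgenB, ← hδ, algebraMap_smul, Algebra.smul_def] at h1
      obtain ⟨p, hp⟩ := (Algebra.adjoin_singleton_eq_range_aeval R ℓ ▸ h1 :
        algebraMap R L δ * z ∈ (Polynomial.aeval ℓ : R[X] →ₐ[R] L).range)
      have hmon : (minpoly R ℓ).Monic := minpoly.monic hℓint
      have hdeg : (minpoly R ℓ).natDegree = B.dim := by
        have e1 : minpoly F ℓ = (minpoly R ℓ).map (algebraMap R F) :=
          minpoly.isIntegrallyClosed_eq_field_fractions F L hℓint
        rw [← hmon.natDegree_map (algebraMap R F), ← e1, ← hgenB, B.natDegree_minpoly]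
      have hd0 : 0 < (minpoly R ℓ).natDegree := by rw [hdeg]; exact B.dim_pos
      let r := p %ₘ minpoly R ℓ
      have hr1 : Polynomial.aeval ℓ r = algebraMap R L δ * z := by
        rw [← hp]
        exact Polynomial.aeval_modByMonic_eq_self_of_root (minpoly.aeval R ℓ)
      have hr2 : r.natDegree < B.dim := by
        rw [← hdeg]
        refine natDegree_modByMonic_lt p hmon ?_
        intro h
        rw [h, natDegree_one] at hd0
        exact lt_irrefl _ hd0
      refine ⟨fun i => r.coeff i, ?_⟩
      rw [← hr1, Polynomial.aeval_eq_sum_range' hr2, Finset.sum_range]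
      exact Finset.sum_congr rfl fun i _ => by rw [Algebra.smul_def]

end ft

section ft2

universe u

variable {k S : Type u} [Field k] [CharZero k] [CommRing S] [IsDomain S] [Algebra k S]

omit [CharZero k] [IsDomain S] in
theorem isIntegral_of_adjoin {e : ℕ} (y : Fin e → S) (hy : AlgebraicIndependent k y) (z : S)
    (hz : IsIntegral (Algebra.adjoin k (Set.range y)) z) :
    (MvPolynomial.aeval y : MvPolynomial (Fin e) k →ₐ[k] S).toRingHom.IsIntegralElem z := by
  obtain ⟨p, hp, hp0⟩ := hz
  refine ⟨p.map hy.aevalEquiv.symm.toRingHom, hp.map _, ?_⟩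
  rw [Polynomial.eval₂_map]
  have : (MvPolynomial.aeval y : MvPolynomial (Fin e) k →ₐ[k] S).toRingHom.comp
      hy.aevalEquiv.symm.toRingHom = algebraMap (Algebra.adjoin k (Set.range y)) S := by
    ext a
    obtain ⟨b, rfl⟩ := hy.aevalEquiv.surjective a
    show MvPolynomial.aeval y (hy.aevalEquiv.symm (hy.aevalEquiv b)) = _
    rw [AlgEquiv.symm_apply_apply, hy.algebraMap_aevalEquiv]
  rw [this]
  exact hp0

theorem ft2 {e N : ℕ} (y : Fin e → S) (hy : AlgebraicIndependent k y) (w : Fin N → S)
    (hw : ∀ i, IsIntegral (Algebra.adjoin k (Set.range y)) (w i))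
    (hgen : ∀ E : Subfield (FractionRing S),
      (∀ c : k, algebraMap S (FractionRing S) (algebraMap k S c) ∈ E) →
      (∀ i, algebraMap S (FractionRing S) (w i) ∈ E) →
      ∀ s : S, algebraMap S (FractionRing S) s ∈ E) :
    ∃ (c : Fin N → k) (D : ℕ), 0 < D ∧
      (∀ r : Fin D → MvPolynomial (Fin e) k,
        ∑ i, MvPolynomial.aeval y (r i) * (∑ j, c j • w j) ^ (i : ℕ) = 0 → ∀ i, r i = 0) ∧
      (∃ δ : MvPolynomial (Fin e) k, δ ≠ 0 ∧
        ∀ z : S, IsIntegral (Algebra.adjoin k (Set.range y)) z →
          ∃ r : Fin D → MvPolynomial (Fin e) k, MvPolynomial.aeval y δ * z =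
            ∑ i, MvPolynomial.aeval y (r i) * (∑ j, c j • w j) ^ (i : ℕ)) ∧
      Algebra.trdeg k S = e := by
  classical
  let _ : Algebra (MvPolynomial (Fin e) k) S := (MvPolynomial.aeval y : (MvPolynomial (Fin e) k) →ₐ[k] S).toRingHom.toAlgebra
  have : IsScalarTower k (MvPolynomial (Fin e) k) S := IsScalarTower.of_algebraMap_eq (fun c => by
    show _ = MvPolynomial.aeval y (MvPolynomial.C c)
    rw [MvPolynomial.aeval_C])
  have : FaithfulSMul (MvPolynomial (Fin e) k) S := (faithfulSMul_iff_algebraMap_injective (MvPolynomial (Fin e) k) S).2 hy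
  let _ : Algebra (FractionRing (MvPolynomial (Fin e) k)) (FractionRing S) := FractionRing.liftAlgebra (MvPolynomial (Fin e) k) (FractionRing S)
  have : IsScalarTower (MvPolynomial (Fin e) k) (FractionRing (MvPolynomial (Fin e) k)) (FractionRing S) := FractionRing.isScalarTower_liftAlgebra (MvPolynomial (Fin e) k) (FractionRing S)
  have : IsScalarTower k (FractionRing (MvPolynomial (Fin e) k)) (FractionRing S) := IsScalarTower.to₁₃₄ k (MvPolynomial (Fin e) k) (FractionRing (MvPolynomial (Fin e) k)) (FractionRing S)
  have : CharZero (FractionRing (MvPolynomial (Fin e) k)) := algebraRat.charZero (FractionRing (MvPolynomial (Fin e) k))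
  have hwR : ∀ i, IsIntegral (MvPolynomial (Fin e) k) (algebraMap S (FractionRing S) (w i)) := fun i =>
    IsIntegral.algebraMap (A := S) (isIntegral_of_adjoin y hy _ (hw i) : IsIntegral (MvPolynomial (Fin e) k) (w i))
  have hk : ∀ (c : k) (z : (FractionRing S)), IsIntegral (MvPolynomial (Fin e) k) z → IsIntegral (MvPolynomial (Fin e) k) (c • z) := by
    intro c z hz
    have : c • z = algebraMap (MvPolynomial (Fin e) k) (FractionRing S) (algebraMap k (MvPolynomial (Fin e) k) c) * z := by
      rw [← IsScalarTower.algebraMap_apply, Algebra.smul_def]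
    rw [this]
    exact isIntegral_algebraMap.mul hz
  have hgen' : IntermediateField.adjoin (FractionRing (MvPolynomial (Fin e) k)) (Set.range fun i => algebraMap S (FractionRing S) (w i)) = ⊤ := by
    rw [eq_top_iff]
    intro z _
    obtain ⟨a, b, hb, rfl⟩ := IsFractionRing.div_surjective (A := S) z
    have h1 : ∀ s : S, algebraMap S (FractionRing S) s ∈
        (IntermediateField.adjoin (FractionRing (MvPolynomial (Fin e) k)) (Set.range fun i => algebraMap S (FractionRing S) (w i))).toSubfield := by
      refine hgen _ ?_ ?_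
      · intro c
        have : algebraMap S (FractionRing S) (algebraMap k S c) = algebraMap (FractionRing (MvPolynomial (Fin e) k)) (FractionRing S) (algebraMap k (FractionRing (MvPolynomial (Fin e) k)) c) := by
          rw [← IsScalarTower.algebraMap_apply, ← IsScalarTower.algebraMap_apply]
        rw [this]
        exact (IntermediateField.adjoin (FractionRing (MvPolynomial (Fin e) k)) (Set.range fun i => algebraMap S (FractionRing S) (w i))).algebraMap_mem _
      · intro i
        exact IntermediateField.subset_adjoin (FractionRing (MvPolynomial (Fin e) k)) _ ⟨i, rfl⟩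
    exact div_mem (h1 a) (h1 b)
  obtain ⟨c, D, hD, hfd, hind, δ, hδ, hint⟩ :=
    ft1 (k := k) (R := (MvPolynomial (Fin e) k)) (F := (FractionRing (MvPolynomial (Fin e) k))) (L := (FractionRing S)) (fun i => algebraMap S (FractionRing S) (w i)) hwR hk hgen'
  have hmap : ∑ j, c j • algebraMap S (FractionRing S) (w j) = algebraMap S (FractionRing S) (∑ j, c j • w j) := by
    rw [map_sum]
    refine Finset.sum_congr rfl fun j _ => ?_
    rw [Algebra.smul_def, Algebra.smul_def, map_mul, ← IsScalarTower.algebraMap_apply]
  have hsum : ∀ r : Fin D → (MvPolynomial (Fin e) k), ∑ i, algebraMap (MvPolynomial (Fin e) k) (FractionRing S) (r i) *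
      (∑ j, c j • algebraMap S (FractionRing S) (w j)) ^ (i : ℕ)
      = algebraMap S (FractionRing S) (∑ i, MvPolynomial.aeval y (r i) * (∑ j, c j • w j) ^ (i : ℕ)) := by
    intro r
    rw [map_sum, hmap]
    refine Finset.sum_congr rfl fun j _ => ?_
    rw [map_mul, map_pow]
    rfl
  refine ⟨c, D, hD, ?_, ⟨δ, hδ, ?_⟩, ?_⟩
  · intro r hr
    refine hind r ?_
    rw [hsum, hr, map_zero]
  · intro z hz
    obtain ⟨r, hr⟩ := hint (algebraMap S (FractionRing S) z)
      (IsIntegral.algebraMap (A := S) (isIntegral_of_adjoin y hy _ hz : IsIntegral (MvPolynomial (Fin e) k) z))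
    refine ⟨r, IsFractionRing.injective S (FractionRing S) ?_⟩
    rw [hsum] at hr
    rw [← hr, map_mul]
    rfl
  · have halg : Algebra.IsAlgebraic (MvPolynomial (Fin e) k) S := by
      refine ⟨fun s => ?_⟩
      have h1 : IsAlgebraic (FractionRing (MvPolynomial (Fin e) k)) (algebraMap S (FractionRing S) s) := Algebra.IsAlgebraic.isAlgebraic _
      have h2 : IsAlgebraic (MvPolynomial (Fin e) k) (algebraMap S (FractionRing S) s) := (IsFractionRing.isAlgebraic_iff (MvPolynomial (Fin e) k) (FractionRing (MvPolynomial (Fin e) k)) (FractionRing S)).2 h1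
      exact (isAlgebraic_algebraMap_iff (IsFractionRing.injective S (FractionRing S))).1 h2
    have h1 := trdeg_add_eq k (MvPolynomial (Fin e) k) (A := S)
    rw [trdeg_eq_zero_iff.2 halg, add_zero] at h1
    rw [← h1]
    rw [MvPolynomial.trdeg_of_isDomain]
    simp

end ft2

end Crest.Agent.R271.C5_756
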