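import Mathlib
import Crest.Agent.R271.C5b_756

/-!
Row 271 (S0413), Part 11.6 (C5): the Hilbert function of a graded algebra along multiples of `m`.
-/

set_option autoImplicit false
set_option maxHeartbeats 400000

namespace Crest.Agent.R271.C5_756

open Polynomial

universe u

/-- a graded family of subspaces of sections on a domain `C` -/
structure GD {k C : Type u} [Field k] [CommRing C] [Algebra k C] (W : ℕ → Submodule k C)
    (k0 Q : ℕ) : Prop where
  one : (1 : C) ∈ W 0
  mul : ∀ m l a b, a ∈ W m → b ∈ W l → a * b ∈ W (m + l)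
  fin : ∀ m, (W m).FG
  bpf : ∀ m, k0 ≤ m → ∃ f ∈ W m, f ≠ 0
  gen : ∃ S : Set C, Algebra.adjoin k S = ⊤ ∧
    ∀ b ∈ S, ∃ p ≤ Q, ∃ g ∈ W p, g ≠ 0 ∧ b * g ∈ W p
  int : ∀ m, k0 ≤ m → ∀ q, ∀ f ∈ W (q * m),
    IsIntegral (Algebra.adjoin k ((fun w => (monomial 1 w : C[X])) '' (W m : Set C)))
      (monomial q f : C[X])

section lemmas

variable {k S : Type*} [Field k] [CommRing S] [Algebra k S]

/-- transitivity of integrality -/
theorem isIntegral_trans' {A : Subalgebra k S} {T : Set S} (hT : ∀ t ∈ T, IsIntegral A t) {z : S}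
    (hz : IsIntegral (Algebra.adjoin k T) z) : IsIntegral A z := by
  have hle : Algebra.adjoin k T ≤ (integralClosure A S).restrictScalars k :=
    Algebra.adjoin_le fun t ht => hT t ht
  have h1 : IsIntegral (integralClosure A S) z :=
    IsIntegral.map_of_comp_eq (R := Algebra.adjoin k T) (S := S) (T := integralClosure A S) (U := S)
      (Subalgebra.inclusion hle).toRingHom (RingHom.id S) (by ext x; rfl) hz
  exact isIntegral_trans z h1

end lemmas

section hom

variable {k C : Type u} [Field k] [CommRing C] [Algebra k C]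

theorem aeval_mem {W : ℕ → Submodule k C} {k0 Q : ℕ} (h : GD W k0 Q) {m e : ℕ} (t : Fin e → C)
    (ht : ∀ j, t j ∈ W m) (n : ℕ) (F : MvPolynomial (Fin e) k) (hF : F.IsHomogeneous n) :
    MvPolynomial.aeval t F ∈ W (n * m) := by
  classical
  rw [MvPolynomial.aeval_def, MvPolynomial.eval₂_eq']
  refine Submodule.sum_mem _ fun d hd => ?_
  have hr : ∑ i, d i = n := by
    have := hF (MvPolynomial.mem_support_iff.1 hd)
    rw [Finsupp.weight_apply, Finsupp.sum_fintype] at this
    · simpa using this
    · simp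
  rw [← Algebra.smul_def]
  refine Submodule.smul_mem _ _ ?_
  have hpow : ∀ (j : Fin e) (a : ℕ), t j ^ a ∈ W (a * m) := by
    intro j a
    induction a with
    | zero => simpa using h.one
    | succ a ih =>
      rw [pow_succ, Nat.succ_mul]
      exact h.mul _ _ _ _ ih (ht j)
  have h1 : ∀ s : Finset (Fin e), ∏ i ∈ s, t i ^ d i ∈ W ((∑ i ∈ s, d i) * m) := by
    intro s
    induction s using Finset.induction_on with
    | empty => simpa using h.one
    | insert a s ha ih =>
      rw [Finset.prod_insert ha, Finset.sum_insert ha, add_mul]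
      exact h.mul _ _ _ _ (hpow _ _) ih
  rw [← hr]
  exact h1 _

theorem pow_mem' {W : ℕ → Submodule k C} {k0 Q : ℕ} (h : GD W k0 Q) {m : ℕ} {l : C}
    (hl : l ∈ W m) (a : ℕ) : l ^ a ∈ W (a * m) := by
  induction a with
  | zero => simpa using h.one
  | succ a ih =>
    rw [pow_succ, Nat.succ_mul]
    exact h.mul _ _ _ _ ih hl

theorem pow_eval {e : ℕ} (t : Fin e → C) (l : C) (n i q : ℕ) (hi : n + i = q)
    (F : MvPolynomial (Fin e) k) (hF : F.IsHomogeneous n) :
    MvPolynomial.aeval (fun j => (monomial 1 (t j) : C[X])) F * (monomial 1 l : C[X]) ^ i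
      = monomial q (MvPolynomial.aeval t F * l ^ i) := by
  rw [aeval_monomial_one t F n hF, monomial_pow, monomial_mul_monomial, one_mul, hi]

end hom

section main

variable {k C : Type u} [Field k] [CharZero k] [CommRing C] [IsDomain C] [Algebra k C]

omit [CharZero k] in
theorem GD.hgen {W : ℕ → Submodule k C} {k0 Q : ℕ} (h : GD W k0 Q) {m : ℕ} (hm : k0 + Q ≤ m)
    {N : ℕ} (x : Fin N → C) (hx : Submodule.span k (Set.range x) = W m)
    (E : Subfield (FractionRing C[X]))
    (hk : ∀ c : k, algebraMap C[X] (FractionRing C[X]) (algebraMap k C[X] c) ∈ E)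
    (hE : ∀ i, algebraMap C[X] (FractionRing C[X]) (monomial 1 (x i)) ∈ E) (s : C[X]) :
    algebraMap C[X] (FractionRing C[X]) s ∈ E := by
  have hinj := IsFractionRing.injective C[X] (FractionRing C[X])
  have hW : ∀ v ∈ W m, algebraMap C[X] (FractionRing C[X]) (monomial 1 v) ∈ E := by
    intro v hv
    rw [← hx] at hv
    induction hv using Submodule.span_induction with
    | mem v hv => obtain ⟨i, rfl⟩ := hv; exact hE i
    | zero => simp
    | add v w _ _ h1 h2 => rw [map_add, map_add]; exact add_mem h1 h2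
    | smul c v _ h1 =>
      have : (monomial 1 (c • v) : C[X]) = algebraMap k C[X] c * monomial 1 v := by
        rw [Polynomial.algebraMap_apply, C_mul_monomial, ← Algebra.smul_def]
      rw [this, map_mul]
      exact mul_mem (hk c) h1
  obtain ⟨S, hS, hS2⟩ := h.gen
  have hC : ∀ c : C, algebraMap C[X] (FractionRing C[X]) (Polynomial.C c) ∈ E := by
    intro c
    have hc : c ∈ Algebra.adjoin k S := by rw [hS]; trivial
    induction hc using Algebra.adjoin_induction with
    | mem b hb =>
      obtain ⟨p, hp, g, hg, hg0, hbg⟩ := hS2 b hb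
      obtain ⟨w, hw, hw0⟩ := h.bpf (m - p) (by omega)
      have e1 : p + (m - p) = m := by omega
      have h1 : g * w ∈ W m := by
        have := h.mul _ _ _ _ hg hw
        rwa [e1] at this
      have h2 : b * g * w ∈ W m := by
        have := h.mul _ _ _ _ hbg hw
        rwa [e1] at this
      have hne : algebraMap C[X] (FractionRing C[X]) (monomial 1 (g * w)) ≠ 0 := by
        rw [Ne, map_eq_zero_iff _ hinj, monomial_eq_zero_iff]
        exact mul_ne_zero hg0 hw0
      have e2 : algebraMap C[X] (FractionRing C[X]) (Polynomial.C b)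
          = algebraMap C[X] (FractionRing C[X]) (monomial 1 (b * g * w)) /
            algebraMap C[X] (FractionRing C[X]) (monomial 1 (g * w)) := by
        rw [eq_div_iff hne, ← map_mul, C_mul_monomial, mul_assoc]
      rw [e2]
      exact div_mem (hW _ h2) (hW _ h1)
    | algebraMap r => exact hk r
    | add a b _ _ h1 h2 => rw [map_add, map_add]; exact add_mem h1 h2
    | mul a b _ _ h1 h2 => rw [map_mul, map_mul]; exact mul_mem h1 h2
  have hX : algebraMap C[X] (FractionRing C[X]) X ∈ E := by
    obtain ⟨w, hw, hw0⟩ := h.bpf m (by omega)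
    have hne : algebraMap C[X] (FractionRing C[X]) (Polynomial.C w) ≠ 0 := by
      rw [Ne, map_eq_zero_iff _ hinj, Polynomial.C_eq_zero]
      exact hw0
    have e2 : algebraMap C[X] (FractionRing C[X]) X
        = algebraMap C[X] (FractionRing C[X]) (monomial 1 w) /
          algebraMap C[X] (FractionRing C[X]) (Polynomial.C w) := by
      rw [eq_div_iff hne, ← map_mul, mul_comm, C_mul_X_eq_monomial]
    rw [e2]
    exact div_mem (hW _ hw) (hC _)
  induction s using Polynomial.induction_on' with
  | add p q h1 h2 => rw [map_add]; exact add_mem h1 h2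
  | monomial n a =>
    rw [← C_mul_X_pow_eq_monomial, map_mul, map_pow]
    exact mul_mem (hC _) (pow_mem hX _)

/-- The output of Noether normalisation and of the primitive element theorem. -/
theorem GD.data {W : ℕ → Submodule k C} {k0 Q : ℕ} (h : GD W k0 Q) {m : ℕ} (hm : k0 + Q ≤ m) :
    ∃ (e D s : ℕ) (t : Fin e → C) (l : C), 0 < D ∧ (∀ j, t j ∈ W m) ∧ l ∈ W m ∧
      Algebra.trdeg k C + 1 = e ∧
      (∀ (r : Fin D → MvPolynomial (Fin e) k) (q : ℕ),
        (∀ i : Fin D, (r i).IsHomogeneous (q - i)) → (∀ i : Fin D, q < i → r i = 0) →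
        ∑ i, MvPolynomial.aeval t (r i) * l ^ (i : ℕ) = 0 → ∀ i, r i = 0) ∧
      (∃ a : C, a ≠ 0 ∧ ∀ q, D ≤ q → ∀ f ∈ W (q * m), ∃ r : Fin D → MvPolynomial (Fin e) k,
        (∀ i : Fin D, (r i).IsHomogeneous (q + s - i)) ∧
        a * f = ∑ i, MvPolynomial.aeval t (r i) * l ^ (i : ℕ)) := by
  classical
  obtain ⟨N, x, hx⟩ := Submodule.fg_iff_exists_fin_generating_family.1 (h.fin m)
  obtain ⟨e, t, ht1, ht2, ht3⟩ := nn (k := k) N x
  rw [hx] at ht1
  obtain ⟨c, D, hD, hind, ⟨δ, hδ, hint⟩, htr⟩ := ft2 (fun j => (monomial 1 (t j) : C[X])) ht2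
    (fun i => monomial 1 (x i)) ht3 (fun E hk hE s => h.hgen hm x hx E hk hE s)
  have hsum : ∑ j, c j • (monomial 1 (x j) : C[X]) = monomial 1 (∑ j, c j • x j) := by
    rw [map_sum]
    exact Finset.sum_congr rfl fun j _ => by rw [smul_monomial]
  obtain ⟨l, hl⟩ : ∃ l, l = ∑ j, c j • x j := ⟨_, rfl⟩
  rw [hsum, ← hl] at hind hint
  have hlW : l ∈ W m := by
    rw [← hx, hl]
    exact Submodule.sum_mem _ fun j _ => Submodule.smul_mem _ _ (Submodule.subset_span ⟨j, rfl⟩)
  -- choice of a nonzero homogeneous component of `δ`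
  obtain ⟨s, hs⟩ : ∃ s, MvPolynomial.homogeneousComponent s δ ≠ 0 := by
    by_contra hcon
    push Not at hcon
    apply hδ
    rw [← MvPolynomial.sum_homogeneousComponent δ]
    exact Finset.sum_eq_zero fun i _ => hcon i
  have ha : MvPolynomial.aeval t (MvPolynomial.homogeneousComponent s δ) ≠ 0 := by
    intro h0
    apply hs
    apply ht2
    rw [map_zero, aeval_monomial_one t _ s (MvPolynomial.homogeneousComponent_isHomogeneous s δ),
      h0, map_zero]
  have hWint : ∀ v ∈ W m, IsIntegral (Algebra.adjoin k (Set.range fun j =>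
      (monomial 1 (t j) : C[X]))) (monomial 1 v : C[X]) := by
    intro v hv
    rw [← hx] at hv
    induction hv using Submodule.span_induction with
    | mem v hv => obtain ⟨i, rfl⟩ := hv; exact ht3 i
    | zero => rw [map_zero]; exact isIntegral_zero
    | add v w _ _ h1 h2 => rw [map_add]; exact h1.add h2
    | smul c v _ h1 =>
      have e1 : (monomial 1 (c • v) : C[X]) = algebraMap (Algebra.adjoin k (Set.range fun j =>
          (monomial 1 (t j) : C[X]))) C[X] (algebraMap k _ c) * monomial 1 v := by
        rw [← IsScalarTower.algebraMap_apply, Polynomial.algebraMap_apply, C_mul_monomial,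
          ← Algebra.smul_def]
      rw [e1]
      exact isIntegral_algebraMap.mul h1
  refine ⟨e, D, s, t, l, hD, ht1, hlW, ?_, ?_, _, ha, ?_⟩
  · have h1 := trdeg_add_eq k C (A := C[X])
    rw [Polynomial.trdeg_of_isDomain, htr] at h1
    exact h1
  · intro r q hr hr0 hsum0
    apply hind
    have e1 : ∑ i : Fin D, MvPolynomial.aeval (fun j => (monomial 1 (t j) : C[X])) (r i) *
        (monomial 1 l : C[X]) ^ (i : ℕ)
        = monomial q (∑ i : Fin D, MvPolynomial.aeval t (r i) * l ^ (i : ℕ)) := by
      rw [map_sum]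
      refine Finset.sum_congr rfl fun i _ => ?_
      by_cases hi : q < i
      · rw [hr0 i hi]; simp
      · exact pow_eval t l (q - i) i q (by omega) _ (hr i)
    rw [e1, hsum0, map_zero]
  · intro q hq f hf
    have hz : IsIntegral (Algebra.adjoin k (Set.range fun j => (monomial 1 (t j) : C[X])))
        (monomial q f : C[X]) :=
      isIntegral_trans' (by rintro _ ⟨v, hv, rfl⟩; exact hWint v hv) (h.int m (by omega) q f hf)
    obtain ⟨r, hr⟩ := hint _ hz
    refine ⟨fun i => MvPolynomial.homogeneousComponent (q + s - i) (r i),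
      fun i => MvPolynomial.homogeneousComponent_isHomogeneous _ _, ?_⟩
    have h1 := congrArg (fun p => Polynomial.coeff p (s + q)) hr
    simp only [finsetSum_coeff] at h1
    rw [coeff_mul_monomial, coeff_aeval_monomial_one] at h1
    rw [h1]
    refine Finset.sum_congr rfl fun i _ => ?_
    have hi : s + q = (q + s - i) + i := by have := i.2; omega
    rw [monomial_pow, one_mul, hi, coeff_mul_monomial, coeff_aeval_monomial_one]

end main

end Crest.Agent.R271.C5_756
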