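import Mathlib
import Crest.Agent.R271.C5c_756

/-!
Row 271 (S0413), Part 11.6 (C5): numerical bounds for the Hilbert function.
-/

set_option autoImplicit false
set_option maxHeartbeats 400000

namespace Crest.Agent.R271.C5_756

open Polynomial

universe u

theorem finrank_hom (k : Type*) [Field k] (d n : ℕ) :
    Module.finrank k (MvPolynomial.homogeneousSubmodule (Fin (d + 1)) k n) =
      (n + d).choose d := by
  classical
  rw [MvPolynomial.homogeneousSubmodule_eq_finsupp_supported]
  have hset : {x : Fin (d + 1) →₀ ℕ | x.degree = n} =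
      ↑((Finset.univ : Finset (Fin (d + 1))).finsuppAntidiag n) := by
    ext x
    simp [Finset.mem_finsuppAntidiag, Finsupp.degree_eq_sum]
  rw [hset, (AddMonoidAlgebra.supportedEquivFinsupp _).finrank_eq, Module.finrank_finsupp_self]
  simp only [Finset.coe_sort_coe, Fintype.card_coe]
  rw [Finset.card_finsuppAntidiag_nat_eq_choose, Finset.card_univ,
    Fintype.card_fin]
  have h1 : d + 1 + n - 1 = n + d := by omega
  rw [h1, Nat.choose_symm_add]

section phi

variable {k C : Type*} [Field k] [CommRing C] [Algebra k C]

/-- `r ↦ ∑ᵢ rᵢ(t) lⁱ` -/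
noncomputable def phi {e : ℕ} (t : Fin e → C) (l : C) {D : ℕ} (n : Fin D → ℕ) :
    (∀ i : Fin D, MvPolynomial.homogeneousSubmodule (Fin e) k (n i)) →ₗ[k] C where
  toFun r := ∑ i, MvPolynomial.aeval t (r i : MvPolynomial (Fin e) k) * l ^ (i : ℕ)
  map_add' r s := by
    rw [← Finset.sum_add_distrib]
    refine Finset.sum_congr rfl fun i _ => ?_
    rw [Pi.add_apply, Submodule.coe_add, map_add, add_mul]
  map_smul' c r := by
    rw [RingHom.id_apply, Finset.smul_sum]
    refine Finset.sum_congr rfl fun i _ => ?_
    rw [Pi.smul_apply, Submodule.coe_smul, map_smul, smul_mul_assoc]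

theorem phi_apply {e : ℕ} (t : Fin e → C) (l : C) {D : ℕ} (n : Fin D → ℕ)
    (r : ∀ i : Fin D, MvPolynomial.homogeneousSubmodule (Fin e) k (n i)) :
    phi t l n r = ∑ i, MvPolynomial.aeval t (r i : MvPolynomial (Fin e) k) * l ^ (i : ℕ) := rfl

theorem finrank_pi_hom {D : ℕ} (d : ℕ) (n : Fin D → ℕ) :
    Module.finrank k (∀ i : Fin D, MvPolynomial.homogeneousSubmodule (Fin (d + 1)) k (n i))
      = ∑ i, (n i + d).choose d := by
  have : ∀ i : Fin D, Module.Finite k (MvPolynomial.homogeneousSubmodule (Fin (d + 1)) k (n i)) :=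
    fun i => Module.Finite.iff_fg.2 (MvPolynomial.homogeneousSubmodule_fg _ _ _)
  rw [Module.finrank_pi_fintype]
  exact Finset.sum_congr rfl fun i _ => finrank_hom k d (n i)

end phi

section main

variable {k C : Type u} [Field k] [CharZero k] [CommRing C] [IsDomain C] [Algebra k C]

theorem GD.bounds {W : ℕ → Submodule k C} {k0 Q : ℕ} (h : GD W k0 Q) {m : ℕ} (hm : k0 + Q ≤ m)
    {d : ℕ} (hd : Algebra.trdeg k C = d) :
    ∃ D s : ℕ, 0 < D ∧
      (∀ D' ≤ D, ∀ q, D' ≤ q →
        ∑ i ∈ Finset.range D', (q - i + d).choose d ≤ Module.finrank k (W (q * m))) ∧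
      (∀ q, D ≤ q →
        Module.finrank k (W (q * m)) ≤ ∑ i ∈ Finset.range D, (q + s - i + d).choose d) := by
  classical
  obtain ⟨e, D, s, t, l, hD, ht, hl, he, hind, a, ha, hint⟩ := h.data hm
  have he' : e = d + 1 := by
    rw [hd] at he
    exact_mod_cast he.symm
  subst he'
  have hfW : ∀ m, Module.Finite k (W m) := fun m => Module.Finite.iff_fg.2 (h.fin m)
  have hfH : ∀ n, Module.Finite k (MvPolynomial.homogeneousSubmodule (Fin (d + 1)) k n) :=
    fun n => Module.Finite.iff_fg.2 (MvPolynomial.homogeneousSubmodule_fg _ _ _)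
  refine ⟨D, s, hD, ?_, ?_⟩
  · intro D' hD' q hq
    let Φ := phi (k := k) t l (fun i : Fin D' => q - i)
    have hmem : ∀ r, Φ r ∈ W (q * m) := by
      intro r
      rw [phi_apply]
      refine Submodule.sum_mem _ fun i _ => ?_
      have h1 := h.mul _ _ _ _ (aeval_mem h t ht (q - i) _ (r i).2) (pow_mem' h hl i)
      have h2 : (q - i) * m + i * m = q * m := by
        rw [← add_mul]
        congr 1
        have := i.2
        omega
      rwa [h2] at h1
    let Ψ := Φ.codRestrict (W (q * m)) hmem
    have hinj : Function.Injective Ψ := by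
      rw [← LinearMap.ker_eq_bot, LinearMap.ker_eq_bot']
      intro r hr
      have hr' : ∑ i : Fin D', MvPolynomial.aeval t (r i : MvPolynomial (Fin (d + 1)) k) *
          l ^ (i : ℕ) = 0 := by
        have := congrArg Subtype.val hr
        exact this
      let r' : Fin D → MvPolynomial (Fin (d + 1)) k := fun i =>
        if hi : (i : ℕ) < D' then (r ⟨i, hi⟩ : MvPolynomial (Fin (d + 1)) k) else 0
      have key := hind r' q ?_ ?_ ?_
      · funext i
        apply Subtype.ext
        have := key ⟨i, lt_of_lt_of_le i.2 hD'⟩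
        simp only [r', i.2, dif_pos] at this
        exact this
      · intro i
        by_cases hi : (i : ℕ) < D'
        · simp only [r', hi, dif_pos]
          exact (r ⟨i, hi⟩).2
        · simp only [r', hi, dif_neg, not_false_eq_true]
          exact MvPolynomial.isHomogeneous_zero _ _ _
      · intro i hi
        have : ¬ (i : ℕ) < D' := by omega
        simp only [r', this, dif_neg, not_false_eq_true]
      · have e1 : ∀ i : Fin D, MvPolynomial.aeval t (r' i) * l ^ (i : ℕ)
            = (fun i : ℕ => if hi : i < D' then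
              MvPolynomial.aeval t (r ⟨i, hi⟩ : MvPolynomial (Fin (d + 1)) k) * l ^ i else 0)
              (i : ℕ) := by
          intro i
          by_cases hi : (i : ℕ) < D'
          · simp only [r', hi, dif_pos]
          · simp only [r', hi, dif_neg, not_false_eq_true, map_zero, zero_mul]
        simp_rw [e1]
        rw [← Finset.sum_range (fun i : ℕ => if hi : i < D' then
              MvPolynomial.aeval t (r ⟨i, hi⟩ : MvPolynomial (Fin (d + 1)) k) * l ^ i else 0)]
        rw [← Finset.sum_subset (s₁ := Finset.range D')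
          (Finset.range_mono hD') (fun i _ hi => dif_neg (by simpa using hi))]
        rw [Finset.sum_range]
        rw [← hr']
        refine Finset.sum_congr rfl fun i _ => ?_
        simp only [i.2, dif_pos]
    have h3 := LinearMap.finrank_le_finrank_of_injective hinj
    rw [finrank_pi_hom, ← Finset.sum_range (fun i => (q - i + d).choose d)] at h3
    exact h3
  · intro q hq
    let Φ := phi (k := k) t l (fun i : Fin D => q + s - i)
    let M : W (q * m) →ₗ[k] C := (LinearMap.mulLeft k a).comp (W (q * m)).subtype
    have hMinj : Function.Injective M := by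
      intro x y hxy
      apply Subtype.ext
      exact mul_left_cancel₀ ha hxy
    have hrange : LinearMap.range M ≤ LinearMap.range Φ := by
      rintro _ ⟨f, rfl⟩
      obtain ⟨r, hr1, hr2⟩ := hint q hq f f.2
      exact ⟨fun i => ⟨r i, hr1 i⟩, hr2.symm⟩
    have h1 : Module.finrank k (LinearMap.range M) = Module.finrank k (W (q * m)) :=
      LinearMap.finrank_range_of_inj hMinj
    have h2 : Module.finrank k (LinearMap.range M) ≤ Module.finrank k (LinearMap.range Φ) :=
      Submodule.finrank_mono hrange
    have h3 := LinearMap.finrank_range_le Φ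
    rw [finrank_pi_hom, ← Finset.sum_range (fun i => (q + s - i + d).choose d)] at h3
    omega

end main

end Crest.Agent.R271.C5_756
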