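import Mathlib
import Crest.Agent.R271.C5d_756

/-!
Row 271 (S0413), Part 11.6 (C5): the degree `D` is at least `m ^ d`; uniform lower bound.
-/

set_option autoImplicit false
set_option maxHeartbeats 400000

namespace Crest.Agent.R271.C5_756

open Polynomial Filter

universe u

/-- comparison of the leading coefficients -/
theorem lead_le (A B : ℝ) (a b c e : ℝ) (d : ℕ)
    (h : ∀ᶠ n : ℕ in atTop, A * (a * n - c) ^ d ≤ B * (b * n + e) ^ d) :
    A * a ^ d ≤ B * b ^ d := by
  have hinv : Tendsto (fun n : ℕ => ((n : ℝ))⁻¹) atTop (nhds 0) :=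
    tendsto_inv_atTop_nhds_zero_nat
  have h1 : Tendsto (fun n : ℕ => A * (a - c * ((n : ℝ))⁻¹) ^ d) atTop (nhds (A * a ^ d)) := by
    have := ((tendsto_const_nhds (x := a)).sub (hinv.const_mul c)).pow d |>.const_mul A
    simpa using this
  have h2 : Tendsto (fun n : ℕ => B * (b + e * ((n : ℝ))⁻¹) ^ d) atTop (nhds (B * b ^ d)) := by
    have := ((tendsto_const_nhds (x := b)).add (hinv.const_mul e)).pow d |>.const_mul B
    simpa using this
  refine le_of_tendsto_of_tendsto h1 h2 ?_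
  filter_upwards [h, eventually_gt_atTop 0] with n hn hn0
  have hn0' : (0 : ℝ) < n := by exact_mod_cast hn0
  have e1 : a - c * ((n : ℝ))⁻¹ = (a * n - c) * ((n : ℝ))⁻¹ := by field_simp
  have e2 : b + e * ((n : ℝ))⁻¹ = (b * n + e) * ((n : ℝ))⁻¹ := by field_simp
  rw [e1, e2, mul_pow, mul_pow, ← mul_assoc, ← mul_assoc]
  exact mul_le_mul_of_nonneg_right hn (by positivity)

theorem choose_upper (n d : ℕ) : d.factorial * (n.choose d) ≤ n ^ d := by
  rw [← Nat.descFactorial_eq_factorial_mul_choose]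
  exact Nat.descFactorial_le_pow n d

theorem choose_lower (n d : ℕ) : (n + 1) ^ d ≤ d.factorial * ((n + d).choose d) := by
  rw [← Nat.descFactorial_eq_factorial_mul_choose]
  have := Nat.pow_sub_le_descFactorial (n + d) d
  refine le_trans ?_ this
  apply Nat.pow_le_pow_left
  omega

section main

variable {k C : Type u} [Field k] [CharZero k] [CommRing C] [IsDomain C] [Algebra k C]

/-- crude lower bound -/
theorem sum_lower (D' q d : ℕ) (hq : D' ≤ q) :
    D' * (q - D' + 1) ^ d ≤ d.factorial * ∑ i ∈ Finset.range D', (q - i + d).choose d := by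
  rw [Finset.mul_sum]
  calc D' * (q - D' + 1) ^ d = ∑ _i ∈ Finset.range D', (q - D' + 1) ^ d := by simp
    _ ≤ ∑ i ∈ Finset.range D', d.factorial * (q - i + d).choose d := by
      refine Finset.sum_le_sum fun i hi => ?_
      rw [Finset.mem_range] at hi
      refine le_trans ?_ (choose_lower (q - i) d)
      apply Nat.pow_le_pow_left
      omega

theorem sum_upper (D q s d : ℕ) :
    d.factorial * ∑ i ∈ Finset.range D, (q + s - i + d).choose d ≤ D * (q + s + d) ^ d := by
  rw [Finset.mul_sum]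
  calc ∑ i ∈ Finset.range D, d.factorial * (q + s - i + d).choose d
        ≤ ∑ _i ∈ Finset.range D, (q + s + d) ^ d := by
        refine Finset.sum_le_sum fun i _ => ?_
        refine le_trans (choose_upper _ d) ?_
        apply Nat.pow_le_pow_left
        omega
    _ = D * (q + s + d) ^ d := by simp

omit [CharZero k] [IsDomain C] in
theorem GD.compare {W : ℕ → Submodule k C} {d D m D' m' s' : ℕ} (hm' : 1 ≤ m')
    (hlow : ∀ q, D ≤ q →
        ∑ i ∈ Finset.range D, (q - i + d).choose d ≤ Module.finrank k (W (q * m)))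
    (hup : ∀ q, D' ≤ q →
        Module.finrank k (W (q * m')) ≤ ∑ i ∈ Finset.range D', (q + s' - i + d).choose d)
    (hm : 1 ≤ m) :
    D * m' ^ d ≤ D' * m ^ d := by
  have key : ∀ᶠ n : ℕ in atTop, (D : ℝ) * ((m' : ℝ) * n - D) ^ d ≤
      (D' : ℝ) * ((m : ℝ) * n + (s' + d)) ^ d := by
    filter_upwards [eventually_ge_atTop (D + D')] with n hn
    have h1 : D ≤ m' * n := le_trans (by omega) (Nat.le_mul_of_pos_left n hm')
    have h2 : D' ≤ m * n := le_trans (by omega) (Nat.le_mul_of_pos_left n hm)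
    have h3 := hlow (m' * n) h1
    have h4 := hup (m * n) h2
    have h5 : m * n * m' = m' * n * m := by ring
    rw [h5] at h4
    have h6 := (sum_lower D (m' * n) d h1).trans
      ((Nat.mul_le_mul_left _ (h3.trans h4)).trans (sum_upper D' (m * n) s' d))
    have h7 : ((D * (m' * n - D + 1) ^ d : ℕ) : ℝ) ≤ ((D' * (m * n + s' + d) ^ d : ℕ) : ℝ) := by
      exact_mod_cast h6
    push_cast [Nat.cast_sub h1] at h7
    calc (D : ℝ) * ((m' : ℝ) * n - D) ^ d ≤ (D : ℝ) * ((m' : ℝ) * n - D + 1) ^ d := by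
          have h8 : (0 : ℝ) ≤ (m' : ℝ) * n - D := by
            rw [sub_nonneg]; exact_mod_cast h1
          gcongr
          linarith
      _ ≤ (D' : ℝ) * ((m : ℝ) * n + s' + d) ^ d := h7
      _ = (D' : ℝ) * ((m : ℝ) * n + (s' + d)) ^ d := by rw [add_assoc]
  have := lead_le _ _ _ _ _ _ d key
  exact_mod_cast this

/-- UNIFORM LOWER BOUND on a domain -/
theorem GD.lower {W : ℕ → Submodule k C} {k0 Q : ℕ} (h : GD W k0 Q) {d : ℕ}
    (hd : Algebra.trdeg k C = d) (j : ℕ) (hj : k0 + (k0 + Q + 1) ^ (d + 1) ≤ j) :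
    (j - (k0 + (k0 + Q + 1) ^ (d + 1))) ^ d ≤ d.factorial * Module.finrank k (W j) := by
  classical
  have hfW : ∀ m, Module.Finite k (W m) := fun m => Module.Finite.iff_fg.2 (h.fin m)
  obtain ⟨m, hm⟩ : ∃ m, m = k0 + Q + 1 := ⟨_, rfl⟩
  rw [← hm] at hj ⊢
  obtain ⟨D, s, hD, hlow, hup⟩ := h.bounds (m := m) (by omega) hd
  obtain ⟨D', s', hD', hlow', hup'⟩ := h.bounds (m := m + 1) (by omega) hd
  have h1 : D * (m + 1) ^ d = D' * m ^ d := le_antisymm
    (GD.compare (W := W) (by omega) (hlow D le_rfl) hup' (by omega))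
    (GD.compare (W := W) (by omega) (hlow' D' le_rfl) hup (by omega))
  have h2 : m ^ d ∣ D := by
    have h3 : Nat.Coprime (m ^ d) ((m + 1) ^ d) :=
      Nat.Coprime.pow _ _ (by simp)
    exact h3.dvd_of_dvd_mul_right ⟨D', by rw [h1, mul_comm]⟩
  have h3 : m ^ d ≤ D := Nat.le_of_dvd hD h2
  have hm0 : 0 < m := by omega
  set q := (j - k0) / m with hq
  have hq1 : q * m ≤ j - k0 := Nat.div_mul_le_self _ _
  have hq2 : j - k0 < (q + 1) * m := by
    rw [mul_comm]
    exact Nat.lt_mul_div_succ _ hm0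
  have hq3 : m ^ d ≤ q := by
    rw [hq, Nat.le_div_iff_mul_le hm0, ← pow_succ]
    omega
  have h4 := hlow (m ^ d) h3 q hq3
  have h5 := (sum_lower (m ^ d) q d hq3).trans (Nat.mul_le_mul_left _ h4)
  -- multiplication by a section of degree `j - q m`
  obtain ⟨w, hw, hw0⟩ := h.bpf (j - q * m) (by omega)
  have h6 : Module.finrank k (W (q * m)) ≤ Module.finrank k (W j) := by
    have e1 : (j - q * m) + q * m = j := by omega
    let M : W (q * m) →ₗ[k] W j := ((LinearMap.mulLeft k w).comp (W (q * m)).subtype).codRestrict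
      (W j) (fun f => by
        have := h.mul _ _ _ _ hw f.2
        rwa [e1] at this)
    refine LinearMap.finrank_le_finrank_of_injective (f := M) ?_
    intro x y hxy
    apply Subtype.ext
    have := congrArg Subtype.val hxy
    exact mul_left_cancel₀ hw0 this
  refine le_trans ?_ (h5.trans (Nat.mul_le_mul_left _ h6))
  rw [← mul_pow]
  apply Nat.pow_le_pow_left
  have h7 : q - m ^ d + 1 = (q + 1) - m ^ d := by omega
  rw [h7, Nat.mul_sub, ← pow_succ', mul_comm m (q + 1)]
  omega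

/-- real form -/
theorem GD.growth {k0 Q : ℕ} (d : ℕ) (ε : ℝ) (hε : 0 < ε) : ∃ j₁ : ℕ,
    ∀ (C : Type u) [CommRing C] [IsDomain C] [Algebra k C] (W : ℕ → Submodule k C),
      GD W k0 Q → Algebra.trdeg k C = d → ∀ j, j₁ ≤ j →
      (1 - ε) * (j : ℝ) ^ d / (d.factorial : ℝ) ≤ (Module.finrank k (W j) : ℝ) := by
  obtain ⟨c, hc⟩ : ∃ c : ℕ, c = k0 + (k0 + Q + 1) ^ (d + 1) := ⟨_, rfl⟩
  obtain ⟨j₀, hj₀⟩ := exists_nat_gt ((d : ℝ) * c / ε)
  refine ⟨max (c + 1) j₀, ?_⟩
  intro C _ _ _ W h hd j hj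
  have hj1 : c + 1 ≤ j := le_trans (le_max_left _ _) hj
  have hj2 : j₀ ≤ j := le_trans (le_max_right _ _) hj
  have h1 := h.lower hd j (by omega)
  rw [← hc] at h1
  have h2 : (((j - c) ^ d : ℕ) : ℝ) ≤ ((d.factorial * Module.finrank k (W j) : ℕ) : ℝ) := by
    exact_mod_cast h1
  push_cast [Nat.cast_sub (show c ≤ j by omega)] at h2
  have hj0 : (0 : ℝ) < j := by
    have : 0 < j := by omega
    exact_mod_cast this
  have hcj : (c : ℝ) ≤ j := by
    have : c ≤ j := by omega
    exact_mod_cast this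
  have h3 : (d : ℝ) * c / ε ≤ j := hj₀.le.trans (by exact_mod_cast hj2)
  have h4 : (d : ℝ) * c / j ≤ ε := by
    rw [div_le_iff₀ hε] at h3
    rw [div_le_iff₀ hj0]
    linarith
  have h5 : 1 - ε ≤ (1 - c / j) ^ d := by
    have h6 := one_add_mul_le_pow (a := -((c : ℝ) / j)) (by
      have : (c : ℝ) / j ≤ 1 := by rw [div_le_one hj0]; exact hcj
      linarith) d
    have h7 : (1 : ℝ) + d * -((c : ℝ) / j) = 1 - d * c / j := by ring
    rw [h7] at h6
    calc 1 - ε ≤ 1 - d * c / j := by linarith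
      _ ≤ (1 + -((c : ℝ) / j)) ^ d := h6
      _ = (1 - c / j) ^ d := by ring
  have h8 : (1 - (c : ℝ) / j) ^ d * (j : ℝ) ^ d = (j - c) ^ d := by
    rw [← mul_pow]
    congr 1
    field_simp
  have hfac : (0 : ℝ) < (d.factorial : ℝ) := by exact_mod_cast Nat.factorial_pos d
  rw [div_le_iff₀ hfac]
  calc (1 - ε) * (j : ℝ) ^ d ≤ (1 - (c : ℝ) / j) ^ d * (j : ℝ) ^ d := by gcongr
    _ = (j - c) ^ d := h8
    _ ≤ d.factorial * Module.finrank k (W j) := h2
    _ = Module.finrank k (W j) * d.factorial := by ring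

end main

end Crest.Agent.R271.C5_756
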