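import Mathlib
import Crest.Agent.R271.C5e_756

/-!
Row 271 (S0413), Part 11.6 (C5): uniform lower bound for the Hilbert functions of the restrictions
of a section ring to all irreducible subvarieties.

Main results: `GSec`, `GSec.growth` (in the form of `FCtx.growth`), `int_of_field` (integrality in
`B[X]` from integrality over the function field), `bpf_of_jets`.
-/

set_option autoImplicit false
set_option maxHeartbeats 400000

namespace Crest.Agent.R271.C5_756

open Polynomial

universe u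

section dim

variable {A S : Type*} [CommRing A] [CommRing S] [Algebra A S]

theorem krull_le_of_isIntegral [Algebra.IsIntegral A S] : ringKrullDim S ≤ ringKrullDim A := by
  apply Order.krullDim_le_of_strictMono (PrimeSpectrum.comap (algebraMap A S))
  intro p q hpq
  have h1 : p.asIdeal < q.asIdeal := hpq
  exact Ideal.IsIntegral.comap_lt_comap (R := A) h1

theorem krull_eq_of_isIntegral [Algebra.IsIntegral A S]
    (hinj : Function.Injective (algebraMap A S)) : ringKrullDim S = ringKrullDim A := by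
  refine le_antisymm krull_le_of_isIntegral ?_
  refine iSup_le fun l => ?_
  obtain ⟨P, -, hP, hPl⟩ := Ideal.exists_ideal_over_prime_of_isIntegral
    l.head.asIdeal (⊥ : Ideal S) (by
      show RingHom.ker (algebraMap A S) ≤ _
      rw [(RingHom.injective_iff_ker_eq_bot _).1 hinj]; exact bot_le)
  have : P.LiesOver l.head.asIdeal := ⟨hPl.symm⟩
  have : Algebra.HasGoingUp A S := Algebra.HasGoingUp.of_isIntegral
  obtain ⟨L, hL, -, -⟩ := Ideal.exists_ltSeries_of_hasGoingUp l P
  rw [← hL]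
  exact le_iSup (fun L : LTSeries (PrimeSpectrum S) => (L.length : WithBot ℕ∞)) L

end dim

/-- for a finitely generated domain the Krull dimension is the transcendence degree -/
theorem trdeg_of_ringKrullDim {k C : Type u} [Field k] [CommRing C] [IsDomain C] [Algebra k C]
    [Algebra.FiniteType k C] {d : ℕ} (hd : ringKrullDim C = d) : Algebra.trdeg k C = d := by
  obtain ⟨s, g, hg, hint⟩ := exists_integral_inj_algHom_of_fg k C
  let _ : Algebra (MvPolynomial (Fin s) k) C := g.toRingHom.toAlgebra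
  have : IsScalarTower k (MvPolynomial (Fin s) k) C := IsScalarTower.of_algebraMap_eq
    (fun c => (g.commutes c).symm)
  have : Algebra.IsIntegral (MvPolynomial (Fin s) k) C := ⟨hint⟩
  have : FaithfulSMul (MvPolynomial (Fin s) k) C :=
    (faithfulSMul_iff_algebraMap_injective _ _).2 hg
  have h1 : ringKrullDim C = ringKrullDim (MvPolynomial (Fin s) k) := krull_eq_of_isIntegral hg
  rw [MvPolynomial.ringKrullDim_of_isNoetherianRing, ringKrullDim_eq_zero_of_field, zero_add,
    Nat.card_eq_fintype_card, Fintype.card_fin, hd] at h1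
  have h2 : d = s := by exact_mod_cast h1
  have halg : Algebra.IsAlgebraic (MvPolynomial (Fin s) k) C := inferInstance
  have h3 := trdeg_add_eq k (MvPolynomial (Fin s) k) (A := C)
  rw [trdeg_eq_zero_iff.2 halg, add_zero, MvPolynomial.trdeg_of_isDomain] at h3
  rw [← h3, h2]
  simp

/-- integrality over `adjoin` under a homomorphism -/
theorem isIntegral_map_adjoin {k S S' : Type*} [CommRing k] [CommRing S] [CommRing S']
    [Algebra k S] [Algebra k S'] (ψ : S →ₐ[k] S') {T : Set S} {T' : Set S'}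
    (hT : ∀ t ∈ T, ψ t ∈ T') {z : S} (hz : IsIntegral (Algebra.adjoin k T) z) :
    IsIntegral (Algebra.adjoin k T') (ψ z) := by
  have hle : Algebra.adjoin k T ≤ (Algebra.adjoin k T').comap ψ :=
    Algebra.adjoin_le fun t ht => Algebra.subset_adjoin (hT t ht)
  let φ : Algebra.adjoin k T →ₐ[k] Algebra.adjoin k T' :=
    (ψ.comp (Algebra.adjoin k T).val).codRestrict _ (fun x => hle x.2)
  exact IsIntegral.map_of_comp_eq φ.toRingHom ψ.toRingHom (by ext x; rfl) hz

/-- conversely, integrality descends along an injective homomorphism -/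
theorem isIntegral_of_map_adjoin {k S S' : Type*} [CommRing k] [CommRing S] [CommRing S']
    [Algebra k S] [Algebra k S'] (ψ : S →ₐ[k] S') (hψ : Function.Injective ψ) {T : Set S}
    {z : S} (hz : IsIntegral (Algebra.adjoin k (ψ '' T)) (ψ z)) :
    IsIntegral (Algebra.adjoin k T) z := by
  obtain ⟨p, hp, hp0⟩ := hz
  have he : Algebra.adjoin k (ψ '' T) = (Algebra.adjoin k T).map ψ := (AlgHom.map_adjoin ψ T).symm
  let φ : Algebra.adjoin k T ≃ₐ[k] (Algebra.adjoin k T).map ψ :=
    (Algebra.adjoin k T).equivMapOfInjective ψ hψ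
  let e : Algebra.adjoin k (ψ '' T) ≃ₐ[k] Algebra.adjoin k T :=
    (Subalgebra.equivOfEq _ _ he).trans φ.symm
  refine ⟨p.map e.toRingHom, hp.map _, hψ ?_⟩
  rw [map_zero, Polynomial.eval₂_map, ← hp0]
  have h1 : ψ (eval₂ ((algebraMap (Algebra.adjoin k T) S).comp e.toRingHom) z p)
      = eval₂ (ψ.toRingHom.comp ((algebraMap (Algebra.adjoin k T) S).comp e.toRingHom)) (ψ z) p :=
    Polynomial.hom_eval₂ p _ ψ.toRingHom z
  rw [h1]
  congr 1
  ext a
  show ψ ((e a : Algebra.adjoin k T) : S) = (a : S')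
  obtain ⟨b, hb⟩ : ∃ b, e.symm b = a := ⟨e a, e.symm_apply_apply a⟩
  rw [← hb, e.apply_symm_apply]
  rfl

section gsec

variable {k B : Type u} [Field k] [CommRing B] [Algebra k B]

/-- Section ring of an ample line bundle trivialised on an affine open set with ring `B`:
the hypotheses of C5. -/
structure GSec (V : ℕ → Submodule k B) (k0 : ℕ) : Prop where
  one : (1 : B) ∈ V 0
  mul : ∀ m l a b, a ∈ V m → b ∈ V l → a * b ∈ V (m + l)
  fin : ∀ m, (V m).FG
  bpf : ∀ m, k0 ≤ m → ∀ P : Ideal B, P.IsPrime → ∃ f ∈ V m, f ∉ P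
  gen : ∀ b : B, ∃ p, ∃ g ∈ V p, IsUnit g ∧ b * g ∈ V p
  int : ∀ m, k0 ≤ m → ∀ q, ∀ f ∈ V (q * m),
    IsIntegral (Algebra.adjoin k ((fun w => (monomial 1 w : B[X])) '' (V m : Set B)))
      (monomial q f : B[X])

theorem GSec.toGD {V : ℕ → Submodule k B} {k0 : ℕ} (h : GSec V k0) [Algebra.FiniteType k B] :
    ∃ Q, ∀ P : Ideal B, P.IsPrime →
      GD (fun m => (V m).map (Ideal.Quotient.mkₐ k P).toLinearMap) k0 Q := by
  classical
  obtain ⟨S, hS⟩ := (Algebra.FiniteType.out : (⊤ : Subalgebra k B).FG)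
  choose p g hg hunit hbg using h.gen
  refine ⟨S.sup p, ?_⟩
  intro P hP
  refine ⟨⟨1, h.one, map_one (Ideal.Quotient.mk P)⟩, ?_, ?_, ?_, ?_, ?_⟩
  · rintro m l _ _ ⟨a, ha, rfl⟩ ⟨b, hb, rfl⟩
    exact ⟨a * b, h.mul _ _ _ _ ha hb, map_mul (Ideal.Quotient.mk P) _ _⟩
  · intro m
    exact (h.fin m).map _
  · intro m hm
    obtain ⟨f, hf, hfP⟩ := h.bpf m hm P hP
    refine ⟨_, ⟨f, hf, rfl⟩, ?_⟩
    show Ideal.Quotient.mk P f ≠ 0
    rwa [Ne, Ideal.Quotient.eq_zero_iff_mem]
  · refine ⟨(Ideal.Quotient.mkₐ k P) '' (S : Set B), ?_, ?_⟩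
    · rw [← AlgHom.map_adjoin, hS, Algebra.map_top, AlgHom.range_eq_top]
      exact Ideal.Quotient.mkₐ_surjective k P
    · rintro _ ⟨b, hb, rfl⟩
      refine ⟨p b, Finset.le_sup hb, _, ⟨g b, hg b, rfl⟩, ?_, ⟨b * g b, hbg b,
        map_mul (Ideal.Quotient.mk P) _ _⟩⟩
      have : Nontrivial (B ⧸ P) := inferInstance
      exact ((hunit b).map (Ideal.Quotient.mkₐ k P)).ne_zero
  · rintro m hm q _ ⟨f, hf, rfl⟩
    have h1 := isIntegral_map_adjoin (T' := (fun w => (monomial 1 w : (B ⧸ P)[X])) ''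
      (((V m).map (Ideal.Quotient.mkₐ k P).toLinearMap : Submodule k (B ⧸ P)) : Set (B ⧸ P)))
      (Polynomial.mapAlgHom (Ideal.Quotient.mkₐ k P)) (by
        rintro _ ⟨w, hw, rfl⟩
        refine ⟨_, ⟨w, hw, rfl⟩, ?_⟩
        simp) (h.int m hm q f hf)
    simpa using h1

/-- C5 -/
theorem GSec.growth [CharZero k] [Algebra.FiniteType k B] {V : ℕ → Submodule k B} {k0 : ℕ}
    (h : GSec V k0) (d : ℕ) (ε : ℝ) (hε : 0 < ε) : ∃ j₁ : ℕ, ∀ P : Ideal B, P.IsPrime →
    ringKrullDim (B ⧸ P) = d → ∀ j, j₁ ≤ j →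
      (1 - ε) * (j : ℝ) ^ d / (d.factorial : ℝ) ≤
        (Module.finrank k ((V j).map (Ideal.Quotient.mkₐ k P).toLinearMap) : ℝ) := by
  obtain ⟨Q, hQ⟩ := h.toGD
  obtain ⟨j₁, hj₁⟩ := GD.growth (k := k) (k0 := k0) (Q := Q) d ε hε
  refine ⟨j₁, fun P hP hd j hj => ?_⟩
  exact hj₁ (B ⧸ P) _ (hQ P hP) (trdeg_of_ringKrullDim hd) j hj

/-- base point freeness from the existence of sections with prescribed values -/
theorem bpf_of_points [Algebra.FiniteType k B] [IsAlgClosed k] {V : ℕ → Submodule k B} {k0 : ℕ}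
    (h : ∀ m, k0 ≤ m → ∀ y : B →ₐ[k] k, ∃ f ∈ V m, y f ≠ 0) :
    ∀ m, k0 ≤ m → ∀ P : Ideal B, P.IsPrime → ∃ f ∈ V m, f ∉ P := by
  intro m hm P hP
  obtain ⟨M, hM, hPM⟩ := Ideal.exists_le_maximal P hP.ne_top
  have hft : Algebra.FiniteType k (B ⧸ M) := inferInstance
  let _ : Field (B ⧸ M) := Ideal.Quotient.field M
  have hfin : Module.Finite k (B ⧸ M) := finite_of_finite_type_of_isJacobsonRing k (B ⧸ M)
  have hint : Algebra.IsIntegral k (B ⧸ M) := inferInstance
  have hbij : Function.Bijective (algebraMap k (B ⧸ M)) :=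
    IsAlgClosed.algebraMap_bijective_of_isIntegral
  let e : k ≃ₐ[k] (B ⧸ M) := AlgEquiv.ofBijective (Algebra.ofId k (B ⧸ M)) hbij
  let y : B →ₐ[k] k := (e.symm : (B ⧸ M) →ₐ[k] k).comp (Ideal.Quotient.mkₐ k M)
  obtain ⟨f, hf, hfy⟩ := h m hm y
  refine ⟨f, hf, fun hfP => hfy ?_⟩
  show e.symm (Ideal.Quotient.mk M f) = 0
  rw [Ideal.Quotient.eq_zero_iff_mem.2 (hPM hfP), map_zero]

/-- integrality in `B[X]` from integrality in `K[X]`, `B ⊆ K` -/
theorem int_of_field {K : Type*} [CommRing K] [Algebra k K] (ι : B →ₐ[k] K)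
    (hι : Function.Injective ι) {V : ℕ → Submodule k B} {m q : ℕ} {f : B}
    (h : IsIntegral (Algebra.adjoin k ((fun w => (monomial 1 (ι w) : K[X])) '' (V m : Set B)))
      (monomial q (ι f) : K[X])) :
    IsIntegral (Algebra.adjoin k ((fun w => (monomial 1 w : B[X])) '' (V m : Set B)))
      (monomial q f : B[X]) := by
  refine isIntegral_of_map_adjoin (Polynomial.mapAlgHom ι)
    (Polynomial.map_injective (ι : B →+* K) hι) ?_
  have e1 : ∀ (n : ℕ) (w : B), Polynomial.mapAlgHom ι (monomial n w : B[X]) = monomial n (ι w) :=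
    fun n w => Polynomial.map_monomial (ι : B →+* K)
  have e2 : (Polynomial.mapAlgHom ι) '' ((fun w => (monomial 1 w : B[X])) '' (V m : Set B))
      = (fun w => (monomial 1 (ι w) : K[X])) '' (V m : Set B) := by
    rw [Set.image_image]
    exact Set.image_congr fun w _ => e1 1 w
  rw [e1, e2]
  exact h

end gsec

end Crest.Agent.R271.C5_756
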