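import Mathlib
import Crest.Agent.R230.BM

/-!
Discrete Brunn-Minkowski inequality (row 271, Part 9.3).
-/

set_option autoImplicit false

open MeasureTheory Set
open scoped ENNReal Pointwise

namespace Crest.Agent.R271.C376

variable {d : ℕ}

/-- closed unit cube with lower corner `v` -/
def cube (v : Fin d → ℕ) : Set (EuclideanSpace ℝ (Fin d)) :=
  {x | ∀ i, x i ∈ Icc (v i : ℝ) (v i + 1)}

/-- half open unit cube with lower corner `v` -/
def hcube (v : Fin d → ℕ) : Set (EuclideanSpace ℝ (Fin d)) :=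
  {x | ∀ i, x i ∈ Ico (v i : ℝ) (v i + 1)}

lemma hcube_subset_cube (v : Fin d → ℕ) : hcube v ⊆ cube v :=
  fun _ hx i => ⟨(hx i).1, (hx i).2.le⟩

lemma cube_eq (v : Fin d → ℕ) : cube v =
    (WithLp.ofLp : EuclideanSpace ℝ (Fin d) → (Fin d → ℝ)) ⁻¹'
      (Set.univ.pi fun i => Icc (v i : ℝ) (v i + 1)) := by
  ext x; simp only [cube, Set.mem_setOf_eq, Set.mem_preimage, Set.mem_pi, Set.mem_univ, true_implies]

lemma hcube_eq (v : Fin d → ℕ) : hcube v =
    (WithLp.ofLp : EuclideanSpace ℝ (Fin d) → (Fin d → ℝ)) ⁻¹'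
      (Set.univ.pi fun i => Ico (v i : ℝ) (v i + 1)) := by
  ext x; simp only [hcube, Set.mem_setOf_eq, Set.mem_preimage, Set.mem_pi, Set.mem_univ, true_implies]

lemma measurableSet_hcube (v : Fin d → ℕ) : MeasurableSet (hcube v) := by
  rw [hcube_eq]
  exact (PiLp.volume_preserving_ofLp (Fin d)).measurable
    (MeasurableSet.univ_pi fun i => measurableSet_Ico)

lemma volume_cube (v : Fin d → ℕ) : volume (cube v) = 1 := by
  rw [cube_eq, (PiLp.volume_preserving_ofLp (Fin d)).measure_preimage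
    (MeasurableSet.univ_pi fun i => measurableSet_Icc).nullMeasurableSet, volume_pi_pi]
  simp

lemma volume_hcube (v : Fin d → ℕ) : volume (hcube v) = 1 := by
  rw [hcube_eq, (PiLp.volume_preserving_ofLp (Fin d)).measure_preimage
    (MeasurableSet.univ_pi fun i => measurableSet_Ico).nullMeasurableSet, volume_pi_pi]
  simp

lemma isCompact_cube (v : Fin d → ℕ) : IsCompact (cube v) := by
  have h : cube v = (WithLp.toLp 2 : (Fin d → ℝ) → EuclideanSpace ℝ (Fin d)) ''
      (Set.univ.pi fun i => Icc (v i : ℝ) (v i + 1)) := by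
    rw [cube_eq]
    ext x
    constructor
    · intro hx
      exact ⟨WithLp.ofLp x, hx, rfl⟩
    · rintro ⟨y, hy, rfl⟩
      exact hy
  rw [h]
  exact (isCompact_univ_pi fun i => isCompact_Icc).image (PiLp.continuous_toLp 2 _)

/-- the union of the cubes over a finite set -/
def cubes (A : Finset (Fin d → ℕ)) : Set (EuclideanSpace ℝ (Fin d)) := ⋃ v ∈ A, cube v

lemma isCompact_cubes (A : Finset (Fin d → ℕ)) : IsCompact (cubes A) :=
  A.isCompact_biUnion fun v _ => isCompact_cube v

lemma hcube_disjoint {v w : Fin d → ℕ} (h : v ≠ w) : Disjoint (hcube v) (hcube w) := by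
  rw [Set.disjoint_left]
  intro x hx hy
  apply h
  funext i
  have h1 := hx i
  have h2 := hy i
  have a1 : (v i : ℝ) < w i + 1 := lt_of_le_of_lt h1.1 h2.2
  have a2 : (w i : ℝ) < v i + 1 := lt_of_le_of_lt h2.1 h1.2
  have b1 : v i < w i + 1 := by exact_mod_cast a1
  have b2 : w i < v i + 1 := by exact_mod_cast a2
  omega

lemma card_le_volume_cubes (A : Finset (Fin d → ℕ)) : (A.card : ℝ) ≤ volume.real (cubes A) := by
  have h1 : volume (⋃ v ∈ A, hcube v) = A.card := by
    rw [measure_biUnion_finset (fun v _ w _ h => hcube_disjoint h)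
      (fun v _ => measurableSet_hcube v)]
    simp [volume_hcube]
  have h2 : volume (⋃ v ∈ A, hcube v) ≤ volume (cubes A) :=
    measure_mono (Set.iUnion₂_mono fun v _ => hcube_subset_cube v)
  rw [h1] at h2
  rw [measureReal_def]
  have := ENNReal.toReal_mono (isCompact_cubes A).measure_lt_top.ne h2
  simpa using this

lemma volume_cubes_le_card (A : Finset (Fin d → ℕ)) : volume.real (cubes A) ≤ (A.card : ℝ) := by
  have h : volume (cubes A) ≤ A.card := by
    refine (measure_biUnion_finset_le A _).trans ?_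
    simp [volume_cube]
  rw [measureReal_def]
  have := ENNReal.toReal_mono (by simp) h
  simpa using this

lemma volume_cubes (A : Finset (Fin d → ℕ)) : volume.real (cubes A) = (A.card : ℝ) :=
  le_antisymm (volume_cubes_le_card A) (card_le_volume_cubes A)

lemma cube_nonempty (v : Fin d → ℕ) : (cube v).Nonempty :=
  ⟨WithLp.toLp 2 (fun i => (v i : ℝ)), fun i => by simp⟩

lemma cubes_add_subset {A B C : Finset (Fin d → ℕ)}
    (h : ∀ a ∈ A, ∀ b ∈ B, ∀ c : Fin d → ℕ, (∀ i, c i ≤ 1) → a + b + c ∈ C) :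
    cubes A + cubes B ⊆ cubes C := by
  rintro _ ⟨x, hx, y, hy, rfl⟩
  simp only [cubes, mem_iUnion] at hx hy ⊢
  obtain ⟨a, ha, hx⟩ := hx
  obtain ⟨b, hb, hy⟩ := hy
  classical
  let c : Fin d → ℕ := fun i => if x i + y i ≤ a i + b i + 1 then 0 else 1
  refine ⟨a + b + c, h a ha b hb c (fun i => ?_), fun i => ?_⟩
  · simp only [c]; split_ifs <;> omega
  · have h1 := hx i
    have h2 := hy i
    simp only [mem_Icc] at h1 h2 ⊢
    have e : (x + y) i = x i + y i := rfl
    simp only [Pi.add_apply, Nat.cast_add, e, c]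
    split_ifs with hc
    · push_cast
      constructor <;> linarith [h1.1, h1.2, h2.1, h2.2]
    · push_cast
      push Not at hc
      constructor <;> linarith [h1.1, h1.2, h2.1, h2.2]

/-- **discrete Brunn-Minkowski** -/
theorem discrete_BM (hd : 0 < d) {A B C : Finset (Fin d → ℕ)} (hA : A.Nonempty) (hB : B.Nonempty)
    (h : ∀ a ∈ A, ∀ b ∈ B, ∀ c : Fin d → ℕ, (∀ i, c i ≤ 1) → a + b + c ∈ C) :
    (A.card : ℝ) ^ ((1 : ℝ) / d) + (B.card : ℝ) ^ ((1 : ℝ) / d) ≤ (C.card : ℝ) ^ ((1 : ℝ) / d) := by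
  have hf : Module.finrank ℝ (EuclideanSpace ℝ (Fin d)) = d := by simp
  have hn : 0 < Module.finrank ℝ (EuclideanSpace ℝ (Fin d)) := by rw [hf]; exact hd
  have nA : (cubes A).Nonempty := by
    obtain ⟨a, ha⟩ := hA
    obtain ⟨x, hx⟩ := cube_nonempty a
    exact ⟨x, by simp only [cubes, mem_iUnion]; exact ⟨a, ha, hx⟩⟩
  have nB : (cubes B).Nonempty := by
    obtain ⟨a, ha⟩ := hB
    obtain ⟨x, hx⟩ := cube_nonempty a
    exact ⟨x, by simp only [cubes, mem_iUnion]; exact ⟨a, ha, hx⟩⟩
  have key := Crest.Agent.R230.BM_add hn (isCompact_cubes A) (isCompact_cubes B) nA nB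
  have key2 := Crest.Agent.R230.rt_mono (isCompact_cubes C) (cubes_add_subset h)
  have key3 := key.trans key2
  simpa only [Crest.Agent.R230.rt, volume_cubes, hf] using key3

end Crest.Agent.R271.C376
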