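import Mathlib
import Crest.Agent.R271.DBM_376

/-!
The combinatorial counting theorem (row 271, Part 9.3).
-/

set_option autoImplicit false

open Finset Real

namespace Crest.Agent.R271.C376

/-- the truncated bathtub function, as a function of the "radius" `x` (`x^d/d!` = number of points) -/
noncomputable def Th (d P : ℕ) (x : ℝ) : ℝ :=
  (∑ q ∈ range P, max (x ^ d - (q : ℝ) ^ d) 0) / (d.factorial : ℝ)

lemma th_nonneg (d P : ℕ) (x : ℝ) : 0 ≤ Th d P x := by
  unfold Th
  exact div_nonneg (Finset.sum_nonneg fun q _ => le_max_right _ _) (by positivity)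

lemma th_mono {d P : ℕ} {x y : ℝ} (hx : 0 ≤ x) (h : x ≤ y) : Th d P x ≤ Th d P y := by
  unfold Th
  refine div_le_div_of_nonneg_right (Finset.sum_le_sum fun q _ => ?_) (by positivity)
  refine max_le_max ?_ le_rfl
  have := pow_le_pow_left₀ hx h d
  linarith

lemma th_le {d P : ℕ} {x : ℝ} (hx : 0 ≤ x) : Th d P x ≤ P * (x ^ d / (d.factorial : ℝ)) := by
  unfold Th
  rw [← mul_div_assoc]
  refine div_le_div_of_nonneg_right ?_ (by positivity)
  calc ∑ q ∈ range P, max (x ^ d - (q : ℝ) ^ d) 0 ≤ ∑ q ∈ range P, x ^ d := by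
        refine Finset.sum_le_sum fun q _ => max_le ?_ (by positivity)
        have : (0 : ℝ) ≤ (q : ℝ) ^ d := by positivity
        linarith
    _ = P * x ^ d := by simp

lemma card_le_filter {P : ℕ} {x : ℝ} (hx : 0 ≤ x) (hP : x ≤ P) :
    x ≤ (((range P).filter (fun q : ℕ => (q : ℝ) ≤ x)).card : ℝ) := by
  have hsub : range (min (⌊x⌋₊ + 1) P) ⊆ (range P).filter (fun q : ℕ => (q : ℝ) ≤ x) := by
    intro q hq
    rw [Finset.mem_range, lt_min_iff] at hq
    rw [Finset.mem_filter, Finset.mem_range]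
    refine ⟨hq.2, ?_⟩
    have : q ≤ ⌊x⌋₊ := by omega
    exact (Nat.le_floor_iff hx).1 this
  have h1 := Finset.card_le_card hsub
  rw [Finset.card_range] at h1
  have h2 : x ≤ ((min (⌊x⌋₊ + 1) P : ℕ) : ℝ) := by
    rw [Nat.cast_min, le_min_iff]
    refine ⟨?_, hP⟩
    push_cast
    exact (Nat.lt_floor_add_one x).le
  exact h2.trans (by exact_mod_cast h1)

lemma th_step {d P : ℕ} (hd : 1 ≤ d) {x y : ℝ} (hx : 0 ≤ x) (hP : x ≤ P) (h : x ≤ y) :
    Th d P x + (y - x) * (d * (x ^ d / (d.factorial : ℝ))) ≤ Th d P y := by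
  have hf : (0 : ℝ) < (d.factorial : ℝ) := by positivity
  have hpow : (d : ℝ) * x ^ (d - 1) * (y - x) ≤ y ^ d - x ^ d := by
    have hy : 0 ≤ y := hx.trans h
    -- Bernoulli type inequality
    have key : ∀ k : ℕ, ((k + 1 : ℕ) : ℝ) * x ^ k * (y - x) ≤ y ^ (k + 1) - x ^ (k + 1) := by
      intro k
      induction k with
      | zero => simp
      | succ k ih =>
        have e1 : y ^ (k + 1 + 1) - x ^ (k + 1 + 1) = y * (y ^ (k + 1) - x ^ (k + 1))
            + x ^ (k + 1) * (y - x) := by ring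
        have e2 : y * (((k + 1 : ℕ) : ℝ) * x ^ k * (y - x)) ≤ y * (y ^ (k + 1) - x ^ (k + 1)) :=
          mul_le_mul_of_nonneg_left ih hy
        have e3 : x * (((k + 1 : ℕ) : ℝ) * x ^ k * (y - x)) ≤ y * (((k + 1 : ℕ) : ℝ) * x ^ k * (y - x)) := by
          refine mul_le_mul_of_nonneg_right h ?_
          have : 0 ≤ y - x := by linarith
          positivity
        have e4 : ((k + 1 + 1 : ℕ) : ℝ) * x ^ (k + 1) * (y - x)
            = x * (((k + 1 : ℕ) : ℝ) * x ^ k * (y - x)) + x ^ (k + 1) * (y - x) := by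
          push_cast; ring
        rw [e1, e4]; linarith
    obtain ⟨k, rfl⟩ : ∃ k, d = k + 1 := ⟨d - 1, by omega⟩
    simpa using key k
  have hterm : ∀ q ∈ range P, max (x ^ d - (q : ℝ) ^ d) 0 + (if (q : ℝ) ≤ x then (y ^ d - x ^ d) else 0)
      ≤ max (y ^ d - (q : ℝ) ^ d) 0 := by
    intro q _
    split_ifs with hq
    · have h1 : (q : ℝ) ^ d ≤ x ^ d := pow_le_pow_left₀ (by positivity) hq d
      have h2 : x ^ d ≤ y ^ d := pow_le_pow_left₀ hx h d
      rw [max_eq_left (by linarith), max_eq_left (by linarith)]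
      linarith
    · rw [add_zero]
      refine max_le_max ?_ le_rfl
      have := pow_le_pow_left₀ hx h d
      linarith
  have hsum := Finset.sum_le_sum hterm
  rw [Finset.sum_add_distrib, ← Finset.sum_filter, Finset.sum_const, nsmul_eq_mul] at hsum
  have hxy : 0 ≤ y ^ d - x ^ d := by
    have := pow_le_pow_left₀ hx h d
    linarith
  have hc := mul_le_mul_of_nonneg_right (card_le_filter hx hP) hxy
  have hlast : (y - x) * (d * x ^ d) ≤ x * (y ^ d - x ^ d) := by
    have := mul_le_mul_of_nonneg_left hpow hx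
    have e : x * ((d : ℝ) * x ^ (d - 1) * (y - x)) = (y - x) * (d * x ^ d) := by
      have : x ^ d = x * x ^ (d - 1) := by
        rw [← pow_succ']; congr 1; omega
      rw [this]; ring
    linarith
  unfold Th
  have e5 : (y - x) * (d * (x ^ d / (d.factorial : ℝ))) = ((y - x) * (d * x ^ d)) / (d.factorial : ℝ) := by
    ring
  rw [e5, ← add_div]
  refine div_le_div_of_nonneg_right ?_ hf.le
  linarith

lemma th_big {d P : ℕ} (hd : 1 ≤ d) {x : ℝ} (hP : (P : ℝ) ≤ x) :
    (P : ℝ) / 4 * (x ^ d / (d.factorial : ℝ)) ≤ Th d P x := by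
  have hf : (0 : ℝ) < (d.factorial : ℝ) := by positivity
  have hx : 0 ≤ x := le_trans (by positivity) hP
  have hsub : range ((P + 1) / 2) ⊆ range P := by
    intro q hq
    rw [Finset.mem_range] at *
    omega
  have h1 : ∑ q ∈ range ((P + 1) / 2), x ^ d / 2 ≤ ∑ q ∈ range P, max (x ^ d - (q : ℝ) ^ d) 0 := by
    calc ∑ q ∈ range ((P + 1) / 2), x ^ d / 2
        ≤ ∑ q ∈ range ((P + 1) / 2), max (x ^ d - (q : ℝ) ^ d) 0 := by
          refine Finset.sum_le_sum fun q hq => ?_
          rw [Finset.mem_range] at hq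
          refine le_max_of_le_left ?_
          have hq2 : 2 * q ≤ P := by omega
          have hq3 : (q : ℝ) ≤ x / 2 := by
            have : (2 * q : ℝ) ≤ P := by exact_mod_cast hq2
            linarith
          have h3 : (q : ℝ) ^ d ≤ (x / 2) ^ d := pow_le_pow_left₀ (by positivity) hq3 d
          have h4 : (x / 2) ^ d ≤ x ^ d / 2 := by
            rw [div_pow]
            refine div_le_div_of_nonneg_left (by positivity) (by norm_num) ?_
            calc (2 : ℝ) = 2 ^ 1 := by norm_num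
              _ ≤ 2 ^ d := pow_le_pow_right₀ (by norm_num) hd
          linarith
      _ ≤ ∑ q ∈ range P, max (x ^ d - (q : ℝ) ^ d) 0 :=
          Finset.sum_le_sum_of_subset_of_nonneg hsub fun q _ _ => le_max_right _ _
  rw [Finset.sum_const, Finset.card_range, nsmul_eq_mul] at h1
  have h2 : (P : ℝ) / 2 ≤ (((P + 1) / 2 : ℕ) : ℝ) := by
    have : P ≤ 2 * ((P + 1) / 2) := by omega
    have : (P : ℝ) ≤ 2 * (((P + 1) / 2 : ℕ) : ℝ) := by exact_mod_cast this
    linarith
  have h3 : (P : ℝ) / 2 * (x ^ d / 2) ≤ (((P + 1) / 2 : ℕ) : ℝ) * (x ^ d / 2) :=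
    mul_le_mul_of_nonneg_right h2 (by positivity)
  unfold Th
  have e : (P : ℝ) / 4 * (x ^ d / (d.factorial : ℝ)) = ((P : ℝ) / 2 * (x ^ d / 2)) / (d.factorial : ℝ) := by
    ring
  rw [e]
  refine div_le_div_of_nonneg_right ?_ hf.le
  linarith

/-- number of lattice points of `ℕ^d` in the simplex of size `q` -/
lemma card_simplex_le {d : ℕ} (E : Finset (Fin d → ℕ)) (q : ℕ) :
    (((E.filter (fun v => ∑ i, v i ≤ q)).card : ℕ) : ℝ) ≤ ((q : ℝ) + d) ^ d / (d.factorial : ℝ) := by
  classical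
  have h1 : (E.filter (fun v => ∑ i, v i ≤ q)).card ≤ (d + 1 + q - 1).choose q := by
    have hc : Fintype.card (Sym (Fin (d + 1)) q) = (d + 1 + q - 1).choose q := by
      rw [Sym.card_sym_eq_choose, Fintype.card_fin]
    rw [← hc, ← Fintype.card_coe]
    let g : {v // v ∈ E.filter (fun v => ∑ i, v i ≤ q)} → {P : Fin (d + 1) → ℕ // ∑ i, P i = q} :=
      fun v => ⟨Fin.cons (q - ∑ i, v.1 i) v.1, by
        have hv := (Finset.mem_filter.1 v.2).2
        rw [Fin.sum_univ_succ]
        simp only [Fin.cons_zero, Fin.cons_succ]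
        omega⟩
    have hg : Function.Injective g := by
      intro v w hvw
      have h0 := congrArg Subtype.val hvw
      have := congrArg Fin.tail h0
      apply Subtype.ext
      simpa [g] using this
    exact Fintype.card_le_of_injective (fun v => (Sym.equivNatSumOfFintype (Fin (d + 1)) q).symm (g v))
      ((Sym.equivNatSumOfFintype (Fin (d + 1)) q).symm.injective.comp hg)
  have h2 : (d + 1 + q - 1).choose q = (q + d).choose d := by
    have : d + 1 + q - 1 = q + d := by omega
    rw [this]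
    have := Nat.choose_symm_add (a := q) (b := d)
    exact this
  rw [h2] at h1
  have h3 : ((q + d).choose d : ℝ) ≤ ((q + d : ℕ) : ℝ) ^ d / (d.factorial : ℝ) := Nat.choose_le_pow_div d (q + d)
  calc (((E.filter (fun v => ∑ i, v i ≤ q)).card : ℕ) : ℝ) ≤ ((q + d).choose d : ℝ) := by exact_mod_cast h1
    _ ≤ _ := by simpa using h3

lemma sum_min_eq {d : ℕ} (E : Finset (Fin d → ℕ)) (P : ℕ) :
    ∑ v ∈ E, min (∑ i, v i) P = ∑ q ∈ range P, (E.filter (fun v => q < ∑ i, v i)).card := by
  classical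
  simp_rw [Finset.card_filter]
  rw [Finset.sum_comm]
  refine Finset.sum_congr rfl fun v _ => ?_
  rw [← Finset.card_filter]
  have : (range P).filter (fun q => q < ∑ i, v i) = range (min (∑ i, v i) P) := by
    ext q; simp [Finset.mem_filter]; tauto
  rw [this, Finset.card_range]

/-- **bathtub** -/
lemma bathtub {d : ℕ} (E : Finset (Fin d → ℕ)) (P : ℕ) {x : ℝ}
    (hxE : x ^ d / (d.factorial : ℝ) = (E.card : ℝ)) :
    Th d P x - d * (E.card : ℝ) ≤ ((∑ v ∈ E, min (∑ i, v i) P : ℕ) : ℝ) := by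
  classical
  have hf : (0 : ℝ) < (d.factorial : ℝ) := by positivity
  have hxd : x ^ d = (d.factorial : ℝ) * E.card := by rw [← hxE]; field_simp
  set f : ℕ → ℝ := fun q => max (x ^ d - (q : ℝ) ^ d) 0 with hfdef
  have hf0 : ∀ q, 0 ≤ f q := fun q => le_max_right _ _
  have hfle : ∀ q, f q ≤ x ^ d := fun q => by
    simp only [hfdef]
    refine max_le ?_ ?_
    · have : (0 : ℝ) ≤ (q : ℝ) ^ d := by positivity
      linarith
    · rw [hxd]; positivity
  have hterm : ∀ q ∈ range P, f (q + d) / (d.factorial : ℝ) ≤ ((E.filter (fun v => q < ∑ i, v i)).card : ℝ) := by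
    intro q _
    have hc := card_simplex_le E q
    have hsplit : (E.filter (fun v => ∑ i, v i ≤ q)).card + (E.filter (fun v => q < ∑ i, v i)).card
        = E.card := by
      have := Finset.card_filter_add_card_filter_not (s := E) (fun v => ∑ i, v i ≤ q)
      simpa [not_le] using this
    have hsplit' : (((E.filter (fun v => ∑ i, v i ≤ q)).card : ℕ) : ℝ)
        + ((E.filter (fun v => q < ∑ i, v i)).card : ℝ) = E.card := by exact_mod_cast hsplit
    rw [div_le_iff₀ hf]
    simp only [hfdef]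
    refine max_le ?_ (by positivity)
    rw [le_div_iff₀ hf] at hc
    push_cast
    rw [hxd, ← hsplit']
    nlinarith
  have hsum : (∑ q ∈ range P, f (q + d)) / (d.factorial : ℝ)
      ≤ ∑ q ∈ range P, ((E.filter (fun v => q < ∑ i, v i)).card : ℝ) := by
    rw [Finset.sum_div]
    exact Finset.sum_le_sum hterm
  have hshift : ∑ q ∈ range P, f q - d * x ^ d ≤ ∑ q ∈ range P, f (q + d) := by
    have e1 : ∑ q ∈ range (P + d), f q = ∑ q ∈ range d, f q + ∑ q ∈ range P, f (q + d) := by
      rw [add_comm P d, Finset.sum_range_add]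
      congr 1
      refine Finset.sum_congr rfl fun q _ => by rw [add_comm]
    have e2 : ∑ q ∈ range P, f q ≤ ∑ q ∈ range (P + d), f q :=
      Finset.sum_le_sum_of_subset_of_nonneg (Finset.range_mono (by omega)) fun q _ _ => hf0 q
    have e3 : ∑ q ∈ range d, f q ≤ d * x ^ d := by
      calc ∑ q ∈ range d, f q ≤ ∑ q ∈ range d, x ^ d := Finset.sum_le_sum fun q _ => hfle q
        _ = d * x ^ d := by simp
    linarith
  rw [sum_min_eq]
  push_cast
  refine le_trans ?_ hsum
  unfold Th
  rw [sub_le_iff_le_add]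
  have : (∑ q ∈ range P, f q) / (d.factorial : ℝ) ≤ (∑ q ∈ range P, f (q + d) + d * x ^ d) / (d.factorial : ℝ) :=
    div_le_div_of_nonneg_right (by linarith) hf.le
  calc (∑ q ∈ range P, max (x ^ d - (q : ℝ) ^ d) 0) / (d.factorial : ℝ)
      ≤ (∑ q ∈ range P, f (q + d) + d * x ^ d) / (d.factorial : ℝ) := this
    _ = (∑ q ∈ range P, f (q + d)) / (d.factorial : ℝ) + d * (E.card : ℝ) := by
        rw [add_div, mul_div_assoc, hxE]

/-- the radius of a finite set -/
noncomputable def rad (d : ℕ) (N : ℕ) : ℝ := ((d.factorial : ℝ) * N) ^ ((1 : ℝ) / d)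

lemma rad_nonneg (d N : ℕ) : 0 ≤ rad d N := by unfold rad; positivity

lemma rad_pow {d : ℕ} (hd : 1 ≤ d) (N : ℕ) : rad d N ^ d / (d.factorial : ℝ) = N := by
  have hf : (0 : ℝ) < (d.factorial : ℝ) := by positivity
  have hd' : (d : ℝ) ≠ 0 := by
    have : 0 < d := hd
    positivity
  unfold rad
  rw [← Real.rpow_natCast, ← Real.rpow_mul (by positivity), one_div, inv_mul_cancel₀ hd', Real.rpow_one]
  field_simp

lemma rad_zero {d : ℕ} (hd : 1 ≤ d) : rad d 0 = 0 := by
  have h := rad_pow hd 0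
  have hf : (0 : ℝ) < (d.factorial : ℝ) := by positivity
  have h2 : rad d 0 ^ d = 0 := by
    have := (div_eq_iff hf.ne').1 h
    simpa using this
  exact pow_eq_zero_iff (by omega) |>.1 h2

/-- growth of the radius -/
lemma rad_growth {d : ℕ} (hd : 1 ≤ d) {A B C : Finset (Fin d → ℕ)} (hA : A.Nonempty)
    (hB : B.Nonempty)
    (h : ∀ a ∈ A, ∀ b ∈ B, ∀ c : Fin d → ℕ, (∀ i, c i ≤ 1) → a + b + c ∈ C) :
    rad d A.card + rad d B.card ≤ rad d C.card := by
  have key := discrete_BM hd hA hB h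
  have hf : (0 : ℝ) ≤ (d.factorial : ℝ) := by positivity
  unfold rad
  rw [Real.mul_rpow hf (by positivity), Real.mul_rpow hf (by positivity),
    Real.mul_rpow hf (by positivity), ← mul_add]
  exact mul_le_mul_of_nonneg_left key (by positivity)

lemma le_rad {d : ℕ} (hd : 1 ≤ d) {e : ℝ} (he0 : 0 ≤ e) (he1 : e ≤ 1) {j N : ℕ}
    (h : (1 - e) * (j : ℝ) ^ d / (d.factorial : ℝ) ≤ N) : (1 - e) * j ≤ rad d N := by
  have hf : (0 : ℝ) < (d.factorial : ℝ) := by positivity
  have h1 : 0 ≤ 1 - e := by linarith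
  rw [← rad_pow hd N] at h
  have h2 : (1 - e) * (j : ℝ) ^ d ≤ rad d N ^ d := (div_le_div_iff_of_pos_right hf).1 h
  have h3 : ((1 - e) * j) ^ d ≤ rad d N ^ d := by
    rw [mul_pow]
    refine le_trans ?_ h2
    refine mul_le_mul_of_nonneg_right ?_ (by positivity)
    calc (1 - e) ^ d ≤ (1 - e) ^ 1 := pow_le_pow_of_le_one h1 (by linarith) hd
      _ = 1 - e := pow_one _
  exact le_of_pow_le_pow_left₀ (by omega) (rad_nonneg d N) h3

/-- abstract analytic core: a sequence of radii growing with slope at least `lam`. -/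
theorem core_growth {d P : ℕ} (hd : 1 ≤ d) {τ lam del : ℝ} (hτ : 0 < τ) (hlam : 0 ≤ lam)
    (hlam1 : lam ≤ 1) (hdel : 0 < del) (hdel1 : del ≤ 1) (J : ℕ) (hJ : 1 ≤ J)
    (hP : 4 * d / del ≤ τ * P)
    (N : ℕ → ℕ) (hgrow : ∀ m, 0 < N m → rad d (N m) + lam * J ≤ rad d (N (m + J)))
    (hsum : Summable fun m : ℕ => exp (-τ * m) * (N m : ℝ)) :
    exp (-τ * J) * lam * (1 - del) * (d / τ) * ∑' m : ℕ, exp (-τ * m) * (N m : ℝ)
      ≤ ∑' m : ℕ, exp (-τ * m) * Th d P (rad d (N m)) := by
  classical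
  set x : ℕ → ℝ := fun m => rad d (N m) with hx
  have hx0 : ∀ m, 0 ≤ x m := fun m => rad_nonneg _ _
  have hxN : ∀ m, x m ^ d / (d.factorial : ℝ) = N m := fun m => rad_pow hd _
  set c : ℕ → ℝ := fun m => exp (-τ * m) * (N m : ℝ) with hc
  set a : ℕ → ℝ := fun m => exp (-τ * m) * Th d P (x m) with ha
  set b : ℕ → ℝ := fun m => if x m ≤ P then c m else 0 with hb
  have hc0 : ∀ m, 0 ≤ c m := fun m => by simp only [hc]; positivity
  have ha0 : ∀ m, 0 ≤ a m := fun m => mul_nonneg (exp_pos _).le (th_nonneg _ _ _)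
  have hb0 : ∀ m, 0 ≤ b m := fun m => by simp only [hb]; split_ifs; exacts [hc0 m, le_rfl]
  have hbc : ∀ m, b m ≤ c m := fun m => by simp only [hb]; split_ifs; exacts [le_rfl, hc0 m]
  have hac : ∀ m, a m ≤ P * c m := fun m => by
    have := th_le (d := d) (P := P) (hx0 m)
    rw [hxN m] at this
    calc a m = exp (-τ * m) * Th d P (x m) := rfl
      _ ≤ exp (-τ * m) * (P * N m) := mul_le_mul_of_nonneg_left this (exp_pos _).le
      _ = P * c m := by simp only [hc]; ring
  have sa : Summable a := Summable.of_nonneg_of_le ha0 hac (hsum.mul_left _)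
  have sb : Summable b := Summable.of_nonneg_of_le hb0 hbc hsum
  set T := ∑' m, a m with hT
  set S := ∑' m, c m with hS
  set Sb := ∑' m, b m with hSb
  have hT0 : 0 ≤ T := tsum_nonneg ha0
  have hS0 : 0 ≤ S := tsum_nonneg hc0
  have hSb0 : 0 ≤ Sb := tsum_nonneg hb0
  -- shift inequality
  have H1 : exp (-τ * J) * (T + lam * J * d * Sb) ≤ T := by
    have hshift : ∑' m, a (m + J) ≤ T := by
      have := sa.sum_add_tsum_nat_add J
      have h0 : 0 ≤ ∑ i ∈ range J, a i := Finset.sum_nonneg fun i _ => ha0 i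
      linarith
    have hterm : ∀ m, exp (-τ * J) * (a m + lam * J * d * b m) ≤ a (m + J) := by
      intro m
      have hmono : Th d P (x m) + (if x m ≤ P then lam * J * (d * (N m : ℝ)) else 0)
          ≤ Th d P (x (m + J)) := by
        rcases Nat.eq_zero_or_pos (N m) with h0 | hpos
        · have e0 : x m = 0 := by simp only [hx, h0]; exact rad_zero hd
          have e1 : Th d P (x m) ≤ Th d P (x (m + J)) := by
            rw [e0]; exact th_mono le_rfl (hx0 _)
          rw [h0]
          simpa using e1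
        · have hg := hgrow m hpos
          have hlJ : 0 ≤ lam * J := by positivity
          split_ifs with hxP
          · have h1 := th_step (P := P) hd (hx0 m) hxP (y := x (m + J)) (by simp only [hx]; linarith)
            rw [hxN m] at h1
            have h2 : lam * J * (d * (N m : ℝ)) ≤ (x (m + J) - x m) * (d * (N m : ℝ)) := by
              refine mul_le_mul_of_nonneg_right ?_ (by positivity)
              simp only [hx]; linarith
            linarith
          · rw [add_zero]
            exact th_mono (hx0 m) (by simp only [hx]; linarith)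
      have hexp : exp (-τ * (m + J : ℕ)) = exp (-τ * J) * exp (-τ * m) := by
        rw [← exp_add]; congr 1; push_cast; ring
      simp only [ha]
      rw [hexp, mul_assoc (exp (-τ * J)) (exp (-τ * m))]
      refine mul_le_mul_of_nonneg_left ?_ (exp_pos _).le
      have e2 : exp (-τ * m) * Th d P (x m) + lam * J * d * b m
          = exp (-τ * m) * (Th d P (x m) + (if x m ≤ P then lam * J * (d * (N m : ℝ)) else 0)) := by
        simp only [hb, hc]
        split_ifs <;> ring
      rw [e2]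
      exact mul_le_mul_of_nonneg_left hmono (exp_pos _).le
    have hs1 : Summable fun m => exp (-τ * J) * (a m + lam * J * d * b m) :=
      (sa.add (sb.mul_left _)).mul_left _
    have hs2 : Summable fun m => a (m + J) := (summable_nat_add_iff J).2 sa
    have h3 := hs1.tsum_le_tsum hterm hs2
    rw [tsum_mul_left, sa.tsum_add (sb.mul_left _), tsum_mul_left] at h3
    exact h3.trans hshift
  -- large radius inequality
  have H2 : (P : ℝ) / 4 * (S - Sb) ≤ T := by
    have hterm : ∀ m, (P : ℝ) / 4 * (c m - b m) ≤ a m := by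
      intro m
      simp only [hb]
      split_ifs with hxP
      · rw [sub_self, mul_zero]; exact ha0 m
      · push Not at hxP
        have h1 := th_big (d := d) (P := P) hd hxP.le
        rw [hxN m] at h1
        rw [sub_zero]
        calc (P : ℝ) / 4 * c m = exp (-τ * m) * ((P : ℝ) / 4 * N m) := by simp only [hc]; ring
          _ ≤ exp (-τ * m) * Th d P (x m) := mul_le_mul_of_nonneg_left h1 (exp_pos _).le
    have h3 := ((hsum.sub sb).mul_left ((P : ℝ) / 4)).tsum_le_tsum hterm sa
    rw [tsum_mul_left, hsum.tsum_sub sb] at h3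
    exact h3
  have hE : 0 < exp (-τ * J) := exp_pos _
  have hE1 : exp (-τ * J) ≤ 1 := by
    rw [exp_le_one_iff]
    have : 0 ≤ τ * J := by positivity
    linarith
  have hJ' : (0 : ℝ) < J := by exact_mod_cast hJ
  have hd' : (0 : ℝ) < d := by exact_mod_cast hd
  have H3 : exp (-τ * J) * lam * (d / τ) * Sb ≤ T := by
    have h1 : 1 - exp (-τ * J) ≤ τ * J := by
      have := add_one_le_exp (-τ * (J : ℝ))
      linarith
    have h2 : exp (-τ * J) * (lam * J * d * Sb) ≤ (τ * J) * T := by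
      have : (1 - exp (-τ * J)) * T ≤ (τ * J) * T := mul_le_mul_of_nonneg_right h1 hT0
      linarith
    have h3 : (τ * J) * (exp (-τ * J) * lam * (d / τ) * Sb) = exp (-τ * J) * (lam * J * d * Sb) := by
      field_simp
    have h4 : (τ * J) * (exp (-τ * J) * lam * (d / τ) * Sb) ≤ (τ * J) * T := by rw [h3]; exact h2
    exact le_of_mul_le_mul_left h4 (by positivity)
  rcases le_or_gt ((1 - del) * S) Sb with hcase | hcase
  · calc exp (-τ * J) * lam * (1 - del) * (d / τ) * S
        = exp (-τ * J) * lam * (d / τ) * ((1 - del) * S) := by ring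
      _ ≤ exp (-τ * J) * lam * (d / τ) * Sb := mul_le_mul_of_nonneg_left hcase (by positivity)
      _ ≤ T := H3
  · have h1 : del * S ≤ S - Sb := by linarith
    have h2 : (d / τ) * S ≤ (P : ℝ) / 4 * (S - Sb) := by
      have h3 : (P : ℝ) / 4 * (del * S) ≤ (P : ℝ) / 4 * (S - Sb) :=
        mul_le_mul_of_nonneg_left h1 (by positivity)
      refine le_trans ?_ h3
      have h4 : (d : ℝ) / τ ≤ (P : ℝ) / 4 * del := by
        rw [div_le_iff₀ hτ]
        rw [div_le_iff₀ hdel] at hP
        nlinarith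
      calc (d / τ) * S ≤ ((P : ℝ) / 4 * del) * S := mul_le_mul_of_nonneg_right h4 hS0
        _ = (P : ℝ) / 4 * (del * S) := by ring
    have h5 : exp (-τ * J) * lam * (1 - del) ≤ 1 := by
      have h6 : exp (-τ * J) * lam ≤ 1 := mul_le_one₀ hE1 hlam hlam1
      exact mul_le_one₀ h6 (by linarith) (by linarith)
    calc exp (-τ * J) * lam * (1 - del) * (d / τ) * S
        = (exp (-τ * J) * lam * (1 - del)) * ((d / τ) * S) := by ring
      _ ≤ 1 * ((d / τ) * S) := mul_le_mul_of_nonneg_right h5 (by positivity)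
      _ = (d / τ) * S := one_mul _
      _ ≤ T := h2.trans H2

/-- **CNT**: the combinatorial counting theorem. -/
theorem CNT (d : ℕ) (hd : 1 ≤ d) (e1 : ℝ) (he : 0 < e1) (he1 : e1 ≤ 1) (j0 j1 : ℕ) :
    ∃ τ0 : ℝ, 0 < τ0 ∧ ∃ C1 : ℝ, 0 < C1 ∧ ∀ τ : ℝ, 0 < τ → τ ≤ τ0 → ∀ P : ℕ, C1 / τ ≤ P →
    ∀ E Sig : ℕ → Finset (Fin d → ℕ),
      (∀ m j, ∀ u ∈ E m, ∀ v ∈ Sig j, u + v ∈ E (m + j)) →
      (∀ j, j1 ≤ j → (1 - e1 / 5) * (j : ℝ) ^ d / (d.factorial : ℝ) ≤ ((Sig j).card : ℝ)) →
      (∀ c : Fin d → ℕ, (∀ i, c i ≤ 1) → c ∈ Sig j0) →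
      (Summable fun m : ℕ => exp (-τ * m) * ((E m).card : ℝ)) →
      (1 - e1) * (d / τ) * ∑' m : ℕ, exp (-τ * m) * ((E m).card : ℝ)
        ≤ ∑' m : ℕ, exp (-τ * m) * ((∑ v ∈ E m, min (∑ i, v i) P : ℕ) : ℝ) := by
  have hd' : (0 : ℝ) < d := by exact_mod_cast hd
  -- choice of the step `J`
  obtain ⟨J, hJ⟩ := exists_nat_ge (max ((5 * j0) / e1) ((j0 + j1 + 1 : ℕ) : ℝ))
  have hJ1 : (5 * j0) / e1 ≤ (J : ℝ) := (le_max_left _ _).trans hJ
  have hJ2 : j0 + j1 + 1 ≤ J := by exact_mod_cast (le_max_right _ _).trans hJ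
  have hJpos : 1 ≤ J := by omega
  have hJ' : (0 : ℝ) < J := by exact_mod_cast hJpos
  set e2 : ℝ := e1 / 5 with he2
  have he20 : 0 < e2 := by positivity
  have he21 : e2 ≤ 1 / 5 := by rw [he2]; linarith
  refine ⟨min (e2 / J) e2, by positivity, 4 * d / e2, by positivity, ?_⟩
  intro τ hτ hτ0 P hP E Sig hadd hsize hcube hsum
  have hτ1 : τ ≤ e2 / J := hτ0.trans (min_le_left _ _)
  have hτ2 : τ ≤ e2 := hτ0.trans (min_le_right _ _)
  have hPP : 4 * d / e2 ≤ τ * P := by
    rw [div_le_iff₀ hτ] at hP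
    linarith
  set lam : ℝ := (1 - e2) * (1 - e2) with hlam
  have h1e : 0 ≤ 1 - e2 := by linarith
  have hlam0 : 0 ≤ lam := by positivity
  have hlam1 : lam ≤ 1 := by rw [hlam]; nlinarith
  have hgrow : ∀ m, 0 < (E m).card → rad d (E m).card + lam * J ≤ rad d (E (m + J)).card := by
    intro m hm
    have hB : (Sig (J - j0)).Nonempty := by
      rw [← Finset.card_pos]
      have h1 := hsize (J - j0) (by omega)
      have h2 : (0 : ℝ) < (1 - e1 / 5) * ((J - j0 : ℕ) : ℝ) ^ d / (d.factorial : ℝ) := by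
        have h3 : (0 : ℝ) < ((J - j0 : ℕ) : ℝ) := by
          have : 0 < J - j0 := by omega
          exact_mod_cast this
        have : (0 : ℝ) < 1 - e1 / 5 := by linarith
        positivity
      exact_mod_cast h2.trans_le h1
    have hg := rad_growth hd (A := E m) (B := Sig (J - j0)) (C := E (m + J))
      (Finset.card_pos.1 hm) hB (by
        intro u hu v hv c hc
        have h1 := hadd m (J - j0) u hu v hv
        have h2 := hadd _ j0 _ h1 c (hcube c hc)
        have : m + (J - j0) + j0 = m + J := by omega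
        rwa [this] at h2)
    have hr := le_rad (d := d) hd he20.le (by linarith) (hsize (J - j0) (by omega))
    have hcast : ((J - j0 : ℕ) : ℝ) = J - j0 := by
      rw [Nat.cast_sub (by omega)]
    rw [hcast] at hr
    have hj0 : (j0 : ℝ) ≤ e2 * J := by
      rw [div_le_iff₀ he] at hJ1
      rw [he2]; linarith
    have h4 : lam * J ≤ (1 - e2) * (J - j0) := by
      rw [hlam, mul_assoc]
      refine mul_le_mul_of_nonneg_left ?_ h1e
      linarith
    linarith
  have key := core_growth (P := P) hd hτ hlam0 hlam1 he20 (by linarith) J hJpos hPP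
    (fun m => (E m).card) hgrow hsum
  set S := ∑' m : ℕ, exp (-τ * m) * ((E m).card : ℝ) with hS
  have hS0 : 0 ≤ S := tsum_nonneg fun m => by positivity
  -- bathtub
  have hterm : ∀ m : ℕ, exp (-τ * m) * Th d P (rad d (E m).card) - d * (exp (-τ * m) * ((E m).card : ℝ))
      ≤ exp (-τ * m) * ((∑ v ∈ E m, min (∑ i, v i) P : ℕ) : ℝ) := by
    intro m
    have := bathtub (E m) P (rad_pow hd (E m).card)
    calc exp (-τ * m) * Th d P (rad d (E m).card) - d * (exp (-τ * m) * ((E m).card : ℝ))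
        = exp (-τ * m) * (Th d P (rad d (E m).card) - d * ((E m).card : ℝ)) := by ring
      _ ≤ _ := mul_le_mul_of_nonneg_left this (exp_pos _).le
  have sTh : Summable fun m : ℕ => exp (-τ * m) * Th d P (rad d (E m).card) := by
    refine Summable.of_nonneg_of_le (fun m => mul_nonneg (exp_pos _).le (th_nonneg _ _ _)) (fun m => ?_)
      (hsum.mul_left (P : ℝ))
    have := th_le (d := d) (P := P) (rad_nonneg d (E m).card)
    rw [rad_pow hd] at this
    calc exp (-τ * m) * Th d P (rad d (E m).card) ≤ exp (-τ * m) * (P * (E m).card) :=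
          mul_le_mul_of_nonneg_left this (exp_pos _).le
      _ = P * (exp (-τ * m) * ((E m).card : ℝ)) := by ring
  have sR : Summable fun m : ℕ => exp (-τ * m) * ((∑ v ∈ E m, min (∑ i, v i) P : ℕ) : ℝ) := by
    refine Summable.of_nonneg_of_le (fun m => by positivity) (fun m => ?_) (hsum.mul_left (P : ℝ))
    have h1 : ∑ v ∈ E m, min (∑ i, v i) P ≤ P * (E m).card := by
      calc ∑ v ∈ E m, min (∑ i, v i) P ≤ ∑ v ∈ E m, P := Finset.sum_le_sum fun v _ => min_le_right _ _
        _ = P * (E m).card := by simp [mul_comm]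
    have h2 : ((∑ v ∈ E m, min (∑ i, v i) P : ℕ) : ℝ) ≤ P * (E m).card := by exact_mod_cast h1
    calc exp (-τ * m) * ((∑ v ∈ E m, min (∑ i, v i) P : ℕ) : ℝ) ≤ exp (-τ * m) * (P * (E m).card) :=
          mul_le_mul_of_nonneg_left h2 (exp_pos _).le
      _ = P * (exp (-τ * m) * ((E m).card : ℝ)) := by ring
  have hfin := (sTh.sub (hsum.mul_left (d : ℝ))).tsum_le_tsum hterm sR
  rw [sTh.tsum_sub (hsum.mul_left (d : ℝ)), tsum_mul_left] at hfin
  -- arithmetic
  have hexp : 1 - e2 ≤ exp (-τ * J) := by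
    have h1 := add_one_le_exp (-τ * (J : ℝ))
    have h2 : τ * J ≤ e2 := by
      rw [le_div_iff₀ hJ'] at hτ1
      exact hτ1
    linarith
  have hA : (1 - e1) + τ ≤ exp (-τ * J) * lam * (1 - e2) := by
    have h1 : (1 - e2) * lam * (1 - e2) ≤ exp (-τ * J) * lam * (1 - e2) := by
      refine mul_le_mul_of_nonneg_right (mul_le_mul_of_nonneg_right hexp hlam0) h1e
    have h2 : 1 - 4 * e2 ≤ (1 - e2) * lam * (1 - e2) := by
      rw [hlam]
      have := one_add_mul_le_pow (a := -e2) (by linarith) 4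
      calc 1 - 4 * e2 = 1 + (4 : ℕ) * (-e2) := by push_cast; ring
        _ ≤ (1 + -e2) ^ 4 := this
        _ = _ := by ring
    have h3 : e1 = 5 * e2 := by rw [he2]; ring
    linarith
  have hfinal : ((1 - e1) + τ) * (d / τ) * S ≤ exp (-τ * J) * lam * (1 - e2) * (d / τ) * S := by
    refine mul_le_mul_of_nonneg_right (mul_le_mul_of_nonneg_right hA (by positivity)) hS0
  have e3 : ((1 - e1) + τ) * (d / τ) * S = (1 - e1) * (d / τ) * S + d * S := by
    field_simp
  linarith

end Crest.Agent.R271.C376
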