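import Mathlib

/-!
Row 271, Case A (5.2), part 1: one-variable lemmas and the limit argument on a shell.
-/

set_option autoImplicit false

open scoped Topology BigOperators
open Filter Metric Asymptotics

noncomputable section

namespace Crest.Agent.R271.CaseA112

/-- If an analytic function is `O(t^{N+1})`, the derivatives of order `≤ N` vanish. -/
theorem iteratedDeriv_eq_zero_of_isBigO {φ : ℂ → ℂ} {N e : ℕ} (he : e ≤ N) {R : ℝ} (hR : 0 < R)
    (hd : DifferentiableOn ℂ φ (ball 0 R)) (hO : φ =O[𝓝 0] fun t : ℂ => t ^ (N + 1)) :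
    iteratedDeriv e φ 0 = 0 := by
  obtain ⟨C, hC⟩ := hO.bound
  obtain ⟨r, hr, hrb⟩ := Metric.eventually_nhds_iff_ball.mp hC
  have hC0 : 0 ≤ |C| := abs_nonneg C
  -- bound for all small ρ
  have key : ∀ ρ : ℝ, 0 < ρ → ρ < min (min R r) 1 →
      ‖iteratedDeriv e φ 0‖ ≤ (e.factorial * |C|) * ρ := by
    intro ρ hρ hρ'
    have h1 : ρ < R := lt_of_lt_of_le hρ' ((min_le_left _ _).trans (min_le_left _ _))
    have h2 : ρ < r := lt_of_lt_of_le hρ' ((min_le_left _ _).trans (min_le_right _ _))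
    have h3 : ρ < 1 := lt_of_lt_of_le hρ' (min_le_right _ _)
    have hdc : DiffContOnCl ℂ φ (ball 0 ρ) := by
      refine (hd.mono ?_).diffContOnCl
      refine (closure_ball_subset_closedBall).trans ?_
      exact closedBall_subset_ball h1
    have hb := Complex.norm_iteratedDeriv_le_of_forall_mem_sphere_norm_le (C := |C| * ρ ^ (N + 1))
      e hρ hdc (fun z hz => by
        have hz' : ‖z‖ = ρ := by simpa using hz
        have := hrb z (by simpa [hz'] using h2)
        calc ‖φ z‖ ≤ C * ‖z ^ (N + 1)‖ := this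
          _ ≤ |C| * ρ ^ (N + 1) := by
              rw [norm_pow, hz']
              exact mul_le_mul_of_nonneg_right (le_abs_self C) (by positivity))
    refine hb.trans ?_
    have hpe : 0 < ρ ^ e := pow_pos hρ e
    rw [div_le_iff₀ hpe]
    have hsplit : ρ ^ (N + 1) ≤ ρ * ρ ^ e := by
      have : ρ * ρ ^ e = ρ ^ (e + 1) := by ring
      rw [this]
      exact pow_le_pow_of_le_one hρ.le h3.le (by omega)
    calc (e.factorial : ℝ) * (|C| * ρ ^ (N + 1)) = (e.factorial * |C|) * ρ ^ (N + 1) := by ring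
      _ ≤ (e.factorial * |C|) * (ρ * ρ ^ e) :=
          mul_le_mul_of_nonneg_left hsplit (by positivity)
      _ = (e.factorial * |C|) * ρ * ρ ^ e := by ring
  have hlim : Tendsto (fun ρ : ℝ => (e.factorial * |C|) * ρ) (𝓝[>] 0) (𝓝 0) := by
    have : Tendsto (fun ρ : ℝ => (e.factorial * |C|) * ρ) (𝓝 0) (𝓝 ((e.factorial * |C|) * 0)) :=
      tendsto_const_nhds.mul tendsto_id
    rw [mul_zero] at this
    exact this.mono_left nhdsWithin_le_nhds
  have hle : ‖iteratedDeriv e φ 0‖ ≤ 0 := by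
    refine ge_of_tendsto hlim ?_
    have hpos : 0 < min (min R r) 1 := by positivity
    filter_upwards [Ioo_mem_nhdsGT hpos] with ρ hρ
    exact key ρ hρ.1 hρ.2
  simpa using hle

/-- The limit argument at one direction `q`. -/
theorem limit_dir {n N j e : ℕ} (he : e ≤ N) {F G : (Fin n → ℂ) → ℂ}
    (hF : AnalyticAt ℂ F 0) (hG : Differentiable ℂ G)
    (hGh : ∀ (r : ℝ) (w : Fin n → ℂ), G (r • w) = (r : ℂ) ^ j * G w)
    (hO : (fun w => F w - G w) =O[𝓝 0] fun w => ‖w‖ ^ (j + 1))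
    (q v : Fin n → ℂ) (hne : iteratedDeriv e (fun t : ℂ => G (q + t • v)) 0 ≠ 0) :
    ∀ᶠ p : ℝ × (Fin n → ℂ) in 𝓝 (0, q), 0 < p.1 →
      ¬ ((fun t : ℂ => F (p.1 • (p.2 + t • v))) =O[𝓝 0] fun t : ℂ => t ^ (N + 1)) := by
  -- constants
  obtain ⟨C, hC⟩ := hO.bound
  have hFd : ∀ᶠ w in 𝓝 (0 : Fin n → ℂ), DifferentiableAt ℂ F w :=
    hF.eventually_analyticAt.mono fun w hw => hw.differentiableAt
  obtain ⟨ρ, hρ, hρb⟩ := Metric.eventually_nhds_iff_ball.mp (hC.and hFd)
  set K : ℝ := ‖q‖ + 1 + 2 * ‖v‖ with hK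
  have hKpos : 0 < K := by positivity
  set D : ℝ := ‖iteratedDeriv e (fun t : ℂ => G (q + t • v)) 0‖ with hD
  have hDpos : 0 < D := norm_pos_iff.mpr hne
  set δ : ℝ := D / (2 * (e.factorial + 1)) with hδ
  have hδpos : 0 < δ := by positivity
  -- uniform continuity of `G` near the compact disc `q + t v`, `|t| ≤ 1`
  have hGc : Continuous G := hG.continuous
  have hunif : ∀ᶠ w in 𝓝 q, ∀ t ∈ closedBall (0 : ℂ) 1, ‖G (w + t • v) - G (q + t • v)‖ < δ := by
    have hcomp : IsCompact (closedBall (0 : ℂ) 1) := isCompact_closedBall 0 1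
    refine hcomp.eventually_forall_of_forall_eventually (x₀ := q)
      (P := fun w t => ‖G (w + t • v) - G (q + t • v)‖ < δ) ?_
    intro t _
    have hcont : Continuous fun z : (Fin n → ℂ) × ℂ =>
        ‖G (z.1 + z.2 • v) - G (q + z.2 • v)‖ := by fun_prop
    have := hcont.tendsto (q, t)
    simp only [sub_self, norm_zero] at this
    exact this.eventually (gt_mem_nhds hδpos)
  obtain ⟨s, hs, hsb⟩ := Metric.eventually_nhds_iff_ball.mp hunif
  have hKC : 0 < ρ / (2 * K) := by positivity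
  have hr2 : 0 < δ / (|C| * K ^ (j + 1) + 1) := by positivity
  -- the neighbourhood
  have hN : ∀ᶠ p : ℝ × (Fin n → ℂ) in 𝓝 (0, q),
      p.1 < ρ / (2 * K) ∧ p.1 < δ / (|C| * K ^ (j + 1) + 1) ∧ p.2 ∈ ball q s ∧
        p.2 ∈ ball q 1 := by
    have h1 : ∀ᶠ p : ℝ × (Fin n → ℂ) in 𝓝 (0, q), p.1 < ρ / (2 * K) :=
      (continuous_fst.tendsto (0, q)).eventually (gt_mem_nhds hKC)
    have h2 : ∀ᶠ p : ℝ × (Fin n → ℂ) in 𝓝 (0, q), p.1 < δ / (|C| * K ^ (j + 1) + 1) :=
      (continuous_fst.tendsto (0, q)).eventually (gt_mem_nhds hr2)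
    have h3 : ∀ᶠ p : ℝ × (Fin n → ℂ) in 𝓝 (0, q), p.2 ∈ ball q s :=
      (continuous_snd.tendsto (0, q)).eventually (ball_mem_nhds q hs)
    have h4 : ∀ᶠ p : ℝ × (Fin n → ℂ) in 𝓝 (0, q), p.2 ∈ ball q 1 :=
      (continuous_snd.tendsto (0, q)).eventually (ball_mem_nhds q one_pos)
    filter_upwards [h1, h2, h3, h4] with p a b c d using ⟨a, b, c, d⟩
  filter_upwards [hN] with p hp hp0 hcon
  obtain ⟨h1, h2, h3, h4⟩ := hp
  set r : ℝ := p.1 with hr
  set w : Fin n → ℂ := p.2 with hw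
  -- norm bounds
  have hwt : ∀ t : ℂ, ‖t‖ ≤ 2 → ‖w + t • v‖ ≤ K := by
    intro t ht
    have hw1 : ‖w‖ ≤ ‖q‖ + 1 := by
      have : ‖w - q‖ < 1 := by simpa [dist_eq_norm] using h4
      calc ‖w‖ = ‖q + (w - q)‖ := by congr 1; abel
        _ ≤ ‖q‖ + ‖w - q‖ := norm_add_le _ _
        _ ≤ ‖q‖ + 1 := by linarith
    calc ‖w + t • v‖ ≤ ‖w‖ + ‖t • v‖ := norm_add_le _ _
      _ = ‖w‖ + ‖t‖ * ‖v‖ := by rw [norm_smul]
      _ ≤ (‖q‖ + 1) + 2 * ‖v‖ := by
          have := mul_le_mul_of_nonneg_right ht (norm_nonneg v); linarith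
      _ = K := by rw [hK]
  have hrwt : ∀ t : ℂ, ‖t‖ ≤ 2 → ‖r • (w + t • v)‖ < ρ := by
    intro t ht
    rw [norm_smul, Real.norm_of_nonneg hp0.le]
    calc r * ‖w + t • v‖ ≤ r * K := mul_le_mul_of_nonneg_left (hwt t ht) hp0.le
      _ < ρ / (2 * K) * K := mul_lt_mul_of_pos_right h1 hKpos
      _ = ρ / 2 := by field_simp
      _ < ρ := by linarith
  set φ : ℂ → ℂ := fun t => ((r : ℂ) ^ j)⁻¹ * F (r • (w + t • v)) with hφ
  set φ0 : ℂ → ℂ := fun t => G (q + t • v) with hφ0
  have hrc : (r : ℂ) ≠ 0 := by exact_mod_cast hp0.ne'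
  have hlin : ∀ t : ℂ, DifferentiableAt ℂ (fun t : ℂ => r • (w + t • v)) t := by
    intro t
    have : DifferentiableAt ℂ (fun t : ℂ => w + t • v) t := by fun_prop
    exact this.const_smul r
  have hφd : DifferentiableOn ℂ φ (ball 0 2) := by
    intro t ht
    have ht' : ‖t‖ ≤ 2 := by have := mem_ball_zero_iff.mp ht; linarith
    have hFd' : DifferentiableAt ℂ F (r • (w + t • v)) :=
      (hρb _ (by simpa using hrwt t ht')).2
    exact (((hFd'.comp t (hlin t))).const_mul _).differentiableWithinAt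
  have hφ0d : Differentiable ℂ φ0 := by
    intro t
    exact (hG _).comp t (by fun_prop)
  have hφO : φ =O[𝓝 0] fun t : ℂ => t ^ (N + 1) := hcon.const_mul_left _
  have hz : iteratedDeriv e φ 0 = 0 :=
    iteratedDeriv_eq_zero_of_isBigO he (by norm_num : (0:ℝ) < 2) hφd hφO
  -- difference
  have hdiff : ∀ t ∈ sphere (0 : ℂ) 1, ‖(φ - φ0) t‖ ≤ 2 * δ := by
    intro t ht
    have ht1 : ‖t‖ = 1 := by simpa using ht
    have ht2 : ‖t‖ ≤ 2 := by linarith
    have hA : ‖F (r • (w + t • v)) - G (r • (w + t • v))‖ ≤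
        C * ‖‖r • (w + t • v)‖ ^ (j + 1)‖ :=
      (hρb _ (by simpa using hrwt t ht2)).1
    have hA' : ‖φ t - G (w + t • v)‖ ≤ δ := by
      have heq : φ t - G (w + t • v) =
          ((r : ℂ) ^ j)⁻¹ * (F (r • (w + t • v)) - G (r • (w + t • v))) := by
        rw [hGh]
        simp only [hφ]
        field_simp
      rw [heq, norm_mul, norm_inv, norm_pow, Complex.norm_real, Real.norm_of_nonneg hp0.le]
      have hrj : 0 < r ^ j := pow_pos hp0 j
      have hB : C * ‖‖r • (w + t • v)‖ ^ (j + 1)‖ ≤ |C| * (r * K) ^ (j + 1) := by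
        have hn : ‖r • (w + t • v)‖ ≤ r * K := by
          rw [norm_smul, Real.norm_of_nonneg hp0.le]
          exact mul_le_mul_of_nonneg_left (hwt t ht2) hp0.le
        rw [norm_pow, norm_norm]
        calc C * ‖r • (w + t • v)‖ ^ (j + 1) ≤ |C| * ‖r • (w + t • v)‖ ^ (j + 1) :=
              mul_le_mul_of_nonneg_right (le_abs_self C) (by positivity)
          _ ≤ |C| * (r * K) ^ (j + 1) :=
              mul_le_mul_of_nonneg_left (pow_le_pow_left₀ (norm_nonneg _) hn _) (abs_nonneg _)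
      calc (r ^ j)⁻¹ * ‖F (r • (w + t • v)) - G (r • (w + t • v))‖
          ≤ (r ^ j)⁻¹ * (|C| * (r * K) ^ (j + 1)) :=
            mul_le_mul_of_nonneg_left (hA.trans hB) (by positivity)
        _ = r * (|C| * K ^ (j + 1)) := by
            rw [mul_pow, pow_succ r j]; field_simp
        _ ≤ r * (|C| * K ^ (j + 1) + 1) := by
            exact mul_le_mul_of_nonneg_left (by linarith) hp0.le
        _ ≤ δ := by
            have := (lt_div_iff₀ (by positivity : (0:ℝ) < |C| * K ^ (j + 1) + 1)).mp h2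
            exact this.le
    have hB' : ‖G (w + t • v) - G (q + t • v)‖ < δ := by
      exact hsb w h3 t (by simp [ht1])
    calc ‖(φ - φ0) t‖ = ‖(φ t - G (w + t • v)) + (G (w + t • v) - G (q + t • v))‖ := by
          simp only [Pi.sub_apply, hφ0]; congr 1; abel
      _ ≤ ‖φ t - G (w + t • v)‖ + ‖G (w + t • v) - G (q + t • v)‖ := norm_add_le _ _
      _ ≤ 2 * δ := by linarith
  have hdc : DiffContOnCl ℂ (φ - φ0) (ball 0 1) := by
    have : DifferentiableOn ℂ (φ - φ0) (ball 0 2) := hφd.sub hφ0d.differentiableOn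
    refine (this.mono ?_).diffContOnCl
    exact closure_ball_subset_closedBall.trans (closedBall_subset_ball (by norm_num))
  have hcau := Complex.norm_iteratedDeriv_le_of_forall_mem_sphere_norm_le e one_pos hdc hdiff
  have hφs : ContDiffAt ℂ e φ 0 := by
    have : AnalyticAt ℂ φ 0 := hφd.analyticAt (ball_mem_nhds 0 (by norm_num))
    exact this.contDiffAt
  have hφ0s : ContDiffAt ℂ e φ0 0 := by
    have : AnalyticAt ℂ φ0 0 := hφ0d.analyticAt 0
    exact this.contDiffAt
  have hsub : iteratedDeriv e (φ - φ0) 0 = iteratedDeriv e φ 0 - iteratedDeriv e φ0 0 :=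
    iteratedDeriv_sub hφs hφ0s
  rw [hsub, hz, zero_sub, norm_neg] at hcau
  have : D ≤ e.factorial * (2 * δ) := by
    have h := hcau
    simp only [one_pow, div_one] at h
    exact h
  have hlt : e.factorial * (2 * δ) < D := by
    rw [hδ]
    have he1 : (0:ℝ) < e.factorial + 1 := by positivity
    have : (e.factorial : ℝ) * (2 * (D / (2 * (e.factorial + 1)))) =
        D * (e.factorial / (e.factorial + 1)) := by field_simp
    rw [this]
    have hfrac : (e.factorial : ℝ) / (e.factorial + 1) < 1 := by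
      rw [div_lt_one he1]; linarith
    nlinarith
  exact absurd this (not_le.mpr hlt)

end Crest.Agent.R271.CaseA112
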