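import Mathlib
import Crest.Agent.R271.CaseA1_112

/-!
Row 271, Case A (5.2), part 2: homogeneous polynomials with small order at a point.
-/

set_option autoImplicit false

open scoped Topology BigOperators
open Filter Metric Asymptotics MvPolynomial

noncomputable section

namespace Crest.Agent.R271.CaseA112

variable {n : ℕ}

/-- exponents of total degree `j` -/
def AA (n j : ℕ) : Finset (Fin n →₀ ℕ) := Finset.finsuppAntidiag Finset.univ j

theorem mem_AA {j : ℕ} {α : Fin n →₀ ℕ} : α ∈ AA n j ↔ ∑ i, α i = j := by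
  simp [AA, Finset.mem_finsuppAntidiag]

/-- exponents of total degree `j` with at most `N` outside `i₀` -/
def OO (n j N : ℕ) (i0 : Fin n) : Finset (Fin n →₀ ℕ) := (AA n j).filter fun α => j - α i0 ≤ N

theorem card_AA_le {j N : ℕ} (i0 : Fin n) (hN : j < 2 * n * (N + 1)) :
    (AA n j).card ≤ (2 * n) ^ n * (OO n j N i0).card := by
  have hn : 0 < n := i0.pos
  have h2n : 0 < 2 * n := by omega
  -- the rounding map
  let rd : (Fin n →₀ ℕ) → (Fin n →₀ ℕ) := fun α =>
    Finsupp.equivFunOnFinite.symm (Function.update (fun i => α i / (2 * n)) i0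
      (j - ∑ i ∈ Finset.univ.erase i0, α i / (2 * n)))
  let md : (Fin n →₀ ℕ) → (Fin n → Fin (2 * n)) := fun α i => ⟨α i % (2 * n), Nat.mod_lt _ h2n⟩
  have hsum : ∀ α ∈ AA n j, ∑ i ∈ Finset.univ.erase i0, α i / (2 * n) ≤ N := by
    intro α hα
    have h1 : ∑ i ∈ Finset.univ.erase i0, α i / (2 * n) ≤ ∑ i, α i / (2 * n) :=
      Finset.sum_le_sum_of_subset (Finset.erase_subset _ _)
    have h2 : (∑ i, α i / (2 * n)) * (2 * n) ≤ j := by
      rw [Finset.sum_mul]
      calc ∑ i, α i / (2 * n) * (2 * n) ≤ ∑ i, α i :=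
            Finset.sum_le_sum fun i _ => Nat.div_mul_le_self _ _
        _ = j := mem_AA.mp hα
    have h3 : (∑ i, α i / (2 * n)) * (2 * n) < (N + 1) * (2 * n) := by
      calc _ ≤ j := h2
        _ < 2 * n * (N + 1) := hN
        _ = (N + 1) * (2 * n) := by ring
    have h4 := Nat.lt_of_mul_lt_mul_right h3
    omega
  have hle : ∀ α ∈ AA n j, ∑ i ∈ Finset.univ.erase i0, α i / (2 * n) ≤ j := by
    intro α hα
    calc ∑ i ∈ Finset.univ.erase i0, α i / (2 * n) ≤ ∑ i ∈ Finset.univ.erase i0, α i :=
          Finset.sum_le_sum fun i _ => Nat.div_le_self _ _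
      _ ≤ ∑ i, α i := Finset.sum_le_sum_of_subset (Finset.erase_subset _ _)
      _ = j := mem_AA.mp hα
  have hrd0 : ∀ α, (rd α) i0 = j - ∑ i ∈ Finset.univ.erase i0, α i / (2 * n) := by
    intro α; simp [rd]
  have hrdi : ∀ α i, i ≠ i0 → (rd α) i = α i / (2 * n) := by
    intro α i hi; simp [rd, Function.update_of_ne hi]
  have hmap : ∀ α ∈ AA n j, (rd α, md α) ∈ (OO n j N i0) ×ˢ (Finset.univ : Finset (Fin n → Fin (2 * n))) := by
    intro α hα
    rw [Finset.mem_product]
    refine ⟨?_, Finset.mem_univ _⟩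
    rw [OO, Finset.mem_filter, mem_AA]
    constructor
    · rw [← Finset.add_sum_erase _ _ (Finset.mem_univ i0)]
      have : ∑ i ∈ Finset.univ.erase i0, (rd α) i = ∑ i ∈ Finset.univ.erase i0, α i / (2 * n) :=
        Finset.sum_congr rfl fun i hi => hrdi α i (Finset.ne_of_mem_erase hi)
      rw [this]
      show (rd α) i0 + _ = j
      rw [hrd0]
      have := hle α hα
      omega
    · show j - (rd α) i0 ≤ N
      rw [hrd0]
      have h1 := hle α hα
      have h2 := hsum α hα
      omega
  have hinj : Set.InjOn (fun α => (rd α, md α)) (AA n j : Set (Fin n →₀ ℕ)) := by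
    intro α hα β hβ hab
    have h1 : rd α = rd β := congrArg Prod.fst hab
    have h2 : md α = md β := congrArg Prod.snd hab
    have hne : ∀ i, i ≠ i0 → α i = β i := by
      intro i hi
      have ha : α i / (2 * n) = β i / (2 * n) := by
        rw [← hrdi α i hi, ← hrdi β i hi, h1]
      have hb : α i % (2 * n) = β i % (2 * n) := by
        have := congrFun h2 i
        simpa [md] using this
      calc α i = 2 * n * (α i / (2 * n)) + α i % (2 * n) := (Nat.div_add_mod _ _).symm
        _ = 2 * n * (β i / (2 * n)) + β i % (2 * n) := by rw [ha, hb]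
        _ = β i := Nat.div_add_mod _ _
    have h0 : α i0 = β i0 := by
      have hα' := mem_AA.mp hα
      have hβ' := mem_AA.mp hβ
      rw [← Finset.add_sum_erase _ _ (Finset.mem_univ i0)] at hα' hβ'
      have : ∑ i ∈ Finset.univ.erase i0, α i = ∑ i ∈ Finset.univ.erase i0, β i :=
        Finset.sum_congr rfl fun i hi => hne i (Finset.ne_of_mem_erase hi)
      omega
    ext i
    by_cases hi : i = i0
    · rw [hi, h0]
    · exact hne i hi
  have hcard := Finset.card_le_card_of_injOn (fun α => (rd α, md α)) hmap hinj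
  calc (AA n j).card ≤ ((OO n j N i0) ×ˢ (Finset.univ : Finset (Fin n → Fin (2 * n)))).card := hcard
    _ = (2 * n) ^ n * (OO n j N i0).card := by
        rw [Finset.card_product, Finset.card_univ, Fintype.card_fun, Fintype.card_fin,
          Fintype.card_fin, mul_comm]

/-- the generator of small order -/
def gn (i0 : Fin n) (c : Fin n → ℂ) (α : Fin n →₀ ℕ) : MvPolynomial (Fin n) ℂ :=
  X i0 ^ α i0 * ∏ i ∈ Finset.univ.erase i0, (X i - C (c i) * X i0) ^ α i

theorem gn_homog {j : ℕ} {i0 : Fin n} {c : Fin n → ℂ} {α : Fin n →₀ ℕ} (hα : α ∈ AA n j) :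
    (gn i0 c α).IsHomogeneous j := by
  have h1 : (∏ i ∈ Finset.univ.erase i0, (X i - C (c i) * X i0 : MvPolynomial (Fin n) ℂ) ^ α i).IsHomogeneous
      (∑ i ∈ Finset.univ.erase i0, α i) := by
    refine IsHomogeneous.prod _ _ _ fun i _ => ?_
    have h : (X i - C (c i) * X i0 : MvPolynomial (Fin n) ℂ).IsHomogeneous 1 := by
      refine IsHomogeneous.sub (isHomogeneous_X _ _) ?_
      have := (isHomogeneous_C (Fin n) (c i)).mul (isHomogeneous_X ℂ i0)
      simpa using this
    have := h.pow (α i)
    simpa using this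
  have h2 : (X i0 ^ α i0 : MvPolynomial (Fin n) ℂ).IsHomogeneous (α i0) := by
    have := (isHomogeneous_X ℂ i0).pow (α i0)
    simpa using this
  have := h2.mul h1
  have hs : α i0 + ∑ i ∈ Finset.univ.erase i0, α i = j := by
    rw [Finset.add_sum_erase _ _ (Finset.mem_univ i0)]
    exact mem_AA.mp hα
  rw [hs] at this
  exact this

theorem eval_gn {j : ℕ} {i0 : Fin n} {q v : Fin n → ℂ} (hq : q i0 ≠ 0) (hv : v i0 = 0) (t : ℂ)
    {α : Fin n →₀ ℕ} (hα : α ∈ AA n j) :
    eval (q + t • v) (gn i0 (fun i => q i / q i0) α) =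
      (q i0 ^ α i0 * ∏ i ∈ Finset.univ.erase i0, v i ^ α i) * t ^ (j - α i0) := by
  have hs : ∑ i ∈ Finset.univ.erase i0, α i = j - α i0 := by
    have := mem_AA.mp hα
    rw [← Finset.add_sum_erase _ _ (Finset.mem_univ i0)] at this
    omega
  simp only [gn, map_mul, map_pow, map_prod, map_sub, eval_X, eval_C, Pi.add_apply, Pi.smul_apply,
    smul_eq_mul, hv, mul_zero, add_zero]
  have : ∀ i ∈ Finset.univ.erase i0, (q i + t * v i - q i / q i0 * q i0) ^ α i =
      v i ^ α i * t ^ α i := by
    intro i _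
    rw [div_mul_cancel₀ _ hq, add_sub_cancel_left, mul_pow, mul_comm]
  rw [Finset.prod_congr rfl this, Finset.prod_mul_distrib, Finset.prod_pow_eq_pow_sum, hs]
  ring

/-- iterated derivative of a polynomial function at `0` -/
theorem iteratedDeriv_poly (P : Polynomial ℂ) (e : ℕ) :
    iteratedDeriv e (fun t : ℂ => P.eval t) 0 = e.factorial * P.coeff e := by
  have h : ∀ (k : ℕ), iteratedDeriv k (fun t : ℂ => P.eval t) =
      fun t => (Polynomial.derivative^[k] P).eval t := by
    intro k
    induction k with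
    | zero => simp
    | succ k ih =>
      rw [iteratedDeriv_succ, ih]
      funext t
      rw [Polynomial.deriv, Function.iterate_succ_apply']
  rw [h]
  show Polynomial.eval 0 (Polynomial.derivative^[e] P) = _
  rw [← Polynomial.coeff_zero_eq_eval_zero, Polynomial.coeff_iterate_derivative]
  simp [Nat.descFactorial_self]

/-- a nonzero combination of the generators has a nonzero derivative of order `≤ N` at `q` -/
theorem exists_deriv_ne_zero {j N : ℕ} {i0 : Fin n} {q : Fin n → ℂ} (hq : q i0 ≠ 0)
    (a : (Fin n →₀ ℕ) → ℂ) (ha : ∃ α ∈ OO n j N i0, a α ≠ 0) :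
    ∃ (v : Fin n → ℂ) (e : ℕ), e ≤ N ∧
      iteratedDeriv e (fun t : ℂ => eval (q + t • v)
        (∑ α ∈ OO n j N i0, a α • gn i0 (fun i => q i / q i0) α)) 0 ≠ 0 := by
  classical
  obtain ⟨α₀, hα₀, haα₀⟩ := ha
  have hsub : ∀ α ∈ OO n j N i0, α ∈ AA n j := fun α hα => (Finset.mem_filter.mp hα).1
  set e : ℕ := j - α₀ i0 with he
  have heN : e ≤ N := (Finset.mem_filter.mp hα₀).2
  -- the polynomial in `v`
  set Q : MvPolynomial (Fin n) ℂ := ∑ α ∈ (OO n j N i0).filter (fun α => j - α i0 = e),
    monomial (α.erase i0) (a α * q i0 ^ α i0) with hQ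
  have hQne : Q ≠ 0 := by
    intro h0
    have hc : coeff (α₀.erase i0) Q = a α₀ * q i0 ^ α₀ i0 := by
      rw [hQ, coeff_sum]
      rw [Finset.sum_eq_single α₀]
      · simp [coeff_monomial]
      · intro β hβ hne
        rw [coeff_monomial, if_neg]
        intro heq
        apply hne
        have hβ1 := Finset.mem_filter.mp hβ
        have hβA := mem_AA.mp (hsub β hβ1.1)
        have hαA := mem_AA.mp (hsub α₀ hα₀)
        rw [← Finset.add_sum_erase _ _ (Finset.mem_univ i0)] at hβA hαA
        have hi : ∀ i, i ≠ i0 → β i = α₀ i := by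
          intro i hi
          have := DFunLike.congr_fun heq i
          simpa [Finsupp.erase_ne hi] using this
        have hs : ∑ i ∈ Finset.univ.erase i0, β i = ∑ i ∈ Finset.univ.erase i0, α₀ i :=
          Finset.sum_congr rfl fun i hi' => hi i (Finset.ne_of_mem_erase hi')
        ext i
        by_cases h : i = i0
        · subst h; omega
        · exact hi i h
      · intro h
        exact absurd (Finset.mem_filter.mpr ⟨hα₀, he.symm⟩) h
    rw [h0, coeff_zero] at hc
    exact (mul_ne_zero haα₀ (pow_ne_zero _ hq)) hc.symm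
  obtain ⟨v, hv⟩ : ∃ v : Fin n → ℂ, eval v Q ≠ 0 := by
    by_contra hcon
    push Not at hcon
    exact hQne (MvPolynomial.funext fun x => by rw [hcon x, map_zero])
  set v' : Fin n → ℂ := Function.update v i0 0 with hv'
  have hv'0 : v' i0 = 0 := by simp [hv']
  have hv'i : ∀ i, i ≠ i0 → v' i = v i := fun i hi => by simp [hv', Function.update_of_ne hi]
  -- the one variable polynomial
  set P : Polynomial ℂ := ∑ α ∈ OO n j N i0,
    Polynomial.monomial (j - α i0) (a α * (q i0 ^ α i0 * ∏ i ∈ Finset.univ.erase i0, v' i ^ α i)) with hP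
  refine ⟨v', e, heN, ?_⟩
  have hfun : (fun t : ℂ => eval (q + t • v')
        (∑ α ∈ OO n j N i0, a α • gn i0 (fun i => q i / q i0) α)) = fun t => P.eval t := by
    funext t
    rw [map_sum, hP, Polynomial.eval_finsetSum]
    refine Finset.sum_congr rfl fun α hα => ?_
    rw [MvPolynomial.smul_eval, eval_gn hq hv'0 t (hsub α hα), Polynomial.eval_monomial]
    ring
  rw [hfun, iteratedDeriv_poly]
  refine mul_ne_zero (by exact_mod_cast e.factorial_ne_zero) ?_
  have hcoeff : P.coeff e = eval v Q := by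
    rw [hP, Polynomial.finsetSum_coeff, hQ, map_sum, Finset.sum_filter]
    refine Finset.sum_congr rfl fun α hα => ?_
    rw [Polynomial.coeff_monomial]
    split_ifs with h
    · rw [eval_monomial, Finsupp.prod_fintype _ _ (by simp), ← Finset.mul_prod_erase _ _ (Finset.mem_univ i0)]
      have : ∏ i ∈ Finset.univ.erase i0, v i ^ (α.erase i0) i =
          ∏ i ∈ Finset.univ.erase i0, v' i ^ α i := by
        refine Finset.prod_congr rfl fun i hi => ?_
        have hi' := Finset.ne_of_mem_erase hi
        rw [Finsupp.erase_ne hi', hv'i i hi']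
      rw [this]
      simp only [Finsupp.erase_same, pow_zero, one_mul]
      ring
    · rfl
  rw [hcoeff]
  exact hv

end Crest.Agent.R271.CaseA112
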