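import Mathlib
import Crest.Agent.R271.CaseA2_112

/-!
Row 271, Case A (5.2), part 3: the flat statement.
-/

set_option autoImplicit false

open scoped Topology BigOperators
open Filter Metric Asymptotics MvPolynomial Module

noncomputable section

namespace Crest.Agent.R271.CaseA112

variable {n : ℕ}

instance (j : ℕ) : FiniteDimensional ℂ (homogeneousSubmodule (Fin n) ℂ j) :=
  Module.Finite.iff_fg.mpr (homogeneousSubmodule_fg (σ := Fin n) (R := ℂ) j)

/-- `dim Sym^j = #{α : |α| = j}` -/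
theorem finrank_homog (j : ℕ) :
    finrank ℂ (homogeneousSubmodule (Fin n) ℂ j) = (AA n j).card := by
  have hset : {d : Fin n →₀ ℕ | d.degree = j} = ↑(AA n j) := by
    ext d
    simp only [Set.mem_ofPred_eq, Finset.mem_coe, mem_AA]
    rw [Finsupp.degree_eq_sum]
  have h1 : homogeneousSubmodule (Fin n) ℂ j = AddMonoidAlgebra.supported _ ℂ (↑(AA n j) : Set (Fin n →₀ ℕ)) := by
    rw [homogeneousSubmodule_eq_finsupp_supported, hset]
  rw [h1]
  have hmem : ∀ α : AA n j, (monomial α.1 (1:ℂ) : MvPolynomial (Fin n) ℂ) ∈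
      homogeneousSubmodule (Fin n) ℂ j := by
    intro α
    exact isHomogeneous_monomial _ (by rw [Finsupp.degree_eq_sum]; exact mem_AA.mp α.2)
  -- basis given by the monomials
  have hb : LinearIndependent ℂ (fun α : AA n j => (monomial α.1 (1:ℂ) : MvPolynomial (Fin n) ℂ)) := by
    have := (MvPolynomial.basisMonomials (Fin n) ℂ).linearIndependent
    have h := this.comp (fun α : AA n j => α.1) Subtype.val_injective
    simpa [Function.comp_def] using h
  have hspan : Submodule.span ℂ (Set.range (fun α : AA n j => (monomial α.1 (1:ℂ) : MvPolynomial (Fin n) ℂ)))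
      = homogeneousSubmodule (Fin n) ℂ j := by
    apply le_antisymm
    · rw [Submodule.span_le]
      rintro _ ⟨α, rfl⟩
      exact hmem α
    · intro p hp
      have hp' : p.IsHomogeneous j := hp
      rw [MvPolynomial.as_sum p]
      refine Submodule.sum_mem _ fun d hd => ?_
      have hdj : d.degree = j := by
        have := hp' (mem_support_iff.mp hd)
        simpa [Finsupp.degree_eq_weight_one, Pi.one_def] using this
      have hdA : d ∈ AA n j := mem_AA.mpr (by rw [← Finsupp.degree_eq_sum]; exact hdj)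
      have : (monomial d (coeff d p) : MvPolynomial (Fin n) ℂ) = coeff d p • monomial d 1 := by
        rw [smul_monomial, smul_eq_mul, mul_one]
      rw [this]
      exact Submodule.smul_mem _ _ (Submodule.subset_span ⟨⟨d, hdA⟩, rfl⟩)
  rw [← h1, ← hspan, finrank_span_eq_card hb, Fintype.card_coe]

theorem card_AA_choose (j : ℕ) : (AA n j).card = Nat.choose (n + j - 1) j := by
  rw [AA, Finset.card_finsuppAntidiag_nat_eq_choose, Finset.card_univ, Fintype.card_fin]

/-- the combination map -/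
def comb (i0 : Fin n) (c : Fin n → ℂ) (s : Finset (Fin n →₀ ℕ)) :
    (s → ℂ) →ₗ[ℂ] MvPolynomial (Fin n) ℂ :=
  ∑ α : s, (LinearMap.proj α).smulRight (gn i0 c α.1)

theorem comb_apply (i0 : Fin n) (c : Fin n → ℂ) (s : Finset (Fin n →₀ ℕ)) (a : s → ℂ) :
    comb i0 c s a = ∑ α : s, a α • gn i0 c α.1 := by
  simp [comb]

theorem comb_deriv {j N : ℕ} {i0 : Fin n} {q : Fin n → ℂ} (hq : q i0 ≠ 0)
    (a : OO n j N i0 → ℂ) (ha : a ≠ 0) :
    ∃ (v : Fin n → ℂ) (e : ℕ), e ≤ N ∧
      iteratedDeriv e (fun t : ℂ => eval (q + t • v)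
        (comb i0 (fun i => q i / q i0) (OO n j N i0) a)) 0 ≠ 0 := by
  classical
  obtain ⟨α, hα⟩ := Function.ne_iff.mp ha
  let a' : (Fin n →₀ ℕ) → ℂ := fun β => if h : β ∈ OO n j N i0 then a ⟨β, h⟩ else 0
  have h := exists_deriv_ne_zero (j := j) (N := N) hq a' ⟨α.1, α.2, by
    simp only [a', α.2, dif_pos]; exact hα⟩
  have hs : comb i0 (fun i => q i / q i0) (OO n j N i0) a =
      ∑ β ∈ OO n j N i0, a' β • gn i0 (fun i => q i / q i0) β := by
    rw [comb_apply, ← Finset.sum_coe_sort (OO n j N i0)]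
    refine Finset.sum_congr rfl fun β _ => ?_
    simp only [a', β.2, dif_pos]
  rw [hs]
  exact h

/-- Every large subspace of `Sym^j` contains, for every direction `q`, an element of small order. -/
theorem exists_small_order {j N : ℕ} (hN : j < 2 * n * (N + 1))
    (W : Submodule ℂ (MvPolynomial (Fin n) ℂ)) (hW : W ≤ homogeneousSubmodule (Fin n) ℂ j)
    (hdim : (1 - 1 / (2 * n : ℝ) ^ n) * (Nat.choose (n + j - 1) j : ℝ) < (finrank ℂ W : ℝ))
    {q : Fin n → ℂ} (hq : q ≠ 0) :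
    ∃ g ∈ W, ∃ (v : Fin n → ℂ) (e : ℕ), e ≤ N ∧
      iteratedDeriv e (fun t : ℂ => eval (q + t • v) g) 0 ≠ 0 := by
  obtain ⟨i0, hi0⟩ := Function.ne_iff.mp hq
  have hi0' : q i0 ≠ 0 := hi0
  have hn : 0 < n := i0.pos
  set Θ := comb i0 (fun i => q i / q i0) (OO n j N i0) with hΘ
  have hinj : Function.Injective Θ := by
    rw [← LinearMap.ker_eq_bot, LinearMap.ker_eq_bot']
    intro a ha
    by_contra hne
    obtain ⟨v, e, _, h⟩ := comb_deriv (j := j) (N := N) hi0' a hne
    apply h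
    have : (fun t : ℂ => eval (q + t • v) (comb i0 (fun i => q i / q i0) (OO n j N i0) a)) =
        fun _ => 0 := by
      funext t
      rw [← hΘ, ha, map_zero]
    rw [this]
    simp
  set U := LinearMap.range Θ with hU
  have hUle : U ≤ homogeneousSubmodule (Fin n) ℂ j := by
    rintro _ ⟨a, rfl⟩
    rw [hΘ, comb_apply]
    refine Submodule.sum_mem _ fun α _ => Submodule.smul_mem _ _ ?_
    exact gn_homog (Finset.mem_filter.mp α.2).1
  have hUdim : finrank ℂ U = (OO n j N i0).card := by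
    rw [hU, LinearMap.finrank_range_of_inj hinj, finrank_fintype_fun_eq_card, Fintype.card_coe]
  have hWfd : FiniteDimensional ℂ W := Submodule.finiteDimensional_of_le hW
  have hUfd : FiniteDimensional ℂ U := Submodule.finiteDimensional_of_le hUle
  have hsup : finrank ℂ ↥(W ⊔ U) ≤ (AA n j).card := by
    rw [← finrank_homog]
    exact Submodule.finrank_mono (sup_le hW hUle)
  have hsi := Submodule.finrank_sup_add_finrank_inf_eq W U
  have hcount : ((AA n j).card : ℝ) ≤ (2 * n : ℝ) ^ n * ((OO n j N i0).card : ℝ) := by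
    exact_mod_cast card_AA_le i0 hN
  have h2n : (0:ℝ) < (2 * n : ℝ) ^ n := by
    have : (0:ℝ) < n := by exact_mod_cast hn
    positivity
  have hO : 1 / (2 * n : ℝ) ^ n * ((AA n j).card : ℝ) ≤ ((OO n j N i0).card : ℝ) := by
    rw [one_div, inv_mul_le_iff₀ h2n]; exact hcount
  rw [← card_AA_choose] at hdim
  have hbig : ((AA n j).card : ℝ) < (finrank ℂ W : ℝ) + (finrank ℂ U : ℝ) := by
    rw [hUdim]; nlinarith
  have hbig' : (AA n j).card < finrank ℂ W + finrank ℂ U := by exact_mod_cast hbig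
  have hpos : 0 < finrank ℂ ↥(W ⊓ U) := by omega
  have hne : W ⊓ U ≠ ⊥ := by
    intro h
    rw [h, finrank_bot] at hpos
    exact lt_irrefl _ hpos
  obtain ⟨g, hg, hgne⟩ := Submodule.exists_mem_ne_zero_of_ne_bot hne
  obtain ⟨hgW, a, rfl⟩ := hg
  have ha : a ≠ 0 := by
    rintro rfl
    exact hgne (map_zero _)
  exact ⟨_, hgW, comb_deriv (j := j) (N := N) hi0' a ha⟩

/-- homogeneity of evaluation -/
theorem eval_smul_homog {j : ℕ} {g : MvPolynomial (Fin n) ℂ} (hg : g.IsHomogeneous j) (r : ℝ)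
    (w : Fin n → ℂ) : eval (r • w) g = (r : ℂ) ^ j * eval w g := by
  have h1 : (r • w : Fin n → ℂ) = (r : ℂ) • w := by
    ext i; simp
  rw [h1]
  rw [MvPolynomial.eval_eq, MvPolynomial.eval_eq, Finset.mul_sum]
  refine Finset.sum_congr rfl fun d hd => ?_
  have hdj : ∑ i, d i = j := by
    have := hg (mem_support_iff.mp hd)
    rw [← Finsupp.degree_eq_sum]
    simpa [Finsupp.degree_eq_weight_one, Pi.one_def] using this
  have : ∏ i ∈ d.support, ((r:ℂ) • w) i ^ d i = (r:ℂ) ^ j * ∏ i ∈ d.support, w i ^ d i := by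
    simp only [Pi.smul_apply, smul_eq_mul, mul_pow]
    rw [Finset.prod_mul_distrib, Finset.prod_pow_eq_pow_sum]
    congr 2
    rw [← hdj]
    exact Finset.sum_subset (Finset.subset_univ _) fun i _ hi => by
      simpa using hi
  rw [this]; ring

/-- FLAT CASE A. -/
theorem shell {j N : ℕ} (hN : j < 2 * n * (N + 1))
    {E : Type*} [AddCommGroup E] [Module ℂ E] (ev : E → (Fin n → ℂ) → ℂ)
    (lead : E →ₗ[ℂ] MvPolynomial (Fin n) ℂ) (hlead : ∀ f, (lead f).IsHomogeneous j)
    (han : ∀ f, AnalyticAt ℂ (ev f) 0)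
    (hO : ∀ f, (fun w => ev f w - eval w (lead f)) =O[𝓝 0] fun w => ‖w‖ ^ (j + 1))
    (hdim : (1 - 1 / (2 * n : ℝ) ^ n) * (Nat.choose (n + j - 1) j : ℝ) <
      (finrank ℂ (LinearMap.range lead) : ℝ)) :
    ∀ᶠ y in 𝓝[≠] (0 : Fin n → ℂ), ∃ (f : E) (v : Fin n → ℂ),
      ¬ ((fun t : ℂ => ev f (y + t • v)) =O[𝓝 0] fun t : ℂ => t ^ (N + 1)) := by
  have hcomp : IsCompact (sphere (0 : Fin n → ℂ) 1) := isCompact_sphere 0 1
  have key : ∀ᶠ r in 𝓝 (0 : ℝ), ∀ w ∈ sphere (0 : Fin n → ℂ) 1, 0 < r →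
      ∃ (f : E) (v : Fin n → ℂ),
        ¬ ((fun t : ℂ => ev f (r • (w + t • v))) =O[𝓝 0] fun t : ℂ => t ^ (N + 1)) := by
    refine hcomp.eventually_forall_of_forall_eventually (x₀ := (0:ℝ))
      (P := fun r w => 0 < r → ∃ (f : E) (v : Fin n → ℂ),
        ¬ ((fun t : ℂ => ev f (r • (w + t • v))) =O[𝓝 0] fun t : ℂ => t ^ (N + 1))) ?_
    intro q hq
    have hq0 : q ≠ 0 := by
      rintro rfl
      simp at hq
    have hWle : LinearMap.range lead ≤ homogeneousSubmodule (Fin n) ℂ j := by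
      rintro _ ⟨f, rfl⟩
      exact hlead f
    obtain ⟨g, ⟨f, rfl⟩, v, e, he, hne⟩ := exists_small_order hN _ hWle hdim hq0
    have hG : Differentiable ℂ (fun w : Fin n → ℂ => eval w (lead f)) := by
      intro w
      exact ((AnalyticOnNhd.eval_mvPolynomial (lead f)) w (Set.mem_univ _)).differentiableAt
    have := limit_dir (n := n) (N := N) (j := j) he (han f) hG
      (fun r w => eval_smul_homog (hlead f) r w) (hO f) q v hne
    filter_upwards [this] with p hp hp0
    exact ⟨f, v, hp hp0⟩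
  obtain ⟨δ, hδ, hδb⟩ := Metric.eventually_nhds_iff_ball.mp key
  rw [eventually_nhdsWithin_iff]
  filter_upwards [ball_mem_nhds (0 : Fin n → ℂ) hδ] with y hy hy0
  have hy0' : y ≠ 0 := hy0
  have hr : 0 < ‖y‖ := norm_pos_iff.mpr hy0'
  have hyδ : ‖y‖ < δ := by simpa using hy
  obtain ⟨f, v, h⟩ := hδb ‖y‖ (by simpa [abs_of_pos hr] using hyδ) (‖y‖⁻¹ • y)
    (by simp [norm_smul, hr.ne']) hr
  refine ⟨f, ‖y‖ • v, fun hcon => h ?_⟩
  have : (fun t : ℂ => ev f (‖y‖ • (‖y‖⁻¹ • y + t • v))) =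
      fun t : ℂ => ev f (y + t • (‖y‖ • v)) := by
    funext t
    congr 1
    rw [smul_add, smul_smul, mul_inv_cancel₀ hr.ne', one_smul, smul_comm]
  rw [this]
  exact hcon

end Crest.Agent.R271.CaseA112
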