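import Mathlib
import Crest.Agent.R271.Defs_710
import Crest.Agent.R271.CaseA3_112

/-!
Row 271, Case A (5.2), part 4: étale coordinates, leading forms, vanishing orders in charts.
-/

set_option autoImplicit false

open scoped Topology BigOperators
open Filter Metric Asymptotics MvPolynomial Module
open Crest.Agent.R271.Defs710

noncomputable section

namespace Crest.Agent.R271.CaseA112

section alg

variable {n : ℕ} {B : Type} [CommRing B] [Algebra ℂ B]

theorem mem_mI {y : B →ₐ[ℂ] ℂ} {b : B} : b ∈ mI y ↔ y b = 0 := by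
  rw [mI, RingHom.mem_ker]; rfl

/-- the coordinate `zᵢ - zᵢ(y)` -/
def uu (z : Fin n → B) (y : B →ₐ[ℂ] ℂ) (i : Fin n) : B := z i - algebraMap ℂ B (y (z i))

theorem uu_mem (z : Fin n → B) (y : B →ₐ[ℂ] ℂ) (i : Fin n) : uu z y i ∈ mI y := by
  rw [mem_mI, uu, map_sub, AlgHom.commutes]; simp

/-- étale coordinates generate `𝔪/𝔪²` -/
theorem mI_le (z : Fin n → B)
    (het : RingHom.Etale ((MvPolynomial.aeval z : MvPolynomial (Fin n) ℂ →ₐ[ℂ] B) :
      MvPolynomial (Fin n) ℂ →+* B)) (y : B →ₐ[ℂ] ℂ) (b : B) (hb : b ∈ mI y) :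
    b ∈ Ideal.span (Set.range (uu z y)) ⊔ mI y ^ 2 := by
  let _ : Algebra (MvPolynomial (Fin n) ℂ) B :=
    ((MvPolynomial.aeval z : MvPolynomial (Fin n) ℂ →ₐ[ℂ] B) : MvPolynomial (Fin n) ℂ →+* B).toAlgebra
  have het' : Algebra.Etale (MvPolynomial (Fin n) ℂ) B := het
  have hun : Algebra.FormallyUnramified (MvPolynomial (Fin n) ℂ) B := inferInstance
  set J : Ideal B := Ideal.span (Set.range (uu z y)) ⊔ mI y ^ 2 with hJ
  have hJle : J ≤ mI y := by
    refine sup_le ?_ (Ideal.pow_le_self two_ne_zero)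
    rw [Ideal.span_le]
    rintro _ ⟨i, rfl⟩
    exact uu_mem z y i
  let f : (B ⧸ J) →+* ℂ := Ideal.Quotient.lift J (y : B →+* ℂ) (fun a ha => mem_mI.mp (hJle ha))
  have hf : IsNilpotent (RingHom.ker f) := by
    refine ⟨2, ?_⟩
    rw [Ideal.zero_eq_bot, eq_bot_iff, pow_two, Ideal.mul_le]
    intro a ha c hc
    obtain ⟨a, rfl⟩ := Ideal.Quotient.mk_surjective a
    obtain ⟨c, rfl⟩ := Ideal.Quotient.mk_surjective c
    have ha' : a ∈ mI y := by
      rw [mem_mI]
      exact (Ideal.Quotient.lift_mk J (y : B →+* ℂ) _).symm.trans ((RingHom.mem_ker).mp ha)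
    have hc' : c ∈ mI y := by
      rw [mem_mI]
      exact (Ideal.Quotient.lift_mk J (y : B →+* ℂ) _).symm.trans ((RingHom.mem_ker).mp hc)
    rw [← map_mul, Ideal.mem_bot, Ideal.Quotient.eq_zero_iff_mem]
    refine (le_sup_right : _ ≤ J) ?_
    rw [pow_two]
    exact Ideal.mul_mem_mul ha' hc'
  let g₁ : B →ₐ[MvPolynomial (Fin n) ℂ] (B ⧸ J) := Ideal.Quotient.mkₐ (MvPolynomial (Fin n) ℂ) J
  let g₂' : B →+* (B ⧸ J) := (algebraMap ℂ (B ⧸ J)).comp (y : B →+* ℂ)
  have hcomm : ∀ r : MvPolynomial (Fin n) ℂ,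
      g₂' (algebraMap (MvPolynomial (Fin n) ℂ) B r) =
        algebraMap (MvPolynomial (Fin n) ℂ) (B ⧸ J) r := by
    have : g₂'.comp (algebraMap (MvPolynomial (Fin n) ℂ) B) =
        algebraMap (MvPolynomial (Fin n) ℂ) (B ⧸ J) := by
      apply MvPolynomial.ringHom_ext
      · intro a
        have h1 : algebraMap (MvPolynomial (Fin n) ℂ) B (C a) = algebraMap ℂ B a :=
          MvPolynomial.aeval_C z a
        have h2 : algebraMap (MvPolynomial (Fin n) ℂ) (B ⧸ J) (C a) =
            Ideal.Quotient.mk J (algebraMap ℂ B a) := by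
          rw [← h1]; rfl
        rw [h2, RingHom.comp_apply, h1]
        show algebraMap ℂ (B ⧸ J) (y (algebraMap ℂ B a)) = _
        rw [AlgHom.commutes]
        rfl
      · intro i
        have h1 : algebraMap (MvPolynomial (Fin n) ℂ) B (X i) = z i := MvPolynomial.aeval_X z i
        have h2 : algebraMap (MvPolynomial (Fin n) ℂ) (B ⧸ J) (X i) =
            Ideal.Quotient.mk J (z i) := by
          rw [← h1]; rfl
        rw [h2, RingHom.comp_apply, h1]
        show algebraMap ℂ (B ⧸ J) (y (z i)) = _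
        have h3 : algebraMap ℂ (B ⧸ J) (y (z i)) = Ideal.Quotient.mk J (algebraMap ℂ B (y (z i))) := rfl
        rw [h3, eq_comm, Ideal.Quotient.eq]
        exact (le_sup_left : _ ≤ J) (Ideal.subset_span ⟨i, rfl⟩)
    intro r
    exact RingHom.congr_fun this r
  let g₂ : B →ₐ[MvPolynomial (Fin n) ℂ] (B ⧸ J) := { g₂' with commutes' := hcomm }
  have hg : g₁ = g₂ := by
    refine Algebra.FormallyUnramified.lift_unique_of_ringHom f hf g₁ g₂ ?_
    ext b
    show f (Ideal.Quotient.mk J b) = f (algebraMap ℂ (B ⧸ J) (y b))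
    have h3 : algebraMap ℂ (B ⧸ J) (y b) = Ideal.Quotient.mk J (algebraMap ℂ B (y b)) := rfl
    rw [h3]
    show y b = y (algebraMap ℂ B (y b))
    rw [AlgHom.commutes]
    rfl
  have := AlgHom.congr_fun hg b
  have h4 : Ideal.Quotient.mk J b = algebraMap ℂ (B ⧸ J) (y b) := this
  rw [mem_mI.mp hb, map_zero, Ideal.Quotient.eq_zero_iff_mem] at h4
  exact h4

/-- `a ∈ 𝔪^j` is a homogeneous form in the coordinates modulo `𝔪^{j+1}` -/
theorem exists_form (z : Fin n → B)
    (het : RingHom.Etale ((MvPolynomial.aeval z : MvPolynomial (Fin n) ℂ →ₐ[ℂ] B) :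
      MvPolynomial (Fin n) ℂ →+* B)) (y : B →ₐ[ℂ] ℂ) (j : ℕ) :
    ∀ b ∈ mI y ^ j, ∃ P : MvPolynomial (Fin n) ℂ, P.IsHomogeneous j ∧
      b - aeval (uu z y) P ∈ mI y ^ (j + 1) := by
  -- degree one
  have hsub : ∀ b : B, b - algebraMap ℂ B (y b) ∈ mI y := by
    intro b
    rw [mem_mI, map_sub, AlgHom.commutes]; simp
  have hone : ∀ b ∈ mI y, ∃ P : MvPolynomial (Fin n) ℂ, P.IsHomogeneous 1 ∧
      b - aeval (uu z y) P ∈ mI y ^ 2 := by
    intro b hb
    obtain ⟨a, ha, c, hc, rfl⟩ := Submodule.mem_sup.mp (mI_le z het y b hb)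
    obtain ⟨k, hk⟩ := (Ideal.mem_span_range_iff_exists_fun).mp ha
    refine ⟨∑ i, C (y (k i)) * X i, ?_, ?_⟩
    · refine IsHomogeneous.sum _ _ _ fun i _ => ?_
      have := (isHomogeneous_C (Fin n) (y (k i))).mul (isHomogeneous_X ℂ i)
      simpa using this
    · have h1 : a + c - aeval (uu z y) (∑ i, C (y (k i)) * X i : MvPolynomial (Fin n) ℂ) =
          ∑ i, (k i - algebraMap ℂ B (y (k i))) * uu z y i + c := by
        rw [← hk, map_sum]
        simp only [map_mul, aeval_C, aeval_X, sub_mul, Finset.sum_sub_distrib]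
        ring
      rw [h1]
      refine Ideal.add_mem _ (Ideal.sum_mem _ fun i _ => ?_) hc
      rw [pow_two]
      exact Ideal.mul_mem_mul (hsub _) (uu_mem z y i)
  have haev : ∀ (k : ℕ) (P : MvPolynomial (Fin n) ℂ), P.IsHomogeneous k →
      aeval (uu z y) P ∈ mI y ^ k := by
    intro k P hP
    rw [MvPolynomial.aeval_def, MvPolynomial.eval₂_eq]
    refine Ideal.sum_mem _ fun d hd => Ideal.mul_mem_left _ _ ?_
    have hdk : ∑ i ∈ d.support, d i = k := by
      have h1 := hP (mem_support_iff.mp hd)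
      have h2 : d.degree = k := by
        rw [← h1, Finsupp.degree_eq_weight_one]
        rfl
      rw [← h2, Finsupp.degree_apply]
    rw [← hdk, ← Finset.prod_pow_eq_pow_sum]
    exact Ideal.prod_mem_prod fun i _ => Ideal.pow_mem_pow (uu_mem z y i) _
  induction j with
  | zero =>
    intro b _
    refine ⟨C (y b), isHomogeneous_C _ _, ?_⟩
    rw [aeval_C, zero_add, pow_one]
    exact hsub b
  | succ j ih =>
    intro b hb
    rw [pow_succ] at hb
    induction hb using Submodule.mul_induction_on' with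
    | mem_mul_mem a ha c hc =>
      obtain ⟨P, hP, hPa⟩ := ih a ha
      obtain ⟨Q, hQ, hQc⟩ := hone c hc
      refine ⟨P * Q, hP.mul hQ, ?_⟩
      have h1 : a * c - aeval (uu z y) (P * Q) =
          (a - aeval (uu z y) P) * c + aeval (uu z y) P * (c - aeval (uu z y) Q) := by
        rw [map_mul]; ring
      rw [h1]
      refine Ideal.add_mem _ ?_ ?_
      · rw [pow_succ (mI y) (j + 1)]
        exact Ideal.mul_mem_mul hPa hc
      · have : mI y ^ (j + 1 + 1) = mI y ^ j * mI y ^ 2 := by rw [← pow_add]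
        rw [this]
        exact Ideal.mul_mem_mul (haev j P hP) hQc
    | add a _ c _ iha ihc =>
      obtain ⟨P, hP, hPa⟩ := iha
      obtain ⟨Q, hQ, hQc⟩ := ihc
      refine ⟨P + Q, hP.add hQ, ?_⟩
      have h1 : a + c - aeval (uu z y) (P + Q) =
          (a - aeval (uu z y) P) + (c - aeval (uu z y) Q) := by
        rw [map_add]; ring
      rw [h1]
      exact Ideal.add_mem _ hPa hQc

/-- powers of the maximal ideal and growth, along any family of points -/
theorem isBigO_pow {T : Type*} {l : Filter T} (s : T → (B →ₐ[ℂ] ℂ)) (ρ : T → ℝ)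
    (y : B →ₐ[ℂ] ℂ) (h : ∀ b ∈ mI y, (fun t => s t b) =O[l] ρ)
    (hbd : ∀ b : B, (fun t => s t b) =O[l] fun _ => (1 : ℝ)) (k : ℕ) :
    ∀ b ∈ mI y ^ k, (fun t => s t b) =O[l] fun t => ρ t ^ k := by
  induction k with
  | zero => intro b _; simpa using hbd b
  | succ k ih =>
    intro b hb
    rw [pow_succ] at hb
    induction hb using Submodule.mul_induction_on' with
    | mem_mul_mem a ha c hc =>
      have := (ih a ha).mul (h c hc)
      simpa [map_mul, pow_succ] using this
    | add a _ c _ iha ihc =>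
      have := iha.add ihc
      simpa [map_add] using this

end alg

end Crest.Agent.R271.CaseA112
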