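import Mathlib
import Crest.Agent.R271.Defs_710
import Crest.Agent.R271.CaseA4_112

/-!
Row 271, Case A (5.2): if the initial forms of `V_m ∩ 𝔪_x^j` fill more than a fraction `1 - (2n)^{-n}`
of `Sym^j` for some `m, j` with `n m < (n+1) j`, then the main local theorem holds.
-/

set_option autoImplicit false

open scoped Topology BigOperators ENNReal
open Filter Metric Asymptotics MvPolynomial Module MeasureTheory
open Crest.Agent.R271.Defs710

noncomputable section

namespace Crest.Agent.R271.CaseA112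

/-- `V_m ∩ 𝔪_x^j` -/
def VJ {n : ℕ} (X : FCtx n) (m j : ℕ) : Submodule ℂ X.B :=
  X.V m ⊓ (mI X.x ^ j).restrictScalars ℂ

section

variable {n : ℕ} (X : FCtx n)

theorem mem_VJ {m j : ℕ} {f : X.B} : f ∈ VJ X m j ↔ f ∈ X.V m ∧ f ∈ mI X.x ^ j := by
  rw [VJ, Submodule.mem_inf, Submodule.restrictScalars_mem]

instance (m j : ℕ) : FiniteDimensional ℂ (VJ X m j) :=
  haveI := X.V_fin m
  Submodule.finiteDimensional_of_le (inf_le_left : VJ X m j ≤ X.V m)

/-- the leading form map -/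
theorem exists_lead (m j : ℕ) :
    ∃ lead : VJ X m j →ₗ[ℂ] MvPolynomial (Fin n) ℂ, (∀ f, (lead f).IsHomogeneous j) ∧
      (∀ f : VJ X m j, (f : X.B) - aeval (uu X.z X.x) (lead f) ∈ mI X.x ^ (j + 1)) ∧
      (finrank ℂ (VJ X m j) : ℝ) - (finrank ℂ (VJ X m (j + 1)) : ℝ) ≤
        (finrank ℂ (LinearMap.range lead) : ℝ) := by
  set T : Submodule ℂ X.B := (mI X.x ^ (j + 1)).restrictScalars ℂ with hT
  set H := homogeneousSubmodule (Fin n) ℂ j with hH
  let μ : H →ₗ[ℂ] (X.B ⧸ T) :=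
    T.mkQ ∘ₗ (aeval (uu X.z X.x) : MvPolynomial (Fin n) ℂ →ₐ[ℂ] X.B).toLinearMap ∘ₗ H.subtype
  have hμr : ∀ f : VJ X m j, T.mkQ f ∈ LinearMap.range μ := by
    intro f
    obtain ⟨P, hP, hPf⟩ := exists_form X.z X.etale X.x j f ((mem_VJ X).mp f.2).2
    refine ⟨⟨P, hP⟩, ?_⟩
    show T.mkQ (aeval (uu X.z X.x) P) = T.mkQ f
    rw [eq_comm, Submodule.mkQ_apply, Submodule.mkQ_apply, Submodule.Quotient.eq]
    exact hPf
  obtain ⟨σ, hσ⟩ := μ.rangeRestrict.exists_rightInverse_of_surjective (LinearMap.range_rangeRestrict μ)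
  have hσ' : ∀ y, μ (σ y) = (y : X.B ⧸ T) := by
    intro y
    have := congrArg Subtype.val (LinearMap.congr_fun hσ y)
    simpa using this
  let q : VJ X m j →ₗ[ℂ] LinearMap.range μ :=
    LinearMap.codRestrict _ (T.mkQ ∘ₗ (VJ X m j).subtype) hμr
  let lead : VJ X m j →ₗ[ℂ] MvPolynomial (Fin n) ℂ := H.subtype ∘ₗ σ ∘ₗ q
  have hlq : ∀ f : VJ X m j, T.mkQ (aeval (uu X.z X.x) (lead f)) = T.mkQ f := by
    intro f
    have := hσ' (q f)
    exact this
  refine ⟨lead, fun f => (σ (q f)).2, ?_, ?_⟩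
  · intro f
    have := hlq f
    rw [eq_comm, Submodule.mkQ_apply, Submodule.mkQ_apply, Submodule.Quotient.eq] at this
    exact this
  · have hrk := LinearMap.finrank_range_add_finrank_ker lead
    have hker : finrank ℂ (LinearMap.ker lead) ≤ finrank ℂ (VJ X m (j + 1)) := by
      rw [← Submodule.finrank_map_subtype_eq (VJ X m j) (LinearMap.ker lead)]
      refine Submodule.finrank_mono ?_
      rintro _ ⟨f, hf, rfl⟩
      rw [Submodule.coe_subtype, mem_VJ]
      refine ⟨((mem_VJ X).mp f.2).1, ?_⟩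
      have h1 := hlq f
      have h2 : lead f = 0 := LinearMap.mem_ker.mp hf
      rw [h2, map_zero, map_zero, eq_comm, Submodule.mkQ_apply,
        Submodule.Quotient.mk_eq_zero] at h1
      exact h1
    have : (finrank ℂ (VJ X m j) : ℝ) = (finrank ℂ (LinearMap.range lead) : ℝ) +
        (finrank ℂ (LinearMap.ker lead) : ℝ) := by exact_mod_cast hrk.symm
    have h2 : (finrank ℂ (LinearMap.ker lead) : ℝ) ≤ (finrank ℂ (VJ X m (j + 1)) : ℝ) := by
      exact_mod_cast hker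
    linarith

/-- in a chart, an element of `𝔪_y^k` is `O(|ζ|^k)` -/
theorem chart_isBigO {y : X.B →ₐ[ℂ] ℂ} (Ch : Chart X.z y) (k : ℕ) (b : X.B) (hb : b ∈ mI y ^ k) :
    (fun ζ => Ch.s ζ b) =O[𝓝 0] fun ζ => ‖ζ‖ ^ k := by
  have han : ∀ b : X.B, AnalyticAt ℂ (fun ζ => Ch.s ζ b) 0 := fun b =>
    Ch.anal b 0 (mem_ball_self Ch.r_pos)
  refine isBigO_pow (fun ζ => Ch.s ζ) (fun ζ => ‖ζ‖) y ?_ ?_ k b hb
  · intro b hb
    have h0 : Ch.s 0 b = 0 := by rw [Ch.s_zero]; exact mem_mI.mp hb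
    have := (han b).differentiableAt.isBigO_sub
    simp only [h0, sub_zero] at this
    exact this.norm_right
  · intro b
    have := (han b).continuousAt.isBigO_one ℝ
    exact this

/-- along a line in a chart, an element of `𝔪^k` at the base point is `O(t^k)` -/
theorem line_isBigO {y : X.B →ₐ[ℂ] ℂ} (Ch : Chart X.z y) {ζ : Cn n} (hζ : ζ ∈ ball (0 : Cn n) Ch.r)
    (v : Cn n) (k : ℕ) (b : X.B) (hb : b ∈ mI (Ch.s ζ) ^ k) :
    (fun t : ℂ => Ch.s (ζ + t • v) b) =O[𝓝 0] fun t : ℂ => t ^ k := by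
  have han : ∀ b : X.B, AnalyticAt ℂ (fun t : ℂ => Ch.s (ζ + t • v) b) 0 := by
    intro b
    have h1 : AnalyticAt ℂ (fun ζ => Ch.s ζ b) (ζ + (0:ℂ) • v) := by
      simpa using Ch.anal b ζ hζ
    have h2 : AnalyticAt ℂ (fun t : ℂ => ζ + t • v) 0 := by fun_prop
    exact AnalyticAt.fun_comp (f := fun t : ℂ => ζ + t • v) (g := fun ζ => Ch.s ζ b) h1 h2
  have := isBigO_pow (l := 𝓝 (0:ℂ)) (fun t : ℂ => Ch.s (ζ + t • v)) (fun t => ‖t‖) (Ch.s ζ)
    (fun b hb => ?_) (fun b => ?_) k b hb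
  · refine this.trans ?_
    refine IsBigO.of_bound 1 (Eventually.of_forall fun t => ?_)
    simp
  · have h0 : (fun t : ℂ => Ch.s (ζ + t • v) b) 0 = 0 := by
      show Ch.s (ζ + (0:ℂ) • v) b = 0
      rw [zero_smul, add_zero]; exact mem_mI.mp hb
    have := (han b).differentiableAt.isBigO_sub
    simp only [h0, sub_zero] at this
    exact this.norm_right
  · exact (han b).continuousAt.isBigO_one ℝ

/-- CASE A. -/
theorem caseA (hn : 1 ≤ n) (hX : AFacts X) (m j : ℕ) (hj : 1 ≤ j)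
    (hmj : (n : ℝ) * m < (n + 1) * j)
    (hD : (1 - 1 / (2 * n : ℝ) ^ n) * (Nat.choose (n + j - 1) j : ℝ) <
      (finrank ℂ (VJ X m j) : ℝ) - (finrank ℂ (VJ X m (j + 1)) : ℝ)) :
    MLT X := by
  classical
  have hn0 : (0:ℝ) < n := by exact_mod_cast hn
  have hj0 : (0:ℝ) < j := by exact_mod_cast hj
  obtain ⟨Ch⟩ := hX.chart X.x
  obtain ⟨lead, hlead, hlm, hrank⟩ := exists_lead X m j
  -- the exponent
  set lo : ℝ := max ((m:ℝ) / (n + 1)) ((j:ℝ) / (2 * n)) with hlo
  have hlo1 : lo < (j:ℝ) / n := by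
    rw [hlo]
    refine max_lt ?_ ?_
    · rw [div_lt_div_iff₀ (by positivity) hn0]; nlinarith
    · rw [div_lt_div_iff₀ (by positivity) hn0]; nlinarith
  set k : ℝ := (lo + (j:ℝ) / n) / 2 with hk
  have hk1 : lo < k := by rw [hk]; linarith
  have hk2 : k < (j:ℝ) / n := by rw [hk]; linarith
  have hkm : (m:ℝ) / (n + 1) < k := lt_of_le_of_lt (le_max_left _ _) hk1
  have hkj : (j:ℝ) / (2 * n) < k := lt_of_le_of_lt (le_max_right _ _) hk1
  have hk0 : 0 < k := lt_trans (by positivity) hkj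
  set N : ℕ := ⌈k⌉₊ - 1 with hN
  have hceil : 1 ≤ ⌈k⌉₊ := Nat.one_le_iff_ne_zero.mpr (Nat.ceil_pos.mpr hk0).ne'
  have hNk : (N:ℝ) < k := by
    have : N < ⌈k⌉₊ := by omega
    exact Nat.lt_ceil.mp this
  have hkN : k ≤ (N:ℝ) + 1 := by
    have h1 : k ≤ (⌈k⌉₊ : ℝ) := Nat.le_ceil k
    have h2 : ((N + 1 : ℕ) : ℝ) = (⌈k⌉₊ : ℝ) := by
      congr 1; omega
    push_cast at h2
    linarith
  have hjN : j < 2 * n * (N + 1) := by
    have h1 : (j:ℝ) < 2 * n * k := by
      have := (div_lt_iff₀ (by positivity : (0:ℝ) < 2 * n)).mp hkj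
      linarith
    have h2 : (2 * n : ℝ) * k ≤ 2 * n * (N + 1) := mul_le_mul_of_nonneg_left hkN (by positivity)
    have h3 : (j:ℝ) < ((2 * n * (N + 1) : ℕ) : ℝ) := by push_cast; linarith
    exact_mod_cast h3
  -- the shell
  have hsh := shell (n := n) (j := j) (N := N) hjN (E := VJ X m j)
    (fun f ζ => Ch.s ζ (f : X.B)) lead hlead
    (fun f => Ch.anal f 0 (mem_ball_self Ch.r_pos))
    (fun f => by
      have h1 := chart_isBigO X Ch (j + 1) _ (hlm f)
      refine h1.congr' ?_ EventuallyEq.rfl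
      filter_upwards [ball_mem_nhds (0 : Cn n) Ch.r_pos] with ζ hζ
      rw [map_sub]
      congr 1
      have h2 : (Ch.s ζ) (aeval (uu X.z X.x) (lead f)) =
          aeval (fun i => Ch.s ζ (uu X.z X.x i)) (lead f) := by
        exact MvPolynomial.comp_aeval_apply (uu X.z X.x) (Ch.s ζ) (lead f)
      rw [h2]
      have h3 : (fun i => Ch.s ζ (uu X.z X.x i)) = ζ := by
        funext i
        rw [uu, map_sub, AlgHom.commutes, Ch.s_z ζ hζ]
        simp
      rw [h3]
      rfl)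
    (lt_of_lt_of_le hD hrank)
  obtain ⟨δ, hδ, hδb⟩ := (Metric.nhdsWithin_basis_ball (x := (0 : Cn n))).eventually_iff.mp hsh
  -- the generators
  set bs := Module.finBasis ℂ (VJ X m j) with hbs
  set S : Finset X.B := Finset.univ.image fun i => ((bs i : VJ X m j) : X.B) with hS
  have hSmem : ∀ f ∈ S, f ∈ VJ X m j := by
    intro f hf
    obtain ⟨i, _, rfl⟩ := Finset.mem_image.mp hf
    exact (bs i).2
  have hSne0 : ∀ f ∈ S, f ≠ 0 := by
    intro f hf
    obtain ⟨i, _, rfl⟩ := Finset.mem_image.mp hf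
    intro h
    exact bs.ne_zero i (Subtype.ext h)
  have hfr : 0 < finrank ℂ (VJ X m j) := by
    have h1 : (0:ℝ) ≤ (1 - 1 / (2 * n : ℝ) ^ n) * (Nat.choose (n + j - 1) j : ℝ) := by
      refine mul_nonneg ?_ (by positivity)
      have : (1:ℝ) ≤ (2 * n : ℝ) ^ n := by
        refine one_le_pow₀ ?_
        have : (1:ℝ) ≤ n := by exact_mod_cast hn
        linarith
      rw [sub_nonneg, div_le_one (by positivity)]
      exact this
    have h2 : (0:ℝ) < (finrank ℂ (VJ X m j) : ℝ) := by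
      have : (0:ℝ) ≤ (finrank ℂ (VJ X m (j + 1)) : ℝ) := by positivity
      linarith
    exact_mod_cast h2
  have hSnon : S.Nonempty := by
    refine Finset.Nonempty.image ?_ _
    exact ⟨⟨0, hfr⟩, Finset.mem_univ _⟩
  -- if all members of `S` lie in an ideal then so does `VJ`
  have hSspan : ∀ (I : Ideal X.B), (∀ f ∈ S, f ∈ I) → ∀ f ∈ VJ X m j, f ∈ I := by
    intro I hI f hf
    have h1 : (⟨f, hf⟩ : VJ X m j) = ∑ i, bs.repr ⟨f, hf⟩ i • bs i := (bs.sum_repr _).symm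
    have h2 : f = ∑ i, bs.repr ⟨f, hf⟩ i • ((bs i : VJ X m j) : X.B) := by
      have h3 := congrArg (VJ X m j).subtype h1
      rw [map_sum] at h3
      simpa only [Submodule.subtype_apply, map_smul] using h3
    rw [h2]
    refine Ideal.sum_mem _ fun i _ => ?_
    rw [Algebra.smul_def]
    exact Ideal.mul_mem_left _ _ (hI _ (Finset.mem_image_of_mem _ (Finset.mem_univ _)))
  set r₂ : ℝ := min δ Ch.r / 2 with hr₂
  have hmin : 0 < min δ Ch.r := lt_min hδ Ch.r_pos
  refine ⟨1, fun _ => S, fun _ => m, fun _ => 1 / k, Ch, r₂ / 2, r₂, ?_, ?_, ?_, ?_, ?_, ?_, ?_, ?_⟩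
  · intro _
    exact ⟨hSnon, fun f hf => ⟨((mem_VJ X).mp (hSmem f hf)).1, hSne0 f hf⟩⟩
  · intro _; positivity
  · simp only [Finset.univ_unique, Finset.sum_const, Finset.card_singleton, one_smul]
    have := (div_lt_iff₀ (by positivity : (0:ℝ) < (n:ℝ) + 1)).mp hkm
    rw [one_div, inv_mul_lt_iff₀ hk0]
    linarith
  · positivity
  · rw [hr₂]; linarith
  · rw [hr₂]
    have : min δ Ch.r ≤ Ch.r := min_le_right _ _
    linarith
  · -- not integrable at `x`
    intro hint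
    have h1 : LIntB X.z X.x (wB (fun _ : Fin 1 => S) (fun _ => 1 / k)) := by
      have := (hX.change X.x Ch 0 (mem_ball_self Ch.r_pos)
        (wB (fun _ : Fin 1 => S) (fun _ => 1 / k))).mpr hint
      rwa [Ch.s_zero] at this
    have h2 : wB (fun _ : Fin 1 => S) (fun _ => 1 / k) =
        wB (fun _ : Unit => S) (fun _ => 1 / k) := by
      funext y
      simp [wB]
    rw [h2] at h1
    have h3 := (hX.gens X.x Unit (fun _ => Ideal.span (S : Set X.B)) (fun _ => 1 / k)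
      (fun _ => S) (fun _ => rfl)).mpr h1
    refine hX.nonint X.x (Ideal.span (S : Set X.B)) j (1 / k) ?_ ?_ hn h3
    · rw [Ideal.span_le]
      intro f hf
      exact ((mem_VJ X).mp (hSmem f hf)).2
    · rw [one_div, ← div_eq_inv_mul, le_div_iff₀ hk0]
      have := (lt_div_iff₀ hn0).mp hk2
      linarith
  · -- integrable on the shell
    intro ζ hζ1 hζ2
    have hζpos : 0 < ‖ζ‖ := lt_of_lt_of_le (by positivity) hζ1
    have hζδ : ‖ζ‖ < δ := by
      have : min δ Ch.r ≤ δ := min_le_left _ _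
      rw [hr₂] at hζ2; linarith
    have hζr : ‖ζ‖ < Ch.r := by
      have : min δ Ch.r ≤ Ch.r := min_le_right _ _
      rw [hr₂] at hζ2; linarith
    have hζball : ζ ∈ ball (0 : Cn n) Ch.r := by simpa using hζr
    have hζne : ζ ≠ 0 := norm_pos_iff.mp hζpos
    obtain ⟨f, v, hfv⟩ := hδb ⟨by simpa using hζδ, hζne⟩
    -- some generator has small order
    have hex : ∃ b ∈ S, b ∉ mI (Ch.s ζ) ^ (N + 1) := by
      by_contra hcon
      push Not at hcon
      exact hfv (line_isBigO X Ch hζball v (N + 1) f (hSspan _ hcon f f.2))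
    obtain ⟨b, hbS, hb⟩ := hex
    have hcN : (1 / k) * (N:ℝ) < 1 := by
      rw [one_div, inv_mul_lt_iff₀ hk0]; linarith
    have h1 := hX.ord (Ch.s ζ) b N (1 / k) hb (by positivity) hcN
    have h2 := (hX.gens (Ch.s ζ) Unit (fun _ => Ideal.span {b}) (fun _ => 1 / k)
      (fun _ => {b}) (fun _ => by simp)).mp h1
    obtain ⟨C', U, hU, hUint⟩ := h2
    have h3 : LIntB X.z (Ch.s ζ) (wB (fun _ : Fin 1 => S) (fun _ => 1 / k)) := by
      refine ⟨C', U, hU, lt_of_le_of_lt ?_ hUint⟩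
      refine lintegral_mono fun ζ' => ?_
      simp only [wB, Finset.univ_unique, Finset.prod_singleton]
      rw [ENNReal.rpow_neg, ENNReal.rpow_neg]
      refine ENNReal.inv_le_inv.mpr ?_
      refine ENNReal.rpow_le_rpow (ENNReal.ofReal_le_ofReal ?_) (by positivity)
      simp only [wt, Finset.sum_singleton]
      exact Finset.single_le_sum (f := fun b => ‖(C'.s ζ') b‖ ^ 2)
        (fun _ _ => by positivity) hbS
    exact (hX.change X.x Ch ζ hζball _).mp h3

end

end Crest.Agent.R271.CaseA112
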