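import Crest.Agent.R271.Assembly_710
import Crest.Agent.R271.CaseA_112

/-! Row 271: `CaseA` of `Assembly_710`. -/

set_option autoImplicit false

noncomputable section

namespace Crest.Agent.R271.CaseA112

open Crest.Agent.R271.Defs710 Crest.Agent.R271.Assembly710

/-- (5.2), in the form used by the assembly -/
theorem caseAMain : CaseA := by
  intro n X hn hX hB
  have hn0 : (0:ℝ) < n := by exact_mod_cast hn
  have hnot : ¬ Caps X (1 / (2 * n : ℝ) ^ n) := fun h => hB ⟨_, by positivity, h⟩
  rw [Caps] at hnot
  push Not at hnot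
  obtain ⟨m, -, j, hmj, hD⟩ := hnot 0
  have hj : 1 ≤ j := by
    rcases Nat.eq_zero_or_pos j with h | h
    · subst h; omega
    · exact h
  have hch : (j + n - 1).choose (n - 1) = (n + j - 1).choose j := by
    have h1 : j + n - 1 = n + j - 1 := by omega
    rw [h1, ← Nat.choose_symm (by omega : j ≤ n + j - 1)]
    congr 1; omega
  rw [hch] at hD
  exact caseA X hn hX m j hj (by exact_mod_cast hmj) hD

end Crest.Agent.R271.CaseA112
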