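import Mathlib

/-!
# Row 271, Part 9.4: real analysis lemmas for Case B (growth inequality)
-/

set_option autoImplicit false

open Finset

namespace Crest.Agent.R271.CaseB553

lemma pow_add_ge {y δ : ℝ} (hy : 0 ≤ y) (hδ : 0 ≤ δ) (m : ℕ) :
    y ^ (m + 1) + (m + 1) * δ * y ^ m ≤ (y + δ) ^ (m + 1) := by
  induction m with
  | zero => simp
  | succ m ih =>
    have h1 : (y + δ) ^ (m + 1 + 1) = (y + δ) * (y + δ) ^ (m + 1) := by ring
    rw [h1]
    have h2 : (y + δ) * (y ^ (m + 1) + (m + 1) * δ * y ^ m) ≤ (y + δ) * (y + δ) ^ (m + 1) :=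
      mul_le_mul_of_nonneg_left ih (by linarith)
    refine le_trans ?_ h2
    have h3 : 0 ≤ ((m : ℝ) + 1) * δ * δ * y ^ m := by positivity
    push_cast
    have : (y + δ) * (y ^ (m + 1) + (m + 1) * δ * y ^ m) =
      y ^ (m + 1 + 1) + ((m : ℝ) + 1 + 1) * δ * y ^ (m + 1) + ((m : ℝ) + 1) * δ * δ * y ^ m := by
      ring
    rw [this]; linarith

lemma pow_add_le {y b : ℝ} (hy : 0 ≤ y) (hb : 0 ≤ b) (m : ℕ) :
    (y + b) ^ (m + 1) ≤ y ^ (m + 1) + (m + 1) * b * (y + b) ^ m := by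
  induction m with
  | zero => simp
  | succ m ih =>
    have h1 : (y + b) ^ (m + 1 + 1) = y * (y + b) ^ (m + 1) + b * (y + b) ^ (m + 1) := by ring
    rw [h1]
    have h2 : y * (y + b) ^ (m + 1) ≤ y * (y ^ (m + 1) + (m + 1) * b * (y + b) ^ m) :=
      mul_le_mul_of_nonneg_left ih hy
    have h3 : y * (y + b) ^ m ≤ (y + b) ^ (m + 1) := by
      rw [pow_succ, mul_comm]
      exact mul_le_mul_of_nonneg_left (by linarith) (by positivity)
    have h4 : ((m : ℝ) + 1) * b * (y * (y + b) ^ m) ≤ ((m : ℝ) + 1) * b * (y + b) ^ (m + 1) :=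
      mul_le_mul_of_nonneg_left h3 (by positivity)
    have h5 : y * (y ^ (m + 1) + ((m : ℝ) + 1) * b * (y + b) ^ m) =
      y ^ (m + 1 + 1) + ((m : ℝ) + 1) * b * (y * (y + b) ^ m) := by ring
    push_cast
    have h6 : ((m : ℝ) + 1 + 1) * b * (y + b) ^ (m + 1) =
      ((m : ℝ) + 1) * b * (y + b) ^ (m + 1) + b * (y + b) ^ (m + 1) := by ring
    linarith

/-- potential -/
noncomputable def hN (n : ℕ) (r : ℝ) : ℝ := (n / (n + 1)) * r ^ (n + 1)

/-- auxiliary potential -/
noncomputable def psi (n : ℕ) (K L r : ℝ) : ℝ := hN n r + K * min r L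

lemma hN_nonneg (n : ℕ) {r : ℝ} (hr : 0 ≤ r) : 0 ≤ hN n r := by unfold hN; positivity

lemma hN_mono (n : ℕ) {r s : ℝ} (hr : 0 ≤ r) (hrs : r ≤ s) : hN n r ≤ hN n s := by
  unfold hN
  exact mul_le_mul_of_nonneg_left (pow_le_pow_left₀ hr hrs _) (by positivity)

lemma psi_nonneg (n : ℕ) {K L r : ℝ} (hK : 0 ≤ K) (hL : 0 ≤ L) (hr : 0 ≤ r) :
    0 ≤ psi n K L r := by
  unfold psi
  have := hN_nonneg n hr
  have h2 : 0 ≤ min r L := le_min hr hL
  positivity

lemma psi_mono (n : ℕ) {K L r s : ℝ} (hK : 0 ≤ K) (hr : 0 ≤ r) (hrs : r ≤ s) :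
    psi n K L r ≤ psi n K L s := by
  unfold psi
  have := hN_mono n hr hrs
  have h2 : min r L ≤ min s L := min_le_min_right _ hrs
  have := mul_le_mul_of_nonneg_left h2 hK
  linarith

lemma hN_sub (n : ℕ) {r δ : ℝ} (hδ : 0 ≤ δ) (hr : δ ≤ r) :
    n * δ * (r - δ) ^ n ≤ hN n r - hN n (r - δ) := by
  unfold hN
  have h := pow_add_ge (y := r - δ) (by linarith) hδ n
  rw [sub_add_cancel] at h
  have h2 : (n : ℝ) * δ * (r - δ) ^ n = (n / (n + 1)) * ((n + 1) * δ * (r - δ) ^ n) := by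
    field_simp
  rw [h2, ← mul_sub]
  exact mul_le_mul_of_nonneg_left (by linarith) (by positivity)

/-- the pointwise inequality behind the growth lemma -/
lemma pointwise {n : ℕ} (hn : 1 ≤ n) {a k w : ℝ} (ha : 0 < a) (ha4 : a ≤ 1 / 4) (hk : 0 < k)
    (hw0 : 0 ≤ w) (hw : w ≤ a / (2 * (n / a))) {r : ℝ} (hr : 0 ≤ r) :
    (1 - 4 * a) * (n * k * r ^ n) ≤
      w * (hN n r - psi n (2 * n * k * (n / a) ^ n * ((1 - a) * k) ^ (n - 1))
          ((n / a) * ((1 - a) * k)) r) +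
      (psi n (2 * n * k * (n / a) ^ n * ((1 - a) * k) ^ (n - 1)) ((n / a) * ((1 - a) * k)) r -
        psi n (2 * n * k * (n / a) ^ n * ((1 - a) * k) ^ (n - 1)) ((n / a) * ((1 - a) * k))
          (max (r - (1 - a) * k) 0)) := by
  set Λ : ℝ := n / a with hΛ
  set δ : ℝ := (1 - a) * k with hδ
  set K : ℝ := 2 * n * k * Λ ^ n * δ ^ (n - 1) with hK
  have hn1 : (1 : ℝ) ≤ n := by exact_mod_cast hn
  have hΛ1 : 1 ≤ Λ := by
    rw [hΛ, le_div_iff₀ ha]; linarith
  have hΛ0 : 0 < Λ := by linarith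
  have hδ0 : 0 < δ := by rw [hδ]; exact mul_pos (by linarith) hk
  have hK0 : 0 < K := by rw [hK]; positivity
  have hwΛ : w * Λ ≤ a / 2 := by
    have := mul_le_mul_of_nonneg_right hw hΛ0.le
    have h2 : a / (2 * Λ) * Λ = a / 2 := by field_simp
    linarith
  have hw12 : w * Λ ≤ 1 / 2 := by linarith
  unfold psi
  rcases le_or_gt r (Λ * δ) with hrL | hrL
  · -- small r
    have hmin : min r (Λ * δ) = r := min_eq_left hrL
    have hmin2 : min (max (r - δ) 0) (Λ * δ) = max (r - δ) 0 :=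
      min_eq_left (max_le (by linarith) (by positivity))
    rw [hmin, hmin2]
    have hh : hN n (max (r - δ) 0) ≤ hN n r := hN_mono n (le_max_right _ _)
      (max_le (by linarith) hr)
    have hrd : r - max (r - δ) 0 = min r δ := by
      rcases le_total δ r with h | h
      · rw [max_eq_left (by linarith), min_eq_right h]; ring
      · rw [max_eq_right (by linarith), min_eq_left h]; ring
    have hmr0 : 0 ≤ min r δ := le_min hr hδ0.le
    -- w * r ≤ min r δ / 2
    have h1 : w * r ≤ min r δ / 2 := by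
      have h3 : w ≤ 1 / 2 := by
        have : w * 1 ≤ w * Λ := mul_le_mul_of_nonneg_left hΛ1 hw0
        linarith
      rcases le_total δ r with h | h
      · rw [min_eq_right h]
        calc w * r ≤ w * (Λ * δ) := mul_le_mul_of_nonneg_left hrL hw0
          _ = (w * Λ) * δ := by ring
          _ ≤ (1 / 2) * δ := mul_le_mul_of_nonneg_right hw12 hδ0.le
          _ = δ / 2 := by ring
      · rw [min_eq_left h]
        nlinarith
    -- r ^ n ≤ Λ ^ n * δ ^ (n-1) * min r δ
    have h2 : r ^ n ≤ Λ ^ n * δ ^ (n - 1) * min r δ := by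
      obtain ⟨p, rfl⟩ : ∃ p, n = p + 1 := ⟨n - 1, by omega⟩
      simp only [Nat.add_sub_cancel]
      rcases le_total δ r with h | h
      · rw [min_eq_right h]
        calc r ^ (p + 1) ≤ (Λ * δ) ^ (p + 1) := pow_le_pow_left₀ hr hrL _
          _ = Λ ^ (p + 1) * δ ^ p * δ := by ring
      · rw [min_eq_left h]
        calc r ^ (p + 1) = r ^ p * r := by ring
          _ ≤ δ ^ p * r := mul_le_mul_of_nonneg_right (pow_le_pow_left₀ hr h _) hr
          _ = 1 * (δ ^ p * r) := by ring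
          _ ≤ Λ ^ (p + 1) * (δ ^ p * r) :=
              mul_le_mul_of_nonneg_right (one_le_pow₀ hΛ1) (by positivity)
          _ = Λ ^ (p + 1) * δ ^ p * r := by ring
    have h4 : (n : ℝ) * k * r ^ n ≤ K / 2 * min r δ := by
      calc (n : ℝ) * k * r ^ n ≤ n * k * (Λ ^ n * δ ^ (n - 1) * min r δ) :=
            mul_le_mul_of_nonneg_left h2 (by positivity)
        _ = K / 2 * min r δ := by rw [hK]; ring_nf
    have h5 : (1 - 4 * a) * (n * k * r ^ n) ≤ n * k * r ^ n := by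
      have : 0 ≤ (n : ℝ) * k * r ^ n := by positivity
      nlinarith
    have h6 : w * (hN n r - (hN n r + K * r)) = - (K * (w * r)) := by ring
    have h7 : K * (w * r) ≤ K * (min r δ / 2) := mul_le_mul_of_nonneg_left h1 hK0.le
    have h8 : K * r - K * max (r - δ) 0 = K * min r δ := by rw [← mul_sub, hrd]
    rw [h6]
    linarith
  · -- large r
    have hmin : min r (Λ * δ) = Λ * δ := min_eq_right hrL.le
    rw [hmin]
    have hrδ : δ ≤ r := by
      have : 1 * δ ≤ Λ * δ := mul_le_mul_of_nonneg_right hΛ1 hδ0.le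
      linarith
    have hmax : max (r - δ) 0 = r - δ := max_eq_left (by linarith)
    rw [hmax]
    have hm2 : min (r - δ) (Λ * δ) ≤ Λ * δ := min_le_right _ _
    have h1 := hN_sub n hδ0.le hrδ
    have hr0 : 0 < r := lt_of_lt_of_le hδ0 hrδ
    -- (r-δ)^n ≥ (1-a) r^n
    have h2 : (1 - a) * r ^ n ≤ (r - δ) ^ n := by
      have hb : (1 : ℝ) + n * (-(1 / Λ)) ≤ (1 + -(1 / Λ)) ^ n := by
        apply one_add_mul_le_pow
        have : 1 / Λ ≤ 1 := by rw [div_le_one hΛ0]; exact hΛ1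
        linarith
      have e1 : (1 : ℝ) + n * (-(1 / Λ)) = 1 - a := by
        rw [hΛ]; field_simp; ring
      have e2 : (1 + -(1 / Λ)) * r ≤ r - δ := by
        have : δ ≤ (1 / Λ) * r := by
          rw [one_div, inv_mul_eq_div, le_div_iff₀ hΛ0]; linarith
        linarith
      have e3 : 0 ≤ (1 + -(1 / Λ)) * r := by
        have : 1 / Λ ≤ 1 := by rw [div_le_one hΛ0]; exact hΛ1
        exact mul_nonneg (by linarith) hr
      calc (1 - a) * r ^ n ≤ (1 + -(1 / Λ)) ^ n * r ^ n :=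
            mul_le_mul_of_nonneg_right (by rw [← e1]; exact hb) (by positivity)
        _ = ((1 + -(1 / Λ)) * r) ^ n := by rw [mul_pow]
        _ ≤ (r - δ) ^ n := pow_le_pow_left₀ e3 e2 _
    have h3 : (1 - 2 * a) * (n * k * r ^ n) ≤ n * δ * (r - δ) ^ n := by
      calc (1 - 2 * a) * (n * k * r ^ n) ≤ (1 - a) * (1 - a) * (n * k * r ^ n) := by
            apply mul_le_mul_of_nonneg_right _ (by positivity)
            nlinarith
        _ = n * δ * ((1 - a) * r ^ n) := by rw [hδ]; ring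
        _ ≤ n * δ * (r - δ) ^ n := mul_le_mul_of_nonneg_left h2 (by positivity)
    have h4 : w * (hN n r - (hN n r + K * (Λ * δ))) = -(w * Λ * (K * δ)) := by ring
    have h5 : w * Λ * (K * δ) ≤ a * (n * k * r ^ n) := by
      have e1 : K * δ = 2 * (n * k * (Λ * δ) ^ n) := by
        obtain ⟨p, rfl⟩ : ∃ p, n = p + 1 := ⟨n - 1, by omega⟩
        rw [hK]; simp only [Nat.add_sub_cancel]; ring
      have e2 : (Λ * δ) ^ n ≤ r ^ n := pow_le_pow_left₀ (by positivity) hrL.le _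
      calc w * Λ * (K * δ) ≤ a / 2 * (K * δ) :=
            mul_le_mul_of_nonneg_right hwΛ (by positivity)
        _ = a * (n * k * (Λ * δ) ^ n) := by rw [e1]; ring
        _ ≤ a * (n * k * r ^ n) := by
            apply mul_le_mul_of_nonneg_left _ ha.le
            exact mul_le_mul_of_nonneg_left e2 (by positivity)
    have h6 : K * min (r - δ) (Λ * δ) ≤ K * (Λ * δ) := mul_le_mul_of_nonneg_left hm2 hK0.le
    have h7 : 0 ≤ (n : ℝ) * k * r ^ n := by positivity
    rw [h4]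
    nlinarith

/-- **growth lemma**: a nonnegative sequence which grows at rate `≥ 1 - a` satisfies
`∑ e^{-τm} (n/(n+1)) ρ^{n+1} ≥ (1-4a) (n/τ) ∑ e^{-τm} ρ^n` for small `τ`. -/
theorem growth_ineq {n : ℕ} (hn : 1 ≤ n) {a : ℝ} (ha : 0 < a) (ha4 : a ≤ 1 / 4) {k : ℕ}
    (hk : 1 ≤ k) {τ : ℝ} (hτ : 0 < τ) (hτk : τ * k ≤ a / (2 * (n / a))) (ρ : ℕ → ℝ)
    (hρ : ∀ m, 0 ≤ ρ m) (hgr : ∀ m, 0 < ρ m → ρ m + (1 - a) * k ≤ ρ (m + k))
    (hs : Summable (fun m : ℕ => Real.exp (-τ * m) * ρ m ^ n))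
    (hs1 : Summable (fun m : ℕ => Real.exp (-τ * m) * hN n (ρ m))) :
    (1 - 4 * a) * ((n / τ) * ∑' m : ℕ, Real.exp (-τ * m) * ρ m ^ n) ≤
      ∑' m : ℕ, Real.exp (-τ * m) * hN n (ρ m) := by
  have hk0 : (0 : ℝ) < k := by exact_mod_cast hk
  set Λ : ℝ := n / a with hΛ
  set δ : ℝ := (1 - a) * k with hδ
  set K : ℝ := 2 * n * k * Λ ^ n * δ ^ (n - 1) with hK
  set L : ℝ := Λ * δ with hL
  set w : ℝ := 1 - Real.exp (-τ * k) with hw
  have hn1 : (1 : ℝ) ≤ n := by exact_mod_cast hn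
  have hΛ0 : 0 < Λ := by rw [hΛ]; positivity
  have hδ0 : 0 < δ := by rw [hδ]; exact mul_pos (by linarith) hk0
  have hK0 : 0 < K := by rw [hK]; positivity
  have hL0 : 0 < L := by rw [hL]; positivity
  have hw0 : 0 ≤ w := by
    rw [hw]
    have : Real.exp (-τ * k) ≤ 1 := Real.exp_le_one_iff.2 (by nlinarith)
    linarith
  have hwτ : w ≤ τ * k := by
    rw [hw]
    have := Real.add_one_le_exp (-τ * (k : ℝ))
    linarith
  have hexp : Summable (fun m : ℕ => Real.exp (-τ * m)) := by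
    have := Real.summable_exp_nat_mul_iff.2 (show -τ < 0 by linarith)
    refine this.congr (fun m => ?_)
    ring_nf
  -- summability of psi part
  have hs2 : Summable (fun m : ℕ => Real.exp (-τ * m) * (K * min (ρ m) L)) := by
    refine Summable.of_nonneg_of_le (fun m => ?_) (fun m => ?_) (hexp.mul_right (K * L))
    · have : 0 ≤ min (ρ m) L := le_min (hρ m) hL0.le
      positivity
    · apply mul_le_mul_of_nonneg_left _ (Real.exp_pos _).le
      exact mul_le_mul_of_nonneg_left (min_le_right _ _) hK0.le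
  have hsψ : Summable (fun m : ℕ => Real.exp (-τ * m) * psi n K L (ρ m)) := by
    refine (hs1.add hs2).congr (fun m => ?_)
    unfold psi; ring
  -- D
  let D : ℝ → ℝ := fun r => psi n K L r - psi n K L (max (r - δ) 0)
  have hD0 : ∀ m, 0 ≤ D (ρ m) := fun m => by
    have := psi_mono n (K := K) (L := L) hK0.le (le_max_right (ρ m - δ) 0)
      (max_le (by linarith) (hρ m))
    simp only [D]; linarith
  have hDψ : ∀ m, D (ρ m) ≤ psi n K L (ρ m) := fun m => by
    have := psi_nonneg n (K := K) (L := L) hK0.le hL0.le (le_max_right (ρ m - δ) 0)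
    simp only [D]; linarith
  have hsD : Summable (fun m : ℕ => Real.exp (-τ * m) * D (ρ m)) :=
    Summable.of_nonneg_of_le (fun m => mul_nonneg (Real.exp_pos _).le (hD0 m))
      (fun m => mul_le_mul_of_nonneg_left (hDψ m) (Real.exp_pos _).le) hsψ
  -- Abel summation
  have hAbel : ∑' m : ℕ, Real.exp (-τ * m) * D (ρ m) ≤
      w * ∑' m : ℕ, Real.exp (-τ * m) * psi n K L (ρ m) := by
    have e1 := hsψ.sum_add_tsum_nat_add k
    have e2 := hsD.sum_add_tsum_nat_add k
    have e3 : ∑' m : ℕ, Real.exp (-τ * k) * (Real.exp (-τ * m) * psi n K L (ρ m)) =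
        Real.exp (-τ * k) * ∑' m : ℕ, Real.exp (-τ * m) * psi n K L (ρ m) := tsum_mul_left
    have h1 : ∑ i ∈ range k, Real.exp (-τ * i) * D (ρ i) ≤
        ∑ i ∈ range k, Real.exp (-τ * i) * psi n K L (ρ i) :=
      Finset.sum_le_sum (fun i _ => mul_le_mul_of_nonneg_left (hDψ i) (Real.exp_pos _).le)
    have hsh1 : Summable (fun m : ℕ => Real.exp (-τ * ((m + k : ℕ) : ℝ)) * D (ρ (m + k))) :=
      (summable_nat_add_iff k).2 hsD
    have hsh2 : Summable (fun m : ℕ => Real.exp (-τ * ((m + k : ℕ) : ℝ)) *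
        psi n K L (ρ (m + k))) := (summable_nat_add_iff k).2 hsψ
    have hsh3 : Summable (fun m : ℕ => Real.exp (-τ * k) *
        (Real.exp (-τ * m) * psi n K L (ρ m))) := hsψ.mul_left _
    have h2 : ∑' m : ℕ, Real.exp (-τ * ((m + k : ℕ) : ℝ)) * D (ρ (m + k)) ≤
        ∑' m : ℕ, (Real.exp (-τ * ((m + k : ℕ) : ℝ)) * psi n K L (ρ (m + k)) -
          Real.exp (-τ * k) * (Real.exp (-τ * m) * psi n K L (ρ m))) := by
      apply Summable.tsum_le_tsum _ hsh1 (hsh2.sub hsh3)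
      intro m
      have e4 : Real.exp (-τ * ((m + k : ℕ) : ℝ)) = Real.exp (-τ * k) * Real.exp (-τ * m) := by
        rw [← Real.exp_add]; congr 1; push_cast; ring
      rw [e4]
      have h3 : psi n K L (ρ m) ≤ psi n K L (max (ρ (m + k) - δ) 0) := by
        apply psi_mono n hK0.le (hρ m)
        rcases (hρ m).eq_or_lt with h | h
        · rw [← h]; exact le_max_right _ _
        · have := hgr m h
          exact le_trans (by linarith) (le_max_left _ _)
      have h4 : 0 ≤ Real.exp (-τ * (k : ℝ)) * Real.exp (-τ * (m : ℝ)) := by positivity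
      simp only [D]
      nlinarith [mul_le_mul_of_nonneg_left h3 h4]
    rw [Summable.tsum_sub hsh2 hsh3, e3] at h2
    rw [hw]
    nlinarith [e1, e2, h1, h2]
  -- combine
  have hfin : (1 - 4 * a) * (n * k) * ∑' m : ℕ, Real.exp (-τ * m) * ρ m ^ n ≤
      w * ∑' m : ℕ, Real.exp (-τ * m) * hN n (ρ m) := by
    have hle : ∀ m : ℕ, (1 - 4 * a) * (n * k) * (Real.exp (-τ * m) * ρ m ^ n) ≤
        w * (Real.exp (-τ * m) * hN n (ρ m)) - w * (Real.exp (-τ * m) * psi n K L (ρ m)) +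
          Real.exp (-τ * m) * D (ρ m) := by
      intro m
      have hp := pointwise hn ha ha4 hk0 hw0 (hwτ.trans hτk) (hρ m)
      rw [← hΛ, ← hδ, ← hK, ← hL] at hp
      have hE : 0 ≤ Real.exp (-τ * (m : ℝ)) := (Real.exp_pos _).le
      have := mul_le_mul_of_nonneg_left hp hE
      simp only [D]
      nlinarith [this]
    have hsum := Summable.tsum_le_tsum hle (hs.mul_left _)
      (((hs1.mul_left w).sub (hsψ.mul_left w)).add hsD)
    rw [tsum_mul_left, Summable.tsum_add ((hs1.mul_left w).sub (hsψ.mul_left w)) hsD,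
      Summable.tsum_sub (hs1.mul_left w) (hsψ.mul_left w), tsum_mul_left, tsum_mul_left] at hsum
    linarith
  have hpos : 0 ≤ ∑' m : ℕ, Real.exp (-τ * m) * hN n (ρ m) :=
    tsum_nonneg (fun m => mul_nonneg (Real.exp_pos _).le (hN_nonneg n (hρ m)))
  have h9 : w * ∑' m : ℕ, Real.exp (-τ * m) * hN n (ρ m) ≤
      τ * k * ∑' m : ℕ, Real.exp (-τ * m) * hN n (ρ m) :=
    mul_le_mul_of_nonneg_right hwτ hpos
  have h10 := hfin.trans h9
  have hτk0 : 0 < τ * k := by positivity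
  rw [← mul_le_mul_iff_right₀ hτk0]
  refine le_trans (le_of_eq ?_) h10
  field_simp

end Crest.Agent.R271.CaseB553
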