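import Mathlib
import Crest.Agent.R271.CaseB1_553

/-!
# Row 271, Part 9.4: numerical estimates for `s_j = binom(j+n-1,n-1)`
-/

set_option autoImplicit false

open Finset
open scoped Nat

namespace Crest.Agent.R271.CaseB553

/-- number of monomials of degree `j` in `p+1` variables -/
def sj (p j : ℕ) : ℕ := (j + p).choose p

lemma sj_le (p j : ℕ) : (sj p j : ℝ) ≤ ((j : ℝ) + p) ^ p / p ! := by
  have := Nat.choose_le_pow_div (α := ℝ) p (j + p)
  unfold sj
  push_cast at this ⊢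
  exact this

lemma le_sj (p j : ℕ) : ((j : ℝ)) ^ p / p ! ≤ sj p j := by
  have := Nat.pow_le_choose (α := ℝ) p (j + p)
  unfold sj
  refine le_trans ?_ this
  have h : j + p + 1 - p = j + 1 := by omega
  rw [h]
  apply div_le_div_of_nonneg_right _ (by positivity)
  apply pow_le_pow_left₀ (by positivity)
  push_cast; linarith

/-- primitive of `(Q-x) x^p / p!` -/
noncomputable def HH (p : ℕ) (Q x : ℝ) : ℝ :=
  (Q * x ^ (p + 1) / (p + 1) - x ^ (p + 2) / (p + 2)) / p !

lemma HH_nonneg (p : ℕ) {Q x : ℝ} (hx : 0 ≤ x) (hxQ : x ≤ Q) : 0 ≤ HH p Q x := by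
  unfold HH
  apply div_nonneg _ (by positivity)
  have h1 : x ^ (p + 2) / ((p : ℝ) + 2) ≤ x ^ (p + 2) / ((p : ℝ) + 1) := by
    apply div_le_div_of_nonneg_left (by positivity) (by positivity) (by linarith)
  have h2 : x ^ (p + 2) / ((p : ℝ) + 1) ≤ Q * x ^ (p + 1) / (p + 1) := by
    apply div_le_div_of_nonneg_right _ (by positivity)
    have : x ^ (p + 2) = x * x ^ (p + 1) := by ring
    rw [this]
    exact mul_le_mul_of_nonneg_right hxQ (by positivity)
  linarith

lemma HH_le (p : ℕ) {Q x : ℝ} (hx : 0 ≤ x) (hxQ : x ≤ Q) :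
    HH p Q x ≤ Q ^ (p + 2) / (p + 2)! := by
  have h := pow_add_ge hx (show 0 ≤ Q - x by linarith) (p + 1)
  have e : x + (Q - x) = Q := by ring
  rw [e] at h
  unfold HH
  have hf : ((p + 2)! : ℝ) = (p + 2) * ((p + 1) * p !) := by
    rw [Nat.factorial_succ, Nat.factorial_succ]; push_cast; ring
  rw [hf]
  rw [div_le_div_iff₀ (by positivity) (by positivity)]
  have hp : (0 : ℝ) < p ! := by positivity
  have e2 : (Q * x ^ (p + 1) / (p + 1) - x ^ (p + 2) / (p + 2)) * ((p + 2) * ((p + 1) * (p ! : ℝ))) =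
      ((p + 2) * Q * x ^ (p + 1) - (p + 1) * x ^ (p + 2)) * p ! := by
    field_simp
  rw [e2]
  apply mul_le_mul_of_nonneg_right _ hp.le
  push_cast at h
  have e3 : x ^ (p + 2) = x * x ^ (p + 1) := by ring
  have e4 : x ^ (p + 1 + 1) = x * x ^ (p + 1) := by ring
  have e5 : Q ^ (p + 1 + 1) = Q ^ (p + 2) := rfl
  rw [e4, e5] at h
  rw [e3]
  nlinarith [h]

lemma HH_step (p : ℕ) {Q y : ℝ} (hy : 0 ≤ y) (hyQ : y + 1 ≤ Q) :
    (Q - (y + 1)) * (y ^ p / p !) ≤ HH p Q (y + 1) - HH p Q y := by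
  unfold HH
  have hp : (0 : ℝ) < p ! := by positivity
  have hA := pow_add_ge hy (zero_le_one) p
  rw [mul_one] at hA
  set A : ℝ := (y + 1) ^ (p + 1) - y ^ (p + 1) with hAdef
  have hA' : (p + 1) * y ^ p ≤ A := by rw [hAdef]; linarith
  have e1 : (y + 1) ^ (p + 2) - y ^ (p + 2) = (y + 1) * A + y ^ (p + 1) := by
    rw [hAdef]; ring
  rw [← sub_div, mul_div_assoc']
  apply div_le_div_of_nonneg_right _ hp.le
  have hu : 0 ≤ Q - (y + 1) := by linarith
  have hp1 : (0 : ℝ) < (p : ℝ) + 1 := by positivity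
  have hp2 : (0 : ℝ) < (p : ℝ) + 2 := by positivity
  have e2 : (Q * (y + 1) ^ (p + 1) / ((p : ℝ) + 1) - (y + 1) ^ (p + 2) / (p + 2)) -
      (Q * y ^ (p + 1) / (p + 1) - y ^ (p + 2) / (p + 2)) =
      Q * A / (p + 1) - ((y + 1) * A + y ^ (p + 1)) / (p + 2) := by
    rw [← e1, hAdef]; ring
  rw [e2]
  have e3 : Q * A / ((p : ℝ) + 1) - ((y + 1) * A + y ^ (p + 1)) / (p + 2) =
      (Q - (y + 1)) * (A / (p + 1)) +
        ((y + 1) * A - (p + 1) * y ^ (p + 1)) / ((p + 1) * (p + 2)) := by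
    field_simp
    ring
  rw [e3]
  have h1 : y ^ p ≤ A / (p + 1) := by
    rw [le_div_iff₀ hp1]; linarith
  have h2 : 0 ≤ ((y + 1) * A - (p + 1) * y ^ (p + 1)) / (((p : ℝ) + 1) * (p + 2)) := by
    apply div_nonneg _ (by positivity)
    have h3 : (y + 1) * ((p + 1) * y ^ p) ≤ (y + 1) * A :=
      mul_le_mul_of_nonneg_left hA' (by linarith)
    have h4 : ((p : ℝ) + 1) * y ^ (p + 1) ≤ (y + 1) * ((p + 1) * y ^ p) := by
      have h5 : 0 ≤ ((p : ℝ) + 1) * y ^ p := by positivity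
      have h6 : ((p : ℝ) + 1) * y ^ (p + 1) = y * ((p + 1) * y ^ p) := by ring
      rw [h6]
      nlinarith
    linarith
  have := mul_le_mul_of_nonneg_left h1 hu
  linarith

/-- `∑_{j} (q-j)^+ s_j ≤ (q+n)^{n+1}/(n+1)!`, `n = p+1` -/
theorem sum_pos_part_le (p : ℕ) {q : ℝ} (hq : 0 ≤ q) (J : ℕ) :
    ∑ j ∈ range J, max (q - j) 0 * (sj p j : ℝ) ≤ (q + (p + 1)) ^ (p + 2) / (p + 2)! := by
  have key : ∀ K : ℕ, (K : ℝ) ≤ q + 1 →
      ∑ j ∈ range K, max (q - j) 0 * (sj p j : ℝ) ≤ HH p (q + (p + 1)) ((K : ℝ) + p) := by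
    intro K
    induction K with
    | zero =>
      intro _
      simp only [range_zero, sum_empty, CharP.cast_eq_zero, zero_add]
      exact HH_nonneg p (by positivity) (by linarith)
    | succ K ih =>
      intro hK
      push_cast at hK
      have hKq : (K : ℝ) ≤ q := by linarith
      rw [sum_range_succ]
      have h1 := ih (by linarith)
      have h2 := HH_step p (Q := q + (p + 1)) (y := (K : ℝ) + p) (by positivity) (by linarith)
      have h3 : max (q - K) 0 * (sj p K : ℝ) ≤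
          (q + (p + 1) - ((K : ℝ) + p + 1)) * (((K : ℝ) + p) ^ p / p !) := by
        rw [max_eq_left (by linarith)]
        have : q + ((p : ℝ) + 1) - ((K : ℝ) + p + 1) = q - K := by ring
        rw [this]
        exact mul_le_mul_of_nonneg_left (sj_le p K) (by linarith)
      have e : ((K + 1 : ℕ) : ℝ) + p = (K : ℝ) + p + 1 := by push_cast; ring
      rw [e]
      linarith
  have hfl : ((⌊q⌋₊ : ℕ) : ℝ) ≤ q := Nat.floor_le hq
  have h1 : ∑ j ∈ range J, max (q - j) 0 * (sj p j : ℝ) ≤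
      ∑ j ∈ range (⌊q⌋₊ + 1), max (q - j) 0 * (sj p j : ℝ) := by
    rcases le_total J (⌊q⌋₊ + 1) with h | h
    · exact sum_le_sum_of_subset_of_nonneg (range_mono h) (fun i _ _ => by positivity)
    · rw [← sum_subset (range_mono h)]
      intro x _ hx
      rw [mem_range, not_lt] at hx
      have : q < x := by
        have := Nat.lt_of_floor_lt (show ⌊q⌋₊ < x by omega)
        exact this
      rw [max_eq_right (by linarith), zero_mul]
  refine h1.trans ((key (⌊q⌋₊ + 1) (by push_cast; linarith)).trans ?_)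
  apply HH_le p (by positivity)
  push_cast; linarith

/-- the caps remove a definite amount -/
theorem sum_caps_ge (p : ℕ) {q β : ℝ} (hβ : 0 < β) (hβ2 : β ≤ 1 / 2) (hqβ : 4 ≤ q * β)
    (J : ℕ) (hJ : q ≤ J) (P : ℕ → Prop) [DecidablePred P]
    (hP : ∀ j : ℕ, q * (1 - β) < j → P j) :
    β ^ 2 / (8 * 2 ^ p * p !) * q ^ (p + 2) ≤
      ∑ j ∈ (range J).filter P, max (q - j) 0 * (sj p j : ℝ) := by
  have hq : 0 < q := by
    by_contra h
    push Not at h
    nlinarith
  set lo : ℕ := ⌊q * (1 - β)⌋₊ + 1 with hlo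
  set hi : ℕ := ⌊q * (1 - β / 2)⌋₊ with hhi
  have h1 : 0 ≤ q * (1 - β) := mul_nonneg hq.le (by linarith)
  have h2 : 0 ≤ q * (1 - β / 2) := mul_nonneg hq.le (by linarith)
  have hlo1 : ((lo : ℕ) : ℝ) ≤ q * (1 - β) + 1 := by
    rw [hlo]; push_cast
    have := Nat.floor_le h1
    linarith
  have hlo2 : q * (1 - β) < lo := by
    rw [hlo]; push_cast
    exact Nat.lt_floor_add_one _
  have hhi1 : (hi : ℝ) ≤ q * (1 - β / 2) := Nat.floor_le h2
  have hhi2 : q * (1 - β / 2) < hi + 1 := Nat.lt_floor_add_one _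
  have hsub : Icc lo hi ⊆ (range J).filter P := by
    intro j hj
    rw [mem_Icc] at hj
    rw [mem_filter, mem_range]
    constructor
    · have : (j : ℝ) < J := by
        have h3 : (j : ℝ) ≤ hi := by exact_mod_cast hj.2
        have : q * (β / 2) > 0 := by positivity
        nlinarith
      exact_mod_cast this
    · apply hP
      have : (lo : ℝ) ≤ j := by exact_mod_cast hj.1
      linarith
  have hterm : ∀ j ∈ Icc lo hi, (q * β / 2) * ((q / 2) ^ p / p !) ≤
      max (q - j) 0 * (sj p j : ℝ) := by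
    intro j hj
    rw [mem_Icc] at hj
    have h3 : (j : ℝ) ≤ hi := by exact_mod_cast hj.2
    have h4 : (lo : ℝ) ≤ j := by exact_mod_cast hj.1
    have h5 : q * β / 2 ≤ max (q - j) 0 := by
      apply le_trans _ (le_max_left _ _)
      nlinarith
    have h6 : (q / 2) ^ p / p ! ≤ (sj p j : ℝ) := by
      refine le_trans ?_ (le_sj p j)
      apply div_le_div_of_nonneg_right _ (by positivity)
      apply pow_le_pow_left₀ (by positivity)
      nlinarith
    exact mul_le_mul h5 h6 (by positivity) (le_max_right _ _)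
  have hcard : q * β / 4 ≤ ((Icc lo hi).card : ℝ) := by
    rw [Nat.card_Icc]
    have h3 : (hi : ℝ) + 1 - lo ≤ ((hi + 1 - lo : ℕ) : ℝ) := by
      have := Nat.le_sub_of_add_le (le_refl (hi + 1 - lo + lo))
      rcases le_total lo (hi + 1) with h | h
      · rw [Nat.cast_sub h]; push_cast; linarith
      · rw [Nat.sub_eq_zero_of_le h]
        have : ((hi + 1 : ℕ) : ℝ) ≤ lo := by exact_mod_cast h
        push_cast at this ⊢; linarith
    refine le_trans ?_ h3
    nlinarith
  calc β ^ 2 / (8 * 2 ^ p * p !) * q ^ (p + 2)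
      = (q * β / 4) * ((q * β / 2) * ((q / 2) ^ p / p !)) := by
        rw [div_pow]; field_simp; ring
    _ ≤ (Icc lo hi).card * ((q * β / 2) * ((q / 2) ^ p / p !)) :=
        mul_le_mul_of_nonneg_right hcard (by positivity)
    _ = ∑ j ∈ Icc lo hi, (q * β / 2) * ((q / 2) ^ p / p !) := by
        rw [sum_const, nsmul_eq_mul]
    _ ≤ ∑ j ∈ Icc lo hi, max (q - j) 0 * (sj p j : ℝ) := sum_le_sum hterm
    _ ≤ ∑ j ∈ (range J).filter P, max (q - j) 0 * (sj p j : ℝ) :=
        sum_le_sum_of_subset_of_nonneg hsub (fun i _ _ => by positivity)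

/-- number of exponents of degree `j` -/
lemma card_degree_eq (p j : ℕ) (S : Finset (Fin (p + 1) →₀ ℕ)) (hS : ∀ v ∈ S, v.degree = j) :
    S.card ≤ sj p j := by
  classical
  have hsub : S ⊆ (univ : Finset (Fin (p + 1))).finsuppAntidiag j := by
    intro v hv
    rw [mem_finsuppAntidiag]
    refine ⟨?_, subset_univ _⟩
    rw [← hS v hv, Finsupp.degree_eq_sum]
  have h := card_le_card hsub
  rw [card_finsuppAntidiag_nat_eq_choose] at h
  refine h.trans (le_of_eq ?_)
  unfold sj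
  rw [card_univ, Fintype.card_fin]
  have : p + 1 + j - 1 = j + p := by omega
  rw [this]
  exact (Nat.choose_symm_add).symm ▸ rfl

end Crest.Agent.R271.CaseB553
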