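import Mathlib

/-!
# Row 271, Part 9.1: leading exponents of finite dimensional spaces of power series
-/

set_option autoImplicit false

open Module

namespace Crest.Agent.R271.Lead553

section abstract_part

variable {K M Γ : Type*} [Field K] [AddCommGroup M] [Module K M] [LinearOrder Γ]
  [WellFoundedLT Γ] (ev : Γ → M →ₗ[K] K)

/-- leading positions of a subspace with respect to a well ordered family of functionals -/
def lset (W : Submodule K M) : Set Γ := {γ | ∃ w ∈ W, ev γ w ≠ 0 ∧ ∀ γ' < γ, ev γ' w = 0}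

lemma exists_lead {w : M} (h : ∃ γ, ev γ w ≠ 0) :
    ∃ γ, ev γ w ≠ 0 ∧ ∀ γ' < γ, ev γ' w = 0 := by
  have hne : {γ | ev γ w ≠ 0}.Nonempty := h
  refine ⟨(wellFounded_lt (α := Γ)).min _ hne, (wellFounded_lt (α := Γ)).min_mem _ hne, ?_⟩
  intro γ' hγ'
  by_contra hcon
  exact (wellFounded_lt (α := Γ)).not_lt_min _ hcon hγ'

lemma card_le (W : Submodule K M) [FiniteDimensional K W] (T : Finset Γ)
    (hT : (T : Set Γ) ⊆ lset ev W) : T.card ≤ finrank K W := by
  classical
  have hT' : ∀ γ : Γ, ∃ w : M, γ ∈ T → w ∈ W ∧ ev γ w ≠ 0 ∧ ∀ γ' < γ, ev γ' w = 0 := by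
    intro γ
    by_cases h : γ ∈ T
    · obtain ⟨w, h1, h2, h3⟩ := hT h
      exact ⟨w, fun _ => ⟨h1, h2, h3⟩⟩
    · exact ⟨0, fun h' => absurd h' h⟩
  choose w hww using hT'
  have hw : ∀ {γ}, γ ∈ T → w γ ∈ W := fun h => (hww _ h).1
  have hw1 : ∀ {γ}, γ ∈ T → ev γ (w γ) ≠ 0 := fun h => (hww _ h).2.1
  have hw2 : ∀ {γ}, γ ∈ T → ∀ γ' < γ, ev γ' (w γ) = 0 := fun h => (hww _ h).2.2
  have hli : LinearIndependent K (fun γ : T => (⟨w γ, hw γ.2⟩ : W)) := by
    rw [linearIndependent_iff']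
    intro s g hg i hi
    by_contra hgi
    -- minimal index with nonzero coefficient
    let s' := s.filter (fun i => g i ≠ 0)
    have hs' : s'.Nonempty := ⟨i, by simp [s', hi, hgi]⟩
    obtain ⟨j, hj, hjmin⟩ := s'.exists_min_image (fun i => (i : Γ)) hs'
    have hj' : j ∈ s ∧ g j ≠ 0 := by simpa [s'] using hj
    have h1 := congrArg (fun x : W => ev j (x : M)) hg
    simp only [Submodule.coe_zero, map_zero, AddSubmonoidClass.coe_finsetSum,
      Submodule.coe_smul, map_sum, map_smul, smul_eq_mul] at h1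
    rw [Finset.sum_eq_single_of_mem j hj'.1] at h1
    · rcases mul_eq_zero.1 h1 with h | h
      · exact hj'.2 h
      · exact hw1 j.2 h
    · intro b hb hbj
      by_cases hgb : g b = 0
      · simp [hgb]
      · have hb' : b ∈ s' := by simp [s', hb, hgb]
        have hlt : (j : Γ) < b := lt_of_le_of_ne (hjmin b hb') (fun h => hbj (Subtype.ext h.symm))
        rw [hw2 b.2 _ hlt, mul_zero]
  have := hli.fintype_card_le_finrank
  simpa using this

lemma finite_lset (W : Submodule K M) [FiniteDimensional K W] : (lset ev W).Finite := by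
  by_contra hinf
  obtain ⟨T, hT, hcard⟩ := (show (lset ev W).Infinite from hinf).exists_subset_card_eq
    (finrank K W + 1)
  have := card_le ev W T hT
  omega

lemma ncard_lset (W : Submodule K M) [FiniteDimensional K W]
    (hsep : ∀ w ∈ W, (∀ γ, ev γ w = 0) → w = 0) : (lset ev W).ncard = finrank K W := by
  classical
  have hfin := finite_lset ev W
  apply le_antisymm
  · rw [Set.ncard_eq_toFinset_card _ hfin]
    exact card_le ev W _ (by simp)
  · have : Fintype (lset ev W) := hfin.fintype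
    let φ : W →ₗ[K] (lset ev W → K) := LinearMap.pi (fun γ => (ev γ).comp W.subtype)
    have hinj : Function.Injective φ := by
      rw [← LinearMap.ker_eq_bot, LinearMap.ker_eq_bot']
      intro w hw
      by_contra hne
      have h1 : ∃ γ, ev γ (w : M) ≠ 0 := by
        by_contra hcon
        push Not at hcon
        exact hne (Subtype.ext (hsep w w.2 hcon))
      obtain ⟨γ, hγ, hγ'⟩ := exists_lead ev h1
      have := congrFun hw ⟨γ, ⟨w, w.2, hγ, hγ'⟩⟩
      exact hγ this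
    have := LinearMap.finrank_le_finrank_of_injective hinj
    rw [Module.finrank_pi] at this
    rw [Set.ncard_eq_toFinset_card' ]
    simpa [Set.toFinset_card] using this

end abstract_part

section series

variable {d r : ℕ}

/-- exponents, ordered by total degree and then lexicographically -/
abbrev Ex (d : ℕ) := DegLex (Fin d →₀ ℕ)

/-- coefficient functional on power series -/
noncomputable def ev1 (v : Ex d) : MvPowerSeries (Fin d) ℂ →ₗ[ℂ] ℂ :=
  MvPowerSeries.coeff (R := ℂ) (ofDegLex v)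

/-- coefficient functional on vectors of power series -/
noncomputable def evr (x : Ex d ×ₗ Fin r) : (Fin r → MvPowerSeries (Fin d) ℂ) →ₗ[ℂ] ℂ :=
  (MvPowerSeries.coeff (R := ℂ) (ofDegLex (ofLex x).1)).comp (LinearMap.proj (ofLex x).2)

/-- vectors of power series all of whose components have order at least `e` -/
def mpow (d r e : ℕ) : Submodule ℂ (Fin r → MvPowerSeries (Fin d) ℂ) where
  carrier := {f | ∀ i, ∀ v : Fin d →₀ ℕ, v.degree < e → MvPowerSeries.coeff v (f i) = 0}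
  add_mem' := by
    intro a b ha hb i v hv
    simp [ha i v hv, hb i v hv]
  zero_mem' := by
    intro i v hv
    simp
  smul_mem' := by
    intro c a ha i v hv
    simp [ha i v hv]

lemma mem_mpow {e : ℕ} {f : Fin r → MvPowerSeries (Fin d) ℂ} :
    f ∈ mpow d r e ↔ ∀ i, ∀ v : Fin d →₀ ℕ, v.degree < e → MvPowerSeries.coeff v (f i) = 0 :=
  Iff.rfl

lemma sep1 (S : Submodule ℂ (MvPowerSeries (Fin d) ℂ)) :
    ∀ w ∈ S, (∀ γ : Ex d, ev1 γ w = 0) → w = 0 := by
  intro w _ h
  ext v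
  exact h (toDegLex v)

lemma sepr (W : Submodule ℂ (Fin r → MvPowerSeries (Fin d) ℂ)) :
    ∀ w ∈ W, (∀ γ : Ex d ×ₗ Fin r, evr γ w = 0) → w = 0 := by
  intro w _ h
  funext i
  ext v
  exact h (toLex (toDegLex v, i))

/-- exponent attached to a position -/
def posE (x : Ex d ×ₗ Fin r) : Fin r × (Fin d →₀ ℕ) := ((ofLex x).2, ofDegLex (ofLex x).1)

lemma posE_injective : Function.Injective (posE (d := d) (r := r)) := by
  intro x y h
  have h1 : (ofLex x).2 = (ofLex y).2 := congrArg Prod.fst h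
  have h2 : ofDegLex (ofLex x).1 = ofDegLex (ofLex y).1 := congrArg Prod.snd h
  have h3 : ofLex x = ofLex y := Prod.ext (ofDegLex_injective h2) h1
  exact h3

open Classical in
/-- leading exponents of a space of vectors of power series -/
noncomputable def LE (W : Submodule ℂ (Fin r → MvPowerSeries (Fin d) ℂ)) :
    Finset (Fin r × (Fin d →₀ ℕ)) :=
  if h : (lset evr W).Finite then h.toFinset.image posE else ∅

open Classical in
/-- leading exponents of a space of power series -/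
noncomputable def LE1 (S : Submodule ℂ (MvPowerSeries (Fin d) ℂ)) : Finset (Fin d →₀ ℕ) :=
  if h : (lset ev1 S).Finite then h.toFinset.image ofDegLex else ∅

lemma mem_LE_iff (W : Submodule ℂ (Fin r → MvPowerSeries (Fin d) ℂ)) [FiniteDimensional ℂ W]
    (i : Fin r) (u : Fin d →₀ ℕ) :
    (i, u) ∈ LE W ↔ (toLex (toDegLex u, i) : Ex d ×ₗ Fin r) ∈ lset evr W := by
  classical
  have h : (lset evr W).Finite := finite_lset _ W
  unfold LE
  rw [dif_pos h]
  simp only [Finset.mem_image, Set.Finite.mem_toFinset]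
  constructor
  · rintro ⟨x, hx, hxe⟩
    have : x = toLex (toDegLex u, i) := posE_injective (by rw [hxe]; rfl)
    rwa [this] at hx
  · intro hx
    exact ⟨_, hx, rfl⟩

lemma mem_LE1_iff (S : Submodule ℂ (MvPowerSeries (Fin d) ℂ)) [FiniteDimensional ℂ S]
    (v : Fin d →₀ ℕ) :
    v ∈ LE1 S ↔ (toDegLex v : Ex d) ∈ lset ev1 S := by
  classical
  have h : (lset ev1 S).Finite := finite_lset _ S
  unfold LE1
  rw [dif_pos h]
  simp only [Finset.mem_image, Set.Finite.mem_toFinset]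
  constructor
  · rintro ⟨x, hx, rfl⟩
    exact hx
  · intro hx
    exact ⟨_, hx, rfl⟩

/-- explicit form of membership -/
lemma mem_LE (W : Submodule ℂ (Fin r → MvPowerSeries (Fin d) ℂ)) [FiniteDimensional ℂ W]
    (i : Fin r) (u : Fin d →₀ ℕ) :
    (i, u) ∈ LE W ↔ ∃ w ∈ W, MvPowerSeries.coeff u (w i) ≠ 0 ∧
      (∀ v, toDegLex v < toDegLex u → ∀ j, MvPowerSeries.coeff v (w j) = 0) ∧
      (∀ j < i, MvPowerSeries.coeff u (w j) = 0) := by
  rw [mem_LE_iff]
  constructor
  · rintro ⟨w, hw, h1, h2⟩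
    refine ⟨w, hw, h1, ?_, ?_⟩
    · intro v hv j
      exact h2 (toLex (toDegLex v, j)) (Prod.Lex.toLex_lt_toLex.2 (Or.inl hv))
    · intro j hj
      exact h2 (toLex (toDegLex u, j)) (Prod.Lex.toLex_lt_toLex.2 (Or.inr ⟨rfl, hj⟩))
  · rintro ⟨w, hw, h1, h2, h3⟩
    refine ⟨w, hw, h1, ?_⟩
    intro y hy
    rcases Prod.Lex.lt_iff.1 hy with h | ⟨h, h'⟩
    · exact h2 _ h _
    · have e1 : (ofLex y).1 = toDegLex u := h
      change MvPowerSeries.coeff (ofDegLex (ofLex y).1) (w (ofLex y).2) = 0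
      rw [e1]
      exact h3 _ h'

lemma mem_LE1 (S : Submodule ℂ (MvPowerSeries (Fin d) ℂ)) [FiniteDimensional ℂ S]
    (v : Fin d →₀ ℕ) :
    v ∈ LE1 S ↔ ∃ f ∈ S, MvPowerSeries.coeff v f ≠ 0 ∧
      (∀ u, toDegLex u < toDegLex v → MvPowerSeries.coeff u f = 0) := by
  rw [mem_LE1_iff]
  constructor
  · rintro ⟨w, hw, h1, h2⟩
    exact ⟨w, hw, h1, fun u hu => h2 (toDegLex u) hu⟩
  · rintro ⟨w, hw, h1, h2⟩
    exact ⟨w, hw, h1, fun u hu => h2 (ofDegLex u) hu⟩

/-- (1) number of leading exponents = dimension -/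
theorem card_LE (W : Submodule ℂ (Fin r → MvPowerSeries (Fin d) ℂ)) [FiniteDimensional ℂ W] :
    (LE W).card = finrank ℂ W := by
  classical
  have h : (lset evr W).Finite := finite_lset _ W
  rw [← ncard_lset evr W (sepr W), Set.ncard_eq_toFinset_card _ h]
  unfold LE
  rw [dif_pos h, Finset.card_image_of_injective _ posE_injective]

theorem card_LE1 (S : Submodule ℂ (MvPowerSeries (Fin d) ℂ)) [FiniteDimensional ℂ S] :
    (LE1 S).card = finrank ℂ S := by
  classical
  have h : (lset ev1 S).Finite := finite_lset _ S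
  rw [← ncard_lset ev1 S (sep1 S), Set.ncard_eq_toFinset_card _ h]
  unfold LE1
  rw [dif_pos h, Finset.card_image_of_injective _ ofDegLex_injective]

lemma degree_le_of_lt {u v : Fin d →₀ ℕ} (h : toDegLex u < toDegLex v) :
    u.degree ≤ v.degree := by
  rcases Finsupp.DegLex.lt_iff.1 h with h | h
  · exact h.le
  · exact h.1.le

lemma lt_of_degree_lt {u v : Fin d →₀ ℕ} (h : u.degree < v.degree) :
    toDegLex u < toDegLex v :=
  Finsupp.DegLex.lt_iff.2 (Or.inl h)

lemma LE_inf_mpow (W : Submodule ℂ (Fin r → MvPowerSeries (Fin d) ℂ)) [FiniteDimensional ℂ W]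
    (e : ℕ) : LE (W ⊓ mpow d r e) = (LE W).filter (fun x => e ≤ x.2.degree) := by
  classical
  ext ⟨i, u⟩
  rw [Finset.mem_filter, mem_LE, mem_LE]
  constructor
  · rintro ⟨w, hw, h1, h2, h3⟩
    refine ⟨⟨w, hw.1, h1, h2, h3⟩, ?_⟩
    by_contra hlt
    push Not at hlt
    exact h1 (hw.2 i u hlt)
  · rintro ⟨⟨w, hw, h1, h2, h3⟩, he⟩
    refine ⟨w, ⟨hw, ?_⟩, h1, h2, h3⟩
    intro j v hv
    exact h2 v (lt_of_degree_lt (lt_of_lt_of_le hv he)) j

/-- (2) order jumps and leading exponents -/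
theorem card_filter_LE (W : Submodule ℂ (Fin r → MvPowerSeries (Fin d) ℂ))
    [FiniteDimensional ℂ W] (e : ℕ) :
    ((LE W).filter (fun x => e ≤ x.2.degree)).card =
      finrank ℂ (W ⊓ mpow d r e : Submodule ℂ (Fin r → MvPowerSeries (Fin d) ℂ)) := by
  rw [← LE_inf_mpow, card_LE]

lemma coeff_mul_lead {f g : MvPowerSeries (Fin d) ℂ} {v u : Fin d →₀ ℕ}
    (hf : ∀ v', toDegLex v' < toDegLex v → MvPowerSeries.coeff v' f = 0)
    (hg : ∀ u', toDegLex u' < toDegLex u → MvPowerSeries.coeff u' g = 0) :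
    MvPowerSeries.coeff (u + v) (f * g) =
      MvPowerSeries.coeff v f * MvPowerSeries.coeff u g := by
  classical
  rw [MvPowerSeries.coeff_mul]
  rw [Finset.sum_eq_single_of_mem (v, u) (by simp [add_comm])]
  rintro ⟨a, b⟩ hab hne
  rw [Finset.HasAntidiagonal.mem_antidiagonal] at hab
  simp only at hab
  rcases lt_or_ge (toDegLex a) (toDegLex v) with h | h
  · simp [hf a h]
  rcases lt_or_ge (toDegLex b) (toDegLex u) with h' | h'
  · simp [hg b h']
  exfalso
  have e : toDegLex a + toDegLex b = toDegLex v + toDegLex u := by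
    rw [← toDegLex_add, ← toDegLex_add, hab, add_comm]
  have h1 : toDegLex a = toDegLex v := by
    by_contra hcon
    have hlt : toDegLex v < toDegLex a := lt_of_le_of_ne h (Ne.symm hcon)
    have := add_lt_add_of_lt_of_le hlt h'
    rw [e] at this
    exact lt_irrefl _ this
  have h2 : toDegLex b = toDegLex u := by
    rw [h1] at e
    exact add_left_cancel e
  exact hne (Prod.ext (toDegLex_injective h1) (toDegLex_injective h2))

lemma coeff_mul_below {f g : MvPowerSeries (Fin d) ℂ} {v u x : Fin d →₀ ℕ}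
    (hf : ∀ v', toDegLex v' < toDegLex v → MvPowerSeries.coeff v' f = 0)
    (hg : ∀ u', toDegLex u' < toDegLex u → MvPowerSeries.coeff u' g = 0)
    (hx : toDegLex x < toDegLex (u + v)) :
    MvPowerSeries.coeff x (f * g) = 0 := by
  classical
  rw [MvPowerSeries.coeff_mul]
  apply Finset.sum_eq_zero
  rintro ⟨a, b⟩ hab
  rw [Finset.HasAntidiagonal.mem_antidiagonal] at hab
  simp only at hab
  rcases lt_or_ge (toDegLex a) (toDegLex v) with h | h
  · simp [hf a h]
  rcases lt_or_ge (toDegLex b) (toDegLex u) with h' | h'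
  · simp [hg b h']
  exfalso
  have h3 := add_le_add h h'
  rw [← toDegLex_add, ← toDegLex_add, hab, add_comm v u] at h3
  exact absurd hx (not_lt.2 h3)

/-- (3) leading exponents add up -/
theorem LE_add {S : Submodule ℂ (MvPowerSeries (Fin d) ℂ)}
    {W W2 : Submodule ℂ (Fin r → MvPowerSeries (Fin d) ℂ)} [FiniteDimensional ℂ S]
    [FiniteDimensional ℂ W] [FiniteDimensional ℂ W2]
    (h : ∀ f ∈ S, ∀ w ∈ W, f • w ∈ W2) {v : Fin d →₀ ℕ} (hv : v ∈ LE1 S) {i : Fin r}
    {u : Fin d →₀ ℕ} (hu : (i, u) ∈ LE W) : (i, u + v) ∈ LE W2 := by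
  rw [mem_LE1] at hv
  rw [mem_LE] at hu ⊢
  obtain ⟨f, hf, hf1, hf2⟩ := hv
  obtain ⟨w, hw, hw1, hw2, hw3⟩ := hu
  refine ⟨f • w, h f hf w hw, ?_, ?_, ?_⟩
  · rw [Pi.smul_apply, smul_eq_mul, coeff_mul_lead hf2 (fun u' hu' => hw2 u' hu' i)]
    exact mul_ne_zero hf1 hw1
  · intro x hx j
    rw [Pi.smul_apply, smul_eq_mul]
    exact coeff_mul_below hf2 (fun u' hu' => hw2 u' hu' j) hx
  · intro j hj
    rw [Pi.smul_apply, smul_eq_mul, coeff_mul_lead hf2 (fun u' hu' => hw2 u' hu' j), hw3 j hj,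
      mul_zero]

theorem LE1_add {S S' S2 : Submodule ℂ (MvPowerSeries (Fin d) ℂ)} [FiniteDimensional ℂ S]
    [FiniteDimensional ℂ S'] [FiniteDimensional ℂ S2]
    (h : ∀ f ∈ S, ∀ g ∈ S', f * g ∈ S2) {v : Fin d →₀ ℕ} (hv : v ∈ LE1 S)
    {u : Fin d →₀ ℕ} (hu : u ∈ LE1 S') : v + u ∈ LE1 S2 := by
  rw [mem_LE1] at hv hu ⊢
  obtain ⟨f, hf, hf1, hf2⟩ := hv
  obtain ⟨g, hg, hg1, hg2⟩ := hu
  refine ⟨f * g, h f hf g hg, ?_, ?_⟩
  · rw [add_comm v u, coeff_mul_lead hf2 hg2]
    exact mul_ne_zero hf1 hg1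
  · intro x hx
    rw [add_comm v u] at hx
    exact coeff_mul_below hf2 hg2 hx

/-- (4) jets -/
theorem mem_LE1_of_jets {S : Submodule ℂ (MvPowerSeries (Fin d) ℂ)} [FiniteDimensional ℂ S]
    {D : ℕ} (h : ∀ v : Fin d →₀ ℕ, v.degree ≤ D → ∃ f ∈ S, ∀ u : Fin d →₀ ℕ, u.degree ≤ D →
      MvPowerSeries.coeff u f = if u = v then 1 else 0) (v : Fin d →₀ ℕ) (hv : v.degree ≤ D) :
    v ∈ LE1 S := by
  rw [mem_LE1]
  obtain ⟨f, hf, hfu⟩ := h v hv
  refine ⟨f, hf, ?_, ?_⟩
  · rw [hfu v hv]; simp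
  · intro u hu
    rw [hfu u ((degree_le_of_lt hu).trans hv), if_neg]
    rintro rfl
    exact lt_irrefl _ hu

end series

end Crest.Agent.R271.Lead553
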