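import Mathlib
import Crest.Agent.R271.CNT_376
import Crest.Agent.R271.Lead_553
import Crest.Agent.R271.CaseB1_553
import Crest.Agent.R271.CaseB2_553

/-!
# Row 271, Part 9.4: Case B, the combinatorial pieces
-/

set_option autoImplicit false

open Finset Module
open scoped Nat

namespace Crest.Agent.R271.CaseB553

open Crest.Agent.R271.Lead553
open Crest.Agent.R271.C376 (rad rad_nonneg rad_pow rad_zero rad_growth le_rad)

/-- power series of order at least `e` -/
def mpow1 (n e : ℕ) : Submodule ℂ (MvPowerSeries (Fin n) ℂ) where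
  carrier := {f | ∀ v : Fin n →₀ ℕ, v.degree < e → MvPowerSeries.coeff v f = 0}
  add_mem' := by
    intro a b ha hb v hv
    simp [ha v hv, hb v hv]
  zero_mem' := by
    intro v hv
    simp
  smul_mem' := by
    intro c a ha v hv
    simp [ha v hv]

lemma mem_mpow1 {n e : ℕ} {f : MvPowerSeries (Fin n) ℂ} :
    f ∈ mpow1 n e ↔ ∀ v : Fin n →₀ ℕ, v.degree < e → MvPowerSeries.coeff v f = 0 := Iff.rfl

lemma LE1_inf_mpow1 {n : ℕ} (W : Submodule ℂ (MvPowerSeries (Fin n) ℂ)) [FiniteDimensional ℂ W]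
    (e : ℕ) : LE1 (W ⊓ mpow1 n e) = (LE1 W).filter (fun x => e ≤ x.degree) := by
  classical
  ext u
  rw [Finset.mem_filter, mem_LE1, mem_LE1]
  constructor
  · rintro ⟨w, hw, h1, h2⟩
    refine ⟨⟨w, hw.1, h1, h2⟩, ?_⟩
    by_contra hlt
    exact h1 (hw.2 u (by omega))
  · rintro ⟨⟨w, hw, h1, h2⟩, hle⟩
    refine ⟨w, ⟨hw, ?_⟩, h1, h2⟩
    intro v hv
    exact h2 v (lt_of_degree_lt (by omega))

lemma card_filter_LE1 {n : ℕ} (W : Submodule ℂ (MvPowerSeries (Fin n) ℂ))
    [FiniteDimensional ℂ W] (e : ℕ) :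
    ((LE1 W).filter (fun x => e ≤ x.degree)).card =
      finrank ℂ (W ⊓ mpow1 n e : Submodule ℂ (MvPowerSeries (Fin n) ℂ)) := by
  rw [← LE1_inf_mpow1, card_LE1]

lemma card_filter_eq_LE1 {n : ℕ} (W : Submodule ℂ (MvPowerSeries (Fin n) ℂ))
    [FiniteDimensional ℂ W] (j : ℕ) :
    ((LE1 W).filter (fun x => x.degree = j)).card +
      finrank ℂ (W ⊓ mpow1 n (j + 1) : Submodule ℂ (MvPowerSeries (Fin n) ℂ)) =
      finrank ℂ (W ⊓ mpow1 n j : Submodule ℂ (MvPowerSeries (Fin n) ℂ)) := by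
  classical
  rw [← card_filter_LE1, ← card_filter_LE1, ← Finset.card_union_of_disjoint]
  · congr 1
    ext x
    simp only [Finset.mem_union, Finset.mem_filter]
    constructor
    · rintro (⟨h, h2⟩ | ⟨h, h2⟩)
      · exact ⟨h, h2.ge⟩
      · exact ⟨h, by omega⟩
    · rintro ⟨h, h2⟩
      rcases Nat.eq_or_lt_of_le h2 with h3 | h3
      · exact Or.inl ⟨h, h3.symm⟩
      · exact Or.inr ⟨h, h3⟩
  · rw [Finset.disjoint_left]
    intro x hx hx2
    rw [Finset.mem_filter] at hx hx2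
    omega

/-- sum of the degrees of the leading exponents -/
lemma sum_degree_LE1 {n : ℕ} (W : Submodule ℂ (MvPowerSeries (Fin n) ℂ))
    [FiniteDimensional ℂ W] (P : ℕ) (hP : W ⊓ mpow1 n (P + 1) = ⊥) :
    ∑ e ∈ Finset.Icc 1 P, finrank ℂ (W ⊓ mpow1 n e : Submodule ℂ (MvPowerSeries (Fin n) ℂ)) =
      ∑ v ∈ LE1 W, v.degree := by
  classical
  have h0 : ∀ v ∈ LE1 W, v.degree ≤ P := by
    intro v hv
    by_contra hlt
    have h1 : ((LE1 W).filter (fun x => P + 1 ≤ x.degree)).card = 0 := by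
      rw [card_filter_LE1, hP]; simp
    rw [Finset.card_eq_zero, Finset.filter_eq_empty_iff] at h1
    exact h1 hv (by omega)
  calc ∑ e ∈ Finset.Icc 1 P, finrank ℂ (W ⊓ mpow1 n e : Submodule ℂ (MvPowerSeries (Fin n) ℂ))
      = ∑ e ∈ Finset.Icc 1 P, ((LE1 W).filter (fun x => e ≤ x.degree)).card :=
        Finset.sum_congr rfl fun e _ => (card_filter_LE1 W e).symm
    _ = ∑ e ∈ Finset.Icc 1 P, ∑ x ∈ LE1 W, (if e ≤ x.degree then 1 else 0) := by
        refine Finset.sum_congr rfl fun e _ => ?_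
        rw [Finset.card_filter]
    _ = ∑ x ∈ LE1 W, ∑ e ∈ Finset.Icc 1 P, (if e ≤ x.degree then 1 else 0) := Finset.sum_comm
    _ = ∑ v ∈ LE1 W, v.degree := by
        refine Finset.sum_congr rfl fun x hx => ?_
        rw [← Finset.card_filter]
        have : (Finset.Icc 1 P).filter (fun e => e ≤ x.degree) = Finset.Icc 1 x.degree := by
          ext e
          simp only [Finset.mem_filter, Finset.mem_Icc]
          have := h0 x hx
          constructor
          · rintro ⟨⟨h1, h2⟩, h3⟩; exact ⟨h1, h3⟩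
          · rintro ⟨h1, h2⟩; exact ⟨⟨h1, by omega⟩, h2⟩
        rw [this, Nat.card_Icc]; omega

/-- bathtub inequality, raw form -/
lemma bathtub_raw {n : ℕ} (E : Finset (Fin n →₀ ℕ)) {q : ℝ} (J : ℕ) (hJ : q ≤ J) :
    q * E.card - ∑ j ∈ range J, max (q - j) 0 * ((E.filter (fun v => v.degree = j)).card : ℝ) ≤
      ∑ v ∈ E, (v.degree : ℝ) := by
  classical
  have h1 : ∑ v ∈ E, (q - v.degree) ≤ ∑ v ∈ E, max (q - v.degree) 0 :=
    Finset.sum_le_sum fun v _ => le_max_left _ _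
  have h2 : ∑ v ∈ E, (q - (v.degree : ℝ)) = q * E.card - ∑ v ∈ E, (v.degree : ℝ) := by
    rw [Finset.sum_sub_distrib, Finset.sum_const, nsmul_eq_mul, mul_comm]
  have h3 : ∑ v ∈ E, max (q - (v.degree : ℝ)) 0 =
      ∑ j ∈ range J, max (q - j) 0 * ((E.filter (fun v => v.degree = j)).card : ℝ) := by
    have h4 : ∑ v ∈ E, max (q - (v.degree : ℝ)) 0 =
        ∑ v ∈ E.filter (fun v => v.degree < J), max (q - (v.degree : ℝ)) 0 := by
      rw [Finset.sum_filter]
      refine Finset.sum_congr rfl fun v _ => ?_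
      split_ifs with h
      · rfl
      · apply max_eq_right
        have : (J : ℝ) ≤ v.degree := by exact_mod_cast not_lt.1 h
        linarith
    rw [h4, ← Finset.sum_fiberwise_of_maps_to (s := E.filter (fun v => v.degree < J))
      (t := range J) (g := fun v => v.degree)
      (fun v hv => by rw [Finset.mem_range]; exact (Finset.mem_filter.1 hv).2)]
    refine Finset.sum_congr rfl fun j hj => ?_
    have h5 : (E.filter (fun v => v.degree < J)).filter (fun v => v.degree = j) =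
        E.filter (fun v => v.degree = j) := by
      ext v
      simp only [Finset.mem_filter]
      rw [Finset.mem_range] at hj
      constructor
      · rintro ⟨⟨a, b⟩, c⟩; exact ⟨a, c⟩
      · rintro ⟨a, c⟩; exact ⟨⟨a, by omega⟩, c⟩
    rw [h5, Finset.sum_congr rfl (g := fun _ => max (q - (j : ℝ)) 0)]
    · rw [Finset.sum_const, nsmul_eq_mul, mul_comm]
    · intro v hv
      rw [(Finset.mem_filter.1 hv).2]
  rw [h2, h3] at h1
  linarith

lemma card_degree_le (p : ℕ) (E : Finset (Fin (p + 1) →₀ ℕ)) (j : ℕ) :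
    (E.filter (fun v => v.degree = j)).card ≤ sj p j :=
  card_degree_eq p j _ fun v hv => (Finset.mem_filter.1 hv).2

/-- upper bound of the radius expression -/
lemma pow_radius_le (p : ℕ) {q : ℝ} (hq : 1 ≤ q) :
    (q + ((p : ℝ) + 1)) ^ (p + 2) ≤
      q ^ (p + 2) + (p + 2) * (p + 1) * (p + 2) ^ (p + 1) * q ^ (p + 1) := by
  have h := pow_add_le (y := q) (b := (p : ℝ) + 1) (by linarith) (by positivity) (p + 1)
  have h2 : (q + ((p : ℝ) + 1)) ^ (p + 1) ≤ ((p + 2) * q) ^ (p + 1) := by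
    apply pow_le_pow_left₀ (by positivity)
    nlinarith [Nat.cast_nonneg (α := ℝ) p]
  rw [mul_pow] at h2
  push_cast at h
  have h3 : ((p : ℝ) + 1 + 1) * (p + 1) * (q + ((p : ℝ) + 1)) ^ (p + 1) ≤
      ((p : ℝ) + 1 + 1) * (p + 1) * ((p + 2) ^ (p + 1) * q ^ (p + 1)) :=
    mul_le_mul_of_nonneg_left h2 (by positivity)
  have e1 : ((p : ℝ) + 1 + 1) * (p + 1) * ((p + 2) ^ (p + 1) * q ^ (p + 1)) =
    (p + 2) * (p + 1) * (p + 2) ^ (p + 1) * q ^ (p + 1) := by ring
  rw [e1] at h3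
  exact h.trans (by linarith)

/-- the constant `K1` -/
noncomputable def KK (p : ℕ) : ℝ := (p + 2) * (p + 1) * (p + 2) ^ (p + 1) / (p + 2)!

lemma KK_nonneg (p : ℕ) : 0 ≤ KK p := by unfold KK; positivity

/-- bathtub for all finite sets -/
lemma bath_all (p : ℕ) (E : Finset (Fin (p + 1) →₀ ℕ)) :
    hN (p + 1) (rad (p + 1) E.card) / (p + 1)! - KK p * rad (p + 1) E.card ^ (p + 1) ≤
      ∑ v ∈ E, (v.degree : ℝ) := by
  classical
  set q := rad (p + 1) E.card with hq
  have hq0 : 0 ≤ q := rad_nonneg _ _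
  have hqp : q ^ (p + 1) / (p + 1)! = E.card := rad_pow (by omega) _
  obtain ⟨J, hJ⟩ := exists_nat_ge q
  have hb := bathtub_raw E J hJ
  rcases Nat.eq_zero_or_pos E.card with h0 | hpos
  · have hE : E = ∅ := Finset.card_eq_zero.1 h0
    have hq00 : q = 0 := by rw [hq, h0]; exact rad_zero (by omega)
    rw [hq00, hE]
    simp [hN]
  have hq1 : 1 ≤ q := by
    have h1 : (1 : ℝ) ≤ E.card := by exact_mod_cast hpos
    rw [← hqp, le_div_iff₀ (by positivity), one_mul] at h1
    have h2 : (1 : ℝ) ≤ (p + 1)! := by exact_mod_cast Nat.one_le_iff_ne_zero.2 (Nat.factorial_ne_zero _)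
    by_contra hlt
    push Not at hlt
    have : q ^ (p + 1) < 1 := pow_lt_one₀ hq0 hlt (by omega)
    linarith
  have h1 : ∑ j ∈ range J, max (q - j) 0 * ((E.filter (fun v => v.degree = j)).card : ℝ) ≤
      (q + (p + 1)) ^ (p + 2) / (p + 2)! := by
    refine le_trans (Finset.sum_le_sum fun j _ => ?_) (sum_pos_part_le p hq0 J)
    exact mul_le_mul_of_nonneg_left (by exact_mod_cast card_degree_le p E j) (le_max_right _ _)
  have h2 := pow_radius_le p hq1
  have h3 : (q + (p + 1)) ^ (p + 2) / ((p + 2)! : ℝ) ≤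
      q ^ (p + 2) / (p + 2)! + KK p * q ^ (p + 1) := by
    unfold KK
    rw [div_mul_eq_mul_div, ← add_div]
    exact div_le_div_of_nonneg_right h2 (by positivity)
  have hf : ((p + 2)! : ℝ) = (p + 2) * (p + 1)! := by
    rw [Nat.factorial_succ]; push_cast; ring
  have h4 : q * E.card - q ^ (p + 2) / (p + 2)! = hN (p + 1) q / (p + 1)! := by
    rw [← hqp, hf]
    unfold hN
    push_cast
    have : (0 : ℝ) < (p + 1)! := by positivity
    field_simp
    ring
  linarith

/-- bathtub with caps -/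
lemma bath_caps (p : ℕ) (E : Finset (Fin (p + 1) →₀ ℕ)) {c β : ℝ} (hc : 0 ≤ c)
    (hβ : 0 < β) (hβ2 : β ≤ 1 / 2)
    (hqβ : 4 ≤ rad (p + 1) E.card * β)
    (hcap : ∀ j : ℕ, rad (p + 1) E.card * (1 - β) < j →
      ((E.filter (fun v => v.degree = j)).card : ℝ) ≤ (1 - c) * sj p j) :
    hN (p + 1) (rad (p + 1) E.card) / (p + 1)! - KK p * rad (p + 1) E.card ^ (p + 1)
      + c * (β ^ 2 / (8 * 2 ^ p * p !)) * rad (p + 1) E.card ^ (p + 2) ≤
      ∑ v ∈ E, (v.degree : ℝ) := by
  classical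
  set q := rad (p + 1) E.card with hq
  have hq0 : 0 ≤ q := rad_nonneg _ _
  have hqp : q ^ (p + 1) / (p + 1)! = E.card := rad_pow (by omega) _
  obtain ⟨J, hJ⟩ := exists_nat_ge q
  have hb := bathtub_raw E J hJ
  have hq1 : 1 ≤ q := by nlinarith
  have h1 : ∑ j ∈ range J, max (q - j) 0 * ((E.filter (fun v => v.degree = j)).card : ℝ) ≤
      (q + (p + 1)) ^ (p + 2) / (p + 2)! - c * (β ^ 2 / (8 * 2 ^ p * p !)) * q ^ (p + 2) := by
    have hA := sum_pos_part_le p hq0 J
    have hB := sum_caps_ge p hβ hβ2 hqβ J hJ (fun j => q * (1 - β) < (j : ℝ)) (fun j h => h)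
    have hC : ∑ j ∈ range J, max (q - j) 0 * ((E.filter (fun v => v.degree = j)).card : ℝ) ≤
        ∑ j ∈ range J, max (q - j) 0 * (sj p j : ℝ) -
        c * ∑ j ∈ (range J).filter (fun j : ℕ => q * (1 - β) < (j : ℝ)),
          max (q - j) 0 * (sj p j : ℝ) := by
      rw [Finset.sum_filter, Finset.mul_sum, ← Finset.sum_sub_distrib]
      refine Finset.sum_le_sum fun j _ => ?_
      have hm : 0 ≤ max (q - (j : ℝ)) 0 := le_max_right _ _
      split_ifs with h
      · have := mul_le_mul_of_nonneg_left (hcap j h) hm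
        calc max (q - (j : ℝ)) 0 * ((E.filter (fun v => v.degree = j)).card : ℝ)
            ≤ max (q - (j : ℝ)) 0 * ((1 - c) * sj p j) := this
          _ = _ := by ring
      · rw [mul_zero, sub_zero]
        exact mul_le_mul_of_nonneg_left (by exact_mod_cast card_degree_le p E j) hm
    have hD := mul_le_mul_of_nonneg_left hB hc
    have e1 : c * (β ^ 2 / (8 * 2 ^ p * p !) * q ^ (p + 2)) =
      c * (β ^ 2 / (8 * 2 ^ p * p !)) * q ^ (p + 2) := by ring
    rw [e1] at hD
    linarith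
  have h2 := pow_radius_le p hq1
  have h3 : (q + (p + 1)) ^ (p + 2) / ((p + 2)! : ℝ) ≤
      q ^ (p + 2) / (p + 2)! + KK p * q ^ (p + 1) := by
    unfold KK
    rw [div_mul_eq_mul_div, ← add_div]
    exact div_le_div_of_nonneg_right h2 (by positivity)
  have hf : ((p + 2)! : ℝ) = (p + 2) * (p + 1)! := by
    rw [Nat.factorial_succ]; push_cast; ring
  have h4 : q * E.card - q ^ (p + 2) / (p + 2)! = hN (p + 1) q / (p + 1)! := by
    rw [← hqp, hf]
    unfold hN
    push_cast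
    have : (0 : ℝ) < (p + 1)! := by positivity
    field_simp
    ring
  linarith

/-- growth of the radii of leading exponents of a multiplicative family of spaces -/
lemma rad_step {n : ℕ} (hn : 1 ≤ n) (V : ℕ → Submodule ℂ (MvPowerSeries (Fin n) ℂ))
    (hfd : ∀ m, FiniteDimensional ℂ (V m))
    (hmul : ∀ i j, ∀ f ∈ V i, ∀ g ∈ V j, f * g ∈ V (i + j)) (j0 j1 : ℕ)
    (hjets : ∀ v : Fin n →₀ ℕ, v.degree ≤ n → ∃ f ∈ V j0, ∀ u : Fin n →₀ ℕ, u.degree ≤ n →
      MvPowerSeries.coeff u f = if u = v then 1 else 0)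
    {a : ℝ} (ha : 0 < a) (ha1 : a ≤ 1)
    (hsize : ∀ j, j1 ≤ j → (1 - a / 2) * (j : ℝ) ^ n / (n)! ≤ (finrank ℂ (V j) : ℝ))
    (k : ℕ) (hk : j0 + j1 + 1 ≤ k) (hk2 : 2 * (j0 : ℝ) ≤ a * k) (m : ℕ)
    (hm : 0 < (LE1 (V m)).card) :
    rad n (LE1 (V m)).card + (1 - a) * k ≤ rad n (LE1 (V (m + k))).card := by
  classical
  have hfd' := hfd
  let Sig : ℕ → Finset (Fin n → ℕ) := fun j => (LE1 (V j)).image (fun v : Fin n →₀ ℕ => (⇑v : Fin n → ℕ))
  have hmem : ∀ j (v : Fin n → ℕ), v ∈ Sig j ↔ Finsupp.equivFunOnFinite.symm v ∈ LE1 (V j) := by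
    intro j v
    constructor
    · intro hv
      obtain ⟨w, hw, rfl⟩ := Finset.mem_image.1 hv
      simpa using hw
    · intro hv
      exact Finset.mem_image.2 ⟨_, hv, by simp⟩
  have hcard : ∀ j, (Sig j).card = (LE1 (V j)).card := fun j =>
    Finset.card_image_of_injective _ DFunLike.coe_injective
  have hadd : ∀ i j, ∀ u ∈ Sig i, ∀ v ∈ Sig j, u + v ∈ Sig (i + j) := by
    intro i j u hu v hv
    rw [hmem] at hu hv ⊢
    have h1 := LE1_add (hmul i j) hu hv
    have e : Finsupp.equivFunOnFinite.symm (u + v) =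
        Finsupp.equivFunOnFinite.symm u + Finsupp.equivFunOnFinite.symm v := by
      ext i; simp
    rw [e]; exact h1
  have hcube : ∀ c : Fin n → ℕ, (∀ i, c i ≤ 1) → c ∈ Sig j0 := by
    intro c hc
    rw [hmem]
    refine mem_LE1_of_jets hjets _ ?_
    rw [Finsupp.degree_eq_sum]
    calc ∑ i, (Finsupp.equivFunOnFinite.symm c) i ≤ ∑ i : Fin n, 1 :=
          Finset.sum_le_sum fun i _ => by simpa using hc i
      _ = n := by simp
  have hsz := hsize (k - j0) (by omega)
  have hkj : (0 : ℝ) < ((k - j0 : ℕ) : ℝ) := by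
    have : 0 < k - j0 := by omega
    exact_mod_cast this
  have hB : (Sig (k - j0)).Nonempty := by
    rw [← Finset.card_pos, hcard, card_LE1]
    have h2 : (0 : ℝ) < (1 - a / 2) * ((k - j0 : ℕ) : ℝ) ^ n / (n)! := by
      have : (0 : ℝ) < 1 - a / 2 := by linarith
      positivity
    exact_mod_cast h2.trans_le hsz
  have hA : (Sig m).Nonempty := by rw [← Finset.card_pos, hcard]; exact hm
  have hg := rad_growth hn (A := Sig m) (B := Sig (k - j0)) (C := Sig (m + k)) hA hB (by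
    intro u hu v hv c hc
    have h1 := hadd m (k - j0) u hu v hv
    have h2 := hadd _ j0 _ h1 c (hcube c hc)
    have : m + (k - j0) + j0 = m + k := by omega
    rwa [this] at h2)
  rw [hcard, hcard, hcard] at hg
  have hr := le_rad (d := n) hn (e := a / 2) (by positivity) (by linarith) hsz
  rw [← card_LE1] at hr
  have hcast : ((k - j0 : ℕ) : ℝ) = k - j0 := by
    rw [Nat.cast_sub (by omega)]
  rw [hcast] at hr
  have h4 : (1 - a) * k ≤ (1 - a / 2) * ((k : ℝ) - j0) := by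
    have : 0 ≤ a / 2 * j0 := by positivity
    nlinarith
  linarith

end Crest.Agent.R271.CaseB553
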