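import Mathlib
import Crest.Agent.R271.CaseB3_553

/-!
# Row 271, Part 9.4: Case B in power series language
-/

set_option autoImplicit false

open Finset Module
open scoped Nat

namespace Crest.Agent.R271.CaseB553

open Crest.Agent.R271.Lead553
open Crest.Agent.R271.C376 (rad rad_nonneg rad_pow rad_zero rad_growth le_rad)

lemma summable_pow_shift (k : ℕ) {τ : ℝ} (hτ : 0 < τ) :
    Summable fun m : ℕ => Real.exp (-τ * m) * ((m : ℝ) + 1) ^ k := by
  have h1 := Real.summable_pow_mul_exp_neg_nat_mul k hτ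
  have h2 := (summable_nat_add_iff 1).2 h1
  have h3 := h2.mul_left (Real.exp τ)
  refine h3.congr fun m => ?_
  push_cast
  have : Real.exp τ * (((m : ℝ) + 1) ^ k * Real.exp (-τ * ((m : ℝ) + 1))) =
      (Real.exp τ * Real.exp (-τ * ((m : ℝ) + 1))) * ((m : ℝ) + 1) ^ k := by ring
  rw [this, ← Real.exp_add]
  congr 2
  ring

/-- **CASEB**: the counting theorem with density caps. -/
theorem CASEB (n : ℕ) (hn : 1 ≤ n) (c : ℝ) (hc : 0 < c) :
    ∃ η : ℝ, 0 < η ∧ ∀ V : ℕ → Submodule ℂ (MvPowerSeries (Fin n) ℂ),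
      (∀ m, FiniteDimensional ℂ (V m)) →
      (∀ i j, ∀ f ∈ V i, ∀ g ∈ V j, f * g ∈ V (i + j)) →
      (∃ j0 : ℕ, ∀ v : Fin n →₀ ℕ, v.degree ≤ n → ∃ f ∈ V j0, ∀ u : Fin n →₀ ℕ, u.degree ≤ n →
        MvPowerSeries.coeff u f = if u = v then 1 else 0) →
      (∀ e : ℝ, 0 < e → ∃ j1 : ℕ, ∀ j, j1 ≤ j →
        (1 - e) * (j : ℝ) ^ n / (n)! ≤ (finrank ℂ (V j) : ℝ)) →
      (∃ C : ℝ, ∀ m : ℕ, (finrank ℂ (V m) : ℝ) ≤ C * ((m : ℝ) + 1) ^ n) →
      ∀ C1 : ℕ, (∀ m, V m ⊓ mpow1 n (C1 * m + 1) = ⊥) →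
      (∃ m1 : ℕ, ∀ m, m1 ≤ m → ∀ j : ℕ, n * m < (n + 1) * j →
        (finrank ℂ (V m ⊓ mpow1 n j : Submodule ℂ (MvPowerSeries (Fin n) ℂ)) : ℝ) -
          (finrank ℂ (V m ⊓ mpow1 n (j + 1) : Submodule ℂ (MvPowerSeries (Fin n) ℂ)) : ℝ) ≤
          (1 - c) * ((j + n - 1).choose (n - 1) : ℝ)) →
      ∃ τ0 : ℝ, 0 < τ0 ∧ ∀ τ : ℝ, 0 < τ → τ ≤ τ0 →
        ((n + η) / τ) * ∑' m : ℕ, Real.exp (-τ * m) * (finrank ℂ (V m) : ℝ) ≤
          ∑' m : ℕ, Real.exp (-τ * m) * ((∑ e ∈ Finset.Icc 1 (C1 * m),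
            finrank ℂ (V m ⊓ mpow1 n e : Submodule ℂ (MvPowerSeries (Fin n) ℂ)) : ℕ) : ℝ) := by
  classical
  obtain ⟨p, rfl⟩ : ∃ p, n = p + 1 := ⟨n - 1, by omega⟩
  set n : ℕ := p + 1 with hndef
  have hn0 : (0 : ℝ) < n := by positivity
  have hn1 : (1 : ℝ) ≤ n := by exact_mod_cast hn
  have hf : (0 : ℝ) < (n)! := by positivity
  -- constants
  set β : ℝ := 1 / (2 * (n + 1)) with hβ
  have hβ0 : 0 < β := by positivity
  have hβ2 : β ≤ 1 / 4 := by
    rw [hβ]
    apply one_div_le_one_div_of_le (by norm_num) (by linarith)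
  set κ : ℝ := β ^ 2 / (8 * 2 ^ p * p !) with hκ
  have hκ0 : 0 < κ := by positivity
  set θ : ℝ := c * κ * ((n + 1) / n) * (n)! with hθ
  have hθ0 : 0 < θ := by positivity
  set a : ℝ := min (1 / 4) (θ / (8 * (1 + θ))) with ha
  have ha0 : 0 < a := lt_min (by norm_num) (by positivity)
  have ha4 : a ≤ 1 / 4 := min_le_left _ _
  have haθ : 4 * a * (1 + θ) ≤ θ / 2 := by
    have h1 : a ≤ θ / (8 * (1 + θ)) := min_le_right _ _
    rw [le_div_iff₀ (by positivity)] at h1
    linarith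
  refine ⟨n * θ / 8, by positivity, ?_⟩
  intro V hfd hmul hjets hsize hC C1 hbot hcaps
  obtain ⟨j0, hjets⟩ := hjets
  obtain ⟨j1, hj1⟩ := hsize (a / 2) (by positivity)
  obtain ⟨j2, hj2⟩ := hsize (1 / (2 * (n + 1))) (by positivity)
  obtain ⟨C, hC⟩ := hC
  obtain ⟨m1, hcaps⟩ := hcaps
  have hfd' := hfd
  -- radii
  set E : ℕ → Finset (Fin n →₀ ℕ) := fun m => LE1 (V m) with hE
  have hEcard : ∀ m, (E m).card = finrank ℂ (V m) := fun m => card_LE1 (V m)
  set R : ℕ → ℝ := fun m => rad n (E m).card with hR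
  have hR0 : ∀ m, 0 ≤ R m := fun m => rad_nonneg _ _
  have hRp : ∀ m, R m ^ n = (n)! * (finrank ℂ (V m) : ℝ) := by
    intro m
    have h := rad_pow hn (E m).card
    rw [div_eq_iff hf.ne', hEcard] at h
    rw [hR]
    simp only [hEcard]
    rw [h, mul_comm]
  -- size of the radii
  have hRge : ∀ m, j2 ≤ m → (1 - β) * m ≤ R m := by
    intro m hm
    have h := hj2 m hm
    have h' := le_rad (d := n) hn (e := β) hβ0.le (by linarith) h
    rw [hR]; simp only [hEcard]; exact h'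
  have hRor : ∀ m, R m = 0 ∨ 1 ≤ R m := by
    intro m
    rcases Nat.eq_zero_or_pos (finrank ℂ (V m)) with h0 | hpos
    · left
      rw [hR]; simp only [hEcard, h0]; exact rad_zero hn
    · right
      have h1 : (1 : ℝ) ≤ finrank ℂ (V m) := by exact_mod_cast hpos
      have h2 : (1 : ℝ) ≤ (n)! := by
        exact_mod_cast Nat.one_le_iff_ne_zero.2 (Nat.factorial_ne_zero _)
      have h3 : 1 ≤ R m ^ n := by
        rw [hRp]; nlinarith
      by_contra hlt
      push Not at hlt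
      have := pow_lt_one₀ (hR0 m) hlt (show n ≠ 0 by omega)
      linarith
  -- W m
  set W : ℕ → ℝ := fun m => ∑ v ∈ E m, (v.degree : ℝ) with hW
  have hWeq : ∀ m, ((∑ e ∈ Finset.Icc 1 (C1 * m),
      finrank ℂ (V m ⊓ mpow1 n e : Submodule ℂ (MvPowerSeries (Fin n) ℂ)) : ℕ) : ℝ) = W m := by
    intro m
    rw [sum_degree_LE1 (V m) (C1 * m) (hbot m)]
    push_cast
    rfl
  -- bathtub for all m
  have hb1 : ∀ m, hN n (R m) / (n)! - KK p * R m ^ n ≤ W m := fun m => bath_all p (E m)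
  obtain ⟨m3, hm3⟩ := exists_nat_ge (8 / β)
  set m2 : ℕ := m1 + j2 + m3 with hm2
  have hb2 : ∀ m, m2 ≤ m → (1 + θ) * (hN n (R m) / (n)!) - KK p * R m ^ n ≤ W m := by
    intro m hm
    have hmj2 : j2 ≤ m := by omega
    have hmm1 : m1 ≤ m := by omega
    have hmm3 : (m3 : ℝ) ≤ m := by exact_mod_cast (show m3 ≤ m by omega)
    have hRm := hRge m hmj2
    have hm8 : 8 ≤ m * β := by
      rw [div_le_iff₀ hβ0] at hm3
      exact hm3.trans (mul_le_mul_of_nonneg_right hmm3 hβ0.le)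
    have h4 : 4 ≤ rad n (E m).card * β := by
      have h5 : (1 - β) * m * β ≤ R m * β := mul_le_mul_of_nonneg_right hRm hβ0.le
      have h6 : (1 / 2 : ℝ) * (m * β) ≤ (1 - β) * m * β := by
        have : (1 / 2 : ℝ) ≤ 1 - β := by linarith
        have := mul_le_mul_of_nonneg_right this (show 0 ≤ m * β by positivity)
        linarith
      have h7 : R m = rad n (E m).card := rfl
      rw [← h7]
      linarith
    have hcap : ∀ j : ℕ, rad n (E m).card * (1 - β) < j →
        (((E m).filter (fun v => v.degree = j)).card : ℝ) ≤ (1 - c) * sj p j := by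
      intro j hj
      have hlt : n * m < (n + 1) * j := by
        have h5 : (1 - β) * m * (1 - β) < j :=
          lt_of_le_of_lt (mul_le_mul_of_nonneg_right hRm (by linarith)) hj
        have h6 : (n : ℝ) / (n + 1) ≤ (1 - β) * (1 - β) := by
          have : (1 - β) * (1 - β) = 1 - 2 * β + β ^ 2 := by ring
          rw [this]
          have h7 : 2 * β = 1 / (n + 1) := by rw [hβ]; field_simp
          have h8 : (n : ℝ) / (n + 1) = 1 - 1 / (n + 1) := by field_simp; ring
          rw [h7, h8]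
          nlinarith [sq_nonneg β]
        have h7 : (n : ℝ) / (n + 1) * m < j := by
          refine lt_of_le_of_lt ?_ h5
          have := mul_le_mul_of_nonneg_right h6 (show (0 : ℝ) ≤ m by positivity)
          linarith
        have h8 : (n : ℝ) * m < (n + 1) * j := by
          have h9 := mul_lt_mul_of_pos_left h7 (show (0 : ℝ) < n + 1 by positivity)
          have h10 : ((n : ℝ) + 1) * (n / (n + 1) * m) = n * m := by field_simp
          linarith
        exact_mod_cast h8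
      have h5 := hcaps m hmm1 j hlt
      have h6 := card_filter_eq_LE1 (V m) j
      have h7 : (((E m).filter (fun v => v.degree = j)).card : ℝ) =
          (finrank ℂ (V m ⊓ mpow1 n j : Submodule ℂ (MvPowerSeries (Fin n) ℂ)) : ℝ) -
          (finrank ℂ (V m ⊓ mpow1 n (j + 1) : Submodule ℂ (MvPowerSeries (Fin n) ℂ)) : ℝ) := by
        rw [← h6]; push_cast; ring
      rw [h7]
      refine h5.trans (le_of_eq ?_)
      unfold sj
      rw [hndef]
      congr 2
    have h9 := bath_caps p (E m) hc.le hβ0 (by linarith) h4 hcap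
    refine le_trans (le_of_eq ?_) h9
    have e1 : rad (p + 1) (E m).card = R m := rfl
    rw [e1, ← hκ]
    have e2 : c * κ * R m ^ (p + 2) = θ * (hN n (R m) / (n)!) := by
      rw [hθ]; unfold hN
      have : R m ^ (p + 2) = R m ^ (n + 1) := rfl
      rw [this]
      field_simp
    have e3 : (((p + 1)! : ℕ) : ℝ) = ((n)! : ℝ) := rfl
    rw [e3, e2]
    have e4 : R m ^ (p + 1) = R m ^ n := rfl
    have e5 : hN (p + 1) (R m) = hN n (R m) := rfl
    rw [e4, e5]
    ring
  -- a single inequality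
  set K2 : ℝ := θ / (n)! * ∑ m ∈ range m2, hN n (R m) with hK2
  have hhN0 : ∀ m, 0 ≤ hN n (R m) := fun m => hN_nonneg n (hR0 m)
  have hK20 : 0 ≤ K2 := by
    rw [hK2]
    have := Finset.sum_nonneg (s := range m2) (fun m _ => hhN0 m)
    positivity
  set G : ℕ → ℝ := fun m => if m < m2 then θ / (n)! * hN n (R m) else 0 with hG
  have hGsum : ∀ τ : ℝ, 0 < τ → Summable (fun m : ℕ => Real.exp (-τ * m) * G m) ∧
      ∑' m : ℕ, Real.exp (-τ * m) * G m ≤ K2 := by
    intro τ hτ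
    have hsupp : ∀ m ∉ range m2, Real.exp (-τ * m) * G m = 0 := by
      intro m hm
      rw [Finset.mem_range, not_lt] at hm
      rw [hG]; simp only [not_lt.2 hm, if_false, mul_zero]
    refine ⟨summable_of_ne_finset_zero hsupp, ?_⟩
    rw [tsum_eq_sum hsupp, hK2, Finset.mul_sum]
    refine Finset.sum_le_sum fun m hm => ?_
    rw [Finset.mem_range] at hm
    rw [hG]; simp only [hm, if_true]
    have h1 : Real.exp (-τ * m) ≤ 1 := by
      rw [Real.exp_le_one_iff]
      have : 0 ≤ τ * m := by positivity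
      linarith
    have h2 : 0 ≤ θ / (n)! * hN n (R m) := mul_nonneg (by positivity) (hhN0 m)
    calc Real.exp (-τ * m) * (θ / (n)! * hN n (R m)) ≤ 1 * (θ / (n)! * hN n (R m)) :=
          mul_le_mul_of_nonneg_right h1 h2
      _ = _ := one_mul _
  have hball : ∀ m, (1 + θ) / (n)! * hN n (R m) - KK p * R m ^ n - G m ≤ W m := by
    intro m
    rcases lt_or_ge m m2 with h | h
    · rw [hG]; simp only [h, if_true]
      have := hb1 m
      have e : (1 + θ) / (n)! * hN n (R m) - KK p * R m ^ n - θ / (n)! * hN n (R m) =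
        hN n (R m) / (n)! - KK p * R m ^ n := by ring
      rw [e]; exact this
    · rw [hG]; simp only [not_lt.2 h, if_false]
      have := hb2 m h
      have e : (1 + θ) / (n)! * hN n (R m) - KK p * R m ^ n - 0 =
        (1 + θ) * (hN n (R m) / (n)!) - KK p * R m ^ n := by ring
      rw [e]; exact this
  -- nonneg constant
  have hCpos : 0 ≤ C := by
    have h := hC 0
    have h0 : (0 : ℝ) ≤ finrank ℂ (V 0) := by positivity
    simp only [Nat.cast_zero, zero_add, one_pow, mul_one] at h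
    linarith
  -- summability
  have hsV : ∀ τ : ℝ, 0 < τ → Summable fun m : ℕ => Real.exp (-τ * m) * (finrank ℂ (V m) : ℝ) := by
    intro τ hτ
    refine Summable.of_nonneg_of_le (fun m => by positivity) (fun m => ?_)
      ((summable_pow_shift n hτ).mul_left C)
    calc Real.exp (-τ * m) * (finrank ℂ (V m) : ℝ) ≤ Real.exp (-τ * m) * (C * ((m : ℝ) + 1) ^ n) :=
          mul_le_mul_of_nonneg_left (hC m) (Real.exp_pos _).le
      _ = _ := by ring
  have hsR : ∀ τ : ℝ, 0 < τ → Summable fun m : ℕ => Real.exp (-τ * m) * R m ^ n := by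
    intro τ hτ
    refine ((hsV τ hτ).mul_left ((n)! : ℝ)).congr fun m => ?_
    rw [hRp]; ring
  have hsH : ∀ τ : ℝ, 0 < τ → Summable fun m : ℕ => Real.exp (-τ * m) * hN n (R m) := by
    intro τ hτ
    refine Summable.of_nonneg_of_le (fun m => mul_nonneg (Real.exp_pos _).le (hhN0 m)) (fun m => ?_)
      ((summable_pow_shift (n + n) hτ).mul_left (((n)! * C) ^ 2))
    have h1 : hN n (R m) ≤ (R m ^ n) * (R m ^ n) := by
      unfold hN
      have h2 : (n : ℝ) / (n + 1) ≤ 1 := by rw [div_le_one (by positivity)]; linarith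
      have h3 : R m ^ (n + 1) ≤ R m ^ n * R m ^ n := by
        rw [pow_succ]
        refine mul_le_mul_of_nonneg_left ?_ (pow_nonneg (hR0 m) _)
        rcases hRor m with h | h
        · rw [h]; exact pow_nonneg le_rfl _
        · exact le_self_pow₀ h (by omega)
      calc (n : ℝ) / (n + 1) * R m ^ (n + 1) ≤ 1 * R m ^ (n + 1) :=
            mul_le_mul_of_nonneg_right h2 (pow_nonneg (hR0 m) _)
        _ = R m ^ (n + 1) := one_mul _
        _ ≤ _ := h3
    have h2 : R m ^ n ≤ (n)! * C * ((m : ℝ) + 1) ^ n := by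
      rw [hRp, mul_assoc]
      exact mul_le_mul_of_nonneg_left (hC m) hf.le
    have h3 : (R m ^ n) * (R m ^ n) ≤
        ((n)! * C * ((m : ℝ) + 1) ^ n) * ((n)! * C * ((m : ℝ) + 1) ^ n) :=
      mul_le_mul h2 h2 (pow_nonneg (hR0 m) _) (by positivity)
    calc Real.exp (-τ * m) * hN n (R m) ≤ Real.exp (-τ * m) *
          (((n)! * C * ((m : ℝ) + 1) ^ n) * ((n)! * C * ((m : ℝ) + 1) ^ n)) :=
          mul_le_mul_of_nonneg_left (h1.trans h3) (Real.exp_pos _).le
      _ = ((n)! * C) ^ 2 * (Real.exp (-τ * m) * ((m : ℝ) + 1) ^ (n + n)) := by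
          rw [pow_add]; ring
  have hW0 : ∀ m, 0 ≤ W m := fun m => Finset.sum_nonneg fun v _ => by positivity
  have hsW : ∀ τ : ℝ, 0 < τ → Summable fun m : ℕ => Real.exp (-τ * m) * W m := by
    intro τ hτ
    refine Summable.of_nonneg_of_le (fun m => mul_nonneg (Real.exp_pos _).le (hW0 m)) (fun m => ?_)
      ((summable_pow_shift (n + 1) hτ).mul_left (C1 * C))
    have h1 : W m ≤ (C1 * m : ℝ) * finrank ℂ (V m) := by
      rw [← hWeq m]
      have h2 : (∑ e ∈ Finset.Icc 1 (C1 * m),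
          finrank ℂ (V m ⊓ mpow1 n e : Submodule ℂ (MvPowerSeries (Fin n) ℂ))) ≤
          (C1 * m) * finrank ℂ (V m) := by
        refine (Finset.sum_le_sum (g := fun _ => finrank ℂ (V m)) fun e _ => ?_).trans ?_
        · exact Submodule.finrank_mono inf_le_left
        · rw [Finset.sum_const, Nat.card_Icc, smul_eq_mul]
          simp
      exact_mod_cast h2
    have h3 : (C1 * m : ℝ) * finrank ℂ (V m) ≤ (C1 * ((m : ℝ) + 1)) * (C * ((m : ℝ) + 1) ^ n) := by
      refine mul_le_mul ?_ (hC m) (by positivity) (by positivity)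
      exact mul_le_mul_of_nonneg_left (by linarith) (by positivity)
    calc Real.exp (-τ * m) * W m ≤ Real.exp (-τ * m) *
          ((C1 * ((m : ℝ) + 1)) * (C * ((m : ℝ) + 1) ^ n)) :=
          mul_le_mul_of_nonneg_left (h1.trans h3) (Real.exp_pos _).le
      _ = C1 * C * (Real.exp (-τ * m) * ((m : ℝ) + 1) ^ (n + 1)) := by rw [pow_succ]; ring
  -- growth
  obtain ⟨k, hk⟩ := exists_nat_ge (max (2 * (j0 : ℝ) / a) ((j0 + j1 + 1 : ℕ) : ℝ))
  have hk1 : 2 * (j0 : ℝ) ≤ a * k := by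
    have := (le_max_left _ _).trans hk
    rw [div_le_iff₀ ha0] at this
    linarith
  have hk2 : j0 + j1 + 1 ≤ k := by exact_mod_cast (le_max_right _ _).trans hk
  have hkpos : 1 ≤ k := by omega
  have hk' : (0 : ℝ) < k := by exact_mod_cast hkpos
  have hgr : ∀ m, 0 < R m → R m + (1 - a) * k ≤ R (m + k) := by
    intro m hm
    refine rad_step hn V hfd hmul j0 j1 hjets ha0 (by linarith) hj1 k hk2 hk1 m ?_
    rw [Nat.pos_iff_ne_zero]
    intro h0
    have : R m = 0 := by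
      have e : R m = rad n (E m).card := rfl
      rw [e]
      have e2 : (E m).card = 0 := h0
      rw [e2]; exact rad_zero hn
    linarith
  -- lower bound of the sum
  have hj0pos : 1 ≤ finrank ℂ (V j0) := by
    rw [← hEcard]
    have h1 : (0 : Fin n →₀ ℕ) ∈ LE1 (V j0) :=
      mem_LE1_of_jets hjets _ (by simp)
    exact Finset.card_pos.2 ⟨_, h1⟩
  have hK1 : 0 ≤ KK p := KK_nonneg p
  -- choice of τ0
  set τ0 : ℝ := min (min (a / (2 * (n / a)) / k) 1)
    (min (n * θ / 8 / (KK p * (n)! + 1)) (Real.exp (-(j0 : ℝ)) * (n * θ / 4) / (K2 + 1))) with hτ0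
  have hτ00 : 0 < τ0 := by
    refine lt_min (lt_min (by positivity) one_pos) (lt_min ?_ ?_)
    · have : 0 < KK p * (n)! + 1 := by positivity
      positivity
    · have : 0 < K2 + 1 := by linarith
      have h2 := Real.exp_pos (-(j0 : ℝ))
      positivity
  refine ⟨τ0, hτ00, ?_⟩
  intro τ hτ hττ
  have ht1 : τ * k ≤ a / (2 * (n / a)) := by
    have : τ ≤ a / (2 * (n / a)) / k := hττ.trans ((min_le_left _ _).trans (min_le_left _ _))
    rwa [le_div_iff₀ hk'] at this
  have ht2 : τ ≤ 1 := hττ.trans ((min_le_left _ _).trans (min_le_right _ _))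
  have ht3 : τ * (KK p * (n)!) ≤ n * θ / 8 := by
    have h1 : τ ≤ n * θ / 8 / (KK p * (n)! + 1) := hττ.trans ((min_le_right _ _).trans (min_le_left _ _))
    rw [le_div_iff₀ (by positivity)] at h1
    linarith
  have ht4 : τ * K2 ≤ Real.exp (-(j0 : ℝ)) * (n * θ / 4) := by
    have h1 : τ ≤ Real.exp (-(j0 : ℝ)) * (n * θ / 4) / (K2 + 1) :=
      hττ.trans ((min_le_right _ _).trans (min_le_right _ _))
    rw [le_div_iff₀ (by linarith)] at h1
    linarith
  set T : ℝ := ∑' m : ℕ, Real.exp (-τ * m) * (finrank ℂ (V m) : ℝ) with hT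
  have hTR : ∑' m : ℕ, Real.exp (-τ * m) * R m ^ n = (n)! * T := by
    rw [hT, ← tsum_mul_left]
    refine tsum_congr fun m => ?_
    rw [hRp]; ring
  have hTge : Real.exp (-(j0 : ℝ)) ≤ T := by
    have h1 : Real.exp (-τ * j0) * (finrank ℂ (V j0) : ℝ) ≤ T :=
      (hsV τ hτ).le_tsum j0 (fun m _ => by positivity)
    have h2 : Real.exp (-(j0 : ℝ)) ≤ Real.exp (-τ * j0) := by
      apply Real.exp_le_exp.2
      have : τ * j0 ≤ 1 * j0 := mul_le_mul_of_nonneg_right ht2 (by positivity)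
      linarith
    have h3 : Real.exp (-τ * j0) * 1 ≤ Real.exp (-τ * j0) * (finrank ℂ (V j0) : ℝ) :=
      mul_le_mul_of_nonneg_left (by exact_mod_cast hj0pos) (Real.exp_pos _).le
    linarith
  have hgrow := growth_ineq hn ha0 ha4 hkpos hτ ht1 R hR0 hgr (hsR τ hτ) (hsH τ hτ)
  rw [hTR] at hgrow
  -- summation
  have hLHS : (fun m : ℕ => Real.exp (-τ * m) * ((∑ e ∈ Finset.Icc 1 (C1 * m),
            finrank ℂ (V m ⊓ mpow1 n e : Submodule ℂ (MvPowerSeries (Fin n) ℂ)) : ℕ) : ℝ)) =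
      fun m : ℕ => Real.exp (-τ * m) * W m := by
    funext m
    rw [hWeq m]
  rw [hLHS]
  obtain ⟨hsG, hG2⟩ := hGsum τ hτ
  have hsum1 := (((hsH τ hτ).mul_left ((1 + θ) / (n)!)).sub ((hsR τ hτ).mul_left (KK p))).sub hsG
  have hmain : ∑' m : ℕ, ((1 + θ) / (n)! * (Real.exp (-τ * m) * hN n (R m)) -
      KK p * (Real.exp (-τ * m) * R m ^ n) - Real.exp (-τ * m) * G m) ≤
      ∑' m : ℕ, Real.exp (-τ * m) * W m := by
    refine hsum1.tsum_le_tsum (fun m => ?_) (hsW τ hτ)
    have := mul_le_mul_of_nonneg_left (hball m) (Real.exp_pos (-τ * m)).le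
    have e : (1 + θ) / (n)! * (Real.exp (-τ * m) * hN n (R m)) -
        KK p * (Real.exp (-τ * m) * R m ^ n) - Real.exp (-τ * m) * G m =
        Real.exp (-τ * m) * ((1 + θ) / (n)! * hN n (R m) - KK p * R m ^ n - G m) := by ring
    rw [e]
    exact this
  rw [Summable.tsum_sub (((hsH τ hτ).mul_left ((1 + θ) / (n)!)).sub ((hsR τ hτ).mul_left (KK p))) hsG,
    Summable.tsum_sub ((hsH τ hτ).mul_left ((1 + θ) / (n)!)) ((hsR τ hτ).mul_left (KK p)),
    tsum_mul_left, tsum_mul_left, hTR] at hmain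
  have h5 : (1 + θ) / (n)! * ((1 - 4 * a) * ((n / τ) * ((n)! * T))) ≤
      (1 + θ) / (n)! * ∑' m : ℕ, Real.exp (-τ * m) * hN n (R m) :=
    mul_le_mul_of_nonneg_left hgrow (by positivity)
  have e5 : (1 + θ) / (n)! * ((1 - 4 * a) * ((n / τ) * ((n)! * T))) =
      (1 + θ) * (1 - 4 * a) * (n / τ) * T := by field_simp
  rw [e5] at h5
  have hT0 : 0 ≤ T := le_trans (Real.exp_pos _).le hTge
  have hTτ : 0 ≤ T / τ := by positivity
  -- final arithmetic
  have h6 : (1 + θ / 2) * (n * (T / τ)) ≤ (1 + θ) * (1 - 4 * a) * (n / τ) * T := by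
    have h7 : 1 + θ / 2 ≤ (1 + θ) * (1 - 4 * a) := by nlinarith
    have e : (1 + θ) * (1 - 4 * a) * (n / τ) * T = (1 + θ) * (1 - 4 * a) * (n * (T / τ)) := by
      field_simp
    rw [e]
    exact mul_le_mul_of_nonneg_right h7 (by positivity)
  have h7 : KK p * ((n)! * T) ≤ (n * θ / 8) * (T / τ) := by
    have e : KK p * ((n)! * T) = (τ * (KK p * (n)!)) * (T / τ) := by field_simp
    rw [e]
    exact mul_le_mul_of_nonneg_right ht3 hTτ
  have h8 : K2 ≤ (n * θ / 4) * (T / τ) := by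
    have h9 : K2 ≤ Real.exp (-(j0 : ℝ)) * (n * θ / 4) / τ := by
      rw [le_div_iff₀ hτ]; linarith
    have h10 : Real.exp (-(j0 : ℝ)) * (n * θ / 4) / τ ≤ T * (n * θ / 4) / τ := by
      apply div_le_div_of_nonneg_right _ hτ.le
      exact mul_le_mul_of_nonneg_right hTge (by positivity)
    have e : T * (n * θ / 4) / τ = (n * θ / 4) * (T / τ) := by ring
    rw [e] at h10
    linarith
  have e9 : (n + n * θ / 8) / τ * T = (n + n * θ / 8) * (T / τ) := by ring
  rw [e9]
  have e10 : (1 + θ / 2) * (n * (T / τ)) = (n + n * θ / 8) * (T / τ) +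
    (n * θ / 8) * (T / τ) + (n * θ / 4) * (T / τ) := by ring
  rw [e10] at h6
  linarith

end Crest.Agent.R271.CaseB553
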