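import Mathlib
import Crest.Agent.R271.CNT_376
import Crest.Agent.R271.Lead_553

/-!
Row 271, Part 9: the counting theorem in power series language.
-/

set_option autoImplicit false

open Finset Real Module

namespace Crest.Agent.R271.C376

open Crest.Agent.R271.Lead553

/-- coefficient vectors as functions -/
noncomputable def slice {d r : ℕ} (L : Finset (Fin r × (Fin d →₀ ℕ))) (i : Fin r) :
    Finset (Fin d → ℕ) := by
  classical exact (L.filter (fun x => x.1 = i)).image (fun x : Fin r × (Fin d →₀ ℕ) => (⇑x.2 : Fin d → ℕ))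

lemma mem_slice {d r : ℕ} {L : Finset (Fin r × (Fin d →₀ ℕ))} {i : Fin r} {v : Fin d →₀ ℕ} :
    (⇑v : Fin d → ℕ) ∈ slice L i ↔ (i, v) ∈ L := by
  classical
  unfold slice
  rw [Finset.mem_image]
  constructor
  · rintro ⟨⟨j, w⟩, h1, h2⟩
    rw [Finset.mem_filter] at h1
    obtain ⟨h1, h3⟩ := h1
    have hw : w = v := DFunLike.coe_injective h2
    simp only at h3
    subst hw; subst h3; exact h1
  · intro h
    exact ⟨(i, v), by simp [h], rfl⟩

lemma mem_slice' {d r : ℕ} {L : Finset (Fin r × (Fin d →₀ ℕ))} {i : Fin r} {v : Fin d → ℕ} :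
    v ∈ slice L i ↔ (i, Finsupp.equivFunOnFinite.symm v) ∈ L := by
  rw [← mem_slice]
  simp

lemma sum_slice {d r : ℕ} (L : Finset (Fin r × (Fin d →₀ ℕ))) (g : ℕ → ℕ) :
    ∑ i, ∑ v ∈ slice L i, g (∑ j, v j) = ∑ x ∈ L, g x.2.degree := by
  classical
  have h : ∀ i, ∑ v ∈ slice L i, g (∑ j, v j) = ∑ x ∈ L.filter (fun x => x.1 = i), g x.2.degree := by
    intro i
    unfold slice
    rw [Finset.sum_image]
    · refine Finset.sum_congr rfl fun x _ => ?_
      rw [Finsupp.degree_eq_sum]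
    · rintro ⟨a, b⟩ ha ⟨a', b'⟩ ha' hab
      rw [Finset.mem_coe, Finset.mem_filter] at ha ha'
      have hb : b = b' := DFunLike.coe_injective hab
      have h1 := ha.2
      have h2 := ha'.2
      simp only at h1 h2
      rw [h1, h2, hb]
  simp_rw [h]
  exact Finset.sum_fiberwise L (fun x => x.1) (fun x => g x.2.degree)

lemma sum_card_slice {d r : ℕ} (L : Finset (Fin r × (Fin d →₀ ℕ))) :
    ∑ i, (slice L i).card = L.card := by
  have := sum_slice L (fun _ => 1)
  simpa using this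

lemma sum_min_degree {d r : ℕ} (L : Finset (Fin r × (Fin d →₀ ℕ))) (P : ℕ) :
    ∑ x ∈ L, min x.2.degree P = ∑ e ∈ Finset.Icc 1 P, (L.filter (fun x => e ≤ x.2.degree)).card := by
  classical
  simp_rw [Finset.card_filter]
  rw [Finset.sum_comm]
  refine Finset.sum_congr rfl fun x _ => ?_
  rw [← Finset.card_filter]
  have : (Finset.Icc 1 P).filter (fun e => e ≤ x.2.degree) = Finset.Icc 1 (min x.2.degree P) := by
    ext e; simp only [Finset.mem_filter, Finset.mem_Icc, le_min_iff]; tauto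
  rw [this, Nat.card_Icc]; omega

/-- the weight of a finite dimensional subspace in terms of leading exponents -/
lemma sum_finrank_mpow {d r : ℕ} (W : Submodule ℂ (Fin r → MvPowerSeries (Fin d) ℂ))
    [FiniteDimensional ℂ W] (P : ℕ) :
    ∑ e ∈ Finset.Icc 1 P, finrank ℂ (W ⊓ mpow d r e : Submodule ℂ (Fin r → MvPowerSeries (Fin d) ℂ))
      = ∑ i, ∑ v ∈ slice (LE W) i, min (∑ j, v j) P := by
  rw [sum_slice (LE W) (fun k => min k P), sum_min_degree]
  exact Finset.sum_congr rfl fun e _ => (card_filter_LE W e).symm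

/-- **GAIN**: the counting theorem. -/
theorem GAIN (d : ℕ) (hd : 1 ≤ d) (e1 : ℝ) (he : 0 < e1) :
    ∃ e0 : ℝ, 0 < e0 ∧ ∀ j0 j1 : ℕ, ∃ τ0 : ℝ, 0 < τ0 ∧ ∃ C1 : ℝ, 0 < C1 ∧
    ∀ τ : ℝ, 0 < τ → τ ≤ τ0 → ∀ p : ℕ, C1 / τ ≤ p → ∀ (r : ℕ)
      (S : ℕ → Submodule ℂ (MvPowerSeries (Fin d) ℂ))
      (W : ℕ → Submodule ℂ (Fin r → MvPowerSeries (Fin d) ℂ)),
      (∀ j, FiniteDimensional ℂ (S j)) → (∀ m, FiniteDimensional ℂ (W m)) →
      (∀ m j, ∀ f ∈ S j, ∀ w ∈ W m, f • w ∈ W (m + j)) →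
      (∀ j, j1 ≤ j → (1 - e0) * (j : ℝ) ^ d / (d.factorial : ℝ) ≤ (finrank ℂ (S j) : ℝ)) →
      (∀ v : Fin d →₀ ℕ, v.degree ≤ d → ∃ f ∈ S j0, ∀ u : Fin d →₀ ℕ, u.degree ≤ d →
        MvPowerSeries.coeff u f = if u = v then 1 else 0) →
      (Summable fun m : ℕ => exp (-τ * m) * (finrank ℂ (W m) : ℝ)) →
      (1 - e1) * (d / τ) * ∑' m : ℕ, exp (-τ * m) * (finrank ℂ (W m) : ℝ)
        ≤ ∑' m : ℕ, exp (-τ * m) * ((∑ e ∈ Finset.Icc 1 p,
            finrank ℂ (W m ⊓ mpow d r e : Submodule ℂ (Fin r → MvPowerSeries (Fin d) ℂ)) : ℕ) : ℝ) := by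
  classical
  have hmin : 0 < min e1 1 := lt_min he one_pos
  refine ⟨min e1 1 / 5, by positivity, fun j0 j1 => ?_⟩
  obtain ⟨τ0, hτ0, C1, hC1, H⟩ := CNT d hd (min e1 1) hmin (min_le_right _ _) j0 j1
  refine ⟨τ0, hτ0, C1, hC1, ?_⟩
  intro τ hτ hττ p hp r S W hS hW hmul hsize hjets hsum
  have hfS : ∀ j, FiniteDimensional ℂ (S j) := hS
  have hfW : ∀ m, FiniteDimensional ℂ (W m) := hW
  let Sig : ℕ → Finset (Fin d → ℕ) := fun j => (LE1 (S j)).image (fun v : Fin d →₀ ℕ => (⇑v : Fin d → ℕ))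
  have hSigmem : ∀ j (v : Fin d → ℕ), v ∈ Sig j → Finsupp.equivFunOnFinite.symm v ∈ LE1 (S j) := by
    intro j v hv
    obtain ⟨w, hw, rfl⟩ := Finset.mem_image.1 hv
    simpa using hw
  have hSigcard : ∀ j, (Sig j).card = finrank ℂ (S j) := by
    intro j
    have := hfS j
    rw [← card_LE1]
    exact Finset.card_image_of_injective _ DFunLike.coe_injective
  have hcW : ∀ m, ∑ i, (slice (LE (W m)) i).card = finrank ℂ (W m) := by
    intro m
    have := hfW m
    rw [sum_card_slice, card_LE]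
  have hle : ∀ i m, ((slice (LE (W m)) i).card : ℝ) ≤ finrank ℂ (W m) := by
    intro i m
    rw [← hcW m]
    exact_mod_cast Finset.single_le_sum (f := fun i => (slice (LE (W m)) i).card)
      (fun _ _ => Nat.zero_le _) (Finset.mem_univ i)
  have hsi : ∀ i, Summable fun m : ℕ => exp (-τ * m) * ((slice (LE (W m)) i).card : ℝ) := by
    intro i
    refine Summable.of_nonneg_of_le (fun m => by positivity) (fun m => ?_) hsum
    exact mul_le_mul_of_nonneg_left (hle i m) (exp_pos _).le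
  have key : ∀ i : Fin r, (1 - min e1 1) * (d / τ) * ∑' m : ℕ, exp (-τ * m) * ((slice (LE (W m)) i).card : ℝ)
      ≤ ∑' m : ℕ, exp (-τ * m) * ((∑ v ∈ slice (LE (W m)) i, min (∑ j, v j) p : ℕ) : ℝ) := by
    intro i
    refine H τ hτ hττ p hp (fun m => slice (LE (W m)) i) Sig ?_ ?_ ?_ (hsi i)
    · intro m j u hu v hv
      rw [mem_slice'] at hu
      have hv' := hSigmem j v hv
      have := hfS j
      have := hfW m
      have := hfW (m + j)
      have h1 := LE_add (hmul m j) hv' hu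
      rw [← mem_slice] at h1
      simpa using h1
    · intro j hj
      rw [hSigcard]
      exact hsize j hj
    · intro c hc
      have := hfS j0
      refine Finset.mem_image.2 ⟨Finsupp.equivFunOnFinite.symm c, ?_, by simp⟩
      refine mem_LE1_of_jets hjets _ ?_
      rw [Finsupp.degree_eq_sum]
      calc ∑ i, (Finsupp.equivFunOnFinite.symm c) i ≤ ∑ i : Fin d, 1 :=
            Finset.sum_le_sum fun i _ => by simpa using hc i
        _ = d := by simp
  have hsum2 := Finset.sum_le_sum (s := Finset.univ) fun i _ => key i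
  rw [← Finset.mul_sum, ← Summable.tsum_finsetSum (fun i _ => hsi i)] at hsum2
  have e1' : ∀ m : ℕ, ∑ i, exp (-τ * m) * ((slice (LE (W m)) i).card : ℝ)
      = exp (-τ * m) * (finrank ℂ (W m) : ℝ) := by
    intro m
    rw [← Finset.mul_sum, ← hcW m]
    push_cast
    rfl
  simp_rw [e1'] at hsum2
  have hsR : ∀ i, Summable fun m : ℕ =>
      exp (-τ * m) * ((∑ v ∈ slice (LE (W m)) i, min (∑ j, v j) p : ℕ) : ℝ) := by
    intro i
    refine Summable.of_nonneg_of_le (fun m => by positivity) (fun m => ?_) ((hsi i).mul_left (p : ℝ))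
    have h1 : ∑ v ∈ slice (LE (W m)) i, min (∑ j, v j) p ≤ p * (slice (LE (W m)) i).card := by
      calc ∑ v ∈ slice (LE (W m)) i, min (∑ j, v j) p ≤ ∑ v ∈ slice (LE (W m)) i, p :=
            Finset.sum_le_sum fun v _ => min_le_right _ _
        _ = p * (slice (LE (W m)) i).card := by simp [mul_comm]
    have h2 : ((∑ v ∈ slice (LE (W m)) i, min (∑ j, v j) p : ℕ) : ℝ)
        ≤ p * (slice (LE (W m)) i).card := by exact_mod_cast h1
    calc exp (-τ * m) * ((∑ v ∈ slice (LE (W m)) i, min (∑ j, v j) p : ℕ) : ℝ)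
        ≤ exp (-τ * m) * (p * (slice (LE (W m)) i).card) :=
          mul_le_mul_of_nonneg_left h2 (exp_pos _).le
      _ = p * (exp (-τ * m) * ((slice (LE (W m)) i).card : ℝ)) := by ring
  rw [← Summable.tsum_finsetSum (fun i _ => hsR i)] at hsum2
  have e2' : ∀ m : ℕ, ∑ i, exp (-τ * m) * ((∑ v ∈ slice (LE (W m)) i, min (∑ j, v j) p : ℕ) : ℝ)
      = exp (-τ * m) * ((∑ e ∈ Finset.Icc 1 p,
            finrank ℂ (W m ⊓ mpow d r e : Submodule ℂ (Fin r → MvPowerSeries (Fin d) ℂ)) : ℕ) : ℝ) := by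
    intro m
    have := hfW m
    rw [← Finset.mul_sum, sum_finrank_mpow (W m) p]
    push_cast
    rfl
  simp_rw [e2'] at hsum2
  refine le_trans ?_ hsum2
  have hS0 : 0 ≤ ∑' m : ℕ, exp (-τ * m) * (finrank ℂ (W m) : ℝ) := tsum_nonneg fun m => by positivity
  refine mul_le_mul_of_nonneg_right (mul_le_mul_of_nonneg_right ?_ (by positivity)) hS0
  have := min_le_left e1 1
  linarith

end Crest.Agent.R271.C376
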