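import Crest.Agent.R271.N7d_857
import Crest.Agent.R271.Gain_376
import Crest.Agent.R271.Ord_969

/-!
Row 271, piece N7 (helper857): growth bounds and the counting bridge `CountStmt`.
-/

set_option autoImplicit false

open Crest.Agent.R271.Defs710 Crest.Agent.R271.N647
open Real

noncomputable section

namespace Crest.Agent.R271.N857

variable {n : ℕ} (X : FCtx n)

instance fdV (m : ℕ) : FiniteDimensional ℂ (X.V m) := X.V_fin m

/-- upper growth bound -/
theorem exists_finrank_le : ∃ C₁ : ℕ, ∀ m, Module.finrank ℂ (X.V m) ≤ (C₁ * m + 1) ^ n := by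
  classical
  obtain ⟨C₁, hC⟩ := X.ordbd
  refine ⟨C₁, fun m => ?_⟩
  obtain ⟨w, D⟩ := AData.mk' X.z X.etale X.x ⊥ (fun f hf => by
    rw [Ideal.mem_bot] at hf; rw [hf, map_zero]) n le_rfl (Ord969.fctx_adapted X X.x)
  set E := C₁ * m + 1 with hE
  let L : X.V m →ₗ[ℂ] ((Fin n → Fin E) → ℂ) := LinearMap.pi fun v =>
    (MvPowerSeries.coeff (R := ℂ) (Finsupp.equivFunOnFinite.symm fun i => (v i : ℕ))).comp
      (D.th.toLinearMap.comp (X.V m).subtype)
  have hL : Function.Injective L := by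
    rw [← LinearMap.ker_eq_bot, LinearMap.ker_eq_bot']
    intro f hf
    have h1 : ∀ v : Fin n →₀ ℕ, v.degree < E → MvPowerSeries.coeff v (D.th (f : X.B)) = 0 := by
      intro v hv
      have h2 : ∀ i, v i < E := fun i => lt_of_le_of_lt (Finsupp.le_degree i v) hv
      have h3 := congrFun hf fun i => ⟨v i, h2 i⟩
      have h4 : (Finsupp.equivFunOnFinite.symm fun i => v i) = v := by ext; simp
      simpa [L, h4] using h3
    rw [D.th_order_iff, sup_bot_eq] at h1
    by_contra h0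
    have := hC m f f.2 (fun h => h0 (Subtype.ext h)) X.x E h1
    omega
  have := LinearMap.finrank_le_finrank_of_injective hL
  simpa using this

theorem summable_V {τ : ℝ} (hτ : 0 < τ) :
    Summable fun m : ℕ => exp (-τ * m) * (Module.finrank ℂ (X.V m) : ℝ) := by
  obtain ⟨C₁, hC⟩ := exists_finrank_le X
  have h1 := Real.summable_pow_mul_exp_neg_nat_mul n hτ
  have h2 := Real.summable_pow_mul_exp_neg_nat_mul 0 hτ
  have h3 := (h1.add h2).mul_left (((C₁ : ℝ) + 1) ^ n)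
  refine Summable.of_nonneg_of_le (fun m => by positivity) (fun m => ?_) h3
  have h4 : (Module.finrank ℂ (X.V m) : ℝ) ≤ ((C₁ : ℝ) * m + 1) ^ n := by exact_mod_cast hC m
  have h5 : ((C₁ : ℝ) * m + 1) ^ n ≤ ((C₁ : ℝ) + 1) ^ n * ((m : ℝ) ^ n + 1) := by
    rcases Nat.eq_zero_or_pos m with rfl | hm
    · have : (1 : ℝ) ≤ ((C₁ : ℝ) + 1) ^ n := one_le_pow₀ (by linarith [Nat.cast_nonneg (α := ℝ) C₁])
      have h6 : (0 : ℝ) ≤ ((0 : ℕ) : ℝ) ^ n := by positivity
      simp only [Nat.cast_zero, mul_zero, zero_add, one_pow] at *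
      nlinarith
    · have hm' : (1 : ℝ) ≤ m := by exact_mod_cast hm
      have h6 : ((C₁ : ℝ) * m + 1) ≤ ((C₁ : ℝ) + 1) * m := by nlinarith
      have h7 := pow_le_pow_left₀ (by positivity) h6 n
      rw [mul_pow] at h7
      have h8 : (0 : ℝ) ≤ ((C₁ : ℝ) + 1) ^ n := by positivity
      nlinarith
  have h6 : (0 : ℝ) < exp (-τ * m) := exp_pos _
  calc exp (-τ * m) * (Module.finrank ℂ (X.V m) : ℝ)
      ≤ exp (-τ * m) * (((C₁ : ℝ) + 1) ^ n * ((m : ℝ) ^ n + 1)) := by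
        apply mul_le_mul_of_nonneg_left (h4.trans h5) h6.le
    _ = ((C₁ : ℝ) + 1) ^ n * ((m : ℝ) ^ n * exp (-τ * m) + (m : ℝ) ^ 0 * exp (-τ * m)) := by
        rw [pow_zero]; ring

theorem summable_of_le {τ : ℝ} (hτ : 0 < τ) {f : ℕ → ℝ} {C : ℝ} (h0 : ∀ m, 0 ≤ f m)
    (h : ∀ m, f m ≤ C * Module.finrank ℂ (X.V m)) :
    Summable fun m : ℕ => exp (-τ * m) * f m := by
  refine Summable.of_nonneg_of_le (fun m => by have := h0 m; positivity) (fun m => ?_)
    ((summable_V X hτ).mul_left C)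
  have h6 : (0 : ℝ) < exp (-τ * m) := exp_pos _
  calc exp (-τ * m) * f m ≤ exp (-τ * m) * (C * Module.finrank ℂ (X.V m)) :=
        mul_le_mul_of_nonneg_left (h m) h6.le
    _ = C * (exp (-τ * m) * Module.finrank ℂ (X.V m)) := by ring

theorem dim_le (P : Ideal X.B) (hP : P.IsPrime) (d : ℕ) (hd : ringKrullDim (X.B ⧸ P) = d) :
    d ≤ n := by
  by_contra hcon
  push Not at hcon
  obtain ⟨C₁, hC⟩ := exists_finrank_le X
  obtain ⟨j₁, hj₁⟩ := X.growth d (1 / 2) (by norm_num)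
  obtain ⟨K, hK⟩ := exists_nat_gt (2 * (d.factorial : ℝ) * ((C₁ : ℝ) + 1) ^ n)
  set j := max j₁ (max K 1) with hj
  have h1 := hj₁ P hP hd j (le_max_left _ _)
  have hj1 : 1 ≤ j := (le_max_right K 1).trans (le_max_right _ _)
  have hjK : K ≤ j := (le_max_left K 1).trans (le_max_right _ _)
  have h2 : Module.finrank ℂ ((X.V j).map (Ideal.Quotient.mkₐ ℂ P).toLinearMap) ≤
      Module.finrank ℂ (X.V j) := Submodule.finrank_map_le _ _
  have h3 : (Module.finrank ℂ ((X.V j).map (Ideal.Quotient.mkₐ ℂ P).toLinearMap) : ℝ) ≤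
      ((C₁ : ℝ) * j + 1) ^ n := by exact_mod_cast h2.trans (hC j)
  have hj1' : (1 : ℝ) ≤ j := by exact_mod_cast hj1
  have h4 : ((C₁ : ℝ) * j + 1) ^ n ≤ (((C₁ : ℝ) + 1) * j) ^ n :=
    pow_le_pow_left₀ (by positivity) (by nlinarith) n
  have h5 : (1 - 1 / 2) * (j : ℝ) ^ d / (d.factorial : ℝ) ≤ ((C₁ : ℝ) + 1) ^ n * (j : ℝ) ^ n := by
    rw [← mul_pow]; exact h1.trans (h3.trans h4)
  have hf : (0 : ℝ) < d.factorial := by exact_mod_cast d.factorial_pos
  rw [div_le_iff₀ hf] at h5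
  have h6 : (j : ℝ) ^ d = (j : ℝ) ^ (d - n) * (j : ℝ) ^ n := by
    rw [← pow_add]; congr 1; omega
  have h7 : (j : ℝ) ≤ (j : ℝ) ^ (d - n) := le_self_pow₀ hj1' (by omega)
  have hjn : (0 : ℝ) < (j : ℝ) ^ n := by positivity
  have h8 : (j : ℝ) * (j : ℝ) ^ n ≤ (j : ℝ) ^ d := by
    rw [h6]; exact mul_le_mul_of_nonneg_right h7 hjn.le
  have h9 : (j : ℝ) * (j : ℝ) ^ n ≤ (2 * (d.factorial : ℝ) * ((C₁ : ℝ) + 1) ^ n) * (j : ℝ) ^ n := by
    nlinarith
  have h10 := le_of_mul_le_mul_right h9 hjn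
  have h11 : (K : ℝ) ≤ j := by exact_mod_cast hjK
  linarith

theorem finrank_th {y : X.B →ₐ[ℂ] ℂ} {P : Ideal X.B} (hP : P.IsPrime) {d : ℕ} {w : Fin n → X.B}
    (D : AData y P d w) (j : ℕ) :
    Module.finrank ℂ ((X.V j).map D.th.toLinearMap) =
      Module.finrank ℂ ((X.V j).map (Ideal.Quotient.mkₐ ℂ P).toLinearMap) := by
  have hn := Ord969.isNoetherianRing X
  have h1 := finrank_split D.th.toLinearMap (X.V j)
  have h2 := finrank_split (Ideal.Quotient.mkₐ ℂ P).toLinearMap (X.V j)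
  have h3 : LinearMap.ker D.th.toLinearMap = LinearMap.ker (Ideal.Quotient.mkₐ ℂ P).toLinearMap := by
    ext b
    rw [LinearMap.mem_ker, LinearMap.mem_ker]
    simp only [AlgHom.toLinearMap_apply, Ideal.Quotient.mkₐ_eq_mk]
    rw [Ideal.Quotient.eq_zero_iff_mem]
    exact ⟨fun h => D.th_eq_zero hP h, fun h => D.th_P h⟩
  rw [h3] at h1
  omega

/-- **N7, counting bridge** -/
theorem countStmt (hgen : GenFact X) : CountStmt X := by
  intro d e₁ hd he₁
  obtain ⟨e0, he0, HG⟩ := C376.GAIN d hd e₁ he₁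
  obtain ⟨j0, hj0⟩ := X.jets d
  obtain ⟨j1, hj1⟩ := X.growth d e0 he0
  obtain ⟨τ0, hτ0, C1, hC1, HG⟩ := HG j0 j1
  refine ⟨τ0, max C1 d, hτ0, lt_of_lt_of_le hC1 (le_max_left _ _), ?_⟩
  intro τ hτ hττ p hp F P hP hdim a
  have hn := Ord969.isNoetherianRing X
  have hdn : d ≤ n := dim_le X P hP d hdim
  obtain ⟨h1, hh1, hA⟩ := hgen P d hP hdim
  obtain ⟨r, u, h2, H⟩ := exists_GB F P hP a
  refine ⟨h1 * h2, fun h => (hP.mem_or_mem h).elim hh1 H.hP, ?_⟩
  intro y hy hyh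
  rw [map_mul] at hyh
  have hy1 : y h1 ≠ 0 := left_ne_zero_of_mul hyh
  have hy2 : y h2 ≠ 0 := right_ne_zero_of_mul hyh
  have hPy : ∀ f ∈ P, y f = 0 := fun f hf => mem_mI.1 (hy hf)
  obtain ⟨w, D⟩ := AData.mk' X.z X.etale y P hPy d hdn (hA y hPy hy1)
  -- notation
  set Wf : ℕ → ℝ := fun m => (Module.finrank ℂ (WW H D m) : ℝ) with hWf
  set kf : ℕ → ℝ := fun m => (kk H D m : ℝ) - (Module.finrank ℂ (Fgt F m a) : ℝ) with hkf
  set G : ℕ → ℝ := fun m => ((∑ e ∈ Finset.Icc 1 p,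
    Module.finrank ℂ (WW H D m ⊓ Lead553.mpow d r e :
      Submodule ℂ (Fin r → MvPowerSeries (Fin d) ℂ)) : ℕ) : ℝ) with hG
  have hF : ∀ m, (Module.finrank ℂ (F.F m a) : ℝ) = Wf m + kk H D m := fun m => by
    rw [hWf, finrank_F H D m]; push_cast; ring
  have hFV : ∀ m, (Module.finrank ℂ (F.F m a) : ℝ) ≤ Module.finrank ℂ (X.V m) := fun m => by
    exact_mod_cast Submodule.finrank_mono (F.le_V m a)
  have hk0 : ∀ m, 0 ≤ kf m := fun m => by
    have : (Module.finrank ℂ (Fgt F m a) : ℝ) ≤ kk H D m := by exact_mod_cast finrank_Fgt H D m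
    simp only [hkf]; linarith
  have hW0 : ∀ m, 0 ≤ Wf m := fun m => Nat.cast_nonneg _
  have hg0 : ∀ m, (0 : ℝ) ≤ (Module.finrank ℂ (Fgt F m a) : ℝ) := fun m => Nat.cast_nonneg _
  have hk0' : ∀ m, (0 : ℝ) ≤ (kk H D m : ℝ) := fun m => Nat.cast_nonneg _
  have sW : Summable fun m : ℕ => exp (-τ * m) * Wf m :=
    summable_of_le X hτ (C := 1) hW0 fun m => by
      have := hF m; have := hFV m; have := hk0' m; linarith
  have sk : Summable fun m : ℕ => exp (-τ * m) * kf m :=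
    summable_of_le X hτ (C := 1) hk0 fun m => by
      have := hF m; have := hFV m; have := hW0 m; have := hg0 m
      simp only [hkf]; linarith
  have hGW : ∀ m, G m ≤ p * Wf m := fun m => by
    have h3 : ∑ e ∈ Finset.Icc 1 p, Module.finrank ℂ (WW H D m ⊓ Lead553.mpow d r e :
        Submodule ℂ (Fin r → MvPowerSeries (Fin d) ℂ)) ≤
        ∑ _e ∈ Finset.Icc 1 p, Module.finrank ℂ (WW H D m) :=
      Finset.sum_le_sum fun e _ => Submodule.finrank_mono inf_le_left
    rw [Finset.sum_const, Nat.card_Icc, smul_eq_mul, Nat.add_sub_cancel] at h3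
    simp only [hG, hWf]
    exact_mod_cast h3
  have sG : Summable fun m : ℕ => exp (-τ * m) * G m :=
    summable_of_le X hτ (C := p) (fun m => Nat.cast_nonneg _) fun m => by
      refine (hGW m).trans (mul_le_mul_of_nonneg_left ?_ (Nat.cast_nonneg _))
      have := hF m; have := hFV m; have := hk0' m; linarith
  -- GAIN
  have hτp : C1 / τ ≤ p := le_trans (div_le_div_of_nonneg_right (le_max_left _ _) hτ.le) hp
  have hdp : (d : ℝ) / τ ≤ p := le_trans (div_le_div_of_nonneg_right (le_max_right _ _) hτ.le) hp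
  have key := HG τ hτ hττ p hτp r (fun j => (X.V j).map D.th.toLinearMap) (WW H D)
    (fun j => inferInstance) (fun m => inferInstance)
    (fun m j f hf w hw => WW_mul H D hf hw)
    (fun j hj => by
      rw [finrank_th X hP D j]
      exact hj1 P hP hdim j hj)
    (fun v hv => by
      obtain ⟨f, hf, hfb⟩ := hj0 j0 le_rfl y
        (MvPolynomial.aeval (wd D.hd w) (MvPolynomial.monomial v (1 : ℂ)))
      refine ⟨D.th f, ⟨f, hf, rfl⟩, fun u hu => ?_⟩
      rw [D.th_jet hfb hu, MvPolynomial.coeff_monomial]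
      by_cases huv : u = v
      · rw [if_pos huv, if_pos huv.symm]
      · rw [if_neg huv, if_neg fun h => huv h.symm])
    sW
  -- assemble
  have hL : ∀ m : ℕ, exp (-τ * m) * ((Module.finrank ℂ (F.F m a) : ℝ) -
      Module.finrank ℂ (Fgt F m a)) = exp (-τ * m) * Wf m + exp (-τ * m) * kf m := fun m => by
    rw [hF m, hkf]; ring
  have hR : ∀ m : ℕ, exp (-τ * m) * ∑ e ∈ Finset.Icc 1 p,
      ((Module.finrank ℂ (U F P y m a e) : ℝ) - Module.finrank ℂ (Fgt F m a)) =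
      exp (-τ * m) * G m + p * (exp (-τ * m) * kf m) := fun m => by
    have h3 : ∑ e ∈ Finset.Icc 1 p,
        ((Module.finrank ℂ (U F P y m a e) : ℝ) - Module.finrank ℂ (Fgt F m a)) =
        G m + p * kf m := by
      have h4 : ∀ e ∈ Finset.Icc 1 p,
          ((Module.finrank ℂ (U F P y m a e) : ℝ) - Module.finrank ℂ (Fgt F m a)) =
          (Module.finrank ℂ (WW H D m ⊓ Lead553.mpow d r e :
            Submodule ℂ (Fin r → MvPowerSeries (Fin d) ℂ)) : ℝ) + kf m := fun e _ => by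
        rw [finrank_U H D hy2 m e]; push_cast; simp only [hkf]; ring
      rw [Finset.sum_congr rfl h4, Finset.sum_add_distrib, Finset.sum_const, Nat.card_Icc,
        Nat.add_sub_cancel, nsmul_eq_mul]
      simp only [hG]
      push_cast
      rfl
    rw [h3]; ring
  simp only [hL, hR]
  rw [sW.tsum_add sk, sG.tsum_add (sk.mul_left _), tsum_mul_left, mul_add]
  refine add_le_add key ?_
  refine mul_le_mul_of_nonneg_right ?_ (tsum_nonneg fun m => mul_nonneg (exp_pos _).le (hk0 m))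
  have : (0 : ℝ) ≤ d / τ := by positivity
  nlinarith

end Crest.Agent.R271.N857
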