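import Crest.Agent.R271.Assembly_710
import Crest.Agent.R271.CaseB_553
import Crest.Agent.R271.N7e_857
import Crest.Agent.R271.Ord_969
import Crest.Agent.R271.KrullTrdeg_661

/-!
# Row 271, Part 9.4 in terms of `FCtx`: translation of Case B to power series
-/

set_option autoImplicit false

open Finset Module
open scoped Nat

noncomputable section

namespace Crest.Agent.R271.CaseBF376

open Crest.Agent.R271.Defs710 Crest.Agent.R271.Assembly710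
open Crest.Agent.R271.CaseB553 Crest.Agent.R271.N857

variable {n : ℕ} (X : FCtx n)

/-- the output of Case B consumed by the existence theorem of helper302 -/
def CaseBSum (X : FCtx n) : Prop :=
  ∃ η₃ τ₀ : ℝ, 0 < η₃ ∧ 0 < τ₀ ∧ ∀ τ : ℝ, 0 < τ → τ ≤ τ₀ → ∀ C₁ : ℕ,
    (∀ m, ∀ f ∈ X.V m, f ≠ 0 → ∀ e : ℕ, f ∈ mI X.x ^ e → e ≤ C₁ * m) →
    (n + η₃) / τ * ∑' m : ℕ, Real.exp (-τ * m) * (finrank ℂ (X.V m) : ℝ) ≤
      ∑' m : ℕ, Real.exp (-τ * m) * ∑ e ∈ Finset.Icc 1 (C₁ * m), (dimOrd X m e : ℝ)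

/-- the Taylor expansion at `y` -/
theorem exists_AData (y : X.B →ₐ[ℂ] ℂ) : ∃ w : Fin n → X.B, AData y (⊥ : Ideal X.B) n w :=
  AData.mk' X.z X.etale y ⊥ (fun f hf => by rw [Ideal.mem_bot] at hf; rw [hf, map_zero]) n le_rfl
    (Ord969.fctx_adapted X y)

variable {X}

theorem th_inj {y : X.B →ₐ[ℂ] ℂ} {w : Fin n → X.B} (D : AData y (⊥ : Ideal X.B) n w) :
    Function.Injective D.th.toLinearMap := by
  have hn := Ord969.isNoetherianRing X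
  rw [← LinearMap.ker_eq_bot, LinearMap.ker_eq_bot']
  intro b hb
  have := D.th_eq_zero Ideal.isPrime_bot hb
  simpa using this

theorem map_inf {y : X.B →ₐ[ℂ] ℂ} {w : Fin n → X.B} (D : AData y (⊥ : Ideal X.B) n w)
    (W : Submodule ℂ X.B) (e : ℕ) :
    (W ⊓ ((mI y ^ e).restrictScalars ℂ)).map D.th.toLinearMap =
      W.map D.th.toLinearMap ⊓ mpow1 n e := by
  ext f
  constructor
  · rintro ⟨b, ⟨hb1, hb2⟩, rfl⟩
    refine ⟨⟨b, hb1, rfl⟩, ?_⟩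
    exact (D.th_order_iff b e).2 (Ideal.mem_sup_left hb2)
  · rintro ⟨⟨b, hb1, rfl⟩, hb2⟩
    refine ⟨b, ⟨hb1, ?_⟩, rfl⟩
    have := (D.th_order_iff b e).1 hb2
    rw [sup_bot_eq] at this
    exact this

theorem finrank_map {y : X.B →ₐ[ℂ] ℂ} {w : Fin n → X.B} (D : AData y (⊥ : Ideal X.B) n w)
    (W : Submodule ℂ X.B) :
    finrank ℂ (W.map D.th.toLinearMap) = finrank ℂ W :=
  (LinearEquiv.finrank_eq (Submodule.equivMapOfInjective _ (th_inj D) W)).symm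

theorem finrank_map_inf {y : X.B →ₐ[ℂ] ℂ} {w : Fin n → X.B} (D : AData y (⊥ : Ideal X.B) n w)
    (W : Submodule ℂ X.B) (e : ℕ) :
    finrank ℂ (W.map D.th.toLinearMap ⊓ mpow1 n e : Submodule ℂ (MvPowerSeries (Fin n) ℂ)) =
      finrank ℂ (W ⊓ ((mI y ^ e).restrictScalars ℂ) : Submodule ℂ X.B) := by
  rw [← map_inf D W e, finrank_map D]

theorem dimOrd_eq_zero {C₁ : ℕ}
    (hC : ∀ m, ∀ f ∈ X.V m, f ≠ 0 → ∀ e : ℕ, f ∈ mI X.x ^ e → e ≤ C₁ * m) (m e : ℕ)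
    (he : C₁ * m < e) : X.V m ⊓ ((mI X.x ^ e).restrictScalars ℂ) = ⊥ := by
  rw [eq_bot_iff]
  rintro f ⟨hf, hfe⟩
  by_contra h0
  have h1 := hC m f hf (fun h => h0 (by rw [h]; simp)) e hfe
  omega

theorem sum_dimOrd_eq {C₁ C₂ : ℕ}
    (h1 : ∀ m, ∀ f ∈ X.V m, f ≠ 0 → ∀ e : ℕ, f ∈ mI X.x ^ e → e ≤ C₁ * m)
    (h2 : ∀ m, ∀ f ∈ X.V m, f ≠ 0 → ∀ e : ℕ, f ∈ mI X.x ^ e → e ≤ C₂ * m) (m : ℕ) :
    ∑ e ∈ Finset.Icc 1 (C₁ * m), (dimOrd X m e : ℝ) =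
      ∑ e ∈ Finset.Icc 1 (C₂ * m), (dimOrd X m e : ℝ) := by
  have key : ∀ C C' : ℕ, C ≤ C' →
      (∀ m, ∀ f ∈ X.V m, f ≠ 0 → ∀ e : ℕ, f ∈ mI X.x ^ e → e ≤ C * m) →
      ∑ e ∈ Finset.Icc 1 (C * m), (dimOrd X m e : ℝ) =
      ∑ e ∈ Finset.Icc 1 (C' * m), (dimOrd X m e : ℝ) := by
    intro C C' hCC hC
    refine Finset.sum_subset ?_ ?_
    · exact Finset.Icc_subset_Icc_right (Nat.mul_le_mul_right m hCC)
    · intro e he he'
      rw [Finset.mem_Icc] at he he'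
      have hlt : C * m < e := by
        by_contra hcon
        exact he' ⟨he.1, not_lt.1 hcon⟩
      unfold dimOrd
      rw [dimOrd_eq_zero hC m e hlt, finrank_bot, Nat.cast_zero]
  rw [key C₁ (max C₁ C₂) (le_max_left _ _) h1, ← key C₂ (max C₁ C₂) (le_max_right _ _) h2]

/-- Case B in terms of sums -/
theorem caseBSum (X : FCtx n) (hn : 1 ≤ n) (hB : CaseB X) : CaseBSum X := by
  obtain ⟨c, hc, m₁, hcaps⟩ := hB
  obtain ⟨η, hη, H⟩ := CASEB n hn c hc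
  obtain ⟨w, D⟩ := exists_AData X X.x
  obtain ⟨C₀, hC₀⟩ := X.ordbd
  obtain ⟨K, hK⟩ := exists_finrank_le X
  obtain ⟨j₀, hj₀⟩ := X.jets n
  have hfin := X.V_fin
  have hC₀' : ∀ m, ∀ f ∈ X.V m, f ≠ 0 → ∀ e : ℕ, f ∈ mI X.x ^ e → e ≤ C₀ * m :=
    fun m f hf h0 e he => hC₀ m f hf h0 X.x e he
  obtain ⟨τ0, hτ0, hτ⟩ := H (fun m => (X.V m).map D.th.toLinearMap) (fun m => inferInstance)
    (by
      rintro i j _ ⟨f, hf, rfl⟩ _ ⟨g, hg, rfl⟩
      refine ⟨f * g, X.V_mul i j f g hf hg, ?_⟩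
      simp)
    ⟨j₀, fun v hv => by
      obtain ⟨f, hf, hfb⟩ := hj₀ j₀ le_rfl X.x
        (MvPolynomial.aeval (wd D.hd w) (MvPolynomial.monomial v (1 : ℂ)))
      refine ⟨D.th f, ⟨f, hf, rfl⟩, fun u hu => ?_⟩
      rw [D.th_jet hfb hu, MvPolynomial.coeff_monomial]
      by_cases huv : u = v
      · rw [if_pos huv, if_pos huv.symm]
      · rw [if_neg huv, if_neg fun h => huv h.symm]⟩
    (by
      intro e he
      obtain ⟨j₁, hj₁⟩ := X.growth n e he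
      refine ⟨j₁, fun j hj => ?_⟩
      have hdim : ringKrullDim (X.B ⧸ (⊥ : Ideal X.B)) = n := by
        rw [ringKrullDim_eq_of_ringEquiv (RingEquiv.quotientBot X.B)]
        exact Crest.Agent.R271.KT661.krull_eq X.z X.etale
      have h1 := hj₁ ⊥ Ideal.isPrime_bot hdim j hj
      rw [finrank_th X Ideal.isPrime_bot D j]
      exact h1)
    ⟨((K : ℝ) + 1) ^ n, fun m => by
      rw [finrank_map D]
      have h1 : (finrank ℂ (X.V m) : ℝ) ≤ ((K : ℝ) * m + 1) ^ n := by exact_mod_cast hK m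
      refine h1.trans ?_
      rw [← mul_pow]
      refine pow_le_pow_left₀ (by positivity) ?_ n
      have : (0 : ℝ) ≤ K := Nat.cast_nonneg _
      have : (0 : ℝ) ≤ m := Nat.cast_nonneg _
      nlinarith⟩
    C₀
    (by
      intro m
      rw [← map_inf D, dimOrd_eq_zero hC₀' m _ (Nat.lt_succ_self _), Submodule.map_bot])
    ⟨m₁, fun m hm j hj => by
      rw [finrank_map_inf D, finrank_map_inf D]
      exact hcaps m hm j hj⟩
  refine ⟨η, τ0, hη, hτ0, fun τ h0 h1 C₁ hC₁ => ?_⟩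
  have h2 := hτ τ h0 h1
  have e1 : ∀ m : ℕ, Real.exp (-τ * m) * (finrank ℂ ((X.V m).map D.th.toLinearMap) : ℝ) =
      Real.exp (-τ * m) * (finrank ℂ (X.V m) : ℝ) := fun m => by rw [finrank_map D]
  have e2 : ∀ m : ℕ, Real.exp (-τ * m) * ((∑ e ∈ Finset.Icc 1 (C₀ * m),
      finrank ℂ ((X.V m).map D.th.toLinearMap ⊓ mpow1 n e :
        Submodule ℂ (MvPowerSeries (Fin n) ℂ)) : ℕ) : ℝ) =
      Real.exp (-τ * m) * ∑ e ∈ Finset.Icc 1 (C₁ * m), (dimOrd X m e : ℝ) := fun m => by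
    rw [sum_dimOrd_eq hC₁ hC₀' m, Nat.cast_sum]
    congr 1
    refine Finset.sum_congr rfl fun e _ => ?_
    rw [finrank_map_inf D]
    rfl
  simp only [e1, e2] at h2
  exact h2

end Crest.Agent.R271.CaseBF376
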