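import Mathlib
import Crest.Agent.R230.BMineq

/-!
# Row 271, Part 9: discrete Brunn-Minkowski inequality
-/

set_option autoImplicit false

open MeasureTheory Set Module
open scoped ENNReal Pointwise

namespace Crest.Agent.R271.Cnt553

/-- closed unit cube with corner `v` -/
def cube {d : ℕ} (v : Fin d → ℕ) : Set (Fin d → ℝ) :=
  Set.Icc (fun i => (v i : ℝ)) (fun i => (v i : ℝ) + 1)

/-- half open unit cube with corner `v` -/
def hcube {d : ℕ} (v : Fin d → ℕ) : Set (Fin d → ℝ) :=
  Set.pi Set.univ (fun i => Set.Ico (v i : ℝ) ((v i : ℝ) + 1))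

lemma volume_cube {d : ℕ} (v : Fin d → ℕ) : volume (cube v) = 1 := by
  unfold cube
  rw [Real.volume_Icc_pi]
  simp

lemma volume_hcube {d : ℕ} (v : Fin d → ℕ) : volume (hcube v) = 1 := by
  unfold hcube
  rw [Real.volume_pi_Ico]
  simp

lemma hcube_subset {d : ℕ} (v : Fin d → ℕ) : hcube v ⊆ cube v := by
  intro x hx
  refine ⟨fun i => ?_, fun i => ?_⟩
  · exact (hx i (Set.mem_univ i)).1
  · exact (hx i (Set.mem_univ i)).2.le

lemma hcube_disjoint {d : ℕ} {v w : Fin d → ℕ} (h : v ≠ w) : Disjoint (hcube v) (hcube w) := by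
  rw [Set.disjoint_left]
  intro x hx hy
  apply h
  funext i
  have h1 := hx i (Set.mem_univ i)
  have h2 := hy i (Set.mem_univ i)
  have e1 : ⌊x i⌋ = (v i : ℤ) := by
    rw [Int.floor_eq_iff]; exact ⟨by exact_mod_cast h1.1, by exact_mod_cast h1.2⟩
  have e2 : ⌊x i⌋ = (w i : ℤ) := by
    rw [Int.floor_eq_iff]; exact ⟨by exact_mod_cast h2.1, by exact_mod_cast h2.2⟩
  rw [e1] at e2
  exact_mod_cast e2

/-- union of the closed cubes with corners in `S` -/
def Q {d : ℕ} (S : Finset (Fin d → ℕ)) : Set (Fin d → ℝ) := ⋃ v ∈ S, cube v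

lemma isCompact_Q {d : ℕ} (S : Finset (Fin d → ℕ)) : IsCompact (Q S) := by
  unfold Q
  exact S.finite_toSet.isCompact_biUnion (fun v _ => isCompact_Icc)

lemma volume_Q {d : ℕ} (S : Finset (Fin d → ℕ)) : volume (Q S) = S.card := by
  apply le_antisymm
  · calc volume (Q S) ≤ ∑ v ∈ S, volume (cube v) := measure_biUnion_finset_le S _
      _ = S.card := by simp [volume_cube]
  · calc (S.card : ℝ≥0∞) = ∑ v ∈ S, volume (hcube v) := by simp [volume_hcube]
      _ = volume (⋃ v ∈ S, hcube v) := by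
        rw [measure_biUnion_finset]
        · intro v _ w _ hvw
          exact hcube_disjoint hvw
        · intro v _
          exact MeasurableSet.univ_pi (fun i => measurableSet_Ico)
      _ ≤ volume (Q S) := by
        apply measure_mono
        unfold Q
        exact Set.iUnion₂_mono (fun v _ => hcube_subset v)

/-- **discrete Brunn-Minkowski**: `|A + B + {0,1}^d|^{1/d} ≥ |A|^{1/d} + |B|^{1/d}`. -/
theorem dBM {d : ℕ} (hd : 0 < d) (A B C : Finset (Fin d → ℕ)) (hA : A.Nonempty) (hB : B.Nonempty)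
    (hC : ∀ a ∈ A, ∀ b ∈ B, ∀ e : Fin d → ℕ, (∀ i, e i ≤ 1) → a + b + e ∈ C) :
    (A.card : ℝ) ^ ((1 : ℝ) / d) + (B.card : ℝ) ^ ((1 : ℝ) / d) ≤ (C.card : ℝ) ^ ((1 : ℝ) / d) := by
  have hfr : finrank ℝ (Fin d → ℝ) = d := by simp
  have hAn : (Q A).Nonempty := by
    obtain ⟨a, ha⟩ := hA
    refine ⟨fun i => (a i : ℝ), ?_⟩
    unfold Q
    simp only [Set.mem_iUnion]
    exact ⟨a, ha, le_refl _, fun i => by simp⟩
  have hBn : (Q B).Nonempty := by
    obtain ⟨a, ha⟩ := hB
    refine ⟨fun i => (a i : ℝ), ?_⟩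
    unfold Q
    simp only [Set.mem_iUnion]
    exact ⟨a, ha, le_refl _, fun i => by simp⟩
  have key := Crest.Agent.R230.bm (Crest.Agent.Lib.PrekopaLeindler.PL_pi d)
    (isCompact_Q A) (isCompact_Q B) hAn hBn (by rw [hfr]; exact hd)
  rw [hfr, volume_Q, volume_Q] at key
  simp only [ENNReal.toReal_natCast] at key
  refine key.trans ?_
  apply Real.rpow_le_rpow ENNReal.toReal_nonneg _ (by positivity)
  have hsub : Q A + Q B ⊆ Q C := by
    rintro _ ⟨x, hx, y, hy, rfl⟩
    unfold Q at hx hy ⊢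
    simp only [Set.mem_iUnion] at hx hy ⊢
    obtain ⟨a, ha, hxa⟩ := hx
    obtain ⟨b, hb, hyb⟩ := hy
    let e : Fin d → ℕ := fun i => if x i + y i ≤ (a i : ℝ) + b i + 1 then 0 else 1
    refine ⟨a + b + e, hC a ha b hb e (fun i => by simp only [e]; split_ifs <;> simp), ?_, ?_⟩
    · intro i
      have h1 := hxa.1 i
      have h2 := hyb.1 i
      simp only [Pi.add_apply, Nat.cast_add, e] at *
      split_ifs with h
      · simp; linarith
      · push Not at h; simp; linarith
    · intro i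
      have h1 := hxa.2 i
      have h2 := hyb.2 i
      simp only [Pi.add_apply, Nat.cast_add, e] at *
      split_ifs with h
      · simp; linarith
      · push Not at h; simp; linarith
  calc (volume (Q A + Q B)).toReal ≤ (volume (Q C)).toReal :=
        ENNReal.toReal_mono (isCompact_Q C).measure_lt_top.ne (measure_mono hsub)
    _ = C.card := by rw [volume_Q]; simp

end Crest.Agent.R271.Cnt553
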