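import Mathlib

/-!
Row 271, (11.3): choice of coordinates by linear projection (helper769).
-/

set_option autoImplicit false

open scoped BigOperators
open Polynomial

namespace Crest.Agent.R271.Coord769

section hom

variable {R : Type*} [CommRing R] [Algebra ℂ R] {ι : Type*}

/-- evaluation of a homogeneous polynomial at `(Y_j X)`. -/
theorem aeval_mul_X_of_homog (Y : ι → R) (d : ℕ) (G : MvPolynomial ι ℂ)
    (hG : G.IsHomogeneous d) :
    MvPolynomial.aeval (fun j => (C (Y j) * X : R[X])) G = C (MvPolynomial.aeval Y G) * X ^ d := by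
  classical
  conv_lhs => rw [← MvPolynomial.support_sum_monomial_coeff G]
  conv_rhs => rw [← MvPolynomial.support_sum_monomial_coeff G]
  rw [map_sum, map_sum, map_sum, Finset.sum_mul]
  refine Finset.sum_congr rfl fun m hm => ?_
  have hd : m.degree = d := by
    have := hG (MvPolynomial.mem_support_iff.mp hm)
    rw [← this, Finsupp.degree_eq_weight_one]; rfl
  rw [MvPolynomial.aeval_monomial, MvPolynomial.aeval_monomial]
  have h1 : (m.prod fun i k => (C (Y i) * X : R[X]) ^ k) =
      C (m.prod fun i k => (Y i) ^ k) * X ^ d := by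
    rw [← hd]
    simp only [Finsupp.prod, mul_pow, Finset.prod_mul_distrib, map_prod, map_pow]
    congr 1
    rw [Finset.prod_pow_eq_pow_sum]
    rfl
  rw [h1, map_mul, ← mul_assoc]
  rfl

/-- coefficients of `G(Y X)`. -/
theorem coeff_aeval_mul_X (Y : ι → R) (G : MvPolynomial ι ℂ) (m : ℕ) :
    (MvPolynomial.aeval (fun j => (C (Y j) * X : R[X])) G).coeff m =
      MvPolynomial.aeval Y (MvPolynomial.homogeneousComponent m G) := by
  classical
  conv_lhs => rw [← MvPolynomial.sum_homogeneousComponent G]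
  rw [map_sum, finsetSum_coeff]
  have h : ∀ i, (MvPolynomial.aeval (fun j => (C (Y j) * X : R[X]))
      (MvPolynomial.homogeneousComponent i G)).coeff m =
      if i = m then MvPolynomial.aeval Y (MvPolynomial.homogeneousComponent m G) else 0 := by
    intro i
    rw [aeval_mul_X_of_homog Y i _ (MvPolynomial.homogeneousComponent_isHomogeneous i G),
      coeff_C_mul, coeff_X_pow]
    by_cases him : i = m
    · subst him; simp
    · simp [him, Ne.symm him]
  simp_rw [h]
  rw [Finset.sum_ite_eq' (Finset.range (G.totalDegree + 1)) m]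
  split_ifs with hm
  · rfl
  · have : MvPolynomial.homogeneousComponent m G = 0 := by
      apply MvPolynomial.homogeneousComponent_eq_zero
      simpa [Nat.lt_succ_iff, not_le] using hm
    rw [this, map_zero]

/-- `F(a + b T)` has degree `≤ d` and `T^d`-coefficient `F(b)`. -/
theorem coeff_aeval_lin (a b : ι → R) (d : ℕ) (F : MvPolynomial ι ℂ) (hF : F.IsHomogeneous d) :
    (MvPolynomial.aeval (fun i => (C (a i) + C (b i) * X : R[X])) F).natDegree ≤ d ∧
    (MvPolynomial.aeval (fun i => (C (a i) + C (b i) * X : R[X])) F).coeff d =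
      MvPolynomial.aeval b F := by
  classical
  have hterm : ∀ m ∈ F.support,
      (MvPolynomial.aeval (fun i => (C (a i) + C (b i) * X : R[X]))
        (MvPolynomial.monomial m (F.coeff m))).natDegree ≤ d ∧
      (MvPolynomial.aeval (fun i => (C (a i) + C (b i) * X : R[X]))
        (MvPolynomial.monomial m (F.coeff m))).coeff d =
      MvPolynomial.aeval b (MvPolynomial.monomial m (F.coeff m)) := by
    intro m hm
    have hd : m.degree = d := by
      have := hF (MvPolynomial.mem_support_iff.mp hm)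
      rw [← this, Finsupp.degree_eq_weight_one]; rfl
    have hlin : ∀ i, (C (a i) + C (b i) * X : R[X]).natDegree ≤ 1 := by
      intro i
      rw [add_comm]
      exact natDegree_linear_le
    have hpow : ∀ i (k : ℕ), ((C (a i) + C (b i) * X : R[X]) ^ k).natDegree ≤ k := by
      intro i k
      calc _ ≤ k * (C (a i) + C (b i) * X : R[X]).natDegree := natDegree_pow_le
        _ ≤ k * 1 := Nat.mul_le_mul_left _ (hlin i)
        _ = k := mul_one k
    have hpc : ∀ i (k : ℕ), ((C (a i) + C (b i) * X : R[X]) ^ k).coeff k = (b i) ^ k := by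
      intro i k
      have := coeff_pow_of_natDegree_le (p := (C (a i) + C (b i) * X : R[X])) (n := 1) (hlin i) (m := k)
      rw [mul_one] at this
      rw [this]
      simp [coeff_C]
    have hprod : (∏ i ∈ m.support, (C (a i) + C (b i) * X : R[X]) ^ (m i)).natDegree ≤ d ∧
        (∏ i ∈ m.support, (C (a i) + C (b i) * X : R[X]) ^ (m i)).coeff d =
          ∏ i ∈ m.support, (b i) ^ (m i) := by
      rw [← hd]
      have : ∀ s : Finset ι, (∏ i ∈ s, (C (a i) + C (b i) * X : R[X]) ^ (m i)).natDegree ≤
          ∑ i ∈ s, m i ∧ (∏ i ∈ s, (C (a i) + C (b i) * X : R[X]) ^ (m i)).coeff (∑ i ∈ s, m i) =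
          ∏ i ∈ s, (b i) ^ (m i) := by
        intro s
        induction s using Finset.induction_on with
        | empty => simp
        | insert i s his ih =>
          rw [Finset.prod_insert his, Finset.sum_insert his, Finset.prod_insert his]
          refine ⟨natDegree_mul_le.trans (Nat.add_le_add (hpow i _) ih.1), ?_⟩
          rw [coeff_mul_add_eq_of_natDegree_le (hpow i _) ih.1, hpc, ih.2]
      exact this m.support
    rw [MvPolynomial.aeval_monomial, MvPolynomial.aeval_monomial]
    have halg : algebraMap ℂ R[X] (F.coeff m) = C (algebraMap ℂ R (F.coeff m)) := rfl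
    rw [halg]
    refine ⟨(natDegree_C_mul_le _ _).trans hprod.1, ?_⟩
    rw [coeff_C_mul]
    congr 1
    exact hprod.2
  conv_lhs => rw [← MvPolynomial.support_sum_monomial_coeff F]
  constructor
  · rw [map_sum]
    exact natDegree_sum_le_of_forall_le _ _ fun m hm => (hterm m hm).1
  · conv_rhs => rw [← MvPolynomial.support_sum_monomial_coeff F]
    conv_lhs => rw [← MvPolynomial.support_sum_monomial_coeff F]
    rw [map_sum, map_sum, finsetSum_coeff]
    exact Finset.sum_congr rfl fun m hm => (hterm m hm).2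

end hom

section proj

variable {K : Type} [Field K] [Algebra ℂ K]

/-- `ℂ[u X | u ∈ U] ⊆ K[X]` -/
noncomputable def RU (U : Submodule ℂ K) : Subalgebra ℂ K[X] :=
  Algebra.adjoin ℂ ((fun u : K => (C u * X : K[X])) '' (U : Set K))

theorem RU_mono {U U' : Submodule ℂ K} (h : U ≤ U') : RU U ≤ RU U' :=
  Algebra.adjoin_mono (Set.image_mono h)

theorem mem_RU {U : Submodule ℂ K} {u : K} (hu : u ∈ U) : (C u * X : K[X]) ∈ RU U :=
  Algebra.subset_adjoin ⟨u, hu, rfl⟩

/-- a relation between too many elements -/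
theorem exists_relation (n : ℕ) (htr : Algebra.trdeg ℂ K = n) {r : ℕ} (hr : n + 1 < r)
    (w : Fin r → K) :
    ∃ (d : ℕ) (F : MvPolynomial (Fin r) ℂ), F.IsHomogeneous d ∧ F ≠ 0 ∧
      MvPolynomial.aeval w F = 0 := by
  have htr' : Algebra.trdeg ℂ K[X] = n + 1 := by
    have h := _root_.trdeg_add_eq ℂ K (A := K[X])
    rw [htr, Polynomial.trdeg_of_isDomain] at h
    exact h.symm
  have hnot : ¬ AlgebraicIndependent ℂ (fun j => (C (w j) * X : K[X])) := by
    intro hind
    have := hind.cardinalMk_le_trdeg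
    rw [htr', Cardinal.mk_fin] at this
    have h2 : r ≤ n + 1 := by exact_mod_cast this
    omega
  rw [algebraicIndependent_iff] at hnot
  push Not at hnot
  obtain ⟨F, hF0, hFne⟩ := hnot
  have : ∃ d, MvPolynomial.homogeneousComponent d F ≠ 0 := by
    by_contra hcon
    push Not at hcon
    apply hFne
    rw [← MvPolynomial.sum_homogeneousComponent F]
    exact Finset.sum_eq_zero fun i _ => hcon i
  obtain ⟨d, hd⟩ := this
  refine ⟨d, MvPolynomial.homogeneousComponent d F,
    MvPolynomial.homogeneousComponent_isHomogeneous d F, hd, ?_⟩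
  rw [← coeff_aeval_mul_X, hF0, coeff_zero]

/-- one projection step -/
theorem step (n : ℕ) (htr : Algebra.trdeg ℂ K = n) (U : Submodule ℂ K) [FiniteDimensional ℂ U]
    (hU : n + 1 < Module.finrank ℂ U) (g : K) (hg : g ∈ U) (hg0 : g ≠ 0) :
    ∃ l : U →ₗ[ℂ] ℂ, l ⟨g, hg⟩ ≠ 0 ∧
      ∀ u ∈ U, IsIntegral (RU ((LinearMap.ker l).map U.subtype)) (C u * X : K[X]) := by
  classical
  let bU := Module.finBasis ℂ U
  obtain ⟨d, F, hFh, hF0, hFw⟩ := exists_relation n htr hU (fun i => (bU i : K))
  -- the linear form of g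
  let G : MvPolynomial (Fin (Module.finrank ℂ U)) ℂ :=
    ∑ i, MvPolynomial.C (bU.repr ⟨g, hg⟩ i) * MvPolynomial.X i
  have hG0 : G ≠ 0 := by
    intro hG
    have hrep : bU.repr ⟨g, hg⟩ = 0 := by
      ext i
      have h1 : MvPolynomial.coeff (Finsupp.single i 1) G = bU.repr ⟨g, hg⟩ i := by
        simp only [G, MvPolynomial.coeff_sum, MvPolynomial.coeff_C_mul, MvPolynomial.coeff_X]
        rw [Finset.sum_eq_single i]
        · simp
        · intro j _ hj
          rw [if_neg, mul_zero]
          intro h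
          exact hj (Finsupp.single_left_injective one_ne_zero h)
        · intro h; exact absurd (Finset.mem_univ i) h
      rw [← h1, hG]; simp
    have : (⟨g, hg⟩ : U) = 0 := by
      rw [← bU.repr.map_eq_zero_iff]; exact hrep
    exact hg0 (congrArg Subtype.val this)
  obtain ⟨lam, hlam⟩ : ∃ lam : Fin (Module.finrank ℂ U) → ℂ, MvPolynomial.eval lam (F * G) ≠ 0 := by
    by_contra hcon
    push Not at hcon
    have : F * G = 0 := MvPolynomial.funext fun x => by rw [hcon x, map_zero]
    rcases mul_eq_zero.mp this with h | h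
    · exact hF0 h
    · exact hG0 h
  rw [map_mul] at hlam
  have hFl : MvPolynomial.eval lam F ≠ 0 := left_ne_zero_of_mul hlam
  have hGl : MvPolynomial.eval lam G ≠ 0 := right_ne_zero_of_mul hlam
  let l : U →ₗ[ℂ] ℂ := bU.constr ℂ lam
  have hlb : ∀ i, l (bU i) = lam i := fun i => bU.constr_basis ℂ lam i
  have hlg : l ⟨g, hg⟩ = MvPolynomial.eval lam G := by
    conv_lhs => rw [← bU.sum_repr ⟨g, hg⟩]
    rw [map_sum]
    simp only [map_smul, hlb, smul_eq_mul, G, map_sum, map_mul, MvPolynomial.eval_C,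
      MvPolynomial.eval_X]
  refine ⟨l, by rw [hlg]; exact hGl, ?_⟩
  -- the element with l e = 1
  let e : U := (l ⟨g, hg⟩)⁻¹ • ⟨g, hg⟩
  have hle : l e = 1 := by
    simp only [e, map_smul, smul_eq_mul]
    exact inv_mul_cancel₀ (by rw [hlg]; exact hGl)
  set U' : Submodule ℂ K := (LinearMap.ker l).map U.subtype with hU'
  have hmem : ∀ u : U, ((u - l u • e : U) : K) ∈ U' := by
    intro u
    refine ⟨u - l u • e, ?_, rfl⟩
    rw [SetLike.mem_coe, LinearMap.mem_ker, map_sub, map_smul, hle, smul_eq_mul, mul_one, sub_self]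
  -- `e X` is integral
  have hint_e : IsIntegral (RU U') (C (e : K) * X : K[X]) := by
    let a : Fin (Module.finrank ℂ U) → RU U' := fun i =>
      ⟨C ((bU i - l (bU i) • e : U) : K) * X, mem_RU (hmem (bU i))⟩
    let b : Fin (Module.finrank ℂ U) → RU U' := fun i => algebraMap ℂ (RU U') (lam i)
    obtain ⟨hdeg, hco⟩ := coeff_aeval_lin a b d F hFh
    set P : (RU U')[X] := MvPolynomial.aeval (fun i => (C (a i) + C (b i) * X : (RU U')[X])) F
      with hP
    have hco' : P.coeff d = algebraMap ℂ (RU U') (MvPolynomial.eval lam F) := by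
      rw [hco]
      have h := MvPolynomial.aeval_algebraMap_apply (RU U') lam F
      exact h
    let P' : (RU U')[X] := C (algebraMap ℂ (RU U') (MvPolynomial.eval lam F)⁻¹) * P
    have hmonic : P'.Monic := by
      refine monic_of_natDegree_le_of_coeff_eq_one d ?_ ?_
      · exact (natDegree_C_mul_le _ _).trans hdeg
      · show (C _ * P).coeff d = 1
        rw [coeff_C_mul, hco', ← map_mul, inv_mul_cancel₀ hFl, map_one]
    refine ⟨P', hmonic, ?_⟩
    show Polynomial.eval₂ (algebraMap (RU U') K[X]) (C (e : K) * X) (C _ * P) = 0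
    rw [eval₂_mul]
    have hPe : Polynomial.eval₂ (algebraMap (RU U') K[X]) (C (e : K) * X) P = 0 := by
      have h1 : Polynomial.eval₂ (algebraMap (RU U') K[X]) (C (e : K) * X) P =
          MvPolynomial.aeval (fun i => (C ((bU i : U) : K) * X : K[X])) F := by
        let φ : (RU U')[X] →ₐ[ℂ] K[X] :=
          (Polynomial.aeval (R := RU U') (C (e : K) * X)).restrictScalars ℂ
        have h2 : Polynomial.eval₂ (algebraMap (RU U') K[X]) (C (e : K) * X) P = φ P := rfl
        rw [h2, hP, MvPolynomial.comp_aeval_apply]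
        congr 2
        funext i
        show Polynomial.eval₂ (algebraMap (RU U') K[X]) (C (e : K) * X)
          (C (a i) + C (b i) * X) = _
        rw [eval₂_add, eval₂_mul, eval₂_C, eval₂_C, eval₂_X]
        have ha : algebraMap (RU U') K[X] (a i) = C ((bU i - l (bU i) • e : U) : K) * X := rfl
        have hb : algebraMap (RU U') K[X] (b i) = C (algebraMap ℂ K (lam i)) := rfl
        rw [ha, hb, hlb]
        have : ((bU i - lam i • e : U) : K) = (bU i : K) - algebraMap ℂ K (lam i) * (e : K) := by
          rw [Submodule.coe_sub, Submodule.coe_smul, Algebra.smul_def]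
        rw [this, map_sub, map_mul]
        ring
      rw [h1, aeval_mul_X_of_homog _ d F hFh, hFw, map_zero, zero_mul]
    rw [hPe, mul_zero]
  intro u hu
  have h1 : (C u * X : K[X]) = C (((⟨u, hu⟩ : U) - l ⟨u, hu⟩ • e : U) : K) * X +
      C (algebraMap ℂ K (l ⟨u, hu⟩)) * (C (e : K) * X) := by
    rw [Submodule.coe_sub, Submodule.coe_smul, Algebra.smul_def, map_sub, map_mul]
    ring
  rw [h1]
  refine IsIntegral.add ?_ (IsIntegral.mul ?_ hint_e)
  · exact isIntegral_algebraMap (R := RU U') (x := ⟨_, mem_RU (hmem ⟨u, hu⟩)⟩)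
  · exact isIntegral_algebraMap (R := RU U') (x := algebraMap ℂ (RU U') (l ⟨u, hu⟩))

theorem isIntegral_RU_trans {U U' : Submodule ℂ K}
    (h : ∀ u ∈ U, IsIntegral (RU U') (C u * X : K[X])) {x : K[X]} (hx : IsIntegral (RU U) x) :
    IsIntegral (RU U') x := by
  let IC := integralClosure (RU U') K[X]
  have hle : RU U ≤ IC.restrictScalars ℂ := by
    refine Algebra.adjoin_le ?_
    rintro _ ⟨u, hu, rfl⟩
    exact h u hu
  let φ : RU U →+* IC := (Subalgebra.inclusion hle).toRingHom
  obtain ⟨P, hP, hPx⟩ := hx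
  have hx' : IsIntegral IC x := by
    refine ⟨P.map φ, hP.map φ, ?_⟩
    rw [eval₂_map]
    exact hPx
  exact isIntegral_trans (R := RU U') (A := IC) x hx'

/-- projection down to dimension `n+1` -/
theorem reduce (n : ℕ) (htr : Algebra.trdeg ℂ K = n) (J : K →ₗ[ℂ] (Fin (n + 1) → ℂ)) :
    ∀ (s : ℕ) (U : Submodule ℂ K), FiniteDimensional ℂ U → Module.finrank ℂ U = n + 1 + s →
      (∀ e, ∃ u ∈ U, J u = e) →
      ∃ U' ≤ U, FiniteDimensional ℂ U' ∧ Module.finrank ℂ U' = n + 1 ∧
        (∀ e, ∃ u ∈ U', J u = e) ∧ ∀ u ∈ U, IsIntegral (RU U') (C u * X : K[X]) := by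
  intro s
  induction s with
  | zero =>
    intro U hfd hU hJ
    refine ⟨U, le_rfl, hfd, by simpa using hU, hJ, fun u hu => ?_⟩
    exact isIntegral_algebraMap (R := RU U) (x := ⟨_, mem_RU hu⟩)
  | succ s ih =>
    intro U hfd hU hJ
    -- a nonzero element of the kernel of J
    have hker : ∃ g ∈ U, g ≠ 0 ∧ J g = 0 := by
      by_contra hcon
      push Not at hcon
      have hinj : Function.Injective (J.domRestrict U) := by
        rw [← LinearMap.ker_eq_bot, eq_bot_iff]
        intro u hu
        have h1 : J (u : K) = 0 := hu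
        by_contra hne
        exact hcon u u.2 (fun h0 => hne (by
          rw [Submodule.mem_bot]; exact Subtype.ext h0)) h1
      have := LinearMap.finrank_le_finrank_of_injective hinj
      rw [hU, Module.finrank_fin_fun] at this
      omega
    obtain ⟨g, hg, hg0, hJg⟩ := hker
    obtain ⟨l, hl, hint⟩ := step n htr U (by omega) g hg hg0
    set U₁ : Submodule ℂ K := (LinearMap.ker l).map U.subtype with hU₁
    have hU₁le : U₁ ≤ U := by
      rintro _ ⟨u, _, rfl⟩; exact u.2
    have hfin₁ : Module.finrank ℂ U₁ = n + 1 + s := by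
      have h1 : Module.finrank ℂ U₁ = Module.finrank ℂ (LinearMap.ker l) :=
        LinearEquiv.finrank_eq
          (Submodule.equivMapOfInjective U.subtype U.injective_subtype (LinearMap.ker l)).symm
      have h2 := LinearMap.finrank_range_add_finrank_ker l
      have h3 : Module.finrank ℂ (LinearMap.range l) = 1 := by
        have : LinearMap.range l = ⊤ := by
          rw [LinearMap.range_eq_top]
          intro c
          refine ⟨(c / l ⟨g, hg⟩) • ⟨g, hg⟩, ?_⟩
          rw [map_smul, smul_eq_mul, div_mul_cancel₀ _ hl]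
        rw [this, finrank_top, Module.finrank_self]
      rw [h1]; omega
    have hJ₁ : ∀ e, ∃ u ∈ U₁, J u = e := by
      intro e
      obtain ⟨u, hu, rfl⟩ := hJ e
      refine ⟨u - (l ⟨u, hu⟩ / l ⟨g, hg⟩) • g, ?_, ?_⟩
      · refine ⟨⟨u, hu⟩ - (l ⟨u, hu⟩ / l ⟨g, hg⟩) • ⟨g, hg⟩, ?_, rfl⟩
        rw [SetLike.mem_coe, LinearMap.mem_ker, map_sub, map_smul, smul_eq_mul,
          div_mul_cancel₀ _ hl, sub_self]
      · rw [map_sub, map_smul, hJg, smul_zero, sub_zero]
    have hfd₁ : FiniteDimensional ℂ U₁ :=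
      Submodule.finiteDimensional_of_le hU₁le
    obtain ⟨U', hU'le, hfd', hfin', hJ', hint'⟩ := ih U₁ hfd₁ hfin₁ hJ₁
    exact ⟨U', hU'le.trans hU₁le, hfd', hfin', hJ', fun u hu =>
      isIntegral_RU_trans hint' (hint u hu)⟩

/-- dehomogenisation of an integral equation -/
theorem homog_of_isIntegral {r : ℕ} (Y : Fin r → K) (q : ℕ) (f : K)
    (hf : IsIntegral (RU (Submodule.span ℂ (Set.range Y))) (C f * X ^ q : K[X])) :
    ∃ (s : ℕ) (p : ℕ → MvPolynomial (Fin r) ℂ), 1 ≤ s ∧ (∀ i, (p i).IsHomogeneous (q * i)) ∧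
      f ^ s + ∑ i ∈ Finset.range s, MvPolynomial.aeval Y (p (s - i)) * f ^ i = 0 := by
  classical
  set S := RU (Submodule.span ℂ (Set.range Y)) with hS
  have hSrange : S ≤ (MvPolynomial.aeval (fun j => (C (Y j) * X : K[X])) :
      MvPolynomial (Fin r) ℂ →ₐ[ℂ] K[X]).range := by
    refine Algebra.adjoin_le ?_
    rintro _ ⟨u, hu, rfl⟩
    rw [SetLike.mem_coe] at hu
    show (C u * X : K[X]) ∈ AlgHom.range _
    induction hu using Submodule.span_induction with
    | mem x hx =>
      obtain ⟨j, rfl⟩ := hx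
      exact ⟨MvPolynomial.X j, by simp⟩
    | zero => rw [map_zero, zero_mul]; exact Subalgebra.zero_mem _
    | add a b _ _ ha hb => rw [map_add, add_mul]; exact Subalgebra.add_mem _ ha hb
    | smul c a _ ha =>
      have : (C (c • a) * X : K[X]) = c • (C a * X) := by
        rw [Algebra.smul_def, map_mul, Algebra.smul_def, mul_assoc]; rfl
      rw [this]; exact Subalgebra.smul_mem _ ha c
  obtain ⟨P, hP, hPf⟩ := hf
  set s := P.natDegree with hs
  -- preimages of the coefficients
  have hpre : ∀ i, ∃ G : MvPolynomial (Fin r) ℂ,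
      MvPolynomial.aeval (fun j => (C (Y j) * X : K[X])) G = (P.coeff i : K[X]) := by
    intro i
    exact hSrange (P.coeff i).2
  choose G hG using hpre
  refine ⟨s, fun i => MvPolynomial.homogeneousComponent (q * i) (G (s - i)), ?_, fun i =>
    MvPolynomial.homogeneousComponent_isHomogeneous _ _, ?_⟩
  · by_contra hlt
    have hs0 : s = 0 := by omega
    have : P = 1 := hP.natDegree_eq_zero.mp hs0
    rw [this, eval₂_one] at hPf
    exact one_ne_zero hPf
  · rw [eval₂_eq_sum_range] at hPf
    have hco := congrArg (fun Q : K[X] => Q.coeff (q * s)) hPf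
    simp only [finsetSum_coeff, coeff_zero] at hco
    rw [← hs, Finset.sum_range_succ] at hco
    have hterm : ∀ i, i ≤ s → ((algebraMap S K[X] (P.coeff i)) * (C f * X ^ q) ^ i).coeff (q * s) =
        MvPolynomial.aeval Y (MvPolynomial.homogeneousComponent (q * (s - i)) (G i)) * f ^ i := by
      intro i hi
      have h1 : (algebraMap S K[X] (P.coeff i)) = (P.coeff i : K[X]) := rfl
      rw [h1, ← hG i, mul_pow, ← pow_mul, ← C_pow, ← mul_assoc, mul_comm _ (C (f ^ i)), mul_assoc,
        coeff_C_mul]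
      have h2 : q * s = q * (s - i) + q * i := by
        rw [← mul_add, Nat.sub_add_cancel hi]
      rw [h2, coeff_mul_X_pow, coeff_aeval_mul_X, mul_comm]
    have hlast : ((algebraMap S K[X] (P.coeff s)) * (C f * X ^ q) ^ s).coeff (q * s) = f ^ s := by
      have : P.coeff s = 1 := hP.coeff_natDegree
      rw [this, map_one, one_mul, mul_pow, ← pow_mul, ← C_pow, coeff_C_mul, coeff_X_pow,
        if_pos rfl, mul_one]
    rw [hlast, add_comm] at hco
    rw [← hco]
    congr 1
    refine Finset.sum_congr rfl fun i hi => ?_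
    have hi' : i < s := Finset.mem_range.mp hi
    rw [hterm i hi'.le]
    have : s - (s - i) = i := by omega
    show MvPolynomial.aeval Y (MvPolynomial.homogeneousComponent (q * (s - i)) (G (s - (s - i)))) *
      f ^ i = _
    rw [this]

/-- (11.3) CHOICE OF COORDINATES. -/
theorem coords (n : ℕ) (htr : Algebra.trdeg ℂ K = n) (V : ℕ → Submodule ℂ K) (k : ℕ)
    (hfd : FiniteDimensional ℂ (V k)) (J : K →ₗ[ℂ] (Fin (n + 1) → ℂ))
    (hJ : ∀ e, ∃ u ∈ V k, J u = e)
    (hint : ∀ q, ∀ f ∈ V (q * k), IsIntegral (RU (V k)) (C f * X ^ q : K[X])) :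
    ∃ Y : Fin (n + 1) → K, (∀ j, Y j ∈ V k) ∧ (∀ j, J (Y j) = Pi.single j 1) ∧
      ∀ q, ∀ f ∈ V (q * k), ∃ (s : ℕ) (p : ℕ → MvPolynomial (Fin (n + 1)) ℂ), 1 ≤ s ∧
        (∀ i, (p i).IsHomogeneous (q * i)) ∧
        f ^ s + ∑ i ∈ Finset.range s, MvPolynomial.aeval Y (p (s - i)) * f ^ i = 0 := by
  have hle : n + 1 ≤ Module.finrank ℂ (V k) := by
    have hsurj : Function.Surjective (J.domRestrict (V k)) := by
      intro e
      obtain ⟨u, hu, rfl⟩ := hJ e
      exact ⟨⟨u, hu⟩, rfl⟩
    have := LinearMap.finrank_le_finrank_of_surjective hsurj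
    rwa [Module.finrank_fin_fun] at this
  obtain ⟨U', hU', hfd', hfin', hJ', hint'⟩ := reduce n htr J (Module.finrank ℂ (V k) - (n + 1))
    (V k) hfd (by omega) hJ
  choose Y hYU hYJ using fun j : Fin (n + 1) => hJ' (Pi.single j 1)
  have hspan : Submodule.span ℂ (Set.range Y) = U' := by
    have hlin : LinearIndependent ℂ Y := by
      have h1 : LinearIndependent ℂ (fun j => J (Y j)) := by
        have : (fun j => J (Y j)) = fun j => (Pi.single j (1 : ℂ) : Fin (n + 1) → ℂ) :=
          funext hYJ
        rw [this]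
        have h := (Pi.basisFun ℂ (Fin (n + 1))).linearIndependent
        convert h using 1
        funext j
        simp
      exact LinearIndependent.of_comp J h1
    refine Submodule.eq_of_le_of_finrank_eq ?_ ?_
    · rw [Submodule.span_le]
      rintro _ ⟨j, rfl⟩
      exact hYU j
    · rw [finrank_span_eq_card hlin, hfin', Fintype.card_fin]
  refine ⟨Y, fun j => hU' (hYU j), hYJ, fun q f hf => ?_⟩
  refine homog_of_isIntegral Y q f ?_
  rw [hspan]
  exact isIntegral_RU_trans hint' (hint q f hf)

end proj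

end Crest.Agent.R271.Coord769
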