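import Mathlib
import Crest.Agent.R271.Coord_769

/-!
Row 271, (11.3): choice of coordinates by linear projection, keeping a given `y₀` (helper769).
-/

set_option autoImplicit false

open scoped BigOperators
open Polynomial

namespace Crest.Agent.R271.Coord769

theorem aeval_mul_of_homog {R : Type*} [CommRing R] [Algebra ℂ R] {ι : Type*} (v : ι → R) (c : R)
    (d : ℕ) (G : MvPolynomial ι ℂ) (hG : G.IsHomogeneous d) :
    MvPolynomial.aeval (fun i => v i * c) G = MvPolynomial.aeval v G * c ^ d := by
  have h := congrArg (Polynomial.eval c) (aeval_mul_X_of_homog v d G hG)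
  have h1 : Polynomial.eval c (MvPolynomial.aeval (fun j => (C (v j) * X : R[X])) G) =
      MvPolynomial.aeval (fun i => v i * c) G := by
    have h2 : Polynomial.eval c (MvPolynomial.aeval (fun j => (C (v j) * X : R[X])) G) =
        ((Polynomial.aeval (R := R) c).restrictScalars ℂ)
          (MvPolynomial.aeval (fun j => (C (v j) * X : R[X])) G) := by
      simp [Polynomial.coe_aeval_eq_eval]
    rw [h2, MvPolynomial.comp_aeval_apply]
    congr 2
    funext i
    simp
  rw [h1] at h
  rw [h, eval_mul, eval_C, eval_pow, eval_X]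

variable {K : Type} [Field K] [Algebra ℂ K]

/-- the top form of a relation -/
theorem exists_top_form {r : ℕ} (f : MvPolynomial (Fin r) ℂ) (hf : f ≠ 0) :
    ∃ d, MvPolynomial.homogeneousComponent d f ≠ 0 ∧
      f = ∑ j ∈ Finset.range (d + 1), MvPolynomial.homogeneousComponent j f := by
  classical
  let S := (Finset.range (f.totalDegree + 1)).filter
    (fun j => MvPolynomial.homogeneousComponent j f ≠ 0)
  have hS : S.Nonempty := by
    by_contra hcon
    rw [Finset.not_nonempty_iff_eq_empty] at hcon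
    apply hf
    rw [← MvPolynomial.sum_homogeneousComponent f]
    refine Finset.sum_eq_zero fun i hi => ?_
    by_contra h
    have : i ∈ S := Finset.mem_filter.mpr ⟨hi, h⟩
    rw [hcon] at this
    exact absurd this (Finset.notMem_empty i)
  have hd := Finset.max'_mem S hS
  set d := S.max' hS with hd_def
  have hd' := Finset.mem_filter.mp hd
  refine ⟨d, hd'.2, ?_⟩
  conv_lhs => rw [← MvPolynomial.sum_homogeneousComponent f]
  symm
  refine Finset.sum_subset ?_ ?_
  · intro i hi
    have h1 := Finset.mem_range.mp hd'.1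
    have h2 := Finset.mem_range.mp hi
    exact Finset.mem_range.mpr (by omega)
  · intro i hi hid
    by_contra h
    have : i ∈ S := Finset.mem_filter.mpr ⟨hi, h⟩
    have h3 := Finset.le_max' S i this
    apply hid
    rw [Finset.mem_range]
    omega

/-- one projection step with centre off `y₀` -/
theorem step2 (n : ℕ) (htr : Algebra.trdeg ℂ K = n) (y₀ : K) (hy : y₀ ≠ 0) (U : Submodule ℂ K)
    [FiniteDimensional ℂ U]
    (hU : n < Module.finrank ℂ U) (g : K) (hg : g ∈ U) (hg0 : g ≠ 0) :
    ∃ l : U →ₗ[ℂ] ℂ, l ⟨g, hg⟩ ≠ 0 ∧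
      ∀ u ∈ U, IsIntegral (RU (Submodule.span ℂ {y₀} ⊔ (LinearMap.ker l).map U.subtype))
        (C u * X : K[X]) := by
  classical
  let bU := Module.finBasis ℂ U
  obtain ⟨f, hf0, hfne⟩ : ∃ f : MvPolynomial (Fin (Module.finrank ℂ U)) ℂ,
      MvPolynomial.aeval (fun i => (bU i : K) * y₀⁻¹) f = 0 ∧ f ≠ 0 := by
    have hnot : ¬ AlgebraicIndependent ℂ (fun i => (bU i : K) * y₀⁻¹) := by
      intro hind
      have := hind.cardinalMk_le_trdeg
      rw [htr, Cardinal.mk_fin] at this
      have h2 : Module.finrank ℂ U ≤ n := by exact_mod_cast this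
      omega
    rw [algebraicIndependent_iff] at hnot
    push Not at hnot
    exact hnot
  obtain ⟨d, hF0, hfsum⟩ := exists_top_form f hfne
  set F := MvPolynomial.homogeneousComponent d f with hF
  have hFh : ∀ j, (MvPolynomial.homogeneousComponent j f).IsHomogeneous j := fun j =>
    MvPolynomial.homogeneousComponent_isHomogeneous j f
  -- the linear form of g
  let G : MvPolynomial (Fin (Module.finrank ℂ U)) ℂ :=
    ∑ i, MvPolynomial.C (bU.repr ⟨g, hg⟩ i) * MvPolynomial.X i
  have hG0 : G ≠ 0 := by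
    intro hG
    have hrep : bU.repr ⟨g, hg⟩ = 0 := by
      ext i
      have h1 : MvPolynomial.coeff (Finsupp.single i 1) G = bU.repr ⟨g, hg⟩ i := by
        simp only [G, MvPolynomial.coeff_sum, MvPolynomial.coeff_C_mul, MvPolynomial.coeff_X]
        rw [Finset.sum_eq_single i]
        · simp
        · intro j _ hj
          rw [if_neg, mul_zero]
          intro h
          exact hj (Finsupp.single_left_injective one_ne_zero h)
        · intro h; exact absurd (Finset.mem_univ i) h
      rw [← h1, hG]; simp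
    have : (⟨g, hg⟩ : U) = 0 := by
      rw [← bU.repr.map_eq_zero_iff]; exact hrep
    exact hg0 (congrArg Subtype.val this)
  obtain ⟨lam, hlam⟩ : ∃ lam : Fin (Module.finrank ℂ U) → ℂ, MvPolynomial.eval lam (F * G) ≠ 0 := by
    by_contra hcon
    push Not at hcon
    have : F * G = 0 := MvPolynomial.funext fun x => by rw [hcon x, map_zero]
    rcases mul_eq_zero.mp this with h | h
    · exact hF0 h
    · exact hG0 h
  rw [map_mul] at hlam
  have hFl : MvPolynomial.eval lam F ≠ 0 := left_ne_zero_of_mul hlam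
  have hGl : MvPolynomial.eval lam G ≠ 0 := right_ne_zero_of_mul hlam
  let l : U →ₗ[ℂ] ℂ := bU.constr ℂ lam
  have hlb : ∀ i, l (bU i) = lam i := fun i => bU.constr_basis ℂ lam i
  have hlg : l ⟨g, hg⟩ = MvPolynomial.eval lam G := by
    conv_lhs => rw [← bU.sum_repr ⟨g, hg⟩]
    rw [map_sum]
    simp only [map_smul, hlb, smul_eq_mul, G, map_sum, map_mul, MvPolynomial.eval_C,
      MvPolynomial.eval_X]
  refine ⟨l, by rw [hlg]; exact hGl, ?_⟩
  -- the element with l e = 1
  let e : U := (l ⟨g, hg⟩)⁻¹ • ⟨g, hg⟩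
  have hle : l e = 1 := by
    simp only [e, map_smul, smul_eq_mul]
    exact inv_mul_cancel₀ (by rw [hlg]; exact hGl)
  set U' : Submodule ℂ K := Submodule.span ℂ {y₀} ⊔ (LinearMap.ker l).map U.subtype with hU'
  have hmem : ∀ u : U, ((u - l u • e : U) : K) ∈ U' := by
    intro u
    refine Submodule.mem_sup_right ⟨u - l u • e, ?_, rfl⟩
    rw [SetLike.mem_coe, LinearMap.mem_ker, map_sub, map_smul, hle, smul_eq_mul, mul_one, sub_self]
  have hy₀ : y₀ ∈ U' := Submodule.mem_sup_left (Submodule.mem_span_singleton_self y₀)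
  -- `e X` is integral
  have hint_e : IsIntegral (RU U') (C (e : K) * X : K[X]) := by
    let a : Fin (Module.finrank ℂ U) → RU U' := fun i =>
      ⟨C ((bU i - l (bU i) • e : U) : K) * X, mem_RU (hmem (bU i))⟩
    let b : Fin (Module.finrank ℂ U) → RU U' := fun i => algebraMap ℂ (RU U') (lam i)
    let c : RU U' := ⟨C y₀ * X, mem_RU hy₀⟩
    let Q : ℕ → (RU U')[X] := fun j => MvPolynomial.aeval
      (fun i => (C (a i) + C (b i) * X : (RU U')[X])) (MvPolynomial.homogeneousComponent j f)
    have hQdeg : ∀ j, (Q j).natDegree ≤ j := fun j => (coeff_aeval_lin a b j _ (hFh j)).1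
    have hQco : (Q d).coeff d = algebraMap ℂ (RU U') (MvPolynomial.eval lam F) := by
      have h1 := (coeff_aeval_lin a b d _ (hFh d)).2
      have h := MvPolynomial.aeval_algebraMap_apply (RU U') lam F
      exact h1.trans h
    set P : (RU U')[X] := ∑ j ∈ Finset.range (d + 1), C (c ^ (d - j)) * Q j with hP
    have hPdeg : P.natDegree ≤ d := by
      refine natDegree_sum_le_of_forall_le _ _ fun j hj => ?_
      have hj' := Finset.mem_range.mp hj
      exact (natDegree_C_mul_le _ _).trans ((hQdeg j).trans (by omega))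
    have hPco : P.coeff d = algebraMap ℂ (RU U') (MvPolynomial.eval lam F) := by
      rw [hP, finsetSum_coeff, Finset.sum_range_succ, Finset.sum_eq_zero]
      · rw [Nat.sub_self, pow_zero, C_1, one_mul, hQco, zero_add]
      · intro j hj
        have hj' := Finset.mem_range.mp hj
        rw [coeff_C_mul, coeff_eq_zero_of_natDegree_lt (lt_of_le_of_lt (hQdeg j) hj'), mul_zero]
    let P' : (RU U')[X] := C (algebraMap ℂ (RU U') (MvPolynomial.eval lam F)⁻¹) * P
    have hmonic : P'.Monic := by
      refine monic_of_natDegree_le_of_coeff_eq_one d ?_ ?_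
      · exact (natDegree_C_mul_le _ _).trans hPdeg
      · show (C _ * P).coeff d = 1
        rw [coeff_C_mul, hPco, ← map_mul, inv_mul_cancel₀ hFl, map_one]
    refine ⟨P', hmonic, ?_⟩
    show Polynomial.eval₂ (algebraMap (RU U') K[X]) (C (e : K) * X) (C _ * P) = 0
    rw [eval₂_mul]
    have hPe : Polynomial.eval₂ (algebraMap (RU U') K[X]) (C (e : K) * X) P = 0 := by
      have hQe : ∀ j, Polynomial.eval₂ (algebraMap (RU U') K[X]) (C (e : K) * X) (Q j) =
          C (MvPolynomial.aeval (fun i => (bU i : K)) (MvPolynomial.homogeneousComponent j f)) *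
            X ^ j := by
        intro j
        have h1 : Polynomial.eval₂ (algebraMap (RU U') K[X]) (C (e : K) * X) (Q j) =
            MvPolynomial.aeval (fun i => (C ((bU i : U) : K) * X : K[X]))
              (MvPolynomial.homogeneousComponent j f) := by
          let φ : (RU U')[X] →ₐ[ℂ] K[X] :=
            (Polynomial.aeval (R := RU U') (C (e : K) * X)).restrictScalars ℂ
          have h2 : Polynomial.eval₂ (algebraMap (RU U') K[X]) (C (e : K) * X) (Q j) = φ (Q j) := rfl
          rw [h2, MvPolynomial.comp_aeval_apply]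
          congr 2
          funext i
          show Polynomial.eval₂ (algebraMap (RU U') K[X]) (C (e : K) * X)
            (C (a i) + C (b i) * X) = _
          rw [eval₂_add, eval₂_mul, eval₂_C, eval₂_C, eval₂_X]
          have ha : algebraMap (RU U') K[X] (a i) = C ((bU i - l (bU i) • e : U) : K) * X := rfl
          have hb : algebraMap (RU U') K[X] (b i) = C (algebraMap ℂ K (lam i)) := rfl
          rw [ha, hb, hlb]
          have : ((bU i - lam i • e : U) : K) = (bU i : K) - algebraMap ℂ K (lam i) * (e : K) := by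
            rw [Submodule.coe_sub, Submodule.coe_smul, Algebra.smul_def]
          rw [this, map_sub, map_mul]
          ring
        rw [h1, aeval_mul_X_of_homog _ j _ (hFh j)]
      rw [hP, eval₂_finsetSum]
      have hterm : ∀ j ∈ Finset.range (d + 1),
          Polynomial.eval₂ (algebraMap (RU U') K[X]) (C (e : K) * X) (C (c ^ (d - j)) * Q j) =
          C (y₀ ^ d) * X ^ d * C (MvPolynomial.aeval (fun i => (bU i : K) * y₀⁻¹)
            (MvPolynomial.homogeneousComponent j f)) := by
        intro j hj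
        have hj' : j ≤ d := by have := Finset.mem_range.mp hj; omega
        rw [eval₂_mul, eval₂_C, hQe, aeval_mul_of_homog _ _ j _ (hFh j)]
        have hc : algebraMap (RU U') K[X] (c ^ (d - j)) = C (y₀ ^ (d - j)) * X ^ (d - j) := by
          rw [map_pow]
          have : algebraMap (RU U') K[X] c = C y₀ * X := rfl
          rw [this, mul_pow, ← C_pow]
        rw [hc]
        have h3 : y₀ ^ d * (y₀⁻¹) ^ j = y₀ ^ (d - j) := by
          have : y₀ ^ d = y₀ ^ (d - j) * y₀ ^ j := by rw [← pow_add, Nat.sub_add_cancel hj']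
          rw [this, mul_assoc, ← mul_pow, mul_inv_cancel₀ hy, one_pow, mul_one]
        have h4 : (X : K[X]) ^ d = X ^ (d - j) * X ^ j := by
          rw [← pow_add, Nat.sub_add_cancel hj']
        rw [← h3, h4, map_mul, map_mul]
        ring
      rw [Finset.sum_congr rfl hterm, ← Finset.mul_sum, ← map_sum, ← map_sum, ← hfsum, hf0,
        map_zero, mul_zero]
    rw [hPe, mul_zero]
  intro u hu
  have h1 : (C u * X : K[X]) = C (((⟨u, hu⟩ : U) - l ⟨u, hu⟩ • e : U) : K) * X +
      C (algebraMap ℂ K (l ⟨u, hu⟩)) * (C (e : K) * X) := by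
    rw [Submodule.coe_sub, Submodule.coe_smul, Algebra.smul_def, map_sub, map_mul]
    ring
  rw [h1]
  refine IsIntegral.add ?_ (IsIntegral.mul ?_ hint_e)
  · exact isIntegral_algebraMap (R := RU U') (x := ⟨_, mem_RU (hmem ⟨u, hu⟩)⟩)
  · exact isIntegral_algebraMap (R := RU U') (x := algebraMap ℂ (RU U') (l ⟨u, hu⟩))

/-- projection down to dimension `n`, keeping `y₀` -/
theorem reduce2 (n : ℕ) (htr : Algebra.trdeg ℂ K = n) (y₀ : K) (hy : y₀ ≠ 0)
    (J : K →ₗ[ℂ] (Fin n → ℂ)) :
    ∀ (s : ℕ) (U : Submodule ℂ K), FiniteDimensional ℂ U → Module.finrank ℂ U = n + s →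
      (∀ e, ∃ u ∈ U, J u = e) →
      ∃ U' ≤ U, FiniteDimensional ℂ U' ∧ Module.finrank ℂ U' = n ∧
        (∀ e, ∃ u ∈ U', J u = e) ∧
        ∀ u ∈ U, IsIntegral (RU (Submodule.span ℂ {y₀} ⊔ U')) (C u * X : K[X]) := by
  intro s
  induction s with
  | zero =>
    intro U hfd hU hJ
    refine ⟨U, le_rfl, hfd, by simpa using hU, hJ, fun u hu => ?_⟩
    exact isIntegral_algebraMap (R := RU (Submodule.span ℂ {y₀} ⊔ U))
      (x := ⟨_, mem_RU (Submodule.mem_sup_right hu)⟩)
  | succ s ih =>
    intro U hfd hU hJ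
    have hker : ∃ g ∈ U, g ≠ 0 ∧ J g = 0 := by
      by_contra hcon
      push Not at hcon
      have hinj : Function.Injective (J.domRestrict U) := by
        rw [← LinearMap.ker_eq_bot, eq_bot_iff]
        intro u hu
        have h1 : J (u : K) = 0 := hu
        by_contra hne
        exact hcon u u.2 (fun h0 => hne (by
          rw [Submodule.mem_bot]; exact Subtype.ext h0)) h1
      have := LinearMap.finrank_le_finrank_of_injective hinj
      rw [hU, Module.finrank_fin_fun] at this
      omega
    obtain ⟨g, hg, hg0, hJg⟩ := hker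
    obtain ⟨l, hl, hint⟩ := step2 n htr y₀ hy U (by omega) g hg hg0
    set U₁ : Submodule ℂ K := (LinearMap.ker l).map U.subtype with hU₁
    have hU₁le : U₁ ≤ U := by
      rintro _ ⟨u, _, rfl⟩; exact u.2
    have hfin₁ : Module.finrank ℂ U₁ = n + s := by
      have h1 : Module.finrank ℂ U₁ = Module.finrank ℂ (LinearMap.ker l) :=
        LinearEquiv.finrank_eq
          (Submodule.equivMapOfInjective U.subtype U.injective_subtype (LinearMap.ker l)).symm
      have h2 := LinearMap.finrank_range_add_finrank_ker l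
      have h3 : Module.finrank ℂ (LinearMap.range l) = 1 := by
        have : LinearMap.range l = ⊤ := by
          rw [LinearMap.range_eq_top]
          intro c
          refine ⟨(c / l ⟨g, hg⟩) • ⟨g, hg⟩, ?_⟩
          rw [map_smul, smul_eq_mul, div_mul_cancel₀ _ hl]
        rw [this, finrank_top, Module.finrank_self]
      rw [h1]; omega
    have hJ₁ : ∀ e, ∃ u ∈ U₁, J u = e := by
      intro e
      obtain ⟨u, hu, rfl⟩ := hJ e
      refine ⟨u - (l ⟨u, hu⟩ / l ⟨g, hg⟩) • g, ?_, ?_⟩
      · refine ⟨⟨u, hu⟩ - (l ⟨u, hu⟩ / l ⟨g, hg⟩) • ⟨g, hg⟩, ?_, rfl⟩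
        rw [SetLike.mem_coe, LinearMap.mem_ker, map_sub, map_smul, smul_eq_mul,
          div_mul_cancel₀ _ hl, sub_self]
      · rw [map_sub, map_smul, hJg, smul_zero, sub_zero]
    have hfd₁ : FiniteDimensional ℂ U₁ :=
      Submodule.finiteDimensional_of_le hU₁le
    obtain ⟨U', hU'le, hfd', hfin', hJ', hint'⟩ := ih U₁ hfd₁ hfin₁ hJ₁
    refine ⟨U', hU'le.trans hU₁le, hfd', hfin', hJ', fun u hu => ?_⟩
    refine isIntegral_RU_trans (U := Submodule.span ℂ {y₀} ⊔ U₁) ?_ (hint u hu)
    intro v hv
    obtain ⟨a, ha, b, hb, rfl⟩ := Submodule.mem_sup.mp hv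
    rw [map_add, add_mul]
    refine IsIntegral.add ?_ (hint' b hb)
    exact isIntegral_algebraMap (R := RU (Submodule.span ℂ {y₀} ⊔ U'))
      (x := ⟨_, mem_RU (Submodule.mem_sup_left ha)⟩)

/-- (11.3) with `y₀` given: `W = ℂ y₀ + U`. -/
theorem coords2 (n : ℕ) (htr : Algebra.trdeg ℂ K = n) (y₀ : K) (hy : y₀ ≠ 0) (U : Submodule ℂ K)
    (hfd : FiniteDimensional ℂ U) (J : K →ₗ[ℂ] (Fin n → ℂ)) (hJ : ∀ e, ∃ u ∈ U, J u = e) :
    ∃ Y : Fin n → K, (∀ j, Y j ∈ U) ∧ (∀ j, J (Y j) = Pi.single j 1) ∧
      ∀ u ∈ Submodule.span ℂ {y₀} ⊔ U,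
        IsIntegral (RU (Submodule.span ℂ (Set.range (Fin.cons y₀ Y : Fin (n + 1) → K))))
          (C u * X : K[X]) := by
  have hle : n ≤ Module.finrank ℂ U := by
    have hsurj : Function.Surjective (J.domRestrict U) := by
      intro e
      obtain ⟨u, hu, rfl⟩ := hJ e
      exact ⟨⟨u, hu⟩, rfl⟩
    have := LinearMap.finrank_le_finrank_of_surjective hsurj
    rwa [Module.finrank_fin_fun] at this
  obtain ⟨U', hU', hfd', hfin', hJ', hint'⟩ := reduce2 n htr y₀ hy J (Module.finrank ℂ U - n)
    U hfd (by omega) hJ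
  choose Y hYU hYJ using fun j : Fin n => hJ' (Pi.single j 1)
  have hspan : Submodule.span ℂ (Set.range Y) = U' := by
    have hlin : LinearIndependent ℂ Y := by
      have h1 : LinearIndependent ℂ (fun j => J (Y j)) := by
        have : (fun j => J (Y j)) = fun j => (Pi.single j (1 : ℂ) : Fin n → ℂ) :=
          funext hYJ
        rw [this]
        have h := (Pi.basisFun ℂ (Fin n)).linearIndependent
        convert h using 1
        funext j
        simp
      exact LinearIndependent.of_comp J h1
    refine Submodule.eq_of_le_of_finrank_eq ?_ ?_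
    · rw [Submodule.span_le]
      rintro _ ⟨j, rfl⟩
      exact hYU j
    · rw [finrank_span_eq_card hlin, hfin', Fintype.card_fin]
  have hspan' : Submodule.span ℂ (Set.range (Fin.cons y₀ Y : Fin (n + 1) → K)) =
      Submodule.span ℂ {y₀} ⊔ U' := by
    rw [Fin.range_cons, Submodule.span_insert, hspan]
  refine ⟨Y, fun j => hU' (hYU j), hYJ, fun u hu => ?_⟩
  rw [hspan']
  obtain ⟨a, ha, b, hb, rfl⟩ := Submodule.mem_sup.mp hu
  rw [map_add, add_mul]
  refine IsIntegral.add ?_ (hint' b hb)
  exact isIntegral_algebraMap (R := RU (Submodule.span ℂ {y₀} ⊔ U'))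
    (x := ⟨_, mem_RU (Submodule.mem_sup_left ha)⟩)

end Crest.Agent.R271.Coord769
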