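import Crest.Agent.R271.Defs_710

/-!
Row 271, team B.  Intermediate structure over the function field `K` (helper728).

* `PCtx n`    : what the scheme side has to deliver at a closed point `x` (helper961).
* `GInt W m f`: `f` is integral of degree `m` over the graded ring `ℂ[W]`.
* `CoordProp` : choice of `y₀,…,yₙ` (helper769).
* `Model P`   : the `FCtx` built from `P`, together with its identification inside `K` (helper728).
-/

set_option autoImplicit false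

open scoped BigOperators
open Crest.Agent.R271.Defs710

noncomputable section

namespace Crest.Agent.R271.Ctx728

/-- `f` is integral of degree `m` over `ℂ[W]`, `W` placed in degree one (inside a commutative algebra):
`f^r = ∑_{i<r} a_{r-i} f^i` with `a_i ∈ W^{mi}`. -/
def GInt {K : Type} [CommRing K] [Algebra ℂ K] (W : Submodule ℂ K) (m : ℕ) (f : K) : Prop :=
  ∃ r : ℕ, 1 ≤ r ∧ ∃ a : ℕ → K, (∀ i, a i ∈ W ^ (m * i)) ∧
    f ^ r = ∑ i ∈ Finset.range r, a (r - i) * f ^ i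

/-- PROJECTIVE CONTEXT.  `K` = function field of `X`, `R m = H⁰(X, mL) ⊆ K`, `s ∈ R q` a section whose
non-vanishing locus `X_s` is an affine open neighbourhood of the closed point `x`, `A = Γ(X_s)`. -/
structure PCtx (n : ℕ) where
  K : Type
  [fld : Field K]
  [alg : Algebra ℂ K]
  R : ℕ → Submodule ℂ K
  R_zero : R 0 = 1
  R_mul : ∀ m l a b, a ∈ R m → b ∈ R l → a * b ∈ R (m + l)
  R_fin : ∀ m, FiniteDimensional ℂ (R m)
  q : ℕ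
  q_pos : 1 ≤ q
  s : K
  s_mem : s ∈ R q
  s_ne : s ≠ 0
  /-- `A = Γ(X_s) = ⋃ⱼ s^{-j} R(qj)` -/
  A : Subalgebra ℂ K
  mem_A : ∀ a : K, a ∈ A ↔ ∃ j : ℕ, a * s ^ j ∈ R (q * j)
  A_ft : Algebra.FiniteType ℂ A
  frac : ∀ u : K, ∃ a b : A, (b : K) ≠ 0 ∧ u * b = a
  /-- the closed point `x ∈ X_s` -/
  x : A →ₐ[ℂ] ℂ
  /-- smoothness of relative dimension `n` at `x` -/
  smooth : ∃ t : A, x t ≠ 0 ∧
    Algebra.IsStandardSmoothOfRelativeDimension n ℂ (Localization.Away t)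
  /-- `mL` has no base points on `X_s` for `m ≥ k₀` -/
  k₀ : ℕ
  bpf : ∀ m, k₀ ≤ m → ∀ P : Ideal A, P.IsPrime →
    ∃ (j : ℕ) (a b : K) (c : A), m ≤ q * j ∧ a ∈ R m ∧ b ∈ R (q * j - m) ∧
      (c : K) * s ^ j = a * b ∧ c ∉ P
  /-- `R(mk)` is (graded) integral over `ℂ[R k]` for `k ≥ k₀` -/
  int : ∀ k, k₀ ≤ k → ∀ m, ∀ f ∈ R (m * k), GInt (R k) m f

attribute [instance] PCtx.fld PCtx.alg

/-- CHOICE OF THE COORDINATES (11.3)+(11.5), pure algebra (helper769). `W = R k`, `y₀ = s^l`. -/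
def CoordProp : Prop :=
  ∀ (n : ℕ) (K : Type) [Field K] [Algebra ℂ K] (A : Subalgebra ℂ K) (x : A →ₐ[ℂ] ℂ)
    (W : Submodule ℂ K) (y₀ : K), 1 ≤ n → FiniteDimensional ℂ W → y₀ ∈ W → y₀ ≠ 0 →
    Algebra.FiniteType ℂ A → (∀ u : K, ∃ a b : A, (b : K) ≠ 0 ∧ u * b = a) →
    (∃ t : A, x t ≠ 0 ∧ Algebra.IsStandardSmoothOfRelativeDimension n ℂ (Localization.Away t)) →
    (∀ w ∈ W, w / y₀ ∈ A) →
    -- `W / y₀ → A / m_x²` is onto
    (∀ a : A, ∃ b : A, (b : K) * y₀ ∈ W ∧ a - b ∈ (RingHom.ker (x : A →+* ℂ)) ^ 2) →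
    -- `A` is integral over `ℂ[W / y₀]`
    (∀ a ∈ A, IsIntegral (Algebra.adjoin ℂ {u : K | u * y₀ ∈ W}) a) →
    ∃ (y : Fin (n + 1) → K) (u : Fin (n + 1) → A) (h : A) (z : Fin n → Localization.Away h),
      (∀ j, y j ∈ W) ∧ (∀ j, (u j : K) * y₀ = y j) ∧
      (∀ w ∈ W, GInt (Submodule.span ℂ (Set.range y)) 1 w) ∧
      x h ≠ 0 ∧ u 0 ∣ h ∧
      (∀ i, z i * algebraMap A (Localization.Away h) (u 0) =
        algebraMap A (Localization.Away h) (u i.succ)) ∧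
      RingHom.Etale ((MvPolynomial.aeval z : MvPolynomial (Fin n) ℂ →ₐ[ℂ] Localization.Away h) :
          MvPolynomial (Fin n) ℂ →+* Localization.Away h)

/-- The `FCtx` at `x` together with its realisation inside `K`. -/
structure Model {n : ℕ} (P : PCtx n) where
  X : FCtx n
  /-- `M = Spec B`, `B ⊆ K` -/
  Bs : Subalgebra ℂ P.K
  e : X.B ≃ₐ[ℂ] Bs
  A_le : P.A ≤ Bs
  /-- `B = A[1/h]`, `h(x) ≠ 0`, `A = P.A` -/
  h : P.A
  x_h : P.x h ≠ 0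
  h_inv : (h : P.K)⁻¹ ∈ Bs
  loc : ∀ b ∈ Bs, ∃ N : ℕ, b * (h : P.K) ^ N ∈ P.A
  x_e : ∀ a : P.A, X.x (e.symm ⟨a, A_le a.2⟩) = P.x a
  /-- generator of `L` on `M` -/
  g : P.K
  g_ne : g ≠ 0
  /-- the ring `A` of the `FCtx` is `Γ(X_{y₀})`, `y₀ = e(Y₀) g^k` -/
  e_A : ∀ b : X.B, b ∈ X.A ↔ ∃ j : ℕ, (e b : P.K) * ((e (X.Y 0) : P.K) * g ^ X.k) ^ j ∈ P.R (X.k * j)
  V_e : ∀ m (b : X.B), b ∈ X.V m ↔ (e b : P.K) * g ^ m ∈ P.R m
  R_B : ∀ m, ∀ f ∈ P.R m, f / g ^ m ∈ Bs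
  /-- `s` generates `qL` on `M` -/
  s_unit : IsUnit (e.symm ⟨P.s / g ^ P.q, R_B _ _ P.s_mem⟩)
  /-- `g = b / a` with `a ∈ R(m₀)`, `b ∈ R(m₀+1)` without zeros on `M` -/
  m₀ : ℕ
  ga : P.K
  gb : P.K
  ga_mem : ga ∈ P.R m₀
  gb_mem : gb ∈ P.R (m₀ + 1)
  ga_ne : ga ≠ 0
  g_eq : g = gb / ga
  ga_unit : IsUnit (e.symm ⟨ga / g ^ m₀, R_B _ _ ga_mem⟩)
  gb_unit : IsUnit (e.symm ⟨gb / g ^ (m₀ + 1), R_B _ _ gb_mem⟩)
  /-- the `Yⱼ` have no common zeros on `X`: graded integrality over them -/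
  gint : ∀ m, ∀ f ∈ P.R (m * X.k),
    GInt (Submodule.span ℂ (Set.range fun j => (e (X.Y j) : P.K) * g ^ X.k)) m f

end Crest.Agent.R271.Ctx728
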