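import Mathlib

/-!
Row 271, (11.3)/(11.5): an étale criterion for coordinates, from a Jacobian determinant (helper769).
-/

set_option autoImplicit false
set_option linter.style.haveILetI false

open scoped BigOperators TensorProduct

namespace Crest.Agent.R271.Etale769

open KaehlerDifferential

theorem formallyEtale_of_bijective (R S T : Type) [CommRing R] [CommRing S] [CommRing T]
    [Algebra R S] [Algebra S T] [Algebra R T] [IsScalarTower R S T]
    [Subsingleton (Algebra.H1Cotangent R T)]
    (h : Function.Bijective (KaehlerDifferential.mapBaseChange R S T)) :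
    Algebra.FormallyEtale S T := by
  have h1 : Subsingleton (Ω[T⁄S]) := by
    rw [← not_nontrivial_iff_subsingleton]
    intro hnt
    obtain ⟨y, hy⟩ := exists_ne (0 : Ω[T⁄S])
    obtain ⟨y', rfl⟩ := KaehlerDifferential.map_surjective R S T y
    obtain ⟨w, rfl⟩ := h.2 y'
    exact hy ((KaehlerDifferential.exact_mapBaseChange_map R S T _).2 ⟨w, rfl⟩)
  have h2 : Subsingleton (Algebra.H1Cotangent S T) := by
    refine ⟨fun a b => ?_⟩
    have key : ∀ a : Algebra.H1Cotangent S T, a = 0 := by
      intro a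
      have hδ : Algebra.H1Cotangent.δ R S T a = 0 := by
        apply h.1
        rw [map_zero]
        exact (Algebra.H1Cotangent.exact_δ_mapBaseChange R S T _).2 ⟨a, rfl⟩
      obtain ⟨c, rfl⟩ := (Algebra.H1Cotangent.exact_map_δ R S T a).1 hδ
      rw [Subsingleton.elim c 0, map_zero]
    rw [key a, key b]
  exact ⟨h1, h2⟩

theorem bijective_mapBaseChange_of_basis {n : ℕ} (R T : Type) [CommRing R] [CommRing T]
    [Algebra R T] [Algebra (MvPolynomial (Fin n) R) T] [IsScalarTower R (MvPolynomial (Fin n) R) T]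
    (b : Module.Basis (Fin n) T (Ω[T⁄R]))
    (hb : ∀ i, b i = D R T (algebraMap (MvPolynomial (Fin n) R) T (MvPolynomial.X i))) :
    Function.Bijective (KaehlerDifferential.mapBaseChange R (MvPolynomial (Fin n) R) T) := by
  let bS := (KaehlerDifferential.mvPolynomialBasis R (Fin n)).baseChange T
  have h : KaehlerDifferential.mapBaseChange R (MvPolynomial (Fin n) R) T =
      (bS.equiv b (Equiv.refl _)).toLinearMap := by
    refine bS.ext fun i => ?_
    rw [LinearEquiv.coe_coe, Module.Basis.equiv_apply, Equiv.refl_apply, hb]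
    simp [bS, Module.Basis.baseChange_apply, KaehlerDifferential.mvPolynomialBasis_apply]
  rw [h]
  exact (bS.equiv b (Equiv.refl _)).bijective

/-- if the differentials of `z` form a basis, `z` are étale coordinates -/
theorem etale_of_basis {n : ℕ} (R T : Type) [CommRing R] [CommRing T] [Algebra R T]
    [Algebra.FinitePresentation R T] [Subsingleton (Algebra.H1Cotangent R T)]
    (z : Fin n → T) (b : Module.Basis (Fin n) T (Ω[T⁄R])) (hb : ∀ i, b i = D R T (z i)) :
    RingHom.Etale ((MvPolynomial.aeval z : MvPolynomial (Fin n) R →ₐ[R] T) :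
      MvPolynomial (Fin n) R →+* T) := by
  letI : Algebra (MvPolynomial (Fin n) R) T :=
    ((MvPolynomial.aeval z : MvPolynomial (Fin n) R →ₐ[R] T) :
      MvPolynomial (Fin n) R →+* T).toAlgebra
  haveI : IsScalarTower R (MvPolynomial (Fin n) R) T :=
    IsScalarTower.of_algebraMap_eq fun a => ((MvPolynomial.aeval z).commutes a).symm
  have hX : ∀ i, algebraMap (MvPolynomial (Fin n) R) T (MvPolynomial.X i) = z i := fun i =>
    MvPolynomial.aeval_X z i
  haveI : Algebra.FormallyEtale (MvPolynomial (Fin n) R) T :=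
    formallyEtale_of_bijective R (MvPolynomial (Fin n) R) T
      (bijective_mapBaseChange_of_basis R T b fun i => by rw [hX, hb])
  haveI : Algebra.FinitePresentation (MvPolynomial (Fin n) R) T :=
    Algebra.FinitePresentation.of_restrict_scalars_finitePresentation R _ _
  exact (⟨inferInstance, inferInstance⟩ : Algebra.Etale (MvPolynomial (Fin n) R) T)

theorem etale_of_det {n : ℕ} (R T : Type) [CommRing R] [CommRing T] [Algebra R T]
    [Algebra.FinitePresentation R T] [Subsingleton (Algebra.H1Cotangent R T)]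
    (z : Fin n → T) (b : Module.Basis (Fin n) T (Ω[T⁄R]))
    (hdet : IsUnit (b.toMatrix fun j => D R T (z j)).det) :
    RingHom.Etale ((MvPolynomial.aeval z : MvPolynomial (Fin n) R →ₐ[R] T) :
      MvPolynomial (Fin n) R →+* T) := by
  obtain ⟨h1, h2⟩ := (b.is_basis_iff_det (v := fun j => D R T (z j))).2 (by
    rwa [Module.Basis.det_apply])
  exact etale_of_basis R T z (Module.Basis.mk h1 h2.ge) fun i => by
    rw [Module.Basis.mk_apply]

/-- after inverting the Jacobian determinant -/
theorem etale_away {n : ℕ} (A' T : Type) [CommRing A'] [CommRing T] [Algebra ℂ A'] [Algebra ℂ T]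
    [Algebra A' T] [IsScalarTower ℂ A' T] [Algebra.IsStandardSmoothOfRelativeDimension n ℂ A']
    (b : Module.Basis (Fin n) A' (Ω[A'⁄ℂ])) (z : Fin n → A')
    [IsLocalization.Away (b.toMatrix fun j => D ℂ A' (z j)).det T] :
    RingHom.Etale ((MvPolynomial.aeval (fun i => algebraMap A' T (z i)) :
      MvPolynomial (Fin n) ℂ →ₐ[ℂ] T) : MvPolynomial (Fin n) ℂ →+* T) := by
  classical
  set d := (b.toMatrix fun j => D ℂ A' (z j)).det with hd
  haveI : Algebra.IsStandardSmooth ℂ A' := Algebra.IsStandardSmoothOfRelativeDimension.isStandardSmooth n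
  haveI : Algebra.Smooth A' T := Algebra.Smooth.of_isLocalization_Away d
  haveI : Algebra.Smooth ℂ T := Algebra.Smooth.comp ℂ A' T
  let bT : Module.Basis (Fin n) T (Ω[T⁄ℂ]) :=
    b.ofIsLocalizedModule T (Submonoid.powers d) (KaehlerDifferential.map ℂ ℂ A' T)
  refine etale_of_det ℂ T _ bT ?_
  have hM : (bT.toMatrix fun j => D ℂ T (algebraMap A' T (z j))) =
      (b.toMatrix fun j => D ℂ A' (z j)).map (algebraMap A' T) := by
    ext i j
    rw [Module.Basis.toMatrix_apply, Matrix.map_apply, Module.Basis.toMatrix_apply]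
    rw [← KaehlerDifferential.map_D ℂ ℂ A' T]
    exact Module.Basis.ofIsLocalizedModule_repr_apply T (Submonoid.powers d) _ b _ i
  rw [hM, ← RingHom.mapMatrix_apply, ← RingHom.map_det]
  exact IsLocalization.Away.algebraMap_isUnit d


section point

variable {n : ℕ} {A : Type} [CommRing A] [Algebra ℂ A]

/-- the differential at the point `x'`, in coordinates -/
noncomputable def ev {A' : Type} [CommRing A'] [Algebra ℂ A'] (x' : A' →ₐ[ℂ] ℂ)
    (b : Module.Basis (Fin n) A' (Ω[A'⁄ℂ])) : Ω[A'⁄ℂ] →ₗ[ℂ] (Fin n → ℂ) :=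
  LinearMap.pi fun i => x'.toLinearMap ∘ₗ ((b.coord i).restrictScalars ℂ)

theorem ev_apply {A' : Type} [CommRing A'] [Algebra ℂ A'] (x' : A' →ₐ[ℂ] ℂ)
    (b : Module.Basis (Fin n) A' (Ω[A'⁄ℂ])) (w : Ω[A'⁄ℂ]) (i : Fin n) :
    ev x' b w i = x' (b.repr w i) := rfl

theorem ev_smul {A' : Type} [CommRing A'] [Algebra ℂ A'] (x' : A' →ₐ[ℂ] ℂ)
    (b : Module.Basis (Fin n) A' (Ω[A'⁄ℂ])) (a : A') (w : Ω[A'⁄ℂ]) :
    ev x' b (a • w) = x' a • ev x' b w := by
  funext i
  rw [ev_apply, map_smul, Finsupp.smul_apply, smul_eq_mul, map_mul, Pi.smul_apply, smul_eq_mul,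
    ev_apply]

theorem etale_coords (x : A →ₐ[ℂ] ℂ) (t : A) (ht : x t ≠ 0)
    (hsm : Algebra.IsStandardSmoothOfRelativeDimension n ℂ (Localization.Away t)) :
    ∃ δ : A →ₗ[ℂ] (Fin n → ℂ), Function.Surjective δ ∧
      (∀ a b, δ (a * b) = x a • δ b + x b • δ a) ∧
      ∀ z : Fin n → A, (∀ j, δ (z j) = Pi.single j 1) →
        ∃ h : A, x h ≠ 0 ∧
          RingHom.Etale ((MvPolynomial.aeval (fun i => algebraMap A (Localization.Away h) (z i)) :
            MvPolynomial (Fin n) ℂ →ₐ[ℂ] Localization.Away h) :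
            MvPolynomial (Fin n) ℂ →+* Localization.Away h) := by
  classical
  set A' := Localization.Away t with hA'
  have hu : IsUnit (x t) := isUnit_iff_ne_zero.2 ht
  let x' : A' →ₐ[ℂ] ℂ := IsLocalization.Away.liftAlgHom (S := A') t (f := x) hu
  have hx' : ∀ a, x' (algebraMap A A' a) = x a := fun a =>
    IsLocalization.Away.lift_eq (S := A') t (g := (x : A →+* ℂ)) hu a
  haveI : Nontrivial A' := x'.toRingHom.domain_nontrivial
  haveI : Algebra.IsStandardSmooth ℂ A' :=
    Algebra.IsStandardSmoothOfRelativeDimension.isStandardSmooth n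
  have hrank := Algebra.IsStandardSmoothOfRelativeDimension.rank_kaehlerDifferential
    (R := ℂ) (S := A') n
  have hfinrank : Module.finrank A' (Ω[A'⁄ℂ]) = n := Module.finrank_eq_of_rank_eq hrank
  let b : Module.Basis (Fin n) A' (Ω[A'⁄ℂ]) := Module.finBasisOfFinrankEq A' _ hfinrank
  let δ' : A' →ₗ[ℂ] (Fin n → ℂ) := (ev x' b) ∘ₗ ((D ℂ A') : A' →ₗ[ℂ] Ω[A'⁄ℂ])
  have hδ' : ∀ a, δ' a = ev x' b (D ℂ A' a) := fun a => rfl
  have hL' : ∀ a c, δ' (a * c) = x' a • δ' c + x' c • δ' a := by
    intro a c
    rw [hδ', hδ', hδ', Derivation.leibniz, map_add, ev_smul, ev_smul]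
  let δ : A →ₗ[ℂ] (Fin n → ℂ) := δ' ∘ₗ (IsScalarTower.toAlgHom ℂ A A').toLinearMap
  have hδ : ∀ a, δ a = δ' (algebraMap A A' a) := fun a => rfl
  refine ⟨δ, ?_, ?_, ?_⟩
  · -- surjectivity
    rw [← LinearMap.range_eq_top]
    set V := LinearMap.range δ with hV
    have h1 : ∀ a' : A', δ' a' ∈ V := by
      intro a'
      obtain ⟨k, a, ha⟩ := IsLocalization.Away.surj (S := A') t a'
      have h2 : δ a = x' a' • δ (t ^ k) + (x t) ^ k • δ' a' := by
        rw [hδ, ← ha, ← map_pow, hL', hδ, hx', map_pow x]
      have h3 : δ' a' = ((x t) ^ k)⁻¹ • (δ a - x' a' • δ (t ^ k)) := by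
        rw [h2, add_sub_cancel_left, smul_smul, inv_mul_cancel₀ (pow_ne_zero _ ht), one_smul]
      rw [h3]
      exact V.smul_mem _ (V.sub_mem ⟨a, rfl⟩ (V.smul_mem _ ⟨_, rfl⟩))
    have h2 : ∀ w : Ω[A'⁄ℂ], ev x' b w ∈ V := by
      intro w
      have hw : w ∈ Submodule.span A' (Set.range (D ℂ A')) := by
        rw [KaehlerDifferential.span_range_derivation]
        trivial
      induction hw using Submodule.span_induction with
      | mem u hu =>
        obtain ⟨a', rfl⟩ := hu
        exact h1 a'
      | zero => rw [map_zero]; exact V.zero_mem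
      | add u v _ _ hu hv => rw [map_add]; exact V.add_mem hu hv
      | smul a u _ hu => rw [ev_smul]; exact V.smul_mem _ hu
    rw [eq_top_iff]
    intro v _
    have h3 : v = ∑ i, v i • ev x' b (b i) := by
      funext j
      rw [Finset.sum_apply, Finset.sum_eq_single j]
      · rw [Pi.smul_apply, ev_apply, b.repr_self, Finsupp.single_eq_same, map_one, smul_eq_mul,
          mul_one]
      · intro i _ hij
        rw [Pi.smul_apply, ev_apply, b.repr_self, Finsupp.single_eq_of_ne (Ne.symm hij), map_zero,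
          smul_zero]
      · intro h
        exact absurd (Finset.mem_univ j) h
    rw [h3]
    exact V.sum_mem fun i _ => V.smul_mem _ (h2 _)
  · intro a c
    rw [hδ, hδ, hδ, map_mul, hL', hx', hx']
  · intro z hz
    let M := b.toMatrix fun j => D ℂ A' (algebraMap A A' (z j))
    have hMdet : x' M.det = 1 := by
      have h1 : x'.mapMatrix M = 1 := by
        ext i j
        have h2 : x' (M i j) = δ (z j) i := rfl
        rw [AlgHom.mapMatrix_apply, Matrix.map_apply, h2, hz, Matrix.one_apply, Pi.single_apply]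
      have h3 : x' M.det = (x'.mapMatrix M).det := AlgHom.map_det x' M
      rw [h3, h1, Matrix.det_one]
    let d := M.det
    let T := Localization.Away d
    let s := IsLocalization.Away.sec t d
    have hs : d * algebraMap A A' (t ^ s.2) = algebraMap A A' s.1 :=
      IsLocalization.Away.sec_spec t d
    have hxs : x s.1 ≠ 0 := by
      rw [← hx', ← hs, map_mul, hx', map_pow]
      have : x' d = 1 := hMdet
      rw [this, one_mul]
      exact pow_ne_zero _ ht
    haveI hloc : IsLocalization.Away (t * s.1) T :=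
      IsLocalization.Away.mul_of_associated _ _ d (IsLocalization.Away.associated_sec_fst t d)
    let e : T ≃ₐ[A] Localization.Away (t * s.1) :=
      Localization.algEquiv _ _ |>.symm
    refine ⟨t * s.1, ?_, ?_⟩
    · rw [map_mul]
      exact mul_ne_zero ht hxs
    · have hE := etale_away A' T b (fun j => algebraMap A A' (z j))
      have hcomp := RingHom.Etale.stableUnderComposition _ (e : T →+* Localization.Away (t * s.1))
        hE (RingHom.Etale.of_bijective e.bijective)
      convert! hcomp using 1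
      apply MvPolynomial.ringHom_ext
      · intro r
        simp [IsScalarTower.algebraMap_apply ℂ A (Localization.Away (t * s.1))]
        exact (IsScalarTower.algebraMap_apply ℂ A T r).symm
      · intro i
        simp
        exact IsScalarTower.algebraMap_apply A A' T (z i)

end point

end Crest.Agent.R271.Etale769
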