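import Mathlib
import Crest.Agent.R271.Coord2_769
import Crest.Agent.R271.Etale_769
import Crest.Agent.R271.KrullTrdeg_661
import Crest.Agent.R271.Ctx0_728

/-!
Row 271, (11.3)+(11.5): the theorem `coordProp : Ctx728.CoordProp` (helper769).
-/

set_option autoImplicit false
set_option linter.style.haveILetI false

open scoped BigOperators
open Polynomial

namespace Crest.Agent.R271.CoordMain769

open Crest.Agent.R271 Coord769 Etale769 Ctx728

/-- transcendence degree from a smooth point -/
theorem trdeg_eq_of_smooth {n : ℕ} {K : Type} [Field K] [Algebra ℂ K] (A : Subalgebra ℂ K)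
    (x : A →ₐ[ℂ] ℂ) (hfrac : ∀ u : K, ∃ a b : A, (b : K) ≠ 0 ∧ u * b = a) (t : A) (ht : x t ≠ 0)
    (hsm : Algebra.IsStandardSmoothOfRelativeDimension n ℂ (Localization.Away t)) :
    Algebra.trdeg ℂ K = n := by
  have ht0 : t ≠ 0 := fun h => ht (by rw [h, map_zero])
  have hpow : Submonoid.powers t ≤ nonZeroDivisors A :=
    powers_le_nonZeroDivisors_of_noZeroDivisors ht0
  haveI : IsDomain (Localization.Away t) := IsLocalization.isDomain_localization hpow
  obtain ⟨g, hg⟩ := Algebra.IsStandardSmoothOfRelativeDimension.exists_etale_mvPolynomial n ℂ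
    (Localization.Away t)
  have hgz : g = MvPolynomial.aeval fun i => g (MvPolynomial.X i) := MvPolynomial.aeval_unique g
  have h1 : Algebra.trdeg ℂ (Localization.Away t) = n := by
    refine KT661.trdeg_eq (fun i => g (MvPolynomial.X i)) ?_
    rw [← hgz]
    exact hg
  haveI : FaithfulSMul A (Localization.Away t) :=
    (faithfulSMul_iff_algebraMap_injective _ _).2 (IsLocalization.injective _ hpow)
  haveI : FaithfulSMul ℂ A := (faithfulSMul_iff_algebraMap_injective _ _).2
    (algebraMap ℂ A).injective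
  haveI : FaithfulSMul A K := (faithfulSMul_iff_algebraMap_injective _ _).2
    Subtype.val_injective
  haveI : Algebra.IsAlgebraic A (Localization.Away t) :=
    IsLocalization.isAlgebraic (R := A) (Localization.Away t) (Submonoid.powers t)
  haveI : Algebra.IsAlgebraic A K := by
    refine ⟨fun u => ?_⟩
    obtain ⟨a, b, hb, hab⟩ := hfrac u
    have hb0 : b ≠ 0 := fun h => hb (by rw [h]; rfl)
    refine ⟨C b * X - C a, ?_, ?_⟩
    · intro h
      have := congrArg (fun p : A[X] => p.coeff 1) h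
      simp at this
      exact hb0 this
    · simp only [map_sub, map_mul, aeval_C, aeval_X]
      rw [sub_eq_zero, mul_comm]
      exact hab
  have h2 := trdeg_add_eq ℂ A (A := Localization.Away t)
  have h3 := trdeg_add_eq ℂ A (A := K)
  have h4 : Algebra.trdeg A (Localization.Away t) = 0 := trdeg_eq_zero
  have h5 : Algebra.trdeg A K = 0 := trdeg_eq_zero
  rw [h4, add_zero] at h2
  rw [h5, add_zero] at h3
  rw [← h3, h2, h1]

/-- a form of degree `d` evaluated in `span` lies in `span ^ d` -/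
theorem aeval_mem_pow {K : Type} [Field K] [Algebra ℂ K] {r : ℕ} (y : Fin r → K) (d : ℕ)
    (p : MvPolynomial (Fin r) ℂ) (hp : p.IsHomogeneous d) :
    MvPolynomial.aeval y p ∈ Submodule.span ℂ (Set.range y) ^ d := by
  rw [MvPolynomial.aeval_def, MvPolynomial.eval₂_eq']
  refine Submodule.sum_mem _ fun s hs => ?_
  rw [← Algebra.smul_def]
  refine Submodule.smul_mem _ _ ?_
  have hdeg : ∑ i, s i = d := by
    have h := hp (MvPolynomial.mem_support_iff.1 hs)
    rw [← h, Finsupp.weight_apply]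
    simp [Finsupp.sum_fintype]
  rw [← hdeg]
  clear hs hdeg
  induction (Finset.univ : Finset (Fin r)) using Finset.induction_on with
  | empty => simp [Submodule.one_eq_range]
  | insert i T hi ih =>
    rw [Finset.prod_insert hi, Finset.sum_insert hi, pow_add]
    exact Submodule.mul_mem_mul (Submodule.pow_mem_pow _ (Submodule.subset_span (Set.mem_range_self i)) _) ih

theorem gint_of_isIntegral {K : Type} [Field K] [Algebra ℂ K] {r : ℕ} (y : Fin r → K) (w : K)
    (h : IsIntegral (RU (Submodule.span ℂ (Set.range y))) (C w * X : K[X])) :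
    GInt (Submodule.span ℂ (Set.range y)) 1 w := by
  rw [← pow_one (X : K[X])] at h
  obtain ⟨s, p, hs, hp, heq⟩ := homog_of_isIntegral y 1 w h
  refine ⟨s, hs, fun i => - MvPolynomial.aeval y (p i), fun i => ?_, ?_⟩
  · exact Submodule.neg_mem _ (aeval_mem_pow y _ _ (hp i))
  · rw [eq_neg_of_add_eq_zero_left heq, ← Finset.sum_neg_distrib]
    refine Finset.sum_congr rfl fun i _ => ?_
    rw [neg_mul]

theorem coordProp : CoordProp := by
  intro n K _ _ A x W y₀ hn hW hy₀ hy0 hft hfrac hsmooth hdiv hjets hint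
  obtain ⟨t, ht, hsm⟩ := hsmooth
  have htr := trdeg_eq_of_smooth A x hfrac t ht hsm
  obtain ⟨δ, hδsurj, hδL, hδE⟩ := etale_coords x t ht hsm
  haveI := hW
  -- extend `δ` to `K`
  obtain ⟨δK, hδK⟩ := LinearMap.exists_extend (p := Subalgebra.toSubmodule A)
    (δ : Subalgebra.toSubmodule A →ₗ[ℂ] (Fin n → ℂ))
  have hδK' : ∀ a : A, δK (a : K) = δ a := fun a =>
    congrArg (fun f : Subalgebra.toSubmodule A →ₗ[ℂ] (Fin n → ℂ) => f a) hδK
  obtain ⟨xK, hxK⟩ := LinearMap.exists_extend (p := Subalgebra.toSubmodule A)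
    (x.toLinearMap : Subalgebra.toSubmodule A →ₗ[ℂ] ℂ)
  have hxK' : ∀ a : A, xK (a : K) = x a := fun a =>
    congrArg (fun f : Subalgebra.toSubmodule A →ₗ[ℂ] ℂ => f a) hxK
  let dv : K →ₗ[ℂ] K := LinearMap.mulRight ℂ y₀⁻¹
  have hdv : ∀ w, dv w = w / y₀ := fun w => (div_eq_mul_inv w y₀).symm
  let J : K →ₗ[ℂ] (Fin n → ℂ) := δK ∘ₗ dv
  let E : K →ₗ[ℂ] ℂ := xK ∘ₗ dv
  have hEy : E y₀ = 1 := by
    have h1 : E y₀ = xK ((1 : A) : K) := by
      change xK (dv y₀) = _
      rw [hdv, div_self hy0]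
      rfl
    rw [h1, hxK', map_one]
  have hδ1 : δ 1 = 0 := by
    have h := hδL 1 1
    rw [mul_one, map_one x, one_smul] at h
    exact left_eq_add.1 h
  have hJy : J y₀ = 0 := by
    have h1 : J y₀ = δK ((1 : A) : K) := by
      change δK (dv y₀) = _
      rw [hdv, div_self hy0]
      rfl
    rw [h1, hδK', hδ1]
  have hδker : ∀ a ∈ (RingHom.ker (x : A →+* ℂ)) ^ 2, δ a = 0 := by
    intro a ha
    rw [pow_two] at ha
    induction ha using Submodule.mul_induction_on' with
    | mem_mul_mem u hu v hv =>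
      have hu' : x u = 0 := hu
      have hv' : x v = 0 := hv
      rw [hδL, hu', hv', zero_smul, zero_smul, add_zero]
    | add u _ v _ hu hv => rw [map_add, hu, hv, add_zero]
  let U : Submodule ℂ K := W ⊓ LinearMap.ker E
  haveI hUfd : FiniteDimensional ℂ U := Submodule.finiteDimensional_inf_left W _
  have hJU : ∀ e, ∃ u ∈ U, J u = e := by
    intro e
    obtain ⟨a, rfl⟩ := hδsurj e
    obtain ⟨b, hbW, hb⟩ := hjets a
    refine ⟨(b : K) * y₀ - E ((b : K) * y₀) • y₀, ⟨W.sub_mem hbW (W.smul_mem _ hy₀), ?_⟩, ?_⟩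
    · rw [SetLike.mem_coe, LinearMap.mem_ker, map_sub, map_smul, hEy, smul_eq_mul, mul_one, sub_self]
    · rw [map_sub, map_smul, hJy, smul_zero, sub_zero]
      have h1 : J ((b : K) * y₀) = δ b := by
        change δK (dv _) = _
        rw [hdv, mul_div_cancel_right₀ _ hy0, hδK']
      have h2 := hδker _ hb
      rw [map_sub, sub_eq_zero] at h2
      rw [h1, h2]
  obtain ⟨Y, hYU, hYJ, hYint⟩ := coords2 n htr y₀ hy0 U hUfd J hJU
  have hWle : W ≤ Submodule.span ℂ {y₀} ⊔ U := by
    intro w hw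
    have h1 : w = E w • y₀ + (w - E w • y₀) := by abel
    rw [h1]
    refine Submodule.add_mem_sup (Submodule.smul_mem _ _ (Submodule.mem_span_singleton_self _)) ?_
    refine ⟨W.sub_mem hw (W.smul_mem _ hy₀), ?_⟩
    rw [SetLike.mem_coe, LinearMap.mem_ker, map_sub, map_smul, hEy, smul_eq_mul, mul_one, sub_self]
  let y : Fin (n + 1) → K := Fin.cons y₀ Y
  have hyW : ∀ j, y j ∈ W := by
    intro j
    refine Fin.cases ?_ (fun i => ?_) j
    · exact hy₀
    · exact (hYU i).1
  let u : Fin (n + 1) → A := fun j => ⟨y j / y₀, hdiv _ (hyW j)⟩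
  have hu0 : u 0 = 1 := Subtype.ext (div_self hy0)
  have hδz : ∀ j, δ (u (Fin.succ j)) = Pi.single j 1 := by
    intro j
    rw [← hYJ j, ← hδK']
    change δK (Y j / y₀) = δK (dv (Y j))
    rw [hdv]
  obtain ⟨h, hxh, hEt⟩ := hδE (fun j => u (Fin.succ j)) hδz
  refine ⟨y, u, h, fun i => algebraMap A (Localization.Away h) (u (Fin.succ i)), hyW, ?_, ?_, hxh,
    ?_, ?_, hEt⟩
  · intro j
    exact div_mul_cancel₀ _ hy0
  · intro w hw
    exact gint_of_isIntegral y w (hYint w (hWle hw))
  · rw [hu0]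
    exact one_dvd h
  · intro i
    rw [hu0, map_one, mul_one]

end Crest.Agent.R271.CoordMain769
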