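import Crest.Agent.R271.LInt_821

/-!
# Row 271, team L (helper821): AF1, AF3, AF6 in the language of `Defs_710`

`gensFact`, `monoFact`, `prodFact`, `holder` (from the injectivity of germs), `nonIntFact`.
-/

set_option autoImplicit false

open MeasureTheory Set Filter Metric Topology
open scoped ENNReal NNReal Topology

namespace Crest.Agent.R271.Local821

open Crest.Agent.R271.Defs710

section gen

variable {n : ℕ} {B : Type} [CommRing B] [Algebra ℂ B] {z : Fin n → B} {y : B →ₐ[ℂ] ℂ}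

theorem LIntB_wB_mono {ι : Type} [Fintype ι] (S T : ι → Finset B) (c c' : ι → ℝ)
    (hc : ∀ i, c' i ≤ c i)
    (h : ∀ i, Ideal.span (S i : Set B) = Ideal.span (T i : Set B) ∨
      (0 ≤ c i ∧ Ideal.span (S i : Set B) ≤ Ideal.span (T i : Set B)))
    (hS : LIntB z y (wB S c)) : LIntB z y (wB T c') := by
  obtain ⟨K, hK, hle⟩ := wB_le (z := z) y S T c c' hc h
  exact LIntB.mono_const hS hK hle

theorem LIntB_wB_congr {ι : Type} [Fintype ι] (S T : ι → Finset B) (c : ι → ℝ)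
    (h : ∀ i, Ideal.span (S i : Set B) = Ideal.span (T i : Set B)) :
    LIntB z y (wB S c) ↔ LIntB z y (wB T c) :=
  ⟨LIntB_wB_mono S T c c (fun _ => le_rfl) (fun i => Or.inl (h i)),
    LIntB_wB_mono T S c c (fun _ => le_rfl) (fun i => Or.inl (h i).symm)⟩

/-- `IInt` does not depend on the generators -/
theorem IInt_iff {ι : Type} [Fintype ι] (I : ι → Ideal B) (c : ι → ℝ) (S : ι → Finset B)
    (hS : ∀ i, Ideal.span (S i : Set B) = I i) : IInt z y I c ↔ LIntB z y (wB S c) := by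
  refine ⟨?_, fun h => ⟨S, hS, h⟩⟩
  rintro ⟨T, hT, h⟩
  exact (LIntB_wB_congr T S c (fun i => by rw [hT, hS])).1 h

theorem exists_gens [IsNoetherianRing B] {ι : Type} (I : ι → Ideal B) :
    ∃ S : ι → Finset B, ∀ i, Ideal.span (S i : Set B) = I i := by
  have h : ∀ i, ∃ S : Finset B, Ideal.span (S : Set B) = I i := fun i =>
    (isNoetherianRing_iff_ideal_fg B).1 inferInstance (I i)
  choose S hS using h
  exact ⟨S, hS⟩

/-- monotonicity -/
theorem IInt_mono [IsNoetherianRing B] {ι : Type} [Fintype ι] (I J : ι → Ideal B) (c c' : ι → ℝ)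
    (hc : ∀ i, c' i ≤ c i) (h : ∀ i, I i = J i ∨ (0 ≤ c i ∧ I i ≤ J i)) (hI : IInt z y I c) :
    IInt z y J c' := by
  obtain ⟨S, hS, hint⟩ := hI
  obtain ⟨T, hT⟩ := exists_gens J
  refine ⟨T, hT, LIntB_wB_mono S T c c' hc (fun i => ?_) hint⟩
  rw [hS, hT]
  exact h i

/-! ### Hölder -/

/-- generic injectivity of germs at `y` -/
def GermInj (z : Fin n → B) (y : B →ₐ[ℂ] ℂ) : Prop :=
  ∀ (C : Chart z y) (b : B), b ≠ 0 → ∃ᶠ ζ in 𝓝 (0 : Cn n), C.s ζ b ≠ 0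

/-- for a family `S` of generators of a non-zero ideal `wt S` is positive a.e. near `0` -/
theorem ae_wt_pos (hinj : GermInj z y) (C : Chart z y) {S : Finset B}
    (hS : Ideal.span (S : Set B) ≠ ⊥) :
    ∃ r > 0, ∀ᵐ ζ ∂((volume : Measure (Cn n)).restrict (ball 0 r)), 0 < wt S (C.s ζ) := by
  have hb : ∃ b ∈ S, b ≠ 0 := by
    by_contra hcon
    push Not at hcon
    apply hS
    rw [Ideal.span_eq_bot]
    exact fun x hx => hcon x hx
  obtain ⟨b, hbS, hb0⟩ := hb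
  obtain ⟨r, hr, hae⟩ := eventually_null_zero (volume : Measure (Cn n)) (chart_analyticAt C b)
    (hinj C b hb0)
  refine ⟨r, hr, hae.mono fun ζ hζ => ?_⟩
  have h1 := sq_norm_le_wt hbS (C.s ζ)
  have h2 : 0 < ‖C.s ζ b‖ ^ 2 := by positivity
  linarith

theorem wB_mix_le {ι : Type} [Fintype ι] (S : ι → Finset B) (c c' : ι → ℝ) {a : ℝ} (ha : 0 ≤ a)
    (ha' : a ≤ 1) (y' : B →ₐ[ℂ] ℂ) (hpos : ∀ i, 0 < wt (S i) y') :
    wB S (fun i => a * c i + (1 - a) * c' i) y' ≤ wB S c y' + wB S c' y' := by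
  set x : ι → ℝ≥0∞ := fun i => ENNReal.ofReal (wt (S i) y') with hx
  have hx0 : ∀ i, x i ≠ 0 := fun i => by simpa [hx] using hpos i
  have hxt : ∀ i, x i ≠ ∞ := fun i => ENNReal.ofReal_ne_top
  have e1 : ∀ i, (x i) ^ (-(a * c i + (1 - a) * c' i)) =
      ((x i) ^ (-(c i))) ^ a * ((x i) ^ (-(c' i))) ^ (1 - a) := by
    intro i
    rw [← ENNReal.rpow_mul, ← ENNReal.rpow_mul, ← ENNReal.rpow_add _ _ (hx0 i) (hxt i)]
    congr 1
    ring
  have e2 : wB S (fun i => a * c i + (1 - a) * c' i) y' = (wB S c y') ^ a * (wB S c' y') ^ (1 - a) := by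
    unfold wB
    rw [← ENNReal.prod_rpow_of_nonneg ha, ← ENNReal.prod_rpow_of_nonneg (by linarith),
      ← Finset.prod_mul_distrib]
    exact Finset.prod_congr rfl fun i _ => e1 i
  rw [e2]
  set M : ℝ≥0∞ := wB S c y' ⊔ wB S c' y' with hM
  have h1 : (wB S c y') ^ a ≤ M ^ a := ENNReal.rpow_le_rpow le_sup_left ha
  have h2 : (wB S c' y') ^ (1 - a) ≤ M ^ (1 - a) := ENNReal.rpow_le_rpow le_sup_right (by linarith)
  calc (wB S c y') ^ a * (wB S c' y') ^ (1 - a) ≤ M ^ a * M ^ (1 - a) := mul_le_mul' h1 h2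
    _ = M ^ (1 : ℝ) := by
        rw [← ENNReal.rpow_add_of_nonneg _ _ ha (by linarith)]
        congr 1
        ring
    _ = M := ENNReal.rpow_one _
    _ ≤ _ := by
        rw [hM]
        exact max_le le_self_add le_add_self

theorem IInt_holder (hinj : GermInj z y) {ι : Type} [Fintype ι]
    (I : ι → Ideal B) (c c' : ι → ℝ) {a : ℝ} (hI : ∀ i, I i ≠ ⊥) (ha : 0 ≤ a) (ha' : a ≤ 1)
    (h : IInt z y I c) (h' : IInt z y I c') : IInt z y I (fun i => a * c i + (1 - a) * c' i) := by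
  obtain ⟨S, hS, C, hC⟩ := h
  have h2 : LInt (fun ζ => wB S c' (C.s ζ)) 0 := (LIntB_iff C _).1 ((IInt_iff I c' S hS).1 h')
  refine ⟨S, hS, C, ?_⟩
  have hsum := LInt.add hC h2 (chart_ball_mem C) (wB_aemeasurable C S c)
  have hpos : ∃ r > 0, ∀ᵐ ζ ∂((volume : Measure (Cn n)).restrict (ball 0 r)),
      ∀ i, 0 < wt (S i) (C.s ζ) := by
    have h1 : ∀ i, ∃ r > 0, ∀ᵐ ζ ∂((volume : Measure (Cn n)).restrict (ball 0 r)),
        0 < wt (S i) (C.s ζ) := fun i => ae_wt_pos hinj C (by rw [hS]; exact hI i)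
    choose r hr hae using h1
    have hr' : ∃ ρ > 0, ∀ i, ρ ≤ r i := by
      rcases isEmpty_or_nonempty ι with hι | hι
      · exact ⟨1, one_pos, fun i => isEmptyElim i⟩
      · refine ⟨Finset.univ.inf' Finset.univ_nonempty r, ?_, fun i =>
          Finset.inf'_le _ (Finset.mem_univ i)⟩
        rw [gt_iff_lt, Finset.lt_inf'_iff]
        exact fun i _ => hr i
    obtain ⟨ρ, hρ, hρr⟩ := hr'
    refine ⟨ρ, hρ, ?_⟩
    rw [ae_all_iff]
    intro i
    exact ae_mono (Measure.restrict_mono (ball_subset_ball (hρr i)) le_rfl) (hae i)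
  obtain ⟨r, hr, hae⟩ := hpos
  refine LInt.mono_ae (K := 1) hsum ENNReal.one_ne_top (ball_mem_nhds _ hr) (hae.mono fun ζ hζ => ?_)
  rw [one_mul]
  exact wB_mix_le S c c' ha ha' (C.s ζ) hζ

/-! ### Products -/

open scoped Pointwise

omit [Algebra ℂ B] in
theorem sum_mul_eq [DecidableEq B] (S T : Finset B) (g : B → ℝ) :
    ∑ p ∈ S ×ˢ T, g (p.1 * p.2) =
      ∑ b ∈ S * T, (((S ×ˢ T).filter fun p => p.1 * p.2 = b).card : ℝ) * g b := by
  rw [Finset.sum_comp g (fun p : B × B => p.1 * p.2)]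
  refine Finset.sum_congr rfl fun b _ => ?_
  rw [nsmul_eq_mul]

theorem sum_prod_eq (S T : Finset B) (y' : B →ₐ[ℂ] ℂ) :
    ∑ p ∈ S ×ˢ T, ‖y' (p.1 * p.2)‖ ^ 2 = wt S y' * wt T y' := by
  unfold wt
  rw [Finset.sum_mul_sum, Finset.sum_product]
  refine Finset.sum_congr rfl fun a _ => Finset.sum_congr rfl fun b _ => ?_
  rw [map_mul, norm_mul, mul_pow]

theorem wt_mul_le [DecidableEq B] (S T : Finset B) (y' : B →ₐ[ℂ] ℂ) :
    wt (S * T) y' ≤ wt S y' * wt T y' := by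
  rw [← sum_prod_eq, sum_mul_eq S T (fun b => ‖y' b‖ ^ 2)]
  refine Finset.sum_le_sum fun b hb => ?_
  have h1 : 1 ≤ (((S ×ˢ T).filter fun p => p.1 * p.2 = b).card : ℝ) := by
    have : 0 < ((S ×ˢ T).filter fun p => p.1 * p.2 = b).card := by
      rw [Finset.card_pos]
      obtain ⟨s, hs, t, ht, rfl⟩ := Finset.mem_mul.1 hb
      exact ⟨(s, t), by simp [hs, ht]⟩
    exact_mod_cast this
  have h2 : 0 ≤ ‖y' b‖ ^ 2 := by positivity
  nlinarith

theorem le_wt_mul [DecidableEq B] (S T : Finset B) (y' : B →ₐ[ℂ] ℂ) :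
    wt S y' * wt T y' ≤ ((S ×ˢ T).card : ℝ) * wt (S * T) y' := by
  rw [← sum_prod_eq, sum_mul_eq S T (fun b => ‖y' b‖ ^ 2)]
  unfold wt
  rw [Finset.mul_sum]
  refine Finset.sum_le_sum fun b _ => ?_
  gcongr
  exact Finset.filter_subset _ _

/-- domination near `y`, in all charts -/
def Dom (z : Fin n → B) (y : B →ₐ[ℂ] ℂ) (φ ψ : (B →ₐ[ℂ] ℂ) → ℝ) : Prop :=
  ∃ K : ℝ, 0 < K ∧ ∀ C : Chart z y, ∀ᶠ ζ in 𝓝 (0 : Cn n), φ (C.s ζ) ≤ K * ψ (C.s ζ)

theorem Dom.trans {φ ψ χ : (B →ₐ[ℂ] ℂ) → ℝ} (h : Dom z y φ ψ) (h' : Dom z y ψ χ) : Dom z y φ χ := by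
  obtain ⟨K, hK, h⟩ := h
  obtain ⟨K', hK', h'⟩ := h'
  refine ⟨K * K', mul_pos hK hK', fun C => ?_⟩
  filter_upwards [h C, h' C] with ζ a b
  calc φ (C.s ζ) ≤ K * ψ (C.s ζ) := a
    _ ≤ K * (K' * χ (C.s ζ)) := by gcongr
    _ = _ := by ring

theorem Dom.mul {φ ψ φ' ψ' : (B →ₐ[ℂ] ℂ) → ℝ} (h : Dom z y φ ψ) (h' : Dom z y φ' ψ')
    (h0 : ∀ y', 0 ≤ φ' y') (h0' : ∀ y', 0 ≤ ψ y') :
    Dom z y (fun y' => φ y' * φ' y') (fun y' => ψ y' * ψ' y') := by
  obtain ⟨K, hK, h⟩ := h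
  obtain ⟨K', hK', h'⟩ := h'
  refine ⟨K * K', mul_pos hK hK', fun C => ?_⟩
  filter_upwards [h C, h' C] with ζ a b
  calc φ (C.s ζ) * φ' (C.s ζ) ≤ (K * ψ (C.s ζ)) * (K' * ψ' (C.s ζ)) :=
        mul_le_mul a b (h0 _) (mul_nonneg hK.le (h0' _))
    _ = _ := by ring

theorem Dom.of_le {φ ψ : (B →ₐ[ℂ] ℂ) → ℝ} {K : ℝ} (hK : 0 < K) (h : ∀ y', φ y' ≤ K * ψ y') :
    Dom z y φ ψ := ⟨K, hK, fun C => Eventually.of_forall fun ζ => h _⟩

theorem dom_wt {S T : Finset B} (h : Ideal.span (S : Set B) ≤ Ideal.span (T : Set B)) :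
    Dom z y (wt S) (wt T) := wt_le_of_subset_span y (Ideal.span_le.1 h)

/-- the function `φ` is comparable with the norm of the ideal `I` near `y` -/
def Cmp (z : Fin n → B) (y : B →ₐ[ℂ] ℂ) (I : Ideal B) (φ : (B →ₐ[ℂ] ℂ) → ℝ) : Prop :=
  (∀ y', 0 ≤ φ y') ∧ ∃ P : Finset B, Ideal.span (P : Set B) = I ∧ Dom z y (wt P) φ ∧ Dom z y φ (wt P)

theorem Cmp.any {I : Ideal B} {φ : (B →ₐ[ℂ] ℂ) → ℝ} (h : Cmp z y I φ) (P : Finset B)
    (hP : Ideal.span (P : Set B) = I) : Dom z y (wt P) φ ∧ Dom z y φ (wt P) := by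
  obtain ⟨-, Q, hQ, h1, h2⟩ := h
  exact ⟨(dom_wt (by rw [hP, hQ])).trans h1, h2.trans (dom_wt (by rw [hP, hQ]))⟩

theorem Cmp.wt (S : Finset B) : Cmp z y (Ideal.span (S : Set B)) (wt S) :=
  ⟨wt_nonneg S, S, rfl, dom_wt le_rfl, dom_wt le_rfl⟩

theorem Cmp.one : Cmp z y (1 : Ideal B) (fun _ => 1) := by
  refine ⟨fun _ => zero_le_one, {1}, by simp, ?_, ?_⟩
  · exact Dom.of_le one_pos fun y' => by simp [Defs710.wt]
  · exact Dom.of_le one_pos fun y' => by simp [Defs710.wt]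

theorem Cmp.mul {I J : Ideal B} {φ ψ : (B →ₐ[ℂ] ℂ) → ℝ} (h : Cmp z y I φ) (h' : Cmp z y J ψ) :
    Cmp z y (I * J) (fun y' => φ y' * ψ y') := by
  classical
  obtain ⟨hφ, P, hP, h1, h2⟩ := h
  obtain ⟨hψ, Q, hQ, h3, h4⟩ := h'
  refine ⟨fun y' => mul_nonneg (hφ _) (hψ _), P * Q, ?_, ?_, ?_⟩
  · rw [Finset.coe_mul, ← Ideal.span_mul_span', hP, hQ]
  · exact (Dom.of_le one_pos fun y' => by rw [one_mul]; exact wt_mul_le P Q y').trans
      (h1.mul h3 (wt_nonneg Q) hφ)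
  · refine (h2.mul h4 hψ (wt_nonneg P)).trans
      (Dom.of_le (K := ((P ×ˢ Q).card : ℝ) + 1) (by positivity) fun y' => ?_)
    have h5 := le_wt_mul P Q y'
    have h6 := wt_nonneg (P * Q) y'
    nlinarith

theorem Cmp.pow {I : Ideal B} {φ : (B →ₐ[ℂ] ℂ) → ℝ} (h : Cmp z y I φ) (k : ℕ) :
    Cmp z y (I ^ k) (fun y' => φ y' ^ k) := by
  induction k with
  | zero => simpa using Cmp.one
  | succ k ih => simpa [pow_succ] using ih.mul h

theorem Cmp.prod {κ : Type} (s : Finset κ) {J : κ → Ideal B} {φ : κ → (B →ₐ[ℂ] ℂ) → ℝ}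
    (h : ∀ j, Cmp z y (J j) (φ j)) : Cmp z y (∏ j ∈ s, J j) (fun y' => ∏ j ∈ s, φ j y') := by
  classical
  induction s using Finset.induction_on with
  | empty => simpa using Cmp.one
  | insert a s ha ih =>
    simp only [Finset.prod_insert ha]
    exact (h a).mul ih

/-- comparison of real powers of comparable functions -/
theorem Dom.rpow {φ ψ : (B →ₐ[ℂ] ℂ) → ℝ} (h : Dom z y φ ψ) (h' : Dom z y ψ φ) (c : ℝ) :
    ∃ K : ℝ≥0∞, K ≠ ∞ ∧ ∀ C : Chart z y, ∀ᶠ ζ in 𝓝 (0 : Cn n),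
      (ENNReal.ofReal (ψ (C.s ζ))) ^ (-c) ≤ K * (ENNReal.ofReal (φ (C.s ζ))) ^ (-c) := by
  obtain ⟨K₁, hK₁, h⟩ := h
  obtain ⟨K₂, hK₂, h'⟩ := h'
  set K : ℝ := K₁ + K₂ with hKd
  have hK : 0 < K := by positivity
  refine ⟨(ENNReal.ofReal K) ^ |c|,
    ENNReal.rpow_ne_top_of_nonneg (abs_nonneg _) ENNReal.ofReal_ne_top, fun C => ?_⟩
  filter_upwards [h C, h' C] with ζ a b
  refine rpow_neg_le (by simpa using hK) ENNReal.ofReal_ne_top (fun _ => ?_) (fun _ => ?_)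
  · rw [← ENNReal.ofReal_mul hK.le]
    rcases le_or_gt 0 (ψ (C.s ζ)) with h0 | h0
    · refine ENNReal.ofReal_le_ofReal (a.trans ?_)
      gcongr
      linarith
    · have : φ (C.s ζ) ≤ 0 := a.trans (by nlinarith)
      rw [ENNReal.ofReal_of_nonpos this]
      exact bot_le
  · rw [← ENNReal.ofReal_mul hK.le]
    rcases le_or_gt 0 (φ (C.s ζ)) with h0 | h0
    · refine ENNReal.ofReal_le_ofReal (b.trans ?_)
      gcongr
      linarith
    · have : ψ (C.s ζ) ≤ 0 := b.trans (by nlinarith)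
      rw [ENNReal.ofReal_of_nonpos this]
      exact bot_le

theorem rpow_prod_eq {κ : Type} [Fintype κ] (T : κ → Finset B) (p : κ → ℕ) (θ : ℝ)
    (y' : B →ₐ[ℂ] ℂ) :
    (ENNReal.ofReal (∏ j, wt (T j) y' ^ p j)) ^ (-θ) =
      ∏ j, (ENNReal.ofReal (wt (T j) y')) ^ (-(θ * p j)) := by
  rw [ENNReal.ofReal_prod_of_nonneg fun j _ => pow_nonneg (wt_nonneg _ _) _,
    ← ENNReal.prod_rpow_of_ne_top fun j _ => ENNReal.ofReal_ne_top]
  refine Finset.prod_congr rfl fun j _ => ?_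
  rw [ENNReal.ofReal_pow (wt_nonneg _ _), ← ENNReal.rpow_natCast, ← ENNReal.rpow_mul]
  congr 1
  ring

theorem IInt_prod [IsNoetherianRing B] {ι κ : Type} [Fintype ι] [Fintype κ] (I : ι → Ideal B)
    (c : ι → ℝ) (J : κ → Ideal B) (p : κ → ℕ) (θ : ℝ) :
    IInt z y (Sum.elim I (fun _ : Unit => ∏ j, J j ^ p j)) (Sum.elim c (fun _ : Unit => θ)) ↔
      IInt z y (Sum.elim I J) (Sum.elim c (fun j => θ * p j)) := by
  obtain ⟨S, hS⟩ := exists_gens I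
  obtain ⟨T, hT⟩ := exists_gens J
  obtain ⟨P, hP⟩ := exists_gens (fun _ : Unit => ∏ j, J j ^ p j)
  have hcmp : Cmp z y (∏ j, J j ^ p j) (fun y' => ∏ j, wt (T j) y' ^ p j) :=
    Cmp.prod Finset.univ fun j => by
      have h1 := Cmp.wt (z := z) (y := y) (T j)
      rw [hT] at h1
      exact h1.pow (p j)
  obtain ⟨d1, d2⟩ := hcmp.any (P ()) (hP ())
  rw [IInt_iff _ _ (Sum.elim S P) (by rintro (i | u); exacts [hS i, hP u]),
    IInt_iff _ _ (Sum.elim S T) (by rintro (i | j); exacts [hS i, hT j])]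
  have e1 : ∀ y' : B →ₐ[ℂ] ℂ, wB (Sum.elim S P) (Sum.elim c (fun _ : Unit => θ)) y' =
      wB S c y' * (ENNReal.ofReal (wt (P ()) y')) ^ (-θ) := by
    intro y'
    simp [wB, Fintype.prod_sum_type]
  have e2 : ∀ y' : B →ₐ[ℂ] ℂ, wB (Sum.elim S T) (Sum.elim c (fun j => θ * p j)) y' =
      wB S c y' * (ENNReal.ofReal (∏ j, wt (T j) y' ^ p j)) ^ (-θ) := by
    intro y'
    rw [rpow_prod_eq]
    simp [wB, Fintype.prod_sum_type]
  constructor
  · intro h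
    obtain ⟨K, hK, hle⟩ := Dom.rpow d1 d2 θ
    refine LIntB.mono_const h hK fun C => ?_
    filter_upwards [hle C] with ζ hζ
    rw [e1, e2]
    calc _ ≤ wB S c (C.s ζ) * (K * (ENNReal.ofReal (wt (P ()) (C.s ζ))) ^ (-θ)) := by gcongr
      _ = _ := by ring
  · intro h
    obtain ⟨K, hK, hle⟩ := Dom.rpow d2 d1 θ
    refine LIntB.mono_const h hK fun C => ?_
    filter_upwards [hle C] with ζ hζ
    rw [e1, e2]
    calc _ ≤ wB S c (C.s ζ) * (K * (ENNReal.ofReal (∏ j, wt (T j) (C.s ζ) ^ p j)) ^ (-θ)) := by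
          gcongr
      _ = _ := by ring

end gen

/-! ### The facts for a context -/

section ctx

variable {n : ℕ} (X : FCtx n)

theorem noeth : IsNoetherianRing X.B :=
  haveI := X.ft
  Algebra.FiniteType.isNoetherianRing ℂ X.B

theorem gensFact : GensFact X := fun y _ _ I c S hS => IInt_iff I c S hS

theorem monoFact : MonoFact X := fun y _ _ I J c c' _ _ hc h hI =>
  haveI := noeth X
  IInt_mono I J c c' hc h hI

theorem prodFact : ProdFact X := fun y _ _ _ _ I c J p θ _ _ =>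
  haveI := noeth X
  IInt_prod I c J p θ

theorem holderFact (hinj : ∀ y : X.B →ₐ[ℂ] ℂ, GermInj X.z y) : Holder X :=
  fun y _ _ I c c' _ hI ha ha' h h' => IInt_holder (hinj y) I c c' hI ha ha' h h'

end ctx

end Crest.Agent.R271.Local821
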