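import Mathlib
import Crest.Agent.R271.Defs_710
import Crest.Agent.R271.IInt_821

/-!
Row 271, team L (helper821): L5, invariance of local integrability under local diffeomorphisms.
-/

set_option autoImplicit false
set_option linter.unusedVariables false
set_option linter.unusedSectionVars false

open scoped ENNReal NNReal Topology BigOperators
open MeasureTheory Filter Set Metric

noncomputable section

namespace Crest.Agent.R271.Local821

open Crest.Agent.R271.Defs710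

section real

variable {E : Type*} [NormedAddCommGroup E] [NormedSpace ℝ E] [FiniteDimensional ℝ E]
  [MeasurableSpace E] [BorelSpace E]
  {F : Type*} [NormedAddCommGroup F] [NormedSpace ℝ F] [FiniteDimensional ℝ F]
  [MeasurableSpace F] [BorelSpace F]

/-- local integrability with respect to a measure -/
def LI (μ : Measure E) (g : E → ℝ≥0∞) (a : E) : Prop := ∃ U ∈ 𝓝 a, ∫⁻ x in U, g x ∂μ < ∞

theorem LInt_eq_LI {n : ℕ} (g : Cn n → ℝ≥0∞) (a : Cn n) :
    LInt g a ↔ LI (volume : Measure (Cn n)) g a := Iff.rfl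

variable (μ : Measure E) [μ.IsAddHaarMeasure] (ν : Measure F) [ν.IsAddHaarMeasure]

theorem LI_comp_linear (L : E ≃L[ℝ] F) (g : F → ℝ≥0∞) (a : E) :
    LI ν g (L a) ↔ LI μ (fun x => g (L x)) a := by
  have hν : (μ.map L).IsAddHaarMeasure := inferInstance
  obtain ⟨c, hc⟩ : ∃ c : ℝ≥0, μ.map L = c • ν := ⟨_, Measure.isAddLeftInvariant_eq_smul _ _⟩
  have hc0 : (c : ℝ≥0∞) ≠ 0 := by
    intro h0
    have h1 : μ.map L = 0 := by
      rw [hc]
      have : c = 0 := by exact_mod_cast h0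
      rw [this, zero_smul]
    have h2 := (Measure.measure_univ_eq_zero (μ := μ.map L)).2 h1
    exact (isOpen_univ.measure_pos (μ.map L) univ_nonempty).ne' h2
  have key : ∀ s : Set F, ∫⁻ x in L ⁻¹' s, g (L x) ∂μ = c * ∫⁻ x in s, g x ∂ν := by
    intro s
    have h := L.toHomeomorph.measurableEmbedding.lintegral_map (μ := μ.restrict (L ⁻¹' s)) g
    have h' := L.toHomeomorph.measurableEmbedding.restrict_map (μ := μ) s
    have e : (⇑L.toHomeomorph) = ⇑L := rfl
    rw [e] at h h'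
    rw [← h, ← h', hc, Measure.restrict_smul, lintegral_smul_measure]
    rfl
  constructor
  · rintro ⟨U, hU, h⟩
    refine ⟨L ⁻¹' U, L.continuous.continuousAt.preimage_mem_nhds hU, ?_⟩
    rw [key]
    exact ENNReal.mul_lt_top ENNReal.coe_lt_top h
  · rintro ⟨U, hU, h⟩
    refine ⟨L.symm ⁻¹' U, L.symm.continuous.continuousAt.preimage_mem_nhds (by simpa using hU), ?_⟩
    have h2 := key (L.symm ⁻¹' U)
    have e : L ⁻¹' (L.symm ⁻¹' U) = U := by ext x; simp
    rw [e] at h2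
    rw [h2] at h
    rcases ENNReal.mul_lt_top_iff.1 h with h3 | h3 | h3
    · exact h3.2
    · exact absurd h3 hc0
    · rw [h3]; exact ENNReal.zero_lt_top

theorem LI_comp_self {φ : E → E} {a : E} (hφ : ContDiffAt ℝ 1 φ a) (L : E ≃L[ℝ] E)
    (hL : HasFDerivAt φ (L : E →L[ℝ] E) a) (g : E → ℝ≥0∞) :
    LI μ g (φ a) ↔ LI μ (fun x => g (φ x)) a := by
  set e := hφ.toOpenPartialHomeomorph φ hL one_ne_zero with he
  have hes : a ∈ e.source := ContDiffAt.mem_toOpenPartialHomeomorph_source hφ hL one_ne_zero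
  have hecoe : (e : E → E) = φ := ContDiffAt.toOpenPartialHomeomorph_coe hφ hL one_ne_zero
  -- the derivative near `a`
  have hdiff : ∀ᶠ x in 𝓝 a, HasFDerivAt φ (fderiv ℝ φ x) x := by
    have h1 : ∀ᶠ x in 𝓝 a, ContDiffAt ℝ 1 φ x := hφ.eventually (by simp)
    filter_upwards [h1] with x hx
    exact (hx.differentiableAt one_ne_zero).hasFDerivAt
  have hcont : ContinuousAt (fun x => |(fderiv ℝ φ x).det|) a := by
    have h1 : ContinuousAt (fderiv ℝ φ) a := by
      have h2 : ContDiffAt ℝ 0 (fderiv ℝ φ) a := hφ.fderiv_right (m := 0) (by norm_num)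
      exact h2.continuousAt
    exact (ContinuousLinearMap.continuous_det.continuousAt.comp h1).abs
  have hdet : 0 < |(fderiv ℝ φ a).det| := by
    rw [hL.fderiv]
    have h1 : (L : E →L[ℝ] E).det ≠ 0 := by
      have h3 := (L : E ≃ₗ[ℝ] E).isUnit_det'
      exact h3.ne_zero
    exact abs_pos.2 h1
  set δ := |(fderiv ℝ φ a).det| / 2 with hδ
  set M := |(fderiv ℝ φ a).det| + 1 with hM
  have hδ0 : 0 < δ := by positivity
  have h3 : ∀ᶠ x in 𝓝 a, δ ≤ |(fderiv ℝ φ x).det| ∧ |(fderiv ℝ φ x).det| ≤ M := by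
    have h4 : ∀ᶠ x in 𝓝 a, δ < |(fderiv ℝ φ x).det| := hcont.eventually (lt_mem_nhds (by
      rw [hδ]; linarith))
    have h5 : ∀ᶠ x in 𝓝 a, |(fderiv ℝ φ x).det| < M := hcont.eventually (gt_mem_nhds (by
      rw [hM]; linarith))
    filter_upwards [h4, h5] with x h4 h5
    exact ⟨h4.le, h5.le⟩
  obtain ⟨U, hUs, hUo, haU⟩ := _root_.eventually_nhds_iff.1
    (hdiff.and (h3.and (e.open_source.mem_nhds hes)))
  have key : ∀ W ⊆ U, IsOpen W → ∫⁻ x in φ '' W, g x ∂μ =
      ∫⁻ x in W, ENNReal.ofReal |(fderiv ℝ φ x).det| * g (φ x) ∂μ := by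
    intro W hW hWo
    refine lintegral_image_eq_lintegral_abs_det_fderiv_mul μ hWo.measurableSet
      (fun x hx => (hUs x (hW hx)).1.hasFDerivWithinAt) ?_ g
    rw [← hecoe]
    exact e.injOn.mono fun x hx => (hUs x (hW hx)).2.2
  constructor
  · rintro ⟨V, hV, h⟩
    obtain ⟨V', hV', hV'o, haV'⟩ := _root_.mem_nhds_iff.1 (hφ.continuousAt.preimage_mem_nhds hV)
    refine ⟨U ∩ V', inter_mem (hUo.mem_nhds haU) (hV'o.mem_nhds haV'), ?_⟩
    have k := key (U ∩ V') inter_subset_left (hUo.inter hV'o)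
    have h6 : ∫⁻ x in φ '' (U ∩ V'), g x ∂μ ≤ ∫⁻ x in V, g x ∂μ := by
      apply lintegral_mono_set
      rintro _ ⟨x, hx, rfl⟩
      exact hV' hx.2
    have h7 : ∫⁻ x in U ∩ V', g (φ x) ∂μ ≤ ∫⁻ x in U ∩ V',
        ENNReal.ofReal δ⁻¹ * (ENNReal.ofReal |(fderiv ℝ φ x).det| * g (φ x)) ∂μ := by
      refine setLIntegral_mono' (hUo.inter hV'o).measurableSet fun x hx => ?_
      rw [← mul_assoc, ← ENNReal.ofReal_mul (by positivity)]
      have h8 : (1 : ℝ≥0∞) ≤ ENNReal.ofReal (δ⁻¹ * |(fderiv ℝ φ x).det|) := by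
        rw [ENNReal.one_le_ofReal, inv_mul_eq_div, le_div_iff₀ hδ0, one_mul]
        exact (hUs x hx.1).2.1.1
      calc g (φ x) = 1 * g (φ x) := (one_mul _).symm
        _ ≤ _ := mul_le_mul_left h8 _
    rw [lintegral_const_mul' _ _ ENNReal.ofReal_ne_top, ← k] at h7
    exact h7.trans_lt (ENNReal.mul_lt_top ENNReal.ofReal_lt_top (h6.trans_lt h))
  · rintro ⟨V, hV, h⟩
    obtain ⟨V', hV', hV'o, haV'⟩ := _root_.mem_nhds_iff.1 hV
    refine ⟨φ '' (U ∩ V'), ?_, ?_⟩
    · rw [← hecoe]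
      have h6 := e.image_mem_nhds hes (inter_mem (hUo.mem_nhds haU) (hV'o.mem_nhds haV'))
      exact h6
    · rw [key (U ∩ V') inter_subset_left (hUo.inter hV'o)]
      have h7 : ∫⁻ x in U ∩ V', ENNReal.ofReal |(fderiv ℝ φ x).det| * g (φ x) ∂μ ≤
          ∫⁻ x in U ∩ V', ENNReal.ofReal M * g (φ x) ∂μ := by
        refine setLIntegral_mono' (hUo.inter hV'o).measurableSet fun x hx => ?_
        exact mul_le_mul_left (ENNReal.ofReal_le_ofReal (hUs x hx.1).2.1.2) _
      rw [lintegral_const_mul' _ _ ENNReal.ofReal_ne_top] at h7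
      refine h7.trans_lt (ENNReal.mul_lt_top ENNReal.ofReal_lt_top ?_)
      exact (lintegral_mono_set (inter_subset_right.trans hV')).trans_lt h

/-- (L5) local integrability is invariant under local `C¹` diffeomorphisms -/
theorem LI_comp_iff {φ : E → F} {a : E} (hφ : ContDiffAt ℝ 1 φ a) (L : E ≃L[ℝ] F)
    (hL : HasFDerivAt φ (L : E →L[ℝ] F) a) (g : F → ℝ≥0∞) :
    LI ν g (φ a) ↔ LI μ (fun x => g (φ x)) a := by
  have h1 : ContDiffAt ℝ 1 (fun x => L.symm (φ x)) a :=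
    L.symm.contDiff.contDiffAt.comp a hφ
  have h2 : HasFDerivAt (fun x => L.symm (φ x)) ((ContinuousLinearEquiv.refl ℝ E : E ≃L[ℝ] E) :
      E →L[ℝ] E) a := by
    have h3 := (L.symm.hasFDerivAt (x := φ a)).comp a hL
    have h4 : (L.symm : F →L[ℝ] E) ∘SL (L : E →L[ℝ] F) =
        ((ContinuousLinearEquiv.refl ℝ E : E ≃L[ℝ] E) : E →L[ℝ] E) := by
      ext x
      simp
    rw [h4] at h3
    exact h3
  have h4 := LI_comp_self μ h1 _ h2 (fun x => g (L x))
  have h5 := LI_comp_linear μ ν L g (L.symm (φ a))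
  rw [ContinuousLinearEquiv.apply_symm_apply] at h5
  rw [h5, h4]
  simp

end real

section complex

variable {E : Type*} [NormedAddCommGroup E] [NormedSpace ℂ E] [FiniteDimensional ℂ E]
  {F : Type*} [NormedAddCommGroup F] [NormedSpace ℂ F] [FiniteDimensional ℂ F]

/-- analytic inverse function theorem -/
theorem exists_analytic_inverse {φ : E → F} {a : E} (hφ : AnalyticAt ℂ φ a) (L : E ≃L[ℂ] F)
    (hL : HasFDerivAt φ (L : E →L[ℂ] F) a) :
    ∃ ψ : F → E, AnalyticAt ℂ ψ (φ a) ∧ ψ (φ a) = a ∧ (∀ᶠ x in 𝓝 a, ψ (φ x) = x) ∧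
      (∀ᶠ u in 𝓝 (φ a), φ (ψ u) = u) ∧ HasFDerivAt ψ (L.symm : F →L[ℂ] E) (φ a) := by
  have : CompleteSpace E := FiniteDimensional.complete ℂ E
  have : CompleteSpace F := FiniteDimensional.complete ℂ F
  have h1 : ContDiffAt ℂ (⊤ : WithTop ℕ∞) φ a := hφ.contDiffAt
  have hn : (⊤ : WithTop ℕ∞) ≠ 0 := WithTop.top_ne_zero
  refine ⟨h1.localInverse hL hn, ?_, h1.localInverse_apply_image hL hn, ?_, ?_, ?_⟩
  · exact (h1.to_localInverse hL hn).analyticAt
  · exact (h1.hasStrictFDerivAt' hL hn).eventually_left_inverse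
  · exact (h1.hasStrictFDerivAt' hL hn).eventually_right_inverse
  · exact (h1.hasStrictFDerivAt' hL hn).to_localInverse.hasFDerivAt

/-- local integrability is invariant under local biholomorphisms -/
theorem LI_comp_iff_analytic [MeasurableSpace E] [BorelSpace E] [MeasurableSpace F] [BorelSpace F]
    (μ : Measure E) [μ.IsAddHaarMeasure] (ν : Measure F) [ν.IsAddHaarMeasure]
    {φ : E → F} {a : E} (hφ : AnalyticAt ℂ φ a) (L : E ≃L[ℂ] F)
    (hL : HasFDerivAt φ (L : E →L[ℂ] F) a) (g : F → ℝ≥0∞) :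
    LI ν g (φ a) ↔ LI μ (fun x => g (φ x)) a := by
  have : CompleteSpace F := FiniteDimensional.complete ℂ F
  have i1 : FiniteDimensional ℝ E := FiniteDimensional.complexToReal E
  have i2 : FiniteDimensional ℝ F := FiniteDimensional.complexToReal F
  set L' : E ≃L[ℝ] F :=
    { L.toLinearEquiv.restrictScalars ℝ with
      continuous_toFun := L.continuous
      continuous_invFun := L.symm.continuous } with hLdef
  have hL' : HasFDerivAt φ (L' : E →L[ℝ] F) a := hL.restrictScalars ℝ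
  refine LI_comp_iff μ ν ?_ L' hL' g
  exact (hφ.contDiffAt (n := 1)).restrict_scalars ℝ

/-- local integrability is invariant under local biholomorphisms -/
theorem LInt_comp_iff {n : ℕ} {φ : Cn n → Cn n} {a : Cn n} (hφ : AnalyticAt ℂ φ a)
    (L : Cn n ≃L[ℂ] Cn n) (hL : HasFDerivAt φ (L : Cn n →L[ℂ] Cn n) a) (g : Cn n → ℝ≥0∞) :
    LInt g (φ a) ↔ LInt (fun x => g (φ x)) a :=
  LI_comp_iff_analytic volume volume hφ L hL g

end complex

section chart

variable {n : ℕ} {B : Type} [CommRing B] [Algebra ℂ B] {z : Fin n → B} {y : B →ₐ[ℂ] ℂ}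

theorem chart_analyticAt_pi (C : Chart z y) {κ : Type} [Fintype κ] (w : κ → B) :
    AnalyticAt ℂ (fun ζ => fun i => C.s ζ (w i)) 0 :=
  analyticAt_pi_iff.2 fun i => chart_analyticAt C (w i)

theorem chart_s_z (C : Chart z y) (j : Fin n) :
    ∀ᶠ ζ in 𝓝 (0 : Cn n), C.s ζ (z j) = y (z j) + ζ j := by
  filter_upwards [chart_ball_mem C] with ζ hζ
  exact C.s_z ζ hζ j

/-- coordinates at `y` have invertible derivative in the chart -/
theorem exists_deriv_equiv (C : Chart z y) (w : Fin n → B) (hw : ∀ i, y (w i) = 0) (g : B)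
    (hg : y g ≠ 0) (h : ∀ f : B, y f = 0 → g * f ∈ Ideal.span (Set.range w)) :
    ∃ L : Cn n ≃L[ℂ] Cn n, HasFDerivAt (fun ζ => fun i => C.s ζ (w i)) (L : Cn n →L[ℂ] Cn n) 0 := by
  have hd : ∀ b : B, HasFDerivAt (fun ζ => C.s ζ b) (fderiv ℂ (fun ζ => C.s ζ b) 0) 0 := fun b =>
    (chart_analyticAt C b).differentiableAt.hasFDerivAt
  have hs0 : ∀ b : B, C.s 0 b = y b := fun b => by rw [C.s_zero]
  set D : Cn n →L[ℂ] Cn n := ContinuousLinearMap.pi fun i => fderiv ℂ (fun ζ => C.s ζ (w i)) 0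
    with hD
  have hDd : HasFDerivAt (fun ζ => fun i => C.s ζ (w i)) D 0 := by
    rw [hasFDerivAt_pi']
    intro i
    rw [hD, ContinuousLinearMap.proj_pi]
    exact hd (w i)
  have hinj : Function.Injective D := by
    rw [injective_iff_map_eq_zero]
    intro v hv
    have hv' : ∀ i, fderiv ℂ (fun ζ => C.s ζ (w i)) 0 v = 0 := fun i => congrFun hv i
    funext j
    obtain ⟨c, hc⟩ := Ideal.mem_span_range_iff_exists_fun.1
      (h (z j - algebraMap ℂ B (y (z j))) (by rw [map_sub, AlgHom.commutes]; simp))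
    have e1 : (fun ζ => ∑ i, C.s ζ (c i) * C.s ζ (w i)) =ᶠ[𝓝 (0 : Cn n)]
        (fun ζ => C.s ζ g * ζ j) := by
      filter_upwards [chart_s_z C j] with ζ hζ
      have e2 := congrArg (C.s ζ) hc
      rw [map_sum, map_mul, map_sub, AlgHom.commutes, hζ] at e2
      simpa using e2
    have d1 : HasFDerivAt (fun ζ => ∑ i, C.s ζ (c i) * C.s ζ (w i))
        (∑ i, (C.s 0 (c i) • fderiv ℂ (fun ζ => C.s ζ (w i)) 0 +
          C.s 0 (w i) • fderiv ℂ (fun ζ => C.s ζ (c i)) 0)) 0 :=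
      HasFDerivAt.fun_sum fun i _ => (hd (c i)).mul (hd (w i))
    have d2 : HasFDerivAt (fun ζ : Cn n => C.s ζ g * ζ j)
        (C.s 0 g • (ContinuousLinearMap.proj j : Cn n →L[ℂ] ℂ) +
          (0 : Cn n) j • fderiv ℂ (fun ζ => C.s ζ g) 0) 0 :=
      (hd g).mul (ContinuousLinearMap.proj (R := ℂ) (φ := fun _ : Fin n => ℂ) j).hasFDerivAt
    have d3 := (d2.congr_of_eventuallyEq e1).unique d1
    have d4 := congrArg (fun T : Cn n →L[ℂ] ℂ => T v) d3
    simp only [hs0, hw, hv', _root_.add_apply, _root_.smul_apply, _root_.sum_apply,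
      Pi.zero_apply, ContinuousLinearMap.proj_apply, smul_eq_mul, mul_zero, zero_mul, add_zero,
      Finset.sum_const_zero] at d4
    exact (mul_eq_zero.1 d4).resolve_left hg
  refine ⟨(LinearEquiv.ofInjectiveEndo (D : Cn n →ₗ[ℂ] Cn n) hinj).toContinuousLinearEquiv, ?_⟩
  have e3 : (((LinearEquiv.ofInjectiveEndo (D : Cn n →ₗ[ℂ] Cn n) hinj).toContinuousLinearEquiv :
      Cn n ≃L[ℂ] Cn n) : Cn n →L[ℂ] Cn n) = D := by
    ext x
    rfl
  rw [e3]
  exact hDd

/-- (L5) coordinates `w` at the point `y`: they are a local biholomorphism, with inverse `ψ`, and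
local integrability can be tested in the coordinates `w`. -/
theorem exists_coord (C : Chart z y) (w : Fin n → B) (hw : ∀ i, y (w i) = 0) (g : B)
    (hg : y g ≠ 0) (h : ∀ f : B, y f = 0 → g * f ∈ Ideal.span (Set.range w)) :
    ∃ ψ : Cn n → Cn n, AnalyticAt ℂ ψ 0 ∧ ψ 0 = 0 ∧
      (∀ᶠ ζ in 𝓝 (0 : Cn n), ψ (fun i => C.s ζ (w i)) = ζ) ∧
      (∀ᶠ u in 𝓝 (0 : Cn n), ∀ i, C.s (ψ u) (w i) = u i) ∧
      (∀ b : B, AnalyticAt ℂ (fun u => C.s (ψ u) b) 0) ∧
      (∀ᶠ u in 𝓝 (0 : Cn n), ψ u ∈ ball (0 : Cn n) C.r) ∧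
      ∀ G : (B →ₐ[ℂ] ℂ) → ℝ≥0∞, (LIntB z y G ↔ LInt (fun u => G (C.s (ψ u))) 0) := by
  obtain ⟨L, hL⟩ := exists_deriv_equiv C w hw g hg h
  obtain ⟨ψ, h1, h2, h3, h4, h5⟩ := exists_analytic_inverse (chart_analyticAt_pi C w) L hL
  have e0 : (fun i => C.s 0 (w i)) = (0 : Cn n) := by
    funext i
    rw [C.s_zero, hw]; rfl
  simp only [e0] at h1 h2 h4 h5
  refine ⟨ψ, h1, h2, h3, ?_, ?_, ?_, ?_⟩
  · filter_upwards [h4] with u hu i
    exact congrFun hu i
  · intro b
    have hb : AnalyticAt ℂ (fun ζ => C.s ζ b) (ψ 0) := by rw [h2]; exact chart_analyticAt C b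
    exact hb.comp h1
  · have h6 := h1.continuousAt
    rw [ContinuousAt, h2] at h6
    exact h6 (chart_ball_mem C)
  · intro G
    rw [LIntB_iff C G]
    have h7 := LInt_comp_iff h1 L.symm h5 (fun ζ => G (C.s ζ))
    rw [h2] at h7
    exact h7

end chart

end Crest.Agent.R271.Local821
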