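import Crest.Agent.R271.Ctx1_728

/-!
Row 271, team B (helper728): graded integrality (`GInt`): transitivity and scaling.
-/

set_option autoImplicit false

open scoped BigOperators Polynomial
open Polynomial

noncomputable section

namespace Crest.Agent.R271.Ctx728

section general

variable {S A : Type} [CommRing S] [CommRing A] [Algebra S A]

/-- integrality from an equation `x^r = ∑_{i<r} c_{r-i} x^i` -/
theorem isIntegral_of_rel (r : ℕ) (_hr : 1 ≤ r) (c : ℕ → S) (x : A)
    (h : x ^ r = ∑ i ∈ Finset.range r, algebraMap S A (c (r - i)) * x ^ i) : IsIntegral S x := by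
  classical
  nontriviality S
  refine ⟨X ^ r - ∑ i ∈ Finset.range r, C (c (r - i)) * X ^ i, ?_, ?_⟩
  · apply monic_X_pow_sub
    refine lt_of_le_of_lt (degree_sum_le _ _) ?_
    refine (Finset.sup_lt_iff (WithBot.bot_lt_coe r)).2 ?_
    intro i hi
    refine lt_of_le_of_lt (degree_C_mul_X_pow_le _ _) ?_
    exact WithBot.coe_lt_coe.2 (Finset.mem_range.1 hi)
  · simp only [eval₂_sub, eval₂_finsetSum, eval₂_mul, eval₂_pow, eval₂_X, eval₂_C]
    rw [h, sub_self]

/-- an equation `x^r = ∑_{i<r} c_{r-i} x^i` from integrality -/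
theorem rel_of_isIntegral [Nontrivial A] (x : A) (h : IsIntegral S x) :
    ∃ r : ℕ, 1 ≤ r ∧ ∃ c : ℕ → S, x ^ r = ∑ i ∈ Finset.range r, algebraMap S A (c (r - i)) * x ^ i := by
  obtain ⟨p, hp, hpx⟩ := h
  have hS : Nontrivial S := by
    by_contra hS
    rw [not_nontrivial_iff_subsingleton] at hS
    have : (1 : A) = 0 := by
      rw [← map_one (algebraMap S A), Subsingleton.elim (1 : S) 0, map_zero]
    exact one_ne_zero this
  refine ⟨p.natDegree, ?_, fun j => - p.coeff (p.natDegree - j), ?_⟩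
  · by_contra h0
    have h0' : p.natDegree = 0 := by omega
    rw [hp.natDegree_eq_zero.1 h0'] at hpx
    simp at hpx
  · rw [eval₂_eq_sum_range, Finset.sum_range_succ, hp.coeff_natDegree, map_one, one_mul] at hpx
    rw [eq_neg_of_add_eq_zero_right hpx, ← Finset.sum_neg_distrib]
    refine Finset.sum_congr rfl fun i hi => ?_
    have hi' := Finset.mem_range.1 hi
    show _ = (algebraMap S A) (-p.coeff (p.natDegree - (p.natDegree - i))) * x ^ i
    rw [show p.natDegree - (p.natDegree - i) = i by omega, map_neg, neg_mul]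

end general

variable {K : Type} [Field K] [Algebra ℂ K]

/-- the Rees algebra `ℂ[W X] ⊆ K[X]` -/
def Rees (W : Submodule ℂ K) : Subalgebra ℂ K[X] :=
  Algebra.adjoin ℂ ((fun w : K => C w * X) '' (W : Set K))

theorem coeff_mem_of_mem_Rees (W : Submodule ℂ K) (p : K[X]) (hp : p ∈ Rees W) (N : ℕ) :
    p.coeff N ∈ W ^ N := by
  revert N
  refine Algebra.adjoin_induction (p := fun (p : K[X]) _ => ∀ N, p.coeff N ∈ W ^ N)
    ?_ ?_ ?_ ?_ hp
  · rintro _ ⟨w, hw, rfl⟩ N
    rcases N with _ | N
    · simp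
    · rcases N with _ | N
      · simpa using hw
      · simp
  · intro c N
    rw [IsScalarTower.algebraMap_apply ℂ K K[X], algebraMap_eq]
    rcases N with _ | N
    · rw [coeff_C_zero, pow_zero]
      exact Submodule.mem_one.2 ⟨c, rfl⟩
    · rw [coeff_C_succ]
      exact Submodule.zero_mem _
  · intro p q _ _ hp hq N
    rw [coeff_add]
    exact Submodule.add_mem _ (hp N) (hq N)
  · intro p q _ _ hp hq N
    rw [coeff_mul]
    refine Submodule.sum_mem _ fun ij hij => ?_
    rw [← Finset.HasAntidiagonal.mem_antidiagonal.1 hij, pow_add]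
    exact Submodule.mul_mem_mul (hp _) (hq _)

theorem monomial_mem_Rees (W : Submodule ℂ K) (N : ℕ) (u : K) (hu : u ∈ W ^ N) :
    C u * X ^ N ∈ Rees W := by
  induction N generalizing u with
  | zero =>
    rw [pow_zero, Submodule.mem_one] at hu
    obtain ⟨c, rfl⟩ := hu
    rw [pow_zero, mul_one, ← algebraMap_eq, ← IsScalarTower.algebraMap_apply ℂ K K[X]]
    exact Subalgebra.algebraMap_mem _ _
  | succ N ih =>
    rw [pow_succ] at hu
    refine Submodule.mul_induction_on hu ?_ ?_
    · intro a ha w hw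
      have h1 := ih a ha
      have h2 : C w * X ∈ Rees W := Algebra.subset_adjoin ⟨w, hw, rfl⟩
      have := Subalgebra.mul_mem _ h1 h2
      rwa [show C a * X ^ N * (C w * X) = C (a * w) * X ^ (N + 1) by
        rw [C_mul, pow_succ]; ring] at this
    · intro a b ha hb
      rw [C_add, add_mul]
      exact Subalgebra.add_mem _ ha hb

theorem GInt.isIntegral {W : Submodule ℂ K} {m : ℕ} {f : K} (h : GInt W m f) :
    IsIntegral (Rees W) (C f * X ^ m : K[X]) := by
  obtain ⟨r, hr, a, ha, hf⟩ := h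
  refine isIntegral_of_rel r hr
    (fun j => ⟨C (a j) * X ^ (m * j), monomial_mem_Rees W _ _ (ha j)⟩) _ ?_
  rw [mul_pow, ← C_pow, hf, map_sum, Finset.sum_mul]
  refine Finset.sum_congr rfl fun i hi => ?_
  have hi' := Finset.mem_range.1 hi
  rw [show algebraMap (Rees W) K[X] ⟨C (a (r - i)) * X ^ (m * (r - i)),
    monomial_mem_Rees W _ _ (ha (r - i))⟩ = C (a (r - i)) * X ^ (m * (r - i)) from rfl]
  rw [mul_pow, C_mul, C_pow, ← pow_mul, ← pow_mul]
  rw [show m * r = m * (r - i) + m * i by rw [← Nat.mul_add]; congr 1; omega, pow_add]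
  ring

theorem GInt.of_isIntegral {W : Submodule ℂ K} {m : ℕ} {f : K}
    (h : IsIntegral (Rees W) (C f * X ^ m : K[X])) : GInt W m f := by
  obtain ⟨r, hr, c, hc⟩ := rel_of_isIntegral _ h
  refine ⟨r, hr, fun j => ((c j : Rees W) : K[X]).coeff (m * j),
    fun j => coeff_mem_of_mem_Rees W _ (c j).2 _, ?_⟩
  have := congrArg (fun p : K[X] => p.coeff (m * r)) hc
  rw [mul_pow, ← C_pow, ← pow_mul, coeff_C_mul_X_pow, if_pos rfl, finsetSum_coeff] at this
  rw [this]
  refine Finset.sum_congr rfl fun i hi => ?_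
  have hi' := Finset.mem_range.1 hi
  rw [show algebraMap (Rees W) K[X] (c (r - i)) = ((c (r - i) : Rees W) : K[X]) from rfl,
    mul_pow, ← C_pow, ← pow_mul, ← mul_assoc, mul_comm _ (C (f ^ i)), mul_assoc, coeff_C_mul,
    show m * r = m * (r - i) + m * i by rw [← Nat.mul_add]; congr 1; omega, coeff_mul_X_pow,
    mul_comm]

theorem GInt.trans {W Y : Submodule ℂ K} (hW : ∀ w ∈ W, GInt Y 1 w) {m : ℕ} {f : K}
    (h : GInt W m f) : GInt Y m f := by
  apply GInt.of_isIntegral
  -- everything in `Rees W` is integral over `Rees Y`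
  have key : ∀ p ∈ Rees W, IsIntegral (Rees Y) p := by
    intro p hp
    refine Algebra.adjoin_induction (p := fun (p : K[X]) _ => IsIntegral (Rees Y) p)
      ?_ ?_ ?_ ?_ hp
    · rintro _ ⟨w, hw, rfl⟩
      have := (hW w hw).isIntegral
      rwa [pow_one] at this
    · intro c
      rw [IsScalarTower.algebraMap_apply ℂ (Rees Y) K[X]]
      exact isIntegral_algebraMap
    · intro p q _ _ hp hq
      exact hp.add hq
    · intro p q _ _ hp hq
      exact hp.mul hq
  obtain ⟨r, hr, c, hc⟩ := rel_of_isIntegral _ h.isIntegral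
  have h1 : IsIntegral (integralClosure (Rees Y) K[X]) (C f * X ^ m : K[X]) := by
    refine isIntegral_of_rel r hr (fun j => ⟨((c j : Rees W) : K[X]), key _ (c j).2⟩) _ ?_
    rw [hc]
    rfl
  exact isIntegral_trans (R := Rees Y) (A := integralClosure (Rees Y) K[X]) _ h1

theorem pow_div_mem {W W' : Submodule ℂ K} {c : K} (hW : ∀ w ∈ W, w / c ∈ W') (N : ℕ) (u : K)
    (hu : u ∈ W ^ N) : u / c ^ N ∈ W' ^ N := by
  induction N generalizing u with
  | zero => simpa using hu
  | succ N ih =>
    rw [pow_succ] at hu ⊢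
    refine Submodule.mul_induction_on hu ?_ ?_
    · intro a ha w hw
      rw [pow_succ c, mul_div_mul_comm]
      exact Submodule.mul_mem_mul (ih a ha) (hW w hw)
    · intro a b ha hb
      rw [add_div]
      exact Submodule.add_mem _ ha hb

theorem pow_mem_adjoin (W : Submodule ℂ K) (N : ℕ) (u : K) (hu : u ∈ W ^ N) :
    u ∈ Algebra.adjoin ℂ (W : Set K) := by
  induction N generalizing u with
  | zero =>
    rw [pow_zero, Submodule.mem_one] at hu
    obtain ⟨c, rfl⟩ := hu
    exact Subalgebra.algebraMap_mem _ _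
  | succ N ih =>
    rw [pow_succ] at hu
    refine Submodule.mul_induction_on hu ?_ ?_
    · intro a ha w hw
      exact Subalgebra.mul_mem _ (ih a ha) (Algebra.subset_adjoin hw)
    · intro a b ha hb
      exact Subalgebra.add_mem _ ha hb

/-- dehomogenisation: `f / y₀^m` is integral over `ℂ[W/y₀]` -/
theorem GInt.integral_div {W : Submodule ℂ K} {m : ℕ} {f c : K} (h : GInt W m f)
    (S : Subalgebra ℂ K) (hS : ∀ w ∈ W, w / c ∈ S) : IsIntegral S (f / c ^ m) := by
  obtain ⟨r, hr, a, ha, hf⟩ := h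
  have hmem : ∀ j, a j / c ^ (m * j) ∈ S := by
    intro j
    have h1 := pow_div_mem (W' := Subalgebra.toSubmodule S) (c := c) (fun w hw => hS w hw) _ _ (ha j)
    have h2 := pow_mem_adjoin _ _ _ h1
    exact Algebra.adjoin_le (S := S) (fun x hx => hx) h2
  refine isIntegral_of_rel r hr (fun j => ⟨a j / c ^ (m * j), hmem j⟩) _ ?_
  rw [div_pow, hf, Finset.sum_div]
  refine Finset.sum_congr rfl fun i hi => ?_
  have hi' := Finset.mem_range.1 hi
  rw [show algebraMap S K ⟨a (r - i) / c ^ (m * (r - i)), hmem (r - i)⟩ =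
    a (r - i) / c ^ (m * (r - i)) from rfl]
  rw [div_pow, div_mul_div_comm, ← pow_mul, ← pow_mul, ← pow_add]
  congr 2
  rw [← Nat.mul_add]; congr 1; omega

end Crest.Agent.R271.Ctx728
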