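import Crest.Agent.R271.Ctx2_728

/-!
Row 271, team B (helper728): choice of `k`, application of `CoordProp`.
-/

set_option autoImplicit false

open scoped BigOperators
open Crest.Agent.R271.Defs710

noncomputable section

namespace Crest.Agent.R271.Ctx728

variable {n : ℕ} (P : PCtx n)

namespace PCtx

theorem one_mem_R : (1 : P.K) ∈ P.R 0 := by
  rw [P.R_zero]; exact Submodule.one_le.1 le_rfl

theorem pow_mem_R {m : ℕ} {f : P.K} (hf : f ∈ P.R m) (j : ℕ) : f ^ j ∈ P.R (m * j) := by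
  induction j with
  | zero => simpa using P.one_mem_R
  | succ j ih =>
    rw [pow_succ, Nat.mul_succ]
    exact P.R_mul _ _ _ _ ih hf

theorem pow_s_mem (j : ℕ) : P.s ^ j ∈ P.R (P.q * j) := P.pow_mem_R P.s_mem j

theorem mem_A_ge {a : P.K} (ha : a ∈ P.A) : ∃ j₀ : ℕ, ∀ j, j₀ ≤ j → a * P.s ^ j ∈ P.R (P.q * j) := by
  obtain ⟨j₀, hj₀⟩ := (P.mem_A a).1 ha
  refine ⟨j₀, fun j hj => ?_⟩
  have := P.R_mul _ _ _ _ hj₀ (P.pow_s_mem (j - j₀))
  rwa [mul_assoc, ← pow_add, ← Nat.mul_add, Nat.add_sub_cancel' hj] at this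

theorem mem_A_finset (S : Finset P.A) :
    ∃ j₀ : ℕ, ∀ j, j₀ ≤ j → ∀ a ∈ S, (a : P.K) * P.s ^ j ∈ P.R (P.q * j) := by
  classical
  induction S using Finset.induction_on with
  | empty => exact ⟨0, by simp⟩
  | insert a S _ ih =>
    obtain ⟨j₁, h₁⟩ := ih
    obtain ⟨j₂, h₂⟩ := P.mem_A_ge a.2
    refine ⟨max j₁ j₂, fun j hj b hb => ?_⟩
    rcases Finset.mem_insert.1 hb with rfl | hb
    · exact h₂ j (le_trans (le_max_right _ _) hj)
    · exact h₁ j (le_trans (le_max_left _ _) hj) b hb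

/-- the choice of `l` (`k = q l`): generators of `A` in `s^{-l} R(ql)` -/
theorem exists_l : ∃ (l : ℕ) (S : Finset P.A), 1 ≤ l ∧ P.k₀ ≤ P.q * l ∧
    Algebra.adjoin ℂ (S : Set P.A) = ⊤ ∧ ∀ a ∈ S, (a : P.K) * P.s ^ l ∈ P.R (P.q * l) := by
  obtain ⟨S, hS⟩ := P.A_ft.out
  obtain ⟨j₀, hj₀⟩ := P.mem_A_finset S
  refine ⟨max j₀ (max 1 P.k₀), S, le_trans (le_max_left _ _) (le_max_right _ _), ?_, hS,
    hj₀ _ (le_max_left _ _)⟩
  calc P.k₀ ≤ max j₀ (max 1 P.k₀) := le_trans (le_max_right _ _) (le_max_right _ _)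
    _ = 1 * max j₀ (max 1 P.k₀) := (one_mul _).symm
    _ ≤ P.q * max j₀ (max 1 P.k₀) := Nat.mul_le_mul_right _ P.q_pos

/-- `W / y₀ → A / m_x²` is onto -/
theorem onto {l : ℕ} {S : Finset P.A} (hS : Algebra.adjoin ℂ (S : Set P.A) = ⊤)
    (hl : ∀ a ∈ S, (a : P.K) * P.s ^ l ∈ P.R (P.q * l)) (a : P.A) :
    ∃ b : P.A, (b : P.K) * P.s ^ l ∈ P.R (P.q * l) ∧
      a - b ∈ (RingHom.ker (P.x : P.A →+* ℂ)) ^ 2 := by
  set I := RingHom.ker (P.x : P.A →+* ℂ) with hI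
  have hmem : ∀ b : P.A, b - algebraMap ℂ P.A (P.x b) ∈ I := by
    intro b
    rw [hI, RingHom.mem_ker, map_sub]
    simp
  have ha : a ∈ Algebra.adjoin ℂ (S : Set P.A) := by rw [hS]; trivial
  have hc : ∀ c : ℂ, ((algebraMap ℂ P.A c : P.A) : P.K) * P.s ^ l ∈ P.R (P.q * l) := by
    intro c
    rw [show ((algebraMap ℂ P.A c : P.A) : P.K) = algebraMap ℂ P.K c from rfl, ← Algebra.smul_def]
    exact Submodule.smul_mem _ _ (P.pow_s_mem l)
  refine Algebra.adjoin_induction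
    (p := fun (a : P.A) _ => ∃ b : P.A, (b : P.K) * P.s ^ l ∈ P.R (P.q * l) ∧ a - b ∈ I ^ 2)
    ?_ ?_ ?_ ?_ ha
  · intro b hb
    exact ⟨b, hl b hb, by rw [sub_self]; exact Submodule.zero_mem _⟩
  · intro c
    exact ⟨algebraMap ℂ P.A c, hc c, by rw [sub_self]; exact Submodule.zero_mem _⟩
  · rintro a a' _ _ ⟨b, hb, hab⟩ ⟨b', hb', hab'⟩
    refine ⟨b + b', ?_, ?_⟩
    · rw [show ((b + b' : P.A) : P.K) = (b : P.K) + b' from rfl, add_mul]
      exact Submodule.add_mem _ hb hb'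
    · rw [add_sub_add_comm]
      exact Ideal.add_mem _ hab hab'
  · rintro a a' _ _ ⟨b, hb, hab⟩ ⟨b', hb', hab'⟩
    refine ⟨algebraMap ℂ P.A (P.x b) * b' + algebraMap ℂ P.A (P.x b') * b -
      algebraMap ℂ P.A (P.x b * P.x b'), ?_, ?_⟩
    · rw [show ((algebraMap ℂ P.A (P.x b) * b' + algebraMap ℂ P.A (P.x b') * b -
        algebraMap ℂ P.A (P.x b * P.x b') : P.A) : P.K) * P.s ^ l =
        P.x b • ((b' : P.K) * P.s ^ l) + P.x b' • ((b : P.K) * P.s ^ l) -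
          ((algebraMap ℂ P.A (P.x b * P.x b') : P.A) : P.K) * P.s ^ l by
        rw [Algebra.smul_def, Algebra.smul_def]
        push_cast
        ring]
      exact Submodule.sub_mem _ (Submodule.add_mem _ (Submodule.smul_mem _ _ hb')
        (Submodule.smul_mem _ _ hb)) (hc _)
    · have h1 : a * a' - (algebraMap ℂ P.A (P.x b) * b' + algebraMap ℂ P.A (P.x b') * b -
          algebraMap ℂ P.A (P.x b * P.x b')) =
          (a - b) * a' + b * (a' - b') +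
            (b - algebraMap ℂ P.A (P.x b)) * (b' - algebraMap ℂ P.A (P.x b')) := by
        rw [map_mul]; ring
      rw [h1]
      refine Ideal.add_mem _ (Ideal.add_mem _ (Ideal.mul_mem_right _ _ hab)
        (Ideal.mul_mem_left _ _ hab')) ?_
      rw [pow_two]
      exact Ideal.mul_mem_mul (hmem b) (hmem b')

/-- `A` is integral over `ℂ[W/y₀]` -/
theorem integral_A {l : ℕ} (hl1 : 1 ≤ l) (hk : P.k₀ ≤ P.q * l) (a : P.K) (ha : a ∈ P.A)
    (S : Subalgebra ℂ P.K) (hS : ∀ w ∈ P.R (P.q * l), w / P.s ^ l ∈ S) : IsIntegral S a := by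
  obtain ⟨j₀, hj₀⟩ := P.mem_A_ge ha
  have hj : j₀ ≤ l * j₀ := Nat.le_mul_of_pos_left _ hl1
  have h1 := hj₀ _ hj
  rw [← mul_assoc, mul_comm (P.q * l) j₀] at h1
  have h2 := P.int _ hk j₀ _ h1
  have hs : P.s ≠ 0 := P.s_ne
  have h3 := h2.integral_div (c := P.s ^ l) S hS
  rwa [← pow_mul, mul_div_assoc, div_self (pow_ne_zero _ hs), mul_one] at h3

/-- the data delivered by `CoordProp` -/
structure CoordData where
  l : ℕ
  l_pos : 1 ≤ l
  hk : P.k₀ ≤ P.q * l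
  y : Fin (n + 1) → P.K
  u : Fin (n + 1) → P.A
  h₁ : P.A
  z : Fin n → Localization.Away h₁
  y_mem : ∀ j, y j ∈ P.R (P.q * l)
  u_y : ∀ j, (u j : P.K) * P.s ^ l = y j
  gint₁ : ∀ w ∈ P.R (P.q * l), GInt (Submodule.span ℂ (Set.range y)) 1 w
  x_h₁ : P.x h₁ ≠ 0
  u_dvd : u 0 ∣ h₁
  z_u : ∀ i, z i * algebraMap P.A (Localization.Away h₁) (u 0) =
    algebraMap P.A (Localization.Away h₁) (u i.succ)
  etale : RingHom.Etale ((MvPolynomial.aeval z : MvPolynomial (Fin n) ℂ →ₐ[ℂ]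
      Localization.Away h₁) : MvPolynomial (Fin n) ℂ →+* Localization.Away h₁)

theorem exists_coordData (hC : CoordProp) (hn : 1 ≤ n) : Nonempty P.CoordData := by
  obtain ⟨l, S, hl, hk, hS, hlS⟩ := P.exists_l
  obtain ⟨y, u, h, z, h1, h2, h3, h4, h5, h6, h7⟩ := hC n P.K P.A P.x (P.R (P.q * l)) (P.s ^ l) hn
    (P.R_fin _) (P.pow_s_mem l) (pow_ne_zero _ P.s_ne) P.A_ft P.frac P.smooth
    (by
      intro w hw
      refine (P.mem_A _).2 ⟨l, ?_⟩
      rwa [div_mul_cancel₀ _ (pow_ne_zero _ P.s_ne)])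
    (P.onto hS hlS)
    (by
      intro a ha
      refine P.integral_A hl hk a ha _ ?_
      intro w hw
      refine Algebra.subset_adjoin ?_
      show w / P.s ^ l * P.s ^ l ∈ P.R (P.q * l)
      rwa [div_mul_cancel₀ _ (pow_ne_zero _ P.s_ne)])
  exact ⟨⟨l, hl, hk, y, u, h, z, h1, h2, h3, h4, h5, h6, h7⟩⟩

end PCtx

end Crest.Agent.R271.Ctx728
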