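import Crest.Agent.R271.Ctx3_728

/-!
Row 271, team B (helper728): the ring `B = A[1/h] ⊆ K`, the generator `g`, units.
-/

set_option autoImplicit false

open scoped BigOperators
open Crest.Agent.R271.Defs710

noncomputable section

namespace Crest.Agent.R271.Ctx728

variable {n : ℕ} (P : PCtx n)

namespace PCtx

/-- `c s^j = a b` with `a ∈ R m`, `c(x) ≠ 0` -/
structure Gen (m : ℕ) where
  j : ℕ
  a : P.K
  b : P.K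
  c : P.A
  hj : m ≤ P.q * j
  a_mem : a ∈ P.R m
  b_mem : b ∈ P.R (P.q * j - m)
  eq : (c : P.K) * P.s ^ j = a * b
  x_c : P.x c ≠ 0

theorem exists_gen {m : ℕ} (hm : P.k₀ ≤ m) : Nonempty (P.Gen m) := by
  obtain ⟨j, a, b, c, hj, ha, hb, h, hc⟩ :=
    P.bpf m hm (RingHom.ker (P.x : P.A →+* ℂ)) (RingHom.ker_isPrime _)
  exact ⟨⟨j, a, b, c, hj, ha, hb, h, fun h0 => hc ((RingHom.mem_ker).2 h0)⟩⟩

variable {P}

theorem coe_ne_zero {c : P.A} (hc : P.x c ≠ 0) : (c : P.K) ≠ 0 := by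
  intro h
  apply hc
  rw [show c = 0 from Subtype.ext h, map_zero]

theorem Gen.c_ne {m : ℕ} (G : P.Gen m) : (G.c : P.K) ≠ 0 := coe_ne_zero G.x_c

theorem Gen.ab_ne {m : ℕ} (G : P.Gen m) : G.a * G.b ≠ 0 := by
  rw [← G.eq]
  exact mul_ne_zero G.c_ne (pow_ne_zero _ P.s_ne)

theorem Gen.a_ne {m : ℕ} (G : P.Gen m) : G.a ≠ 0 := left_ne_zero_of_mul G.ab_ne

theorem Gen.b_ne {m : ℕ} (G : P.Gen m) : G.b ≠ 0 := right_ne_zero_of_mul G.ab_ne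

/-- `f / s^j ∈ A` for `f ∈ R(qj)` -/
theorem div_mem_A {j : ℕ} {f : P.K} (hf : f ∈ P.R (P.q * j)) : f / P.s ^ j ∈ P.A := by
  refine (P.mem_A _).2 ⟨j, ?_⟩
  rwa [div_mul_cancel₀ _ (pow_ne_zero _ P.s_ne)]

/-- `A[1/h] ⊆ K` -/
def Loc (A : Subalgebra ℂ P.K) (h : A) : Subalgebra ℂ P.K where
  carrier := {u | ∃ N : ℕ, u * (h : P.K) ^ N ∈ A}
  mul_mem' := by
    rintro u v ⟨N, hN⟩ ⟨M, hM⟩
    refine ⟨N + M, ?_⟩
    have := A.mul_mem hN hM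
    rwa [mul_mul_mul_comm, ← pow_add] at this
  add_mem' := by
    rintro u v ⟨N, hN⟩ ⟨M, hM⟩
    refine ⟨N + M, ?_⟩
    have h1 := A.mul_mem hN (A.pow_mem h.2 M)
    have h2 := A.mul_mem hM (A.pow_mem h.2 N)
    rw [mul_assoc, ← pow_add] at h1 h2
    rw [add_comm M N] at h2
    rw [add_mul]
    exact A.add_mem h1 h2
  algebraMap_mem' := by
    intro c
    exact ⟨0, by rw [pow_zero, mul_one]; exact A.algebraMap_mem c⟩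

theorem le_Loc (A : Subalgebra ℂ P.K) (h : A) : A ≤ Loc A h := fun a ha =>
  ⟨0, by rw [pow_zero, mul_one]; exact ha⟩

/-- `u ∣ h` in `A` implies `u⁻¹ ∈ A[1/h]` -/
theorem inv_mem_Loc (A : Subalgebra ℂ P.K) (h : A) (h0 : (h : P.K) ≠ 0) (u : A) (hu : u ∣ h) :
    (u : P.K)⁻¹ ∈ Loc A h := by
  obtain ⟨v, hv⟩ := hu
  refine ⟨1, ?_⟩
  have hv' : (h : P.K) = u * v := by rw [hv]; rfl
  have hu0 : (u : P.K) ≠ 0 := by
    intro h1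
    rw [hv', h1, zero_mul] at h0
    exact h0 rfl
  rw [pow_one, hv', ← mul_assoc, inv_mul_cancel₀ hu0, one_mul]
  exact v.2

variable (D : P.CoordData) (G₁ : P.Gen P.k₀) (G₂ : P.Gen (P.k₀ + 1))

/-- `h = c₁ c₂ h₁` -/
def hh : P.A := G₁.c * G₂.c * D.h₁

theorem x_hh : P.x (hh D G₁ G₂) ≠ 0 := by
  rw [hh, map_mul, map_mul]
  exact mul_ne_zero (mul_ne_zero G₁.x_c G₂.x_c) D.x_h₁

theorem hh_ne : (hh D G₁ G₂ : P.K) ≠ 0 := coe_ne_zero (x_hh D G₁ G₂)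

/-- `B ⊆ K` -/
def BB : Subalgebra ℂ P.K := Loc P.A (hh D G₁ G₂)

theorem A_le_BB : P.A ≤ BB D G₁ G₂ := le_Loc _ _

theorem inv_mem_BB (u : P.A) (hu : u ∣ hh D G₁ G₂) : (u : P.K)⁻¹ ∈ BB D G₁ G₂ :=
  inv_mem_Loc _ _ (hh_ne D G₁ G₂) u hu

theorem c₁_dvd : G₁.c ∣ hh D G₁ G₂ := ⟨G₂.c * D.h₁, by rw [hh, mul_assoc]⟩

theorem c₂_dvd : G₂.c ∣ hh D G₁ G₂ := ⟨G₁.c * D.h₁, by rw [hh]; ring⟩

theorem h₁_dvd : D.h₁ ∣ hh D G₁ G₂ := ⟨G₁.c * G₂.c, by rw [hh, mul_comm]⟩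

theorem u_dvd : D.u 0 ∣ hh D G₁ G₂ := dvd_trans D.u_dvd (h₁_dvd D G₁ G₂)

/-- an element of `A` dividing `h` becomes a unit of `B` -/
theorem isUnit_BB (u : P.A) (hu : u ∣ hh D G₁ G₂) :
    IsUnit (⟨u, A_le_BB D G₁ G₂ u.2⟩ : BB D G₁ G₂) := by
  have hu0 : (u : P.K) ≠ 0 := by
    obtain ⟨v, hv⟩ := hu
    intro h1
    have h2 := hh_ne D G₁ G₂
    rw [show (hh D G₁ G₂ : P.K) = u * v by rw [hv]; rfl, h1, zero_mul] at h2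
    exact h2 rfl
  refine IsUnit.of_mul_eq_one ⟨(u : P.K)⁻¹, inv_mem_BB D G₁ G₂ u hu⟩ ?_
  exact Subtype.ext (mul_inv_cancel₀ hu0)

/-- `g = b / a` -/
def gg : P.K := G₂.a / G₁.a

theorem gg_ne : gg G₁ G₂ ≠ 0 := div_ne_zero G₂.a_ne G₁.a_ne

theorem mem_BB_of_mul_pow (v : P.K) (c : P.A) (hc : c ∣ hh D G₁ G₂) (N : ℕ)
    (h : v * (c : P.K) ^ N ∈ P.A) : v ∈ BB D G₁ G₂ := by
  have hc0 : (c : P.K) ≠ 0 := by
    obtain ⟨w, hw⟩ := hc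
    intro h1
    have h2 := hh_ne D G₁ G₂
    rw [show (hh D G₁ G₂ : P.K) = c * w by rw [hw]; rfl, h1, zero_mul] at h2
    exact h2 rfl
  have h1 := (BB D G₁ G₂).mul_mem (A_le_BB D G₁ G₂ h)
    ((BB D G₁ G₂).pow_mem (inv_mem_BB D G₁ G₂ c hc) N)
  rwa [inv_pow, mul_assoc, mul_inv_cancel₀ (pow_ne_zero _ hc0), mul_one] at h1

/-- `f / g^m ∈ B` for `f ∈ R m` -/
theorem div_gg_mem (m : ℕ) (f : P.K) (hf : f ∈ P.R m) : f / gg G₁ G₂ ^ m ∈ BB D G₁ G₂ := by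
  refine mem_BB_of_mul_pow D G₁ G₂ _ G₂.c (c₂_dvd D G₁ G₂) m ?_
  have h1 : f * G₁.a ^ m * G₂.b ^ m ∈ P.R (P.q * (G₂.j * m)) := by
    have := P.R_mul _ _ _ _ (P.R_mul _ _ _ _ hf (P.pow_mem_R G₁.a_mem m)) (P.pow_mem_R G₂.b_mem m)
    have hj := G₂.hj
    rwa [show m + P.k₀ * m + (P.q * G₂.j - (P.k₀ + 1)) * m = P.q * (G₂.j * m) by
      obtain ⟨t, ht⟩ := Nat.exists_eq_add_of_le hj
      rw [← mul_assoc, ht, Nat.add_sub_cancel_left]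
      ring] at this
  have h2 := div_mem_A h1
  have h3 : f / gg G₁ G₂ ^ m * (G₂.c : P.K) ^ m = f * G₁.a ^ m * G₂.b ^ m / P.s ^ (G₂.j * m) := by
    have hs := P.s_ne
    have e1 : (G₂.c : P.K) = G₂.a * G₂.b / P.s ^ G₂.j := by
      rw [← G₂.eq, mul_div_assoc, div_self (pow_ne_zero _ hs), mul_one]
    rw [e1, gg]
    have ha := G₂.a_ne
    have ha1 := G₁.a_ne
    rw [pow_mul, div_pow, div_pow, mul_pow]
    field_simp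
  rw [h3]
  exact h2

/-- `s / g^q` is a unit -/
theorem isUnit_s : IsUnit (⟨P.s / gg G₁ G₂ ^ P.q, div_gg_mem D G₁ G₂ _ _ P.s_mem⟩ :
    BB D G₁ G₂) := by
  have hs := P.s_ne
  have hg := gg_ne G₁ G₂
  have hmem : gg G₁ G₂ ^ P.q / P.s ∈ BB D G₁ G₂ := by
    refine mem_BB_of_mul_pow D G₁ G₂ _ G₁.c (c₁_dvd D G₁ G₂) P.q ?_
    have h1 : G₂.a ^ P.q * G₁.b ^ P.q ∈ P.R (P.q * (G₁.j * P.q + 1)) := by
      have := P.R_mul _ _ _ _ (P.pow_mem_R G₂.a_mem P.q) (P.pow_mem_R G₁.b_mem P.q)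
      have hj := G₁.hj
      rwa [show (P.k₀ + 1) * P.q + (P.q * G₁.j - P.k₀) * P.q = P.q * (G₁.j * P.q + 1) by
        obtain ⟨t, ht⟩ := Nat.exists_eq_add_of_le hj
        rw [ht, Nat.add_sub_cancel_left, mul_add, ← mul_assoc, ht]
        ring] at this
    have h2 := div_mem_A h1
    have h3 : gg G₁ G₂ ^ P.q / P.s * (G₁.c : P.K) ^ P.q =
        G₂.a ^ P.q * G₁.b ^ P.q / P.s ^ (G₁.j * P.q + 1) := by
      have e1 : (G₁.c : P.K) = G₁.a * G₁.b / P.s ^ G₁.j := by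
        rw [← G₁.eq, mul_div_assoc, div_self (pow_ne_zero _ hs), mul_one]
      rw [e1, gg]
      have ha1 := G₁.a_ne
      rw [pow_add, pow_mul, pow_one, div_pow, div_pow, mul_pow]
      field_simp
    rw [h3]
    exact h2
  refine IsUnit.of_mul_eq_one ⟨_, hmem⟩ ?_
  refine Subtype.ext ?_
  show P.s / gg G₁ G₂ ^ P.q * (gg G₁ G₂ ^ P.q / P.s) = 1
  rw [div_mul_div_comm, mul_comm (gg G₁ G₂ ^ P.q), div_self (mul_ne_zero hs (pow_ne_zero _ hg))]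

/-- product formula -/
theorem gen_eq {m j : ℕ} {a b : P.K} {c : P.A} (hj : m ≤ P.q * j) (ha : a ∈ P.R m)
    (hb : b ∈ P.R (P.q * j - m)) (h : (c : P.K) * P.s ^ j = a * b) :
    (⟨a / gg G₁ G₂ ^ m, div_gg_mem D G₁ G₂ _ _ ha⟩ : BB D G₁ G₂) *
      ⟨b / gg G₁ G₂ ^ (P.q * j - m), div_gg_mem D G₁ G₂ _ _ hb⟩ =
    ⟨c, A_le_BB D G₁ G₂ c.2⟩ * ⟨P.s / gg G₁ G₂ ^ P.q, div_gg_mem D G₁ G₂ _ _ P.s_mem⟩ ^ j := by
  refine Subtype.ext ?_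
  show a / gg G₁ G₂ ^ m * (b / gg G₁ G₂ ^ (P.q * j - m)) = (c : P.K) * (P.s / gg G₁ G₂ ^ P.q) ^ j
  rw [div_mul_div_comm, ← h, ← pow_add, Nat.add_sub_cancel' hj, div_pow, ← pow_mul, mul_div_assoc]

/-- a section without zeros -/
theorem isUnit_gen {m : ℕ} (G : P.Gen m) (hc : G.c ∣ hh D G₁ G₂) :
    IsUnit (⟨G.a / gg G₁ G₂ ^ m, div_gg_mem D G₁ G₂ _ _ G.a_mem⟩ : BB D G₁ G₂) := by
  have h1 := gen_eq D G₁ G₂ G.hj G.a_mem G.b_mem G.eq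
  refine isUnit_of_mul_isUnit_left (y := ⟨G.b / gg G₁ G₂ ^ (P.q * G.j - m),
    div_gg_mem D G₁ G₂ _ _ G.b_mem⟩) ?_
  rw [h1]
  exact (isUnit_BB D G₁ G₂ _ hc).mul ((isUnit_s D G₁ G₂).pow _)

end PCtx

end Crest.Agent.R271.Ctx728
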