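import Mathlib

/-!
Row 271, team B (helper728): localisations inside a field, étale coordinates and points.
-/

set_option autoImplicit false

open scoped BigOperators

noncomputable section

namespace Crest.Agent.R271.Ctx728

section loc

variable {K : Type} [Field K] [Algebra ℂ K] (A B : Subalgebra ℂ K) (hAB : A ≤ B)

/-- the inclusion `A → B` as an algebra -/
@[reducible] def inclAlg : Algebra A B := (Subalgebra.inclusion hAB).toRingHom.toAlgebra

theorem inclAlg_apply (a : A) :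
    letI := inclAlg A B hAB
    algebraMap A B a = ⟨a, hAB a.2⟩ := rfl

theorem isUnit_incl (u h : A) (hu : u ∣ h) (h0 : (h : K) ≠ 0) (hinv : (h : K)⁻¹ ∈ B) :
    IsUnit (⟨u, hAB u.2⟩ : B) := by
  obtain ⟨v, hv⟩ := hu
  have hv' : (h : K) = u * v := by rw [hv]; rfl
  refine IsUnit.of_mul_eq_one (⟨v, hAB v.2⟩ * ⟨(h : K)⁻¹, hinv⟩) ?_
  refine Subtype.ext ?_
  show (u : K) * (v * (h : K)⁻¹) = 1
  rw [← mul_assoc, ← hv', mul_inv_cancel₀ h0]

theorem isLocalization_incl (h : A) (h0 : (h : K) ≠ 0) (hinv : (h : K)⁻¹ ∈ B)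
    (hloc : ∀ b ∈ B, ∃ N : ℕ, b * (h : K) ^ N ∈ A) :
    letI := inclAlg A B hAB
    IsLocalization.Away h B := by
  let _ := inclAlg A B hAB
  refine (isLocalization_iff (Submonoid.powers h) B).2 ⟨?_, ?_, ?_⟩
  · rintro ⟨_, N, rfl⟩
    rw [map_pow]
    exact (isUnit_incl A B hAB h h dvd_rfl h0 hinv).pow N
  · intro b
    obtain ⟨N, hN⟩ := hloc b b.2
    refine ⟨⟨⟨_, hN⟩, ⟨h ^ N, N, rfl⟩⟩, ?_⟩
    refine Subtype.ext ?_
    rw [map_pow]
    rfl
  · intro a a' haa
    refine ⟨1, ?_⟩
    have := congrArg Subtype.val haa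
    rw [Subtype.ext (a1 := a) (a2 := a') this]

/-- extension of a point -/
theorem exists_point (h : A) (h0 : (h : K) ≠ 0) (hinv : (h : K)⁻¹ ∈ B)
    (hloc : ∀ b ∈ B, ∃ N : ℕ, b * (h : K) ^ N ∈ A) (x : A →ₐ[ℂ] ℂ) (hx : x h ≠ 0) :
    ∃ x' : B →ₐ[ℂ] ℂ, ∀ a : A, x' ⟨a, hAB a.2⟩ = x a := by
  let _ := inclAlg A B hAB
  have := isLocalization_incl A B hAB h h0 hinv hloc
  have : IsScalarTower ℂ A B := IsScalarTower.of_algebraMap_eq fun c => rfl
  refine ⟨IsLocalization.liftAlgHom (M := Submonoid.powers h) (S := B) (f := x) ?_, ?_⟩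
  · rintro ⟨_, N, rfl⟩
    rw [map_pow]
    exact (IsUnit.mk0 _ hx).pow N
  · intro a
    rw [IsLocalization.liftAlgHom_apply, ← inclAlg_apply A B hAB, IsLocalization.lift_eq]
    rfl

include hAB in
/-- étale coordinates on the smaller open set -/
theorem etale_incl (h₁ h : A) (hdvd : h₁ ∣ h) (h0 : (h : K) ≠ 0) (hinv : (h : K)⁻¹ ∈ B)
    (hloc : ∀ b ∈ B, ∃ N : ℕ, b * (h : K) ^ N ∈ A) {n : ℕ} (z : Fin n → Localization.Away h₁)
    (hz : RingHom.Etale ((MvPolynomial.aeval z : MvPolynomial (Fin n) ℂ →ₐ[ℂ]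
      Localization.Away h₁) : MvPolynomial (Fin n) ℂ →+* Localization.Away h₁))
    (u₀ : A) (u0 : (u₀ : K) ≠ 0) (u : Fin n → A)
    (hzu : ∀ i, z i * algebraMap A (Localization.Away h₁) u₀ =
      algebraMap A (Localization.Away h₁) (u i))
    (z' : Fin n → B) (hz' : ∀ i, (z' i : K) * u₀ = u i) :
    RingHom.Etale ((MvPolynomial.aeval z' : MvPolynomial (Fin n) ℂ →ₐ[ℂ] B) :
      MvPolynomial (Fin n) ℂ →+* B) := by
  have hh₁ : IsUnit ((Subalgebra.inclusion hAB).toRingHom h₁) :=
    isUnit_incl A B hAB h₁ h hdvd h0 hinv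
  let φ : Localization.Away h₁ →+* B :=
    IsLocalization.Away.lift (S := Localization.Away h₁) h₁
      (g := (Subalgebra.inclusion hAB).toRingHom) hh₁
  have hφ : ∀ a : A, φ (algebraMap A _ a) = ⟨a, hAB a.2⟩ := by
    intro a
    exact IsLocalization.Away.lift_eq h₁ hh₁ a
  let _ : Algebra (Localization.Away h₁) B := φ.toAlgebra
  have hφ' : ∀ a : A, algebraMap (Localization.Away h₁) B (algebraMap A _ a) =
    ⟨a, hAB a.2⟩ := hφ
  have : IsLocalization.Away (algebraMap A (Localization.Away h₁) h) B := by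
    refine (isLocalization_iff (Submonoid.powers _) B).2 ⟨?_, ?_, ?_⟩
    · rintro ⟨_, N, rfl⟩
      rw [map_pow, hφ']
      exact (isUnit_incl A B hAB h h dvd_rfl h0 hinv).pow N
    · intro b
      obtain ⟨N, hN⟩ := hloc b b.2
      refine ⟨⟨algebraMap A _ ⟨_, hN⟩, ⟨(algebraMap A _ h) ^ N, N, rfl⟩⟩, ?_⟩
      refine Subtype.ext ?_
      rw [map_pow, hφ', hφ']
      rfl
    · intro b b' hbb
      refine ⟨1, ?_⟩
      suffices b = b' by rw [this]
      have inj : ∀ b : Localization.Away h₁, φ b = 0 → b = 0 := by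
        intro b hb
        obtain ⟨⟨a, s⟩, hs⟩ := IsLocalization.surj (Submonoid.powers h₁) b
        have h1 := congrArg φ hs
        simp only [map_mul, hφ, hb, zero_mul] at h1
        have h2 : a = 0 := by
          refine Subtype.ext ?_
          exact (congrArg Subtype.val h1).symm
        rw [h2, map_zero] at hs
        exact (IsUnit.mul_left_eq_zero (IsLocalization.map_units _ s)).1 hs
      rw [← sub_eq_zero]
      apply inj
      rw [map_sub, sub_eq_zero]
      exact hbb
  have key := RingHom.Etale.propertyIsLocal.StableUnderCompositionWithLocalizationAwayTarget B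
    (algebraMap A (Localization.Away h₁) h) _ hz
  convert key using 1
  refine MvPolynomial.ringHom_ext ?_ ?_
  · intro c
    rw [RingHom.comp_apply]
    show MvPolynomial.aeval z' (MvPolynomial.C c) =
      algebraMap (Localization.Away h₁) B (MvPolynomial.aeval z (MvPolynomial.C c))
    rw [MvPolynomial.aeval_C, MvPolynomial.aeval_C,
      IsScalarTower.algebraMap_apply ℂ A (Localization.Away h₁), hφ']
    rfl
  · intro i
    rw [RingHom.comp_apply]
    show MvPolynomial.aeval z' (MvPolynomial.X i) =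
      algebraMap (Localization.Away h₁) B (MvPolynomial.aeval z (MvPolynomial.X i))
    rw [MvPolynomial.aeval_X, MvPolynomial.aeval_X]
    have h1 := congrArg φ (hzu i)
    rw [map_mul, hφ, hφ] at h1
    have h2 := congrArg Subtype.val h1
    refine Subtype.ext ?_
    have h3 : ((φ (z i) : B) : K) * u₀ = u i := h2
    rw [← hz' i] at h3
    exact (mul_right_cancel₀ u0 h3).symm

end loc

end Crest.Agent.R271.Ctx728
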