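import Crest.Agent.R271.Ctx4_728
import Crest.Agent.R271.Ctx5_728

/-!
Row 271, team B (helper728): the spaces `V m`, the coordinates, the bigger ring `A'`, the section ring.
-/

set_option autoImplicit false

open scoped BigOperators
open Crest.Agent.R271.Defs710

noncomputable section

namespace Crest.Agent.R271.Ctx728

variable {n : ℕ} {P : PCtx n}

namespace PCtx

variable (D : P.CoordData) (G₁ : P.Gen P.k₀) (G₂ : P.Gen (P.k₀ + 1))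

/-! ### the spaces `V m` -/

/-- `V m = {b ∈ B | b g^m ∈ R m}` -/
def VV (m : ℕ) : Submodule ℂ (BB D G₁ G₂) :=
  (P.R m).comap ((LinearMap.mulRight ℂ (gg G₁ G₂ ^ m)).comp (BB D G₁ G₂).val.toLinearMap)

theorem mem_VV (m : ℕ) (b : BB D G₁ G₂) :
    b ∈ VV D G₁ G₂ m ↔ (b : P.K) * gg G₁ G₂ ^ m ∈ P.R m := Iff.rfl

theorem VV_zero : VV D G₁ G₂ 0 = 1 := by
  ext b
  rw [mem_VV, pow_zero, mul_one, P.R_zero, Submodule.mem_one, Submodule.mem_one]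
  constructor
  · rintro ⟨c, hc⟩
    exact ⟨c, Subtype.ext hc⟩
  · rintro ⟨c, hc⟩
    exact ⟨c, congrArg Subtype.val hc⟩

theorem VV_mul (m l : ℕ) (a b : BB D G₁ G₂) (ha : a ∈ VV D G₁ G₂ m) (hb : b ∈ VV D G₁ G₂ l) :
    a * b ∈ VV D G₁ G₂ (m + l) := by
  rw [mem_VV] at ha hb ⊢
  have := P.R_mul _ _ _ _ ha hb
  rwa [mul_mul_mul_comm, ← pow_add] at this

theorem VV_fin (m : ℕ) : FiniteDimensional ℂ (VV D G₁ G₂ m) := by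
  have := P.R_fin m
  let f : VV D G₁ G₂ m →ₗ[ℂ] P.R m :=
    LinearMap.restrict ((LinearMap.mulRight ℂ (gg G₁ G₂ ^ m)).comp (BB D G₁ G₂).val.toLinearMap)
      (p := VV D G₁ G₂ m) (q := P.R m) (fun x hx => hx)
  refine Module.Finite.of_injective f ?_
  intro a b hab
  have h1 : ((a : BB D G₁ G₂) : P.K) * gg G₁ G₂ ^ m = ((b : BB D G₁ G₂) : P.K) * gg G₁ G₂ ^ m :=
    congrArg Subtype.val hab
  exact Subtype.ext (Subtype.ext (mul_right_cancel₀ (pow_ne_zero _ (gg_ne G₁ G₂)) h1))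

/-- the element `f / g^m` of `B` -/
def QQ (m : ℕ) (f : P.K) (hf : f ∈ P.R m) : BB D G₁ G₂ :=
  ⟨f / gg G₁ G₂ ^ m, div_gg_mem D G₁ G₂ m f hf⟩

theorem coe_QQ (m : ℕ) (f : P.K) (hf : f ∈ P.R m) :
    (QQ D G₁ G₂ m f hf : P.K) = f / gg G₁ G₂ ^ m := rfl

theorem QQ_mul_gg (m : ℕ) (f : P.K) (hf : f ∈ P.R m) :
    (QQ D G₁ G₂ m f hf : P.K) * gg G₁ G₂ ^ m = f := by
  rw [coe_QQ, div_mul_cancel₀ _ (pow_ne_zero _ (gg_ne G₁ G₂))]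

theorem QQ_mem (m : ℕ) (f : P.K) (hf : f ∈ P.R m) : QQ D G₁ G₂ m f hf ∈ VV D G₁ G₂ m := by
  rw [mem_VV, QQ_mul_gg]
  exact hf

/-! ### coordinates -/

/-- `k = q l` -/
def kk : ℕ := P.q * D.l

/-- `Yⱼ = yⱼ / g^k` -/
def YY (j : Fin (n + 1)) : BB D G₁ G₂ := QQ D G₁ G₂ (P.q * D.l) (D.y j) (D.y_mem j)

theorem u_ne : (D.u 0 : P.K) ≠ 0 := by
  obtain ⟨v, hv⟩ := D.u_dvd
  intro h1
  apply coe_ne_zero D.x_h₁
  rw [hv]
  show (D.u 0 : P.K) * v = 0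
  rw [h1, zero_mul]

theorem y_ne : D.y 0 ≠ 0 := by
  rw [← D.u_y 0]
  exact mul_ne_zero (u_ne D) (pow_ne_zero _ P.s_ne)

theorem zz_aux (i : Fin n) : D.y i.succ / D.y 0 ∈ BB D G₁ G₂ := by
  rw [← D.u_y 0, ← D.u_y i.succ, mul_div_mul_right _ _ (pow_ne_zero _ P.s_ne), div_eq_mul_inv]
  exact (BB D G₁ G₂).mul_mem (A_le_BB D G₁ G₂ (D.u i.succ).2)
    (inv_mem_BB D G₁ G₂ _ (u_dvd D G₁ G₂))

/-- `zᵢ = yᵢ₊₁ / y₀` -/
def zz (i : Fin n) : BB D G₁ G₂ := ⟨D.y i.succ / D.y 0, zz_aux D G₁ G₂ i⟩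

theorem coe_zz (i : Fin n) : (zz D G₁ G₂ i : P.K) = D.y i.succ / D.y 0 := rfl

theorem YY_mem (j : Fin (n + 1)) : YY D G₁ G₂ j ∈ VV D G₁ G₂ (P.q * D.l) := QQ_mem _ _ _ _ _ _

theorem YY_z (i : Fin n) : zz D G₁ G₂ i * YY D G₁ G₂ 0 = YY D G₁ G₂ i.succ := by
  refine Subtype.ext ?_
  show D.y i.succ / D.y 0 * (D.y 0 / gg G₁ G₂ ^ (P.q * D.l)) = D.y i.succ / gg G₁ G₂ ^ (P.q * D.l)
  rw [div_mul_div_cancel₀ (y_ne D)]

theorem YY_unit : IsUnit (YY D G₁ G₂ 0) := by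
  have h1 : YY D G₁ G₂ 0 = ⟨D.u 0, A_le_BB D G₁ G₂ (D.u 0).2⟩ *
      ⟨P.s / gg G₁ G₂ ^ P.q, div_gg_mem D G₁ G₂ _ _ P.s_mem⟩ ^ D.l := by
    refine Subtype.ext ?_
    show D.y 0 / gg G₁ G₂ ^ (P.q * D.l) = (D.u 0 : P.K) * (P.s / gg G₁ G₂ ^ P.q) ^ D.l
    rw [← D.u_y 0, div_pow, ← pow_mul, mul_div_assoc]
  rw [h1]
  exact (isUnit_BB D G₁ G₂ _ (u_dvd D G₁ G₂)).mul ((isUnit_s D G₁ G₂).pow _)

theorem loc_BB (b : P.K) (hb : b ∈ BB D G₁ G₂) : ∃ N : ℕ, b * (hh D G₁ G₂ : P.K) ^ N ∈ P.A := hb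

theorem zz_etale : RingHom.Etale ((MvPolynomial.aeval (zz D G₁ G₂) : MvPolynomial (Fin n) ℂ →ₐ[ℂ]
    BB D G₁ G₂) : MvPolynomial (Fin n) ℂ →+* BB D G₁ G₂) := by
  refine etale_incl P.A (BB D G₁ G₂) (A_le_BB D G₁ G₂) D.h₁ (hh D G₁ G₂) (h₁_dvd D G₁ G₂)
    (hh_ne D G₁ G₂) (inv_mem_BB D G₁ G₂ _ dvd_rfl) (loc_BB D G₁ G₂) D.z D.etale (D.u 0) (u_ne D)
    (fun i => D.u i.succ) D.z_u _ ?_
  intro i
  rw [coe_zz, ← D.u_y 0, ← D.u_y i.succ, mul_div_mul_right _ _ (pow_ne_zero _ P.s_ne),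
    div_mul_cancel₀ _ (u_ne D)]

/-! ### graded integrality over the `y`'s -/

theorem gint_y (m : ℕ) (f : P.K) (hf : f ∈ P.R (m * (P.q * D.l))) :
    GInt (Submodule.span ℂ (Set.range D.y)) m f :=
  (P.int _ D.hk m f hf).trans D.gint₁

/-! ### the bigger ring -/

/-- `A' = Γ(X_{y₀})` -/
def AA : Subalgebra ℂ (BB D G₁ G₂) where
  carrier := {b | ∃ j : ℕ, (b : P.K) * D.y 0 ^ j ∈ P.R (P.q * D.l * j)}
  mul_mem' := by
    rintro a b ⟨j, hj⟩ ⟨i, hi⟩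
    refine ⟨j + i, ?_⟩
    have := P.R_mul _ _ _ _ hj hi
    rw [← mul_add, mul_mul_mul_comm, ← pow_add] at this
    exact this
  add_mem' := by
    rintro a b ⟨j, hj⟩ ⟨i, hi⟩
    refine ⟨j + i, ?_⟩
    have h1 := P.R_mul _ _ _ _ hj (P.pow_mem_R (D.y_mem 0) i)
    have h2 := P.R_mul _ _ _ _ hi (P.pow_mem_R (D.y_mem 0) j)
    rw [← mul_add, mul_assoc (a : P.K), ← pow_add] at h1
    rw [← mul_add, mul_assoc (b : P.K), ← pow_add, add_comm i j] at h2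
    have h3 := Submodule.add_mem _ h1 h2
    rw [← add_mul] at h3
    exact h3
  algebraMap_mem' := by
    intro c
    refine ⟨0, ?_⟩
    rw [mul_zero, pow_zero, mul_one, P.R_zero]
    exact Submodule.mem_one.2 ⟨c, rfl⟩

theorem mem_AA (b : BB D G₁ G₂) :
    b ∈ AA D G₁ G₂ ↔ ∃ j : ℕ, (b : P.K) * D.y 0 ^ j ∈ P.R (P.q * D.l * j) := Iff.rfl

theorem zz_mem_AA (i : Fin n) : zz D G₁ G₂ i ∈ AA D G₁ G₂ := by
  refine ⟨1, ?_⟩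
  rw [pow_one, mul_one, coe_zz, div_mul_cancel₀ _ (y_ne D)]
  exact D.y_mem _

/-- integrality from an extension ring to a subring of a field -/
theorem isIntegral_of_subalgebra {K : Type} [Field K] [Algebra ℂ K] (B : Subalgebra ℂ K)
    (S : Subalgebra ℂ B) (T : Subalgebra ℂ K) (hT : ∀ t ∈ T, ∃ s ∈ S, (s : K) = t) (a : B)
    (ha : IsIntegral T (a : K)) : IsIntegral S a := by
  classical
  obtain ⟨r, hr, c, hc⟩ := rel_of_isIntegral _ ha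
  have h : ∀ j, ∃ s : S, ((s : B) : K) = c j := fun j => by
    obtain ⟨s, hs, hs'⟩ := hT _ (c j).2
    exact ⟨⟨s, hs⟩, hs'⟩
  choose d hd using h
  refine isIntegral_of_rel r hr d a ?_
  refine Subtype.ext ?_
  have h2 : ((a ^ r : B) : K) = (a : K) ^ r := rfl
  rw [h2, hc]
  simp only [AddSubmonoidClass.coe_finsetSum]
  refine Finset.sum_congr rfl fun i _ => ?_
  show _ = ((d (r - i) : B) : K) * (a : K) ^ i
  rw [hd]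
  rfl

theorem AA_int (a : BB D G₁ G₂) (ha : a ∈ AA D G₁ G₂) :
    IsIntegral (Algebra.adjoin ℂ (Set.range (zz D G₁ G₂))) a := by
  obtain ⟨j, hj⟩ := ha
  have hy := y_ne D
  rw [mul_comm (P.q * D.l) j] at hj
  have h1 := gint_y D j _ hj
  set T : Subalgebra ℂ P.K := Algebra.adjoin ℂ (Set.range fun i => (zz D G₁ G₂ i : P.K)) with hTdef
  have hT : ∀ w ∈ Submodule.span ℂ (Set.range D.y), w / D.y 0 ∈ T := by
    intro w hw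
    refine Submodule.span_induction (p := fun w _ => w / D.y 0 ∈ T) ?_ ?_ ?_ ?_ hw
    · rintro _ ⟨i, rfl⟩
      refine Fin.cases ?_ (fun i => ?_) i
      · rw [div_self hy]; exact T.one_mem
      · exact Algebra.subset_adjoin ⟨i, rfl⟩
    · rw [zero_div]; exact T.zero_mem
    · intro a b _ _ ha hb
      rw [add_div]; exact T.add_mem ha hb
    · intro c a _ ha
      rw [smul_div_assoc]; exact T.smul_mem ha c
  have h2 := h1.integral_div T hT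
  rw [mul_div_assoc, div_self (pow_ne_zero _ hy), mul_one] at h2
  refine isIntegral_of_subalgebra _ _ T ?_ a h2
  intro t ht
  refine Algebra.adjoin_induction (p := fun t _ =>
    ∃ s ∈ Algebra.adjoin ℂ (Set.range (zz D G₁ G₂)), (s : P.K) = t) ?_ ?_ ?_ ?_ ht
  · rintro _ ⟨i, rfl⟩
    exact ⟨_, Algebra.subset_adjoin ⟨i, rfl⟩, rfl⟩
  · intro c
    exact ⟨algebraMap ℂ _ c, Subalgebra.algebraMap_mem _ _, rfl⟩
  · rintro a b _ _ ⟨s, hs, rfl⟩ ⟨t, ht, rfl⟩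
    exact ⟨s + t, Subalgebra.add_mem _ hs ht, rfl⟩
  · rintro a b _ _ ⟨s, hs, rfl⟩ ⟨t, ht, rfl⟩
    exact ⟨s * t, Subalgebra.mul_mem _ hs ht, rfl⟩

/-- the element `h'` with `B = A'[1/h']` -/
theorem exists_h' : ∃ h' : BB D G₁ G₂, h' ∈ AA D G₁ G₂ ∧ IsUnit h' ∧
    ∀ b : BB D G₁ G₂, ∃ N : ℕ, h' ^ N * b ∈ AA D G₁ G₂ := by
  obtain ⟨jh, hjh⟩ := (P.mem_A _).1 (hh D G₁ G₂).2
  have hJ : (hh D G₁ G₂ : P.K) * P.s ^ (jh + 1) ∈ P.R (P.q * (jh + 1)) := by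
    have := P.R_mul _ _ _ _ hjh P.s_mem
    rwa [mul_assoc, ← pow_succ, ← mul_add_one] at this
  have hs := P.s_ne
  have hu0 := u_ne D
  have hmem : (hh D G₁ G₂ : P.K) ^ D.l * (D.u 0 : P.K)⁻¹ ^ (jh + 1) ∈ BB D G₁ G₂ :=
    (BB D G₁ G₂).mul_mem ((BB D G₁ G₂).pow_mem (A_le_BB D G₁ G₂ (hh D G₁ G₂).2) _)
      ((BB D G₁ G₂).pow_mem (inv_mem_BB D G₁ G₂ _ (u_dvd D G₁ G₂)) _)
  refine ⟨⟨_, hmem⟩, ?_, ?_, ?_⟩
  · refine ⟨jh + 1, ?_⟩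
    have h1 : (hh D G₁ G₂ : P.K) ^ D.l * (D.u 0 : P.K)⁻¹ ^ (jh + 1) * D.y 0 ^ (jh + 1) =
        ((hh D G₁ G₂ : P.K) * P.s ^ (jh + 1)) ^ D.l := by
      rw [← D.u_y 0, mul_pow, mul_pow, ← pow_mul, ← pow_mul, inv_pow, mul_comm D.l (jh + 1)]
      field_simp
    show (hh D G₁ G₂ : P.K) ^ D.l * (D.u 0 : P.K)⁻¹ ^ (jh + 1) * D.y 0 ^ (jh + 1) ∈ _
    rw [h1, show P.q * D.l * (jh + 1) = P.q * (jh + 1) * D.l by ring]
    exact P.pow_mem_R hJ _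
  · have h1 : (⟨_, hmem⟩ : BB D G₁ G₂) = ⟨hh D G₁ G₂, A_le_BB D G₁ G₂ (hh D G₁ G₂).2⟩ ^ D.l *
        ⟨(D.u 0 : P.K)⁻¹, inv_mem_BB D G₁ G₂ _ (u_dvd D G₁ G₂)⟩ ^ (jh + 1) := rfl
    rw [h1]
    refine ((isUnit_BB D G₁ G₂ _ dvd_rfl).pow _).mul (IsUnit.pow _ ?_)
    refine IsUnit.of_mul_eq_one ⟨D.u 0, A_le_BB D G₁ G₂ (D.u 0).2⟩ ?_
    exact Subtype.ext (inv_mul_cancel₀ hu0)
  · intro b
    obtain ⟨N₀, hN₀⟩ := b.2
    obtain ⟨j, hj⟩ := P.mem_A_ge hN₀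
    -- choose N large
    set N := N₀ + j with hN
    have hl := D.l_pos
    have hlN : N ≤ D.l * N := Nat.le_mul_of_pos_left _ hl
    refine ⟨N, (jh + 1) * N, ?_⟩
    obtain ⟨t, ht⟩ := Nat.exists_eq_add_of_le (show N₀ ≤ D.l * N by omega)
    have h1 := hj (D.l * N) (by omega)
    have h2 := P.pow_mem_R hjh t
    have h3 := P.R_mul _ _ _ _ (P.R_mul _ _ _ _ h2 (P.pow_s_mem (jh * N₀))) h1
    have h4 : ((⟨_, hmem⟩ : BB D G₁ G₂) ^ N * b : BB D G₁ G₂) * D.y 0 ^ ((jh + 1) * N) =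
        ((hh D G₁ G₂ : P.K) * P.s ^ jh) ^ t * P.s ^ (jh * N₀) *
          ((b : P.K) * (hh D G₁ G₂ : P.K) ^ N₀ * P.s ^ (D.l * N)) := by
      show ((hh D G₁ G₂ : P.K) ^ D.l * (D.u 0 : P.K)⁻¹ ^ (jh + 1)) ^ N * (b : P.K) *
        D.y 0 ^ ((jh + 1) * N) = _
      rw [← D.u_y 0]
      have e1 : ((hh D G₁ G₂ : P.K) ^ D.l * (D.u 0 : P.K)⁻¹ ^ (jh + 1)) ^ N =
          (hh D G₁ G₂ : P.K) ^ N₀ * (hh D G₁ G₂ : P.K) ^ t * ((D.u 0 : P.K)⁻¹ ^ ((jh + 1) * N)) := by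
        rw [mul_pow, ← pow_mul, ← pow_mul, ht, pow_add]
      have e2 : ((D.u 0 : P.K) * P.s ^ D.l) ^ ((jh + 1) * N) =
          (D.u 0 : P.K) ^ ((jh + 1) * N) * (P.s ^ (jh * N₀) * P.s ^ (jh * t) * P.s ^ (D.l * N)) := by
        rw [mul_pow, ← pow_mul, ← pow_add, ← pow_add]
        congr 2
        rw [← mul_add, ← ht]
        ring
      have e3 : (D.u 0 : P.K)⁻¹ ^ ((jh + 1) * N) * (D.u 0 : P.K) ^ ((jh + 1) * N) = 1 := by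
        rw [← mul_pow, inv_mul_cancel₀ hu0, one_pow]
      rw [e1, e2, mul_pow, ← pow_mul]
      calc (hh D G₁ G₂ : P.K) ^ N₀ * (hh D G₁ G₂ : P.K) ^ t * (D.u 0 : P.K)⁻¹ ^ ((jh + 1) * N) *
            (b : P.K) * ((D.u 0 : P.K) ^ ((jh + 1) * N) *
            (P.s ^ (jh * N₀) * P.s ^ (jh * t) * P.s ^ (D.l * N))) =
          ((D.u 0 : P.K)⁻¹ ^ ((jh + 1) * N) * (D.u 0 : P.K) ^ ((jh + 1) * N)) *
            ((hh D G₁ G₂ : P.K) ^ t * P.s ^ (jh * t) * P.s ^ (jh * N₀) *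
            ((b : P.K) * (hh D G₁ G₂ : P.K) ^ N₀ * P.s ^ (D.l * N))) := by ring
        _ = _ := by rw [e3, one_mul]
    rw [h4]
    rwa [show P.q * jh * t + P.q * (jh * N₀) + P.q * (D.l * N) =
      P.q * D.l * ((jh + 1) * N) by
        have : D.l * N = N₀ + t := ht
        calc P.q * jh * t + P.q * (jh * N₀) + P.q * (D.l * N) =
          P.q * jh * (N₀ + t) + P.q * (D.l * N) := by ring
          _ = P.q * D.l * ((jh + 1) * N) := by rw [← this]; ring] at h3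

end PCtx

end Crest.Agent.R271.Ctx728
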