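import Crest.Agent.R271.Ctx6_728

/-!
Row 271, team B (helper728): the section ring on `B` (`GSec`, `GIY`) and the existence of `Model P`.
-/

set_option autoImplicit false

open scoped BigOperators
open Crest.Agent.R271.Defs710

noncomputable section

namespace Crest.Agent.R271.Ctx728

variable {n : ℕ} {P : PCtx n}

namespace PCtx

variable (D : P.CoordData) (G₁ : P.Gen P.k₀) (G₂ : P.Gen (P.k₀ + 1))

theorem VV_bpf (m : ℕ) (hm : P.k₀ ≤ m) (Q : Ideal (BB D G₁ G₂)) (hQ : Q.IsPrime) :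
    ∃ f ∈ VV D G₁ G₂ m, f ∉ Q := by
  obtain ⟨j, a, b, c, hj, ha, hb, h, hc⟩ :=
    P.bpf m hm (Q.comap (Subalgebra.inclusion (A_le_BB D G₁ G₂))) (hQ.comap _)
  refine ⟨QQ D G₁ G₂ m a ha, QQ_mem D G₁ G₂ m a ha, fun hf => hc ?_⟩
  have h1 := gen_eq D G₁ G₂ hj ha hb h
  have h2 : (⟨c, A_le_BB D G₁ G₂ c.2⟩ : BB D G₁ G₂) *
      ⟨P.s / gg G₁ G₂ ^ P.q, div_gg_mem D G₁ G₂ _ _ P.s_mem⟩ ^ j ∈ Q := by
    rw [← h1]
    exact Q.mul_mem_right _ hf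
  exact (Ideal.mul_unit_mem_iff_mem Q ((isUnit_s D G₁ G₂).pow j)).1 h2

theorem isUnit_s_pow (j : ℕ) : IsUnit (QQ D G₁ G₂ (P.q * j) (P.s ^ j) (P.pow_s_mem j)) := by
  have h1 : QQ D G₁ G₂ (P.q * j) (P.s ^ j) (P.pow_s_mem j) =
      ⟨P.s / gg G₁ G₂ ^ P.q, div_gg_mem D G₁ G₂ _ _ P.s_mem⟩ ^ j := by
    refine Subtype.ext ?_
    show P.s ^ j / gg G₁ G₂ ^ (P.q * j) = (P.s / gg G₁ G₂ ^ P.q) ^ j
    rw [div_pow, ← pow_mul]
  rw [h1]
  exact (isUnit_s D G₁ G₂).pow _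

theorem BB_gen : ∃ (Q : ℕ) (S : Finset (BB D G₁ G₂)),
    Algebra.adjoin ℂ (S : Set (BB D G₁ G₂)) = ⊤ ∧
    ∀ b ∈ S, ∃ g ∈ VV D G₁ G₂ Q, IsUnit g ∧ b * g ∈ VV D G₁ G₂ Q := by
  classical
  obtain ⟨S₀, hS₀⟩ := P.A_ft.out
  obtain ⟨j₀, hj₀⟩ := P.mem_A_finset (insert (hh D G₁ G₂) S₀)
  have hj := hj₀ j₀ le_rfl
  set hi : BB D G₁ G₂ := ⟨(hh D G₁ G₂ : P.K)⁻¹, inv_mem_BB D G₁ G₂ _ dvd_rfl⟩ with hidef
  have h0 := hh_ne D G₁ G₂
  refine ⟨P.q * j₀, insert hi (S₀.image (Subalgebra.inclusion (A_le_BB D G₁ G₂))), ?_, ?_⟩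
  · rw [eq_top_iff]
    rintro b -
    obtain ⟨N, hN⟩ := b.2
    set T := Algebra.adjoin ℂ ((insert hi (S₀.image (Subalgebra.inclusion (A_le_BB D G₁ G₂))) :
      Finset (BB D G₁ G₂)) : Set (BB D G₁ G₂)) with hT
    have key : ∀ a : P.A, Subalgebra.inclusion (A_le_BB D G₁ G₂) a ∈ T := by
      intro a
      have ha : a ∈ Algebra.adjoin ℂ (S₀ : Set P.A) := by rw [hS₀]; trivial
      refine Algebra.adjoin_induction (p := fun (a : P.A) _ =>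
        Subalgebra.inclusion (A_le_BB D G₁ G₂) a ∈ T) ?_ ?_ ?_ ?_ ha
      · intro a ha
        refine Algebra.subset_adjoin ?_
        rw [Finset.coe_insert, Finset.coe_image]
        exact Or.inr ⟨a, ha, rfl⟩
      · intro c
        rw [AlgHom.commutes]
        exact T.algebraMap_mem c
      · intro a b _ _ ha hb
        rw [map_add]; exact T.add_mem ha hb
      · intro a b _ _ ha hb
        rw [map_mul]; exact T.mul_mem ha hb
    have hiT : hi ∈ T := by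
      refine Algebra.subset_adjoin ?_
      rw [Finset.coe_insert]
      exact Or.inl rfl
    have h1 : b = Subalgebra.inclusion (A_le_BB D G₁ G₂) ⟨_, hN⟩ * hi ^ N := by
      refine Subtype.ext ?_
      show (b : P.K) = (b : P.K) * (hh D G₁ G₂ : P.K) ^ N * ((hh D G₁ G₂ : P.K)⁻¹) ^ N
      rw [mul_assoc, ← mul_pow, mul_inv_cancel₀ h0, one_pow, mul_one]
    rw [h1]
    exact T.mul_mem (key _) (T.pow_mem hiT _)
  · intro b hb
    set sj := QQ D G₁ G₂ (P.q * j₀) (P.s ^ j₀) (P.pow_s_mem j₀) with hsj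
    have hg := pow_ne_zero (P.q * j₀) (gg_ne G₁ G₂)
    rcases Finset.mem_insert.1 hb with rfl | hb
    · refine ⟨⟨hh D G₁ G₂, A_le_BB D G₁ G₂ (hh D G₁ G₂).2⟩ * sj, ?_,
        (isUnit_BB D G₁ G₂ _ dvd_rfl).mul (isUnit_s_pow D G₁ G₂ j₀), ?_⟩
      · rw [mem_VV]
        show (hh D G₁ G₂ : P.K) * (P.s ^ j₀ / gg G₁ G₂ ^ (P.q * j₀)) * gg G₁ G₂ ^ (P.q * j₀) ∈ _
        rw [mul_assoc, div_mul_cancel₀ _ hg]
        exact hj _ (Finset.mem_insert_self _ _)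
      · rw [mem_VV]
        show (hh D G₁ G₂ : P.K)⁻¹ * ((hh D G₁ G₂ : P.K) * (P.s ^ j₀ / gg G₁ G₂ ^ (P.q * j₀))) *
          gg G₁ G₂ ^ (P.q * j₀) ∈ _
        rw [← mul_assoc, inv_mul_cancel₀ h0, one_mul, div_mul_cancel₀ _ hg]
        exact P.pow_s_mem j₀
    · obtain ⟨a, ha, rfl⟩ := Finset.mem_image.1 hb
      refine ⟨sj, QQ_mem _ _ _ _ _ _, isUnit_s_pow D G₁ G₂ j₀, ?_⟩
      rw [mem_VV]
      show (a : P.K) * (P.s ^ j₀ / gg G₁ G₂ ^ (P.q * j₀)) * gg G₁ G₂ ^ (P.q * j₀) ∈ _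
      rw [mul_assoc, div_mul_cancel₀ _ hg]
      exact hj _ (Finset.mem_insert_of_mem ha)

theorem exists_pow_VV (k N : ℕ) (u : P.K) (hu : u ∈ (P.R k) ^ N) :
    ∃ v ∈ (VV D G₁ G₂ k) ^ N, (v : P.K) * gg G₁ G₂ ^ (k * N) = u := by
  induction N generalizing u with
  | zero =>
    rw [pow_zero, Submodule.mem_one] at hu
    obtain ⟨c, rfl⟩ := hu
    refine ⟨algebraMap ℂ _ c, ?_, ?_⟩
    · rw [pow_zero]; exact Submodule.mem_one.2 ⟨c, rfl⟩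
    · rw [mul_zero, pow_zero, mul_one]; rfl
  | succ N ih =>
    rw [pow_succ] at hu
    refine Submodule.mul_induction_on hu ?_ ?_
    · intro a ha w hw
      obtain ⟨v, hv, hva⟩ := ih a ha
      refine ⟨v * QQ D G₁ G₂ k w hw, ?_, ?_⟩
      · rw [pow_succ]
        exact Submodule.mul_mem_mul hv (QQ_mem _ _ _ _ _ _)
      · show (v : P.K) * (QQ D G₁ G₂ k w hw : P.K) * gg G₁ G₂ ^ (k * (N + 1)) = a * w
        rw [mul_add_one, pow_add, mul_mul_mul_comm, hva, QQ_mul_gg]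
    · rintro a b ⟨v, hv, hva⟩ ⟨v', hv', hva'⟩
      refine ⟨v + v', Submodule.add_mem _ hv hv', ?_⟩
      show ((v : P.K) + v') * gg G₁ G₂ ^ (k * (N + 1)) = a + b
      rw [add_mul, hva, hva']

theorem VV_int (k : ℕ) (hk : P.k₀ ≤ k) (m : ℕ) (f : BB D G₁ G₂)
    (hf : f ∈ VV D G₁ G₂ (m * k)) :
    ∃ r : ℕ, 1 ≤ r ∧ ∃ a : ℕ → BB D G₁ G₂, (∀ i, a i ∈ (VV D G₁ G₂ k) ^ (m * i)) ∧
      f ^ r = ∑ i ∈ Finset.range r, a (r - i) * f ^ i := by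
  obtain ⟨r, hr, a, ha, h⟩ := P.int k hk m _ ((mem_VV D G₁ G₂ _ _).1 hf)
  choose v hv hva using fun i => exists_pow_VV D G₁ G₂ k (m * i) (a i) (ha i)
  refine ⟨r, hr, v, hv, ?_⟩
  have hg : gg G₁ G₂ ^ (m * k * r) ≠ 0 := pow_ne_zero _ (gg_ne G₁ G₂)
  refine Subtype.ext (mul_right_cancel₀ hg ?_)
  have e1 : ((f ^ r : BB D G₁ G₂) : P.K) * gg G₁ G₂ ^ (m * k * r) =
      ((f : P.K) * gg G₁ G₂ ^ (m * k)) ^ r := by
    rw [mul_pow, ← pow_mul]; rfl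
  rw [e1, h, AddSubmonoidClass.coe_finsetSum, Finset.sum_mul]
  refine Finset.sum_congr rfl fun i hi => ?_
  have hi' := Finset.mem_range.1 hi
  show _ = (v (r - i) : P.K) * (f : P.K) ^ i * gg G₁ G₂ ^ (m * k * r)
  rw [← hva (r - i), show m * k * r = k * (m * (r - i)) + m * k * i by
    have : r = (r - i) + i := by omega
    calc m * k * r = m * k * ((r - i) + i) := by rw [← this]
      _ = _ := by ring, pow_add, mul_pow, ← pow_mul]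
  ring

theorem gsec : GSec (BB D G₁ G₂) (VV D G₁ G₂) P.k₀ where
  zero := VV_zero D G₁ G₂
  mul := VV_mul D G₁ G₂
  fin := VV_fin D G₁ G₂
  bpf := VV_bpf D G₁ G₂
  gen := BB_gen D G₁ G₂
  int := fun k hk m f hf => VV_int D G₁ G₂ k hk m f hf

theorem BB_ft : Algebra.FiniteType ℂ (BB D G₁ G₂) := by
  obtain ⟨Q, S, hS, _⟩ := BB_gen D G₁ G₂
  exact ⟨⟨S, hS⟩⟩

theorem exists_linear (w : P.K) (hw : w ∈ Submodule.span ℂ (Set.range D.y)) :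
    ∃ p : MvPolynomial (Fin (n + 1)) ℂ, p.IsHomogeneous 1 ∧
      (MvPolynomial.aeval (YY D G₁ G₂) p : P.K) * gg G₁ G₂ ^ (P.q * D.l) = w := by
  refine Submodule.span_induction (p := fun w _ => ∃ p : MvPolynomial (Fin (n + 1)) ℂ,
    p.IsHomogeneous 1 ∧
      (MvPolynomial.aeval (YY D G₁ G₂) p : P.K) * gg G₁ G₂ ^ (P.q * D.l) = w) ?_ ?_ ?_ ?_ hw
  · rintro _ ⟨j, rfl⟩
    refine ⟨MvPolynomial.X j, MvPolynomial.isHomogeneous_X _ _, ?_⟩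
    rw [MvPolynomial.aeval_X]
    exact QQ_mul_gg D G₁ G₂ _ _ (D.y_mem j)
  · refine ⟨0, MvPolynomial.isHomogeneous_zero _ _ _, ?_⟩
    rw [map_zero]
    exact zero_mul _
  · rintro a b _ _ ⟨p, hp, ha⟩ ⟨p', hp', hb⟩
    refine ⟨p + p', hp.add hp', ?_⟩
    rw [map_add, ← ha, ← hb, ← add_mul]
    rfl
  · rintro c a _ ⟨p, hp, ha⟩
    refine ⟨MvPolynomial.C c * p, ?_, ?_⟩
    · have := (MvPolynomial.isHomogeneous_C (Fin (n + 1)) c).mul hp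
      rwa [zero_add] at this
    · rw [map_mul, MvPolynomial.aeval_C, ← ha, Algebra.smul_def, ← mul_assoc]
      rfl

theorem exists_homog (N : ℕ) (u : P.K) (hu : u ∈ (Submodule.span ℂ (Set.range D.y)) ^ N) :
    ∃ p : MvPolynomial (Fin (n + 1)) ℂ, p.IsHomogeneous N ∧
      (MvPolynomial.aeval (YY D G₁ G₂) p : P.K) * gg G₁ G₂ ^ (P.q * D.l * N) = u := by
  induction N generalizing u with
  | zero =>
    rw [pow_zero, Submodule.mem_one] at hu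
    obtain ⟨c, rfl⟩ := hu
    refine ⟨MvPolynomial.C c, MvPolynomial.isHomogeneous_C _ _, ?_⟩
    rw [mul_zero, pow_zero, mul_one, MvPolynomial.aeval_C]
    rfl
  | succ N ih =>
    rw [pow_succ] at hu
    refine Submodule.mul_induction_on hu ?_ ?_
    · intro a ha w hw
      obtain ⟨p, hp, hpa⟩ := ih a ha
      obtain ⟨p', hp', hpw⟩ := exists_linear D G₁ G₂ w hw
      refine ⟨p * p', hp.mul hp', ?_⟩
      rw [map_mul, mul_add_one, pow_add]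
      show (MvPolynomial.aeval (YY D G₁ G₂) p : P.K) * (MvPolynomial.aeval (YY D G₁ G₂) p' : P.K) *
        (gg G₁ G₂ ^ (P.q * D.l * N) * gg G₁ G₂ ^ (P.q * D.l)) = a * w
      rw [mul_mul_mul_comm, hpa, hpw]
    · rintro a b ⟨p, hp, ha⟩ ⟨p', hp', hb⟩
      refine ⟨p + p', hp.add hp', ?_⟩
      rw [map_add, ← ha, ← hb, ← add_mul]
      rfl

theorem giy : GIY (YY D G₁ G₂) (VV D G₁ G₂) (P.q * D.l) := by
  intro m f hf
  obtain ⟨r, hr, a, ha, h⟩ := gint_y D m _ ((mem_VV D G₁ G₂ _ _).1 hf)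
  choose p hp hpa using fun i => exists_homog D G₁ G₂ (m * i) (a i) (ha i)
  refine ⟨r, hr, p, hp, ?_⟩
  have hg : gg G₁ G₂ ^ (m * (P.q * D.l) * r) ≠ 0 := pow_ne_zero _ (gg_ne G₁ G₂)
  refine Subtype.ext (mul_right_cancel₀ hg ?_)
  have e1 : ((f ^ r : BB D G₁ G₂) : P.K) * gg G₁ G₂ ^ (m * (P.q * D.l) * r) =
      ((f : P.K) * gg G₁ G₂ ^ (m * (P.q * D.l))) ^ r := by
    rw [mul_pow, ← pow_mul]; rfl
  rw [e1, h, AddSubmonoidClass.coe_finsetSum, Finset.sum_mul]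
  refine Finset.sum_congr rfl fun i hi => ?_
  have hi' := Finset.mem_range.1 hi
  show _ = (MvPolynomial.aeval (YY D G₁ G₂) (p (r - i)) : P.K) * (f : P.K) ^ i *
    gg G₁ G₂ ^ (m * (P.q * D.l) * r)
  rw [← hpa (r - i), show m * (P.q * D.l) * r =
    P.q * D.l * (m * (r - i)) + m * (P.q * D.l) * i by
    have : r = (r - i) + i := by omega
    calc m * (P.q * D.l) * r = m * (P.q * D.l) * ((r - i) + i) := by rw [← this]
      _ = _ := by ring, pow_add, mul_pow, ← pow_mul]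
  ring

end PCtx

open PCtx in
/-- THE CONSTRUCTION of the `FCtx` from the projective context. -/
theorem exists_model (hC : CoordProp) (hJ : JetsProp) (hG : GrowthProp) (hO : OrdFSProp)
    (P : PCtx n) (hn : 1 ≤ n) : Nonempty (Model P) := by
  obtain ⟨D⟩ := P.exists_coordData hC hn
  obtain ⟨G₁⟩ := P.exists_gen (m := P.k₀) le_rfl
  obtain ⟨G₂⟩ := P.exists_gen (m := P.k₀ + 1) (Nat.le_succ _)
  obtain ⟨h', hh'A, hh'u, hh'l⟩ := exists_h' D G₁ G₂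
  obtain ⟨x', hx'⟩ := exists_point P.A (BB D G₁ G₂) (A_le_BB D G₁ G₂) (hh D G₁ G₂)
    (hh_ne D G₁ G₂) (inv_mem_BB D G₁ G₂ _ dvd_rfl) (loc_BB D G₁ G₂) P.x (x_hh D G₁ G₂)
  have hgs := gsec D G₁ G₂
  have hkpos : 1 ≤ P.q * D.l := Nat.mul_pos P.q_pos D.l_pos
  obtain ⟨hord, hFS⟩ := hO n (BB D G₁ G₂) (VV D G₁ G₂) (zz D G₁ G₂) (P.q * D.l) (YY D G₁ G₂) hn
    (BB_ft D G₁ G₂) (zz_etale D G₁ G₂) hgs.zero hgs.mul hgs.fin hkpos (YY_mem D G₁ G₂)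
    (YY_unit D G₁ G₂) (YY_z D G₁ G₂) (giy D G₁ G₂)
  let X : FCtx n :=
    { B := BB D G₁ G₂
      ft := BB_ft D G₁ G₂
      z := zz D G₁ G₂
      etale := zz_etale D G₁ G₂
      A := AA D G₁ G₂
      z_mem := zz_mem_AA D G₁ G₂
      A_int := AA_int D G₁ G₂
      h := h'
      h_mem := hh'A
      h_unit := hh'u
      h_loc := hh'l
      x := x'
      V := VV D G₁ G₂
      V_fin := hgs.fin
      V_zero := hgs.zero
      V_mul := hgs.mul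
      jets := hJ _ _ _ hgs
      ordbd := hord
      growth := hG _ _ _ hgs
      k := P.q * D.l
      k_pos := hkpos
      Y := YY D G₁ G₂
      Y_mem := YY_mem D G₁ G₂
      Y_unit := YY_unit D G₁ G₂
      Y_z := YY_z D G₁ G₂
      FSbd := hFS }
  have hY : ∀ j, (YY D G₁ G₂ j : P.K) * gg G₁ G₂ ^ (P.q * D.l) = D.y j := fun j =>
    QQ_mul_gg D G₁ G₂ _ _ (D.y_mem j)
  exact ⟨{
    X := X
    Bs := BB D G₁ G₂
    e := AlgEquiv.refl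
    A_le := A_le_BB D G₁ G₂
    h := hh D G₁ G₂
    x_h := x_hh D G₁ G₂
    h_inv := inv_mem_BB D G₁ G₂ _ dvd_rfl
    loc := loc_BB D G₁ G₂
    x_e := hx'
    g := gg G₁ G₂
    g_ne := gg_ne G₁ G₂
    e_A := by
      intro b
      show b ∈ AA D G₁ G₂ ↔ ∃ j : ℕ, ((b : BB D G₁ G₂) : P.K) *
        ((YY D G₁ G₂ 0 : P.K) * gg G₁ G₂ ^ (P.q * D.l)) ^ j ∈ P.R (P.q * D.l * j)
      rw [hY]
      exact mem_AA D G₁ G₂ b
    V_e := fun m b => mem_VV D G₁ G₂ m b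
    R_B := div_gg_mem D G₁ G₂
    s_unit := isUnit_s D G₁ G₂
    m₀ := P.k₀
    ga := G₁.a
    gb := G₂.a
    ga_mem := G₁.a_mem
    gb_mem := G₂.a_mem
    ga_ne := G₁.a_ne
    g_eq := rfl
    ga_unit := isUnit_gen D G₁ G₂ G₁ (c₁_dvd D G₁ G₂)
    gb_unit := isUnit_gen D G₁ G₂ G₂ (c₂_dvd D G₁ G₂)
    gint := by
      intro m f hf
      have : (fun j => ((AlgEquiv.refl (R := ℂ) (A₁ := BB D G₁ G₂) (YY D G₁ G₂ j) :
          BB D G₁ G₂) : P.K) * gg G₁ G₂ ^ (P.q * D.l)) = D.y := funext hY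
      show GInt (Submodule.span ℂ (Set.range fun j =>
        ((AlgEquiv.refl (R := ℂ) (A₁ := BB D G₁ G₂) (YY D G₁ G₂ j) :
          BB D G₁ G₂) : P.K) * gg G₁ G₂ ^ (P.q * D.l))) m f
      rw [this]
      exact gint_y D m f hf }⟩

end Crest.Agent.R271.Ctx728
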