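import Mathlib

/-!
Row 271, task B9 part 2: degrees of the coefficients of monic factors.
-/

set_option autoImplicit false

open scoped BigOperators
open MvPolynomial

namespace Crest.Agent.R271.Deg171

variable {n : ℕ}

/-- the weighted homogenisation `T ↦ X₀^m` -/
noncomputable def Fh (m : ℕ) (G : Polynomial (MvPolynomial (Fin n) ℂ)) :
    MvPolynomial (Fin (n + 1)) ℂ :=
  (finSuccEquiv ℂ n).symm (Polynomial.expand _ m G)

theorem Fh_mul (m : ℕ) (G H : Polynomial (MvPolynomial (Fin n) ℂ)) :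
    Fh m (G * H) = Fh m G * Fh m H := by
  unfold Fh; rw [map_mul, map_mul]

theorem finSucc_Fh (m : ℕ) (G : Polynomial (MvPolynomial (Fin n) ℂ)) :
    finSuccEquiv ℂ n (Fh m G) = Polynomial.expand _ m G := by
  unfold Fh; rw [AlgEquiv.apply_symm_apply]

theorem Fh_ne_zero (m : ℕ) (hm : 0 < m) (G : Polynomial (MvPolynomial (Fin n) ℂ)) (hG : G ≠ 0) :
    Fh m G ≠ 0 := by
  intro h
  have h1 : finSuccEquiv ℂ n (Fh m G) = 0 := by rw [h, map_zero]
  rw [finSucc_Fh, Polynomial.expand_eq_zero hm] at h1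
  exact hG h1

theorem le_Fh (m : ℕ) (hm : 0 < m) (G : Polynomial (MvPolynomial (Fin n) ℂ)) (i : ℕ)
    (hi : G.coeff i ≠ 0) : (G.coeff i).totalDegree + m * i ≤ (Fh m G).totalDegree := by
  have h1 : (finSuccEquiv ℂ n (Fh m G)).coeff (m * i) = G.coeff i := by
    rw [finSucc_Fh, Polynomial.coeff_expand_mul' hm]
  have h2 := totalDegree_coeff_finSuccEquiv_add_le (Fh m G) (m * i) (by rw [h1]; exact hi)
  rwa [h1] at h2

theorem Fh_le (m : ℕ) (hm : 0 < m) (G : Polynomial (MvPolynomial (Fin n) ℂ)) (d : ℕ)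
    (hd : ∀ i, G.coeff i ≠ 0 → (G.coeff i).totalDegree + m * i ≤ d) :
    (Fh m G).totalDegree ≤ d := by
  rw [totalDegree, Finset.sup_le_iff]
  intro σ hσ
  have hσ' : σ = (Finsupp.tail σ).cons (σ 0) := (Finsupp.cons_tail σ).symm
  rw [hσ', ← mem_support_coeff_finSuccEquiv, finSucc_Fh, Polynomial.coeff_expand hm] at hσ
  by_cases hdvd : m ∣ σ 0
  · rw [if_pos hdvd] at hσ
    have h0 : G.coeff (σ 0 / m) ≠ 0 := by
      intro h
      rw [h] at hσ
      simp at hσ
    have h1 := hd _ h0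
    have h2 := le_totalDegree hσ
    have h3 : m * (σ 0 / m) = σ 0 := Nat.mul_div_cancel' hdvd
    have h4 : (σ.sum fun _ e => e) = σ 0 + ((Finsupp.tail σ).sum fun _ e => e) := by
      conv_lhs => rw [hσ']
      rw [Finsupp.sum_cons]
    rw [h4]
    omega
  · rw [if_neg hdvd] at hσ
    simp at hσ

/-- Degrees of the constant coefficient of a monic factor. -/
theorem coeff_zero_degree (m : ℕ) (hm : 0 < m) (G M M' : Polynomial (MvPolynomial (Fin n) ℂ))
    (hG : G = M * M') (hM : M.Monic) (hM' : M'.Monic)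
    (hdeg : ∀ i, G.coeff i ≠ 0 → (G.coeff i).totalDegree + m * i ≤ m * G.natDegree)
    (h0 : M.coeff 0 ≠ 0) :
    (M.coeff 0).totalDegree ≤ m * M.natDegree := by
  have h1 := Fh_le m hm G _ hdeg
  have h2 : (Fh m G).totalDegree = (Fh m M).totalDegree + (Fh m M').totalDegree := by
    rw [hG, Fh_mul]
    exact totalDegree_mul_of_isDomain (Fh_ne_zero m hm M hM.ne_zero) (Fh_ne_zero m hm M' hM'.ne_zero)
  have h3 := le_Fh m hm M 0 h0
  have h4 := le_Fh m hm M' M'.natDegree (by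
    rw [Polynomial.coeff_natDegree, hM'.leadingCoeff]; exact one_ne_zero)
  have h5 : G.natDegree = M.natDegree + M'.natDegree := by
    rw [hG]; exact hM.natDegree_mul hM'
  rw [h5, mul_add] at h1
  omega

/-- dehomogenisation `Y₀ = 1`, `Y_{i+1} = zᵢ` -/
noncomputable def deh (a : MvPolynomial (Fin (n + 1)) ℂ) : MvPolynomial (Fin n) ℂ :=
  aeval (Fin.cons 1 (fun i => X i) : Fin (n + 1) → MvPolynomial (Fin n) ℂ) a

theorem deh_degree (a : MvPolynomial (Fin (n + 1)) ℂ) : (deh a).totalDegree ≤ a.totalDegree := by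
  unfold deh
  rw [aeval_def, eval₂_eq]
  refine totalDegree_finsetSum_le ?_
  intro σ hσ
  refine (totalDegree_mul _ _).trans ?_
  have h1 : (algebraMap ℂ (MvPolynomial (Fin n) ℂ) (coeff σ a)).totalDegree = 0 := totalDegree_C _
  rw [h1, zero_add]
  refine (totalDegree_finsetProd _ _).trans ?_
  refine le_trans (Finset.sum_le_sum (g := fun i => σ i) ?_) (le_totalDegree hσ)
  intro i _
  refine (totalDegree_pow _ _).trans ?_
  have h2 : ((Fin.cons 1 (fun i => X i) : Fin (n + 1) → MvPolynomial (Fin n) ℂ) i).totalDegree ≤ 1 := by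
    refine Fin.cases ?_ (fun j => ?_) i
    · simp
    · simp [totalDegree_X]
  calc σ i * _ ≤ σ i * 1 := Nat.mul_le_mul_left _ h2
    _ = σ i := mul_one _

variable {B : Type} [CommRing B] [Algebra ℂ B]

/-- `a(Y) u^d = (deh a)(z)` if `Y₀ u = 1`, `Y_{i+1} u = zᵢ` -/
theorem aeval_deh (Y : Fin (n + 1) → B) (z : Fin n → B) (u : B) (hu : Y 0 * u = 1)
    (hz : ∀ i, Y (Fin.succ i) * u = z i) (a : MvPolynomial (Fin (n + 1)) ℂ) (d : ℕ)
    (ha : a.IsHomogeneous d) : aeval Y a * u ^ d = aeval z (deh a) := by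
  have h1 : aeval z (deh a) = aeval (fun j => Y j * u) a := by
    unfold deh
    rw [← AlgHom.comp_apply, comp_aeval]
    congr 2
    funext j
    refine Fin.cases ?_ (fun i => ?_) j
    · simp [hu]
    · simp [hz]
  rw [h1, aeval_def, aeval_def, eval₂_eq, eval₂_eq, Finset.sum_mul]
  refine Finset.sum_congr rfl fun σ hσ => ?_
  have h2 : d = ∑ i ∈ σ.support, σ i := by
    have := ha (mem_support_iff.1 hσ)
    rw [← this, Finsupp.weight_apply]
    simp [Finsupp.sum]
  rw [mul_assoc]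
  congr 1
  simp_rw [mul_pow]
  rw [Finset.prod_mul_distrib, Finset.prod_pow_eq_pow_sum, ← h2]

end Crest.Agent.R271.Deg171
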