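import Mathlib

/-!
Row 271, team N, piece N4 (DISC), part 1: from a maximal ideal `m` of a finitely generated
`ℂ`-domain `R` with `m = (u) + m²` and `uⁱ ∉ mⁱ⁺¹` one gets a holomorphic disc of points of `R`,
by the inverse function theorem.
-/

set_option autoImplicit false
set_option linter.unusedSectionVars false

open scoped Topology
open MvPolynomial Asymptotics

namespace Crest.Agent.R271.Disc846

section poly

variable {σ : Type} [Fintype σ]

/-- the ideal of the point `β` -/
noncomputable def ptI (β : σ → ℂ) : Ideal (MvPolynomial σ ℂ) :=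
  RingHom.ker (MvPolynomial.eval β)

lemma mem_ptI (β : σ → ℂ) (p : MvPolynomial σ ℂ) : p ∈ ptI β ↔ eval β p = 0 := Iff.rfl

lemma sub_eval_mem_span (β : σ → ℂ) (p : MvPolynomial σ ℂ) :
    p - C (eval β p) ∈ Ideal.span (Set.range fun o : σ => (X o - C (β o) : MvPolynomial σ ℂ)) := by
  classical
  induction p using MvPolynomial.induction_on with
  | C a => simp
  | add p q hp hq =>
    have : p + q - C (eval β (p + q)) = (p - C (eval β p)) + (q - C (eval β q)) := by
      simp only [map_add]; ring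
    rw [this]
    exact Ideal.add_mem _ hp hq
  | mul_X p o hp =>
    have : p * X o - C (eval β (p * X o)) = X o * (p - C (eval β p)) +
        C (eval β p) * (X o - C (β o)) := by
      simp only [map_mul, eval_X]; ring
    rw [this]
    refine Ideal.add_mem _ (Ideal.mul_mem_left _ _ hp) (Ideal.mul_mem_left _ _ ?_)
    exact Ideal.subset_span ⟨o, rfl⟩

lemma ptI_le_span (β : σ → ℂ) :
    ptI β ≤ Ideal.span (Set.range fun o : σ => (X o - C (β o) : MvPolynomial σ ℂ)) := by
  intro p hp
  have h := sub_eval_mem_span β p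
  rw [mem_ptI] at hp
  rwa [hp, map_zero, sub_zero] at h

/-- polynomials in the square of the ideal of `β` have zero derivative at `β` -/
lemma hasStrictFDerivAt_of_mem_sq (β : σ → ℂ) (p : MvPolynomial σ ℂ) (hp : p ∈ ptI β ^ 2) :
    HasStrictFDerivAt (fun b : σ → ℂ => eval b p) (0 : (σ → ℂ) →L[ℂ] ℂ) β := by
  rw [pow_two] at hp
  have hd : ∀ q : MvPolynomial σ ℂ, ∃ L, HasStrictFDerivAt (fun b : σ → ℂ => eval b q)
      (L : (σ → ℂ) →L[ℂ] ℂ) β := by
    intro q
    have : ContDiff ℂ 1 (fun b : σ → ℂ => eval b q) := by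
      induction q using MvPolynomial.induction_on with
      | C a => simpa using contDiff_const
      | add p q hp hq => simpa using hp.add hq
      | mul_X p o hp => simpa using hp.mul (contDiff_apply ℂ ℂ o)
    exact ⟨_, this.contDiffAt.hasStrictFDerivAt one_ne_zero⟩
  induction hp using Submodule.mul_induction_on' with
  | mem_mul_mem a ha b hb =>
    obtain ⟨La, hLa⟩ := hd a
    obtain ⟨Lb, hLb⟩ := hd b
    have h := hLa.fun_mul hLb
    rw [mem_ptI] at ha hb
    have h0 : eval β a • Lb + eval β b • La = 0 := by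
      ext v
      simp [ha, hb]
    rw [h0] at h
    simpa only [map_mul] using h
  | add a _ b _ ha hb =>
    have h := ha.fun_add hb
    rw [add_zero] at h
    simpa only [map_add] using h

end poly

section main

variable {σ : Type} [Fintype σ]

/-- The local solution curve: if `E o = X o - β o - c o • X o₀ - Q o`. -/
theorem exists_curve (β : σ → ℂ) (o₀ : σ) (c : σ → ℂ) (Q : σ → MvPolynomial σ ℂ)
    (hβ : β o₀ = 0) (hc : c o₀ = 1) (hQ₀ : Q o₀ = 0) (hQ : ∀ o, Q o ∈ ptI β ^ 2) :
    ∃ b : ℂ → (σ → ℂ), b 0 = β ∧ AnalyticAt ℂ b 0 ∧ (∀ᶠ τ in 𝓝 (0 : ℂ), b τ o₀ = τ) ∧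
      ∀ᶠ τ in 𝓝 (0 : ℂ), ∀ o, eval (b τ) (X o - C (β o) - C (c o) * X o₀ - Q o) = 0 := by
  classical
  -- the map
  let f : (σ → ℂ) → (σ → ℂ) := fun b o => b o - β o - eval b (Q o)
  have hfβ : f β = 0 := by
    funext o
    have : eval β (Q o) = 0 := by
      have := Ideal.pow_le_self (two_ne_zero) (hQ o)
      exact (mem_ptI β _).1 this
    simp [f, this]
  have hcd : ContDiff ℂ 1 f := by
    rw [contDiff_pi]
    intro o
    have hq : ∀ q : MvPolynomial σ ℂ, ContDiff ℂ 1 (fun b : σ → ℂ => eval b q) := by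
      intro q
      induction q using MvPolynomial.induction_on with
      | C a => simpa using contDiff_const
      | add p q hp hq => simpa using hp.add hq
      | mul_X p o hp => simpa using hp.mul (contDiff_apply ℂ ℂ o)
    exact ((contDiff_apply ℂ ℂ o).sub contDiff_const).sub (hq _)
  have hfd : HasFDerivAt f ((ContinuousLinearEquiv.refl ℂ (σ → ℂ) :
      (σ → ℂ) ≃L[ℂ] (σ → ℂ)) : (σ → ℂ) →L[ℂ] (σ → ℂ)) β := by
    rw [hasFDerivAt_pi']
    intro o
    have h1 : HasFDerivAt (fun b : σ → ℂ => b o - β o - eval b (Q o))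
        (ContinuousLinearMap.proj (R := ℂ) (φ := fun _ : σ => ℂ) o - 0) β := by
      have h2 := (hasStrictFDerivAt_of_mem_sq β (Q o) (hQ o)).hasFDerivAt
      have h3 : HasFDerivAt (fun b : σ → ℂ => b o - β o)
          (ContinuousLinearMap.proj (R := ℂ) (φ := fun _ : σ => ℂ) o) β :=
        ((ContinuousLinearMap.proj (R := ℂ) (φ := fun _ : σ => ℂ) o).hasFDerivAt).sub_const _
      exact h3.fun_sub h2
    have e1 : (ContinuousLinearMap.proj (R := ℂ) (φ := fun _ : σ => ℂ) o - 0) =
        (ContinuousLinearMap.proj (R := ℂ) (φ := fun _ : σ => ℂ) o).comp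
          ((ContinuousLinearEquiv.refl ℂ (σ → ℂ) : (σ → ℂ) ≃L[ℂ] (σ → ℂ)) :
            (σ → ℂ) →L[ℂ] (σ → ℂ)) := by
      ext v
      simp
    rw [e1] at h1
    exact h1
  have h1 : (1 : WithTop ℕ∞) ≠ 0 := by norm_num
  let g := hcd.contDiffAt.localInverse hfd h1
  have hg : ContDiffAt ℂ 1 g 0 := by
    have := hcd.contDiffAt.to_localInverse hfd h1
    rwa [hfβ] at this
  have hg0 : g 0 = β := by
    have := hcd.contDiffAt.localInverse_apply_image hfd h1
    rwa [hfβ] at this
  have hfg : ∀ᶠ w in 𝓝 (0 : σ → ℂ), f (g w) = w := by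
    have := (hcd.contDiffAt.hasStrictFDerivAt' hfd h1).eventually_right_inverse
    rw [hfβ] at this
    exact this
  let L : ℂ →L[ℂ] (σ → ℂ) := (ContinuousLinearMap.id ℂ ℂ).smulRight c
  have hL : ∀ τ, L τ = τ • c := fun τ => rfl
  have hL0 : L 0 = 0 := map_zero L
  refine ⟨fun τ => g (L τ), ?_, ?_, ?_, ?_⟩
  · simp only [hL0, hg0]
  · have hcomp : ContDiffAt ℂ 1 (fun τ => g (L τ)) 0 := by
      have h2 : ContDiffAt ℂ 1 g (L 0) := by rwa [hL0]
      exact h2.comp (0 : ℂ) L.contDiff.contDiffAt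
    obtain ⟨u, hu, hdiff⟩ : ∃ u ∈ 𝓝 (0 : ℂ), DifferentiableOn ℂ (fun τ => g (L τ)) u := by
      obtain ⟨u, hu, h0u, hdu⟩ := hcomp.contDiffOn' (le_refl 1) (by simp)
      refine ⟨u, hu.mem_nhds h0u, ?_⟩
      have := hdu.differentiableOn (by norm_num)
      simpa using this
    exact hdiff.analyticAt hu
  · have htend : Filter.Tendsto (fun τ : ℂ => L τ) (𝓝 0) (𝓝 0) := by
      simpa [hL0] using L.continuous.tendsto 0
    filter_upwards [htend.eventually hfg] with τ hτ
    have := congrFun hτ o₀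
    simp only [f, hβ, hQ₀, map_zero, sub_zero, hL, Pi.smul_apply, hc, smul_eq_mul, mul_one] at this
    exact this
  · have htend : Filter.Tendsto (fun τ : ℂ => L τ) (𝓝 0) (𝓝 0) := by
      simpa [hL0] using L.continuous.tendsto 0
    filter_upwards [htend.eventually hfg] with τ hτ o
    have h0 := congrFun hτ o₀
    have ho := congrFun hτ o
    simp only [f, hβ, hQ₀, map_zero, sub_zero, hL, Pi.smul_apply, hc, smul_eq_mul, mul_one] at h0 ho
    simp only [hL, map_sub, map_mul, eval_X, eval_C, h0]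
    linear_combination ho

end main

end Crest.Agent.R271.Disc846
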