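import Crest.Agent.R271.Disc1_846

/-!
Row 271, team N, piece N4 (DISC), part 2: holomorphic discs in `Hom(R,ℂ)` from a uniformizer.
-/

set_option autoImplicit false
set_option linter.unusedSectionVars false

open scoped Topology
open MvPolynomial Asymptotics

namespace Crest.Agent.R271.Disc846

section flat

lemma eq_zero_of_pow_smul_isBigO {g : ℂ → ℂ} (hg : ContinuousAt g 0) (n : ℕ)
    (h : (fun τ : ℂ => τ ^ n * g τ) =O[𝓝 0] (fun τ : ℂ => τ ^ (n + 1))) : g 0 = 0 := by
  obtain ⟨C, hC⟩ := h.bound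
  have h1 : ∀ᶠ τ in 𝓝[≠] (0 : ℂ), ‖g τ‖ ≤ C * ‖τ‖ := by
    filter_upwards [hC.filter_mono nhdsWithin_le_nhds, self_mem_nhdsWithin] with τ hτ h0
    have h0' : τ ≠ 0 := h0
    have hpos : 0 < ‖τ‖ ^ n := pow_pos (norm_pos_iff.2 h0') n
    simp only [norm_mul, norm_pow, pow_succ] at hτ
    have : ‖τ‖ ^ n * ‖g τ‖ ≤ ‖τ‖ ^ n * (C * ‖τ‖) := by
      calc ‖τ‖ ^ n * ‖g τ‖ ≤ C * (‖τ‖ ^ n * ‖τ‖) := hτ
        _ = _ := by ring
    exact le_of_mul_le_mul_left this hpos
  have h2 : Filter.Tendsto (fun τ : ℂ => C * ‖τ‖) (𝓝[≠] 0) (𝓝 0) := by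
    have : Filter.Tendsto (fun τ : ℂ => C * ‖τ‖) (𝓝 0) (𝓝 (C * ‖(0 : ℂ)‖)) :=
      (continuous_const.mul continuous_norm).tendsto 0
    rw [norm_zero, mul_zero] at this
    exact this.mono_left nhdsWithin_le_nhds
  have h3 : Filter.Tendsto g (𝓝[≠] 0) (𝓝 0) :=
    squeeze_zero_norm' h1 h2
  have h4 : Filter.Tendsto g (𝓝[≠] 0) (𝓝 (g 0)) := hg.tendsto.mono_left nhdsWithin_le_nhds
  exact tendsto_nhds_unique h4 h3

lemma eventually_zero_of_flat {F : ℂ → ℂ} (hF : AnalyticAt ℂ F 0)
    (h : ∀ k : ℕ, F =O[𝓝 0] (fun τ : ℂ => τ ^ k)) : ∀ᶠ τ in 𝓝 0, F τ = 0 := by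
  by_contra hne
  obtain ⟨n, g, hg, hg0, hFg⟩ := hF.exists_eventuallyEq_pow_smul_nonzero_iff.2 hne
  apply hg0
  refine eq_zero_of_pow_smul_isBigO hg.continuousAt n ?_
  refine (Filter.EventuallyEq.isBigO ?_).trans (h (n + 1))
  filter_upwards [hFg] with τ hτ
  rw [hτ, sub_zero, smul_eq_mul]

lemma coeff_zero_of_flat (k : ℕ) (a : ℕ → ℂ)
    (h : (fun τ : ℂ => ∑ i ∈ Finset.range k, a i * τ ^ i) =O[𝓝 0] (fun τ : ℂ => τ ^ k)) :
    ∀ i < k, a i = 0 := by
  classical
  intro i hi
  induction i using Nat.strong_induction_on with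
  | _ i ih =>
  -- split the sum at i
  have hsplit : ∀ τ : ℂ, ∑ j ∈ Finset.range k, a j * τ ^ j =
      τ ^ i * (a i + τ * ∑ j ∈ Finset.range (k - i - 1), a (i + 1 + j) * τ ^ j) := by
    intro τ
    have h1 : k = i + (1 + (k - i - 1)) := by omega
    have h2 : ∑ j ∈ Finset.range i, a j * τ ^ j = 0 := by
      refine Finset.sum_eq_zero fun j hj => ?_
      have hji := Finset.mem_range.1 hj
      rw [ih j hji (hji.trans hi), zero_mul]
    conv_lhs => rw [h1, Finset.sum_range_add, Finset.sum_range_add]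
    rw [h2, zero_add, Finset.sum_range_one, mul_add, ← mul_assoc, Finset.mul_sum]
    congr 1
    · rw [add_zero]; ring
    · refine Finset.sum_congr rfl fun j _ => ?_
      rw [← add_assoc]; ring
  have hO : (fun τ : ℂ => τ ^ i * (a i + τ * ∑ j ∈ Finset.range (k - i - 1),
      a (i + 1 + j) * τ ^ j)) =O[𝓝 0] (fun τ : ℂ => τ ^ (i + 1)) := by
    have h1 : (fun τ : ℂ => τ ^ k) =O[𝓝 0] (fun τ : ℂ => τ ^ (i + 1)) := by
      have : k = (i + 1) + (k - i - 1) := by omega
      rw [this]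
      have h2 : (fun τ : ℂ => τ ^ (k - i - 1)) =O[𝓝 0] (fun _ : ℂ => (1 : ℂ)) :=
        (continuous_pow (k - i - 1)).continuousAt.isBigO_one ℂ
      have h3 := (isBigO_refl (fun τ : ℂ => τ ^ (i + 1)) (𝓝 0)).mul h2
      simpa [pow_add] using h3
    refine IsBigO.trans ?_ h1
    have h4 : (fun τ : ℂ => τ ^ i * (a i + τ * ∑ j ∈ Finset.range (k - i - 1),
      a (i + 1 + j) * τ ^ j)) = fun τ : ℂ => ∑ i ∈ Finset.range k, a i * τ ^ i := by
      funext τ
      exact (hsplit τ).symm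
    rw [h4]
    exact h
  have hc : ContinuousAt (fun τ : ℂ => a i + τ * ∑ j ∈ Finset.range (k - i - 1),
      a (i + 1 + j) * τ ^ j) 0 := by
    apply Continuous.continuousAt
    fun_prop
  have := eq_zero_of_pow_smul_isBigO hc i hO
  simpa using this

end flat

section decomp

variable {σ : Type} [Fintype σ]

lemma analyticAt_eval {b : ℂ → (σ → ℂ)} {τ₀ : ℂ} (hb : AnalyticAt ℂ b τ₀) (p : MvPolynomial σ ℂ) :
    AnalyticAt ℂ (fun τ => eval (b τ) p) τ₀ := by
  induction p using MvPolynomial.induction_on with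
  | C a => simpa using analyticAt_const
  | add p q hp hq => simpa using hp.fun_add hq
  | mul_X p o hp =>
    have h1 : AnalyticAt ℂ (fun τ => b τ o) τ₀ := by
      have := (ContinuousLinearMap.proj (R := ℂ) (φ := fun _ : σ => ℂ) o).analyticAt (b τ₀)
      exact this.comp hb
    simpa using hp.fun_mul h1

lemma isBigO_of_mem_pow {b : ℂ → (σ → ℂ)} (hb : AnalyticAt ℂ b 0) (β : σ → ℂ) (hb0 : b 0 = β)
    (k : ℕ) : ∀ p ∈ ptI β ^ k, (fun τ => eval (b τ) p) =O[𝓝 0] (fun τ : ℂ => τ ^ k) := by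
  induction k with
  | zero =>
    intro p _
    simpa using (analyticAt_eval hb p).continuousAt.isBigO_one ℂ
  | succ k ih =>
    intro p hp
    rw [pow_succ] at hp
    induction hp using Submodule.mul_induction_on' with
    | mem_mul_mem p hp q hq =>
      have h1 := ih p hp
      have h2 : (fun τ => eval (b τ) q) =O[𝓝 0] (fun τ : ℂ => τ) := by
        have hd := (analyticAt_eval hb q).differentiableAt.isBigO_sub
        have hq0 : eval (b 0) q = 0 := by rw [hb0]; exact (mem_ptI β q).1 hq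
        simpa [hq0] using hd
      have h3 := h1.mul h2
      simpa [map_mul, pow_succ] using h3
    | add p _ q _ hp hq => simpa [map_add] using hp.add hq

variable (β : σ → ℂ) (o₀ : σ) (c : σ → ℂ) (Q : σ → MvPolynomial σ ℂ)

/-- the equations of the curve -/
noncomputable def Eq (o : σ) : MvPolynomial σ ℂ := X o - C (β o) - C (c o) * X o₀ - Q o

lemma ptI_le (hQ : ∀ o, Q o ∈ ptI β ^ 2) :
    ptI β ≤ Ideal.span {X o₀} ⊔ Ideal.span (Set.range (Eq β o₀ c Q)) ⊔ ptI β ^ 2 := by
  refine (ptI_le_span β).trans (Ideal.span_le.2 ?_)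
  rintro _ ⟨o, rfl⟩
  have h : (X o - C (β o) : MvPolynomial σ ℂ) = (C (c o) * X o₀ + Eq β o₀ c Q o) + Q o := by
    simp only [Eq]; ring
  simp only
  rw [h]
  refine Ideal.add_mem _ (Ideal.mem_sup_left (Ideal.add_mem _ (Ideal.mem_sup_left ?_)
    (Ideal.mem_sup_right ?_))) (Ideal.mem_sup_right (hQ o))
  · exact Ideal.mul_mem_left _ _ (Ideal.subset_span rfl)
  · exact Ideal.subset_span ⟨o, rfl⟩

lemma pow_le_gen {S : Type*} [CommRing S] (M J : Ideal S) (X : S) (hX : X ∈ M)
    (h : M ≤ Ideal.span {X} ⊔ J ⊔ M ^ 2) (k : ℕ) :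
    M ^ k ≤ Ideal.span {X ^ k} ⊔ J ⊔ M ^ (k + 1) := by
  induction k with
  | zero =>
    have : Ideal.span {X ^ 0} = ⊤ := by
      rw [pow_zero]; exact Ideal.span_singleton_one
    rw [this]; simp
  | succ k ih =>
    have hXk : Ideal.span {X ^ k} ≤ M ^ k := by
      rw [Ideal.span_singleton_le_iff_mem]
      exact Ideal.pow_mem_pow hX k
    calc M ^ (k + 1) = M ^ k * M := pow_succ _ _
      _ ≤ (Ideal.span {X ^ k} ⊔ J ⊔ M ^ (k + 1)) * M := Ideal.mul_mono_left ih
      _ = Ideal.span {X ^ k} * M ⊔ J * M ⊔ M ^ (k + 1) * M := by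
          rw [Ideal.sup_mul, Ideal.sup_mul]
      _ ≤ Ideal.span {X ^ (k + 1)} ⊔ J ⊔ M ^ (k + 1 + 1) := by
          refine sup_le (sup_le ?_ ?_) ?_
          · calc Ideal.span {X ^ k} * M
                ≤ Ideal.span {X ^ k} * (Ideal.span {X} ⊔ J ⊔ M ^ 2) :=
                  Ideal.mul_mono_right h
              _ = Ideal.span {X ^ k} * Ideal.span {X} ⊔ Ideal.span {X ^ k} * J ⊔
                    Ideal.span {X ^ k} * M ^ 2 := by rw [Ideal.mul_sup, Ideal.mul_sup]
              _ ≤ _ := by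
                  refine sup_le (sup_le ?_ ?_) ?_
                  · rw [Ideal.span_singleton_mul_span_singleton, ← pow_succ]
                    exact le_sup_left.trans le_sup_left
                  · exact Ideal.mul_le_right.trans (le_sup_right.trans le_sup_left)
                  · refine le_trans ?_ le_sup_right
                    calc Ideal.span {X ^ k} * M ^ 2 ≤ M ^ k * M ^ 2 := Ideal.mul_mono_left hXk
                      _ = M ^ (k + 1 + 1) := by rw [← pow_add]
          · exact Ideal.mul_le_left.trans (le_sup_right.trans le_sup_left)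
          · rw [← pow_succ]; exact le_sup_right

lemma ptI_pow_le (hβ : β o₀ = 0) (hQ : ∀ o, Q o ∈ ptI β ^ 2) (k : ℕ) :
    ptI β ^ k ≤ Ideal.span {X o₀ ^ k} ⊔ Ideal.span (Set.range (Eq β o₀ c Q)) ⊔
      ptI β ^ (k + 1) := by
  refine pow_le_gen (ptI β) _ (X o₀) ?_ (ptI_le β o₀ c Q hQ) k
  rw [mem_ptI, eval_X, hβ]

lemma decomp (hβ : β o₀ = 0) (hQ : ∀ o, Q o ∈ ptI β ^ 2) (k : ℕ) (p : MvPolynomial σ ℂ) :
    ∃ a : ℕ → ℂ, p - ∑ i ∈ Finset.range k, C (a i) * X o₀ ^ i ∈
      Ideal.span (Set.range (Eq β o₀ c Q)) ⊔ ptI β ^ k := by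
  classical
  set M := ptI β with hM
  set J := Ideal.span (Set.range (Eq β o₀ c Q)) with hJ
  have hX : (X o₀ : MvPolynomial σ ℂ) ∈ M := by
    rw [hM, mem_ptI, eval_X, hβ]
  induction k with
  | zero => exact ⟨0, by simp⟩
  | succ k ih =>
    obtain ⟨a, ha⟩ := ih
    have h1 : p - ∑ i ∈ Finset.range k, C (a i) * X o₀ ^ i ∈
        Ideal.span {(X o₀ : MvPolynomial σ ℂ) ^ k} ⊔ (J ⊔ M ^ (k + 1)) := by
      have : J ⊔ M ^ k ≤ Ideal.span {(X o₀ : MvPolynomial σ ℂ) ^ k} ⊔ (J ⊔ M ^ (k + 1)) := by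
        refine sup_le (le_sup_left.trans le_sup_right) ?_
        rw [← sup_assoc]
        exact ptI_pow_le β o₀ c Q hβ hQ k
      exact this ha
    obtain ⟨y, hy, e, he, hye⟩ := Submodule.mem_sup.1 h1
    obtain ⟨s, rfl⟩ := Ideal.mem_span_singleton'.1 hy
    refine ⟨Function.update a k (eval β s), ?_⟩
    rw [Finset.sum_range_succ]
    have h2 : ∑ i ∈ Finset.range k, C (Function.update a k (eval β s) i) * X o₀ ^ i =
        ∑ i ∈ Finset.range k, C (a i) * X o₀ ^ i := by
      refine Finset.sum_congr rfl fun i hi => ?_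
      rw [Function.update_of_ne (Finset.mem_range.1 hi).ne]
    rw [h2, Function.update_self]
    have h3 : p - (∑ i ∈ Finset.range k, C (a i) * X o₀ ^ i + C (eval β s) * X o₀ ^ k) =
        (s - C (eval β s)) * X o₀ ^ k + e := by
      linear_combination -hye
    rw [h3]
    refine Ideal.add_mem _ (Ideal.mem_sup_right ?_) he
    rw [pow_succ']
    refine Ideal.mul_mem_mul ?_ (Ideal.pow_mem_pow hX k)
    rw [hM, mem_ptI]; simp

end decomp

section main

variable {R : Type*} [CommRing R] [Algebra ℂ R]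

/-- powers of a uniformizer are linearly independent modulo powers of the maximal ideal -/
lemma indep (m : Ideal R) (u : R) (hu : u ∈ m) (hind : ∀ i : ℕ, u ^ i ∉ m ^ (i + 1)) (k : ℕ)
    (a : ℕ → ℂ) (h : ∑ i ∈ Finset.range k, algebraMap ℂ R (a i) * u ^ i ∈ m ^ k) :
    ∀ i < k, a i = 0 := by
  intro i hi
  induction i using Nat.strong_induction_on with
  | _ i ih =>
  by_contra hai
  apply hind i
  have h1 : k = i + (1 + (k - i - 1)) := by omega
  have h2 : ∑ j ∈ Finset.range i, algebraMap ℂ R (a j) * u ^ j = 0 := by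
    refine Finset.sum_eq_zero fun j hj => ?_
    have hji := Finset.mem_range.1 hj
    rw [ih j hji (hji.trans hi), map_zero, zero_mul]
  have h3 : algebraMap ℂ R (a i) * u ^ i =
      ∑ j ∈ Finset.range k, algebraMap ℂ R (a j) * u ^ j -
        ∑ j ∈ Finset.range (k - i - 1), algebraMap ℂ R (a (i + (1 + j))) * u ^ (i + (1 + j)) := by
    conv_rhs => rw [h1, Finset.sum_range_add, Finset.sum_range_add]
    rw [h2, Finset.sum_range_one]
    have : i + (1 + (k - i - 1)) - i - 1 = k - i - 1 := by omega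
    rw [this]
    simp
  have h4 : algebraMap ℂ R (a i) * u ^ i ∈ m ^ (i + 1) := by
    rw [h3]
    refine Ideal.sub_mem _ (Ideal.pow_le_pow_right (by omega) h) (Ideal.sum_mem _ fun j _ => ?_)
    refine Ideal.mul_mem_left _ _ (Ideal.pow_le_pow_right (by omega) (Ideal.pow_mem_pow hu _))
  have h5 : u ^ i = algebraMap ℂ R (a i)⁻¹ * (algebraMap ℂ R (a i) * u ^ i) := by
    rw [← mul_assoc, ← map_mul, inv_mul_cancel₀ hai, map_one, one_mul]
  rw [h5]
  exact Ideal.mul_mem_left _ _ h4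

/-- Holomorphic discs from a uniformizer. -/
theorem exists_disc_of_uniformizer [IsDomain R] (hft : Algebra.FiniteType ℂ R) (x : R →ₐ[ℂ] ℂ)
    (u : R) (hxu : x u = 0)
    (hm : RingHom.ker (x : R →+* ℂ) ≤ Ideal.span {u} ⊔ RingHom.ker (x : R →+* ℂ) ^ 2)
    (hind : ∀ i : ℕ, u ^ i ∉ RingHom.ker (x : R →+* ℂ) ^ (i + 1)) :
    ∃ γ : ℂ → (R →ₐ[ℂ] ℂ), γ 0 = x ∧
      (∃ r : ℝ, 0 < r ∧ ∀ g : R, AnalyticOnNhd ℂ (fun τ => γ τ g) (Metric.ball 0 r)) ∧
      (∀ᶠ τ in 𝓝 (0 : ℂ), γ τ u = τ) ∧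
      ∀ g : R, g ≠ 0 → ∀ᶠ τ in 𝓝[≠] (0 : ℂ), γ τ g ≠ 0 := by
  classical
  have hN : IsNoetherianRing R := Algebra.FiniteType.isNoetherianRing ℂ R
  set m : Ideal R := RingHom.ker (x : R →+* ℂ) with hmdef
  have hmem : ∀ g : R, g ∈ m ↔ x g = 0 := fun g => Iff.rfl
  obtain ⟨N, f, hf⟩ := Algebra.FiniteType.iff_quotient_mvPolynomial''.1 hft
  let σ := Option (Fin N)
  let v : σ → R := fun o => o.elim u (fun i => f (X i))
  let π : MvPolynomial σ ℂ →ₐ[ℂ] R := aeval v
  have hπ : Function.Surjective π := by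
    intro g
    obtain ⟨p, rfl⟩ := hf g
    refine ⟨rename some p, ?_⟩
    change (aeval v) (rename some p) = f p
    rw [aeval_rename]
    have : (aeval (v ∘ some) : MvPolynomial (Fin N) ℂ →ₐ[ℂ] R) = f := by
      apply MvPolynomial.algHom_ext
      intro i
      simp [v]
    rw [this]
  let β : σ → ℂ := fun o => x (v o)
  have hev : ∀ p, eval β p = x (π p) := by
    intro p
    have : (x.comp π) = aeval β := by
      apply MvPolynomial.algHom_ext
      intro o
      simp [π, β]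
    have h2 := DFunLike.congr_fun this p
    simp only [AlgHom.comp_apply] at h2
    rw [h2]
    rfl
  have hcomap : ptI β = Ideal.comap π m := by
    ext p
    rw [mem_ptI, Ideal.mem_comap, hmem, hev]
  have hmap : Ideal.map π (ptI β) = m := by
    rw [hcomap]; exact Ideal.map_comap_of_surjective _ hπ m
  have hlift : ∀ (k : ℕ) (q : R), q ∈ m ^ k → ∃ Q ∈ ptI β ^ k, π Q = q := by
    intro k q hq
    rw [← hmap, ← Ideal.map_pow] at hq
    exact (Ideal.mem_map_iff_of_surjective _ hπ).1 hq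
  have hπm : ∀ (k : ℕ) (Q : MvPolynomial σ ℂ), Q ∈ ptI β ^ k → π Q ∈ m ^ k := by
    intro k Q hQ
    rw [← hmap, ← Ideal.map_pow]
    exact Ideal.mem_map_of_mem _ hQ
  have hβ : β none = 0 := hxu
  have hπX : ∀ o, π (X o) = v o := fun o => by simp [π]
  have hπC : ∀ a, π (C a) = algebraMap ℂ R a := fun a => by simp [π]
  have hex : ∀ o : σ, ∃ (c : ℂ) (Q : MvPolynomial σ ℂ), Q ∈ ptI β ^ 2 ∧
      π (X o - C (β o) - C c * X none - Q) = 0 ∧ (o = none → c = 1 ∧ Q = 0) := by
    intro o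
    rcases o with _ | i
    · refine ⟨1, 0, Ideal.zero_mem _, ?_, fun _ => ⟨rfl, rfl⟩⟩
      rw [hβ]; simp
    · have h1 : v (some i) - algebraMap ℂ R (β (some i)) ∈ m := by
        rw [hmem, map_sub, AlgHom.commutes]; simp [β]
      obtain ⟨y, hy, q, hq, hyq⟩ := Submodule.mem_sup.1 (hm h1)
      obtain ⟨a, rfl⟩ := Ideal.mem_span_singleton'.1 hy
      have h2 : (a - algebraMap ℂ R (x a)) * u + q ∈ m ^ 2 := by
        refine Ideal.add_mem _ ?_ hq
        rw [pow_two]
        refine Ideal.mul_mem_mul ?_ hxu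
        rw [hmem, map_sub, AlgHom.commutes]; simp
      obtain ⟨Q, hQ, hQq⟩ := hlift 2 _ h2
      refine ⟨x a, Q, hQ, ?_, fun h => by simp at h⟩
      rw [map_sub, map_sub, map_sub, map_mul, hπX, hπX, hπC, hπC, hQq]
      have : v none = u := rfl
      rw [this]
      linear_combination -hyq
  choose c Q hQ hπE hnone using hex
  obtain ⟨b, hb0, hban, hbu, hbE⟩ := exists_curve β none c Q hβ (hnone none rfl).1
    (hnone none rfl).2 hQ
  have hπJ : ∀ p ∈ Ideal.span (Set.range (Eq β none c Q)), π p = 0 := by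
    intro p hp
    have : Ideal.span (Set.range (Eq β none c Q)) ≤ RingHom.ker (π : MvPolynomial σ ℂ →+* R) := by
      rw [Ideal.span_le]
      rintro _ ⟨o, rfl⟩
      exact hπE o
    exact this hp
  have hJev : ∀ᶠ τ in 𝓝 (0 : ℂ), ∀ p ∈ Ideal.span (Set.range (Eq β none c Q)),
      eval (b τ) p = 0 := by
    filter_upwards [hbE] with τ hτ p hp
    have : Ideal.span (Set.range (Eq β none c Q)) ≤ RingHom.ker (eval (b τ)) := by
      rw [Ideal.span_le]
      rintro _ ⟨o, rfl⟩
      exact hτ o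
    exact this hp
  -- (A) elements of the kernel vanish along the curve
  have hA : ∀ p, π p = 0 → ∀ᶠ τ in 𝓝 (0 : ℂ), eval (b τ) p = 0 := by
    intro p hp
    refine eventually_zero_of_flat (analyticAt_eval hban p) fun k => ?_
    obtain ⟨a, ha⟩ := decomp β none c Q hβ hQ k p
    obtain ⟨j, hj, q, hq, hjq⟩ := Submodule.mem_sup.1 ha
    have h1 : ∑ i ∈ Finset.range k, algebraMap ℂ R (a i) * u ^ i ∈ m ^ k := by
      have h2 := hπm k q hq
      have h3 : π q = - ∑ i ∈ Finset.range k, algebraMap ℂ R (a i) * u ^ i := by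
        have h4 := congrArg π hjq
        rw [map_add, hπJ j hj, zero_add, map_sub, hp, zero_sub, map_sum] at h4
        rw [h4]
        congr 1
        refine Finset.sum_congr rfl fun i _ => ?_
        rw [map_mul, map_pow, hπX, hπC]
        rfl
      rw [h3] at h2
      exact neg_mem_iff.1 h2
    have h0 := indep m u hxu hind k a h1
    have h5 : p = j + q := by
      rw [hjq]
      have : ∑ i ∈ Finset.range k, C (a i) * (X none : MvPolynomial σ ℂ) ^ i = 0 := by
        refine Finset.sum_eq_zero fun i hi => ?_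
        rw [h0 i (Finset.mem_range.1 hi), map_zero, zero_mul]
      rw [this, sub_zero]
    have h6 := isBigO_of_mem_pow hban β hb0 k q hq
    refine (Filter.EventuallyEq.isBigO ?_).trans h6
    filter_upwards [hJev] with τ hτ
    rw [h5, map_add, hτ j hj, zero_add]
  -- (C) elements outside the kernel do not vanish identically
  have hC : ∀ p, π p ≠ 0 → ∀ᶠ τ in 𝓝[≠] (0 : ℂ), eval (b τ) p ≠ 0 := by
    intro p hp
    rcases (analyticAt_eval hban p).eventually_eq_zero_or_eventually_ne_zero with h | h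
    · exfalso
      apply hp
      have hmne : m ≠ ⊤ := by
        intro h
        have : (1 : R) ∈ m := h ▸ Submodule.mem_top
        rw [hmem, map_one] at this
        exact one_ne_zero this
      have hK := Ideal.iInf_pow_eq_bot_of_isDomain (I := m) hmne
      have : π p ∈ (⨅ i : ℕ, m ^ i) := by
        rw [Ideal.mem_iInf]
        intro k
        obtain ⟨a, ha⟩ := decomp β none c Q hβ hQ k p
        obtain ⟨j, hj, q, hq, hjq⟩ := Submodule.mem_sup.1 ha
        have h6 := isBigO_of_mem_pow hban β hb0 k q hq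
        have h7 : (fun τ : ℂ => ∑ i ∈ Finset.range k, (-a i) * τ ^ i) =O[𝓝 0]
            (fun τ : ℂ => τ ^ k) := by
          refine (Filter.EventuallyEq.isBigO ?_).trans h6
          filter_upwards [hJev, h, hbu] with τ hτ hτ' hτu
          have h8 := congrArg (eval (b τ)) hjq
          rw [map_add, hτ j hj, zero_add, map_sub, hτ', zero_sub, map_sum] at h8
          rw [h8, ← Finset.sum_neg_distrib]
          refine Finset.sum_congr rfl fun i _ => ?_
          rw [map_mul, map_pow, eval_X, eval_C, hτu]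
          ring
        have h0 := coeff_zero_of_flat k (fun i => -a i) h7
        have h5 : p = j + q := by
          rw [hjq]
          have : ∑ i ∈ Finset.range k, C (a i) * (X none : MvPolynomial σ ℂ) ^ i = 0 := by
            refine Finset.sum_eq_zero fun i hi => ?_
            have := h0 i (Finset.mem_range.1 hi)
            rw [neg_eq_zero.1 this, map_zero, zero_mul]
          rw [this, sub_zero]
        rw [h5, map_add, hπJ j hj, zero_add]
        exact hπm k q hq
      rw [hK] at this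
      exact this
    · exact h
  -- good parameters
  have hgood : ∀ᶠ τ in 𝓝 (0 : ℂ), ∀ p, π p = 0 → eval (b τ) p = 0 := by
    obtain ⟨s, hs⟩ := (isNoetherian_def.1 (inferInstance : IsNoetherianRing (MvPolynomial σ ℂ)))
      (RingHom.ker (π : MvPolynomial σ ℂ →+* R))
    have h1 : ∀ᶠ τ in 𝓝 (0 : ℂ), ∀ p ∈ s, eval (b τ) p = 0 := by
      rw [Filter.eventually_all_finset]
      intro p hp
      apply hA
      have : p ∈ RingHom.ker (π : MvPolynomial σ ℂ →+* R) := by
        rw [← hs]; exact Submodule.subset_span hp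
      exact this
    filter_upwards [h1] with τ hτ p hp
    have h2 : RingHom.ker (π : MvPolynomial σ ℂ →+* R) ≤ RingHom.ker (eval (b τ)) := by
      rw [← hs]
      refine Submodule.span_le.2 fun q hq => hτ q hq
    exact h2 hp
  let e := Ideal.quotientKerAlgEquivOfSurjective hπ
  let γ : ℂ → (R →ₐ[ℂ] ℂ) := fun τ =>
    if h : ∀ p, π p = 0 → eval (b τ) p = 0 then
      (Ideal.Quotient.liftₐ (RingHom.ker π) (aeval (b τ)) (fun p hp => h p hp)).comp
        (e.symm : R →ₐ[ℂ] _)
    else x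
  have hγ : ∀ τ, (∀ p, π p = 0 → eval (b τ) p = 0) → ∀ p, γ τ (π p) = eval (b τ) p := by
    intro τ h p
    simp only [γ, dif_pos h]
    have h1 : e.symm (π p) = Ideal.Quotient.mk _ p := by
      rw [AlgEquiv.symm_apply_eq]
      rfl
    simp only [AlgHom.comp_apply]
    change (Ideal.Quotient.liftₐ (RingHom.ker π) (aeval (b τ)) _) (e.symm (π p)) = _
    rw [h1]
    rfl
  have hγ' : ∀ p, (fun τ => γ τ (π p)) =ᶠ[𝓝 0] (fun τ => eval (b τ) p) := by
    intro p
    filter_upwards [hgood] with τ hτ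
    exact hγ τ hτ p
  obtain ⟨r, hr, hball⟩ := Metric.eventually_nhds_iff_ball.1
    (hgood.and hban.eventually_analyticAt)
  refine ⟨γ, ?_, ⟨r, hr, ?_⟩, ?_, ?_⟩
  · ext g
    obtain ⟨p, rfl⟩ := hπ g
    have h0 := (hγ' p).eq_of_nhds
    rw [h0, hb0, hev]
  · intro g τ hτ
    obtain ⟨p, rfl⟩ := hπ g
    have h1 : (fun τ => γ τ (π p)) =ᶠ[𝓝 τ] (fun τ => eval (b τ) p) := by
      filter_upwards [Metric.isOpen_ball.mem_nhds hτ] with τ' hτ'
      exact hγ τ' (hball τ' hτ').1 p
    exact (analyticAt_eval (hball τ hτ).2 p).congr h1.symm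
  · have h1 := hγ' (X none)
    filter_upwards [h1, hbu] with τ h2 h3
    rw [hπX] at h2
    have : v none = u := rfl
    rw [this] at h2
    rw [h2, eval_X, h3]
  · intro g hg
    obtain ⟨p, rfl⟩ := hπ g
    filter_upwards [hC p hg, (hγ' p).filter_mono nhdsWithin_le_nhds] with τ h1 h2
    rw [h2]; exact h1

end main

end Crest.Agent.R271.Disc846
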