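import Crest.Agent.R271.Disc2_846
import Crest.Agent.R271.Defs_710

/-!
Row 271, team N, piece N4 (DISC), part 3: for a prime `P` strictly below the maximal ideal of a
point `y` of a finitely generated `ℂ`-algebra and `h ∉ P` there is a holomorphic disc in `V(P)`
through `y` on which `h` has no zero except possibly at the centre.

* Noether normalisation and going down over a line: a curve prime `Q` (`exists_curve_prime`);
* the normalisation of the curve (`exists_normalisation`), a point over `y` (`exists_lift_pt`) and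
  a uniformizer (`exists_uniformizer`);
* `exists_disc_of_uniformizer` of part 2.
-/

set_option autoImplicit false

open scoped Topology

namespace Crest.Agent.R271.Disc846

section S1

theorem exists_curve_prime {D : Type*} [CommRing D] [IsDomain D] [Algebra ℂ D]
    (hft : Algebra.FiniteType ℂ D) (x : D →ₐ[ℂ] ℂ) (t : D) (ht : t ≠ 0) (hxt : x t = 0)
    (h : D) (hh : h ≠ 0) :
    ∃ Q : Ideal D, Q.IsPrime ∧ Q ≤ RingHom.ker (x : D →+* ℂ) ∧ h ∉ Q ∧
      ∃ s : D, x s = 0 ∧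
        Function.Injective (Polynomial.aeval (R := ℂ) (Ideal.Quotient.mk Q s)) ∧
        (Polynomial.aeval (R := ℂ) (Ideal.Quotient.mk Q s) : Polynomial ℂ →ₐ[ℂ] D ⧸ Q).Finite := by
  classical
  obtain ⟨d, g, ginj, gfin⟩ := exists_finite_inj_algHom_of_fg ℂ D
  let : Algebra (MvPolynomial (Fin d) ℂ) D := g.toRingHom.toAlgebra
  have : Module.Finite (MvPolynomial (Fin d) ℂ) D := gfin
  have hgmap : ∀ p, algebraMap (MvPolynomial (Fin d) ℂ) D p = g p := fun p => rfl
  have : FaithfulSMul (MvPolynomial (Fin d) ℂ) D :=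
    (faithfulSMul_iff_algebraMap_injective _ _).2 ginj
  have : Algebra.IsIntegral (MvPolynomial (Fin d) ℂ) D := inferInstance
  have key : ∀ b : D, b ≠ 0 → ∃ c : MvPolynomial (Fin d) ℂ, c ≠ 0 ∧ g c ∈ Ideal.span {b} := by
    intro b hb
    have h1 := Ideal.comap_ne_bot_of_integral_mem (R := MvPolynomial (Fin d) ℂ)
      (I := Ideal.span {b}) hb (Ideal.mem_span_singleton_self b) (Algebra.IsIntegral.isIntegral b)
    obtain ⟨c, hc, hc0⟩ := Submodule.exists_mem_ne_zero_of_ne_bot h1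
    exact ⟨c, hc0, hc⟩
  obtain ⟨c, hc0, hc⟩ := key h hh
  obtain ⟨c1, hc10, hc1⟩ := key t ht
  set a : Fin d → ℂ := fun i => x (g (MvPolynomial.X i)) with ha
  have hxg : ∀ p, x (g p) = MvPolynomial.eval a p := by
    intro p
    have : x.comp g = (MvPolynomial.aeval a : MvPolynomial (Fin d) ℂ →ₐ[ℂ] ℂ) := by
      ext i
      simp [ha]
    have h2 := DFunLike.congr_fun this p
    rw [AlgHom.comp_apply] at h2
    rw [h2]
    exact RingHom.congr_fun (MvPolynomial.coe_aeval_eq_eval a) p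
  have hc1a : MvPolynomial.eval a c1 = 0 := by
    rw [← hxg]
    obtain ⟨q, hq⟩ := Ideal.mem_span_singleton'.1 hc1
    rw [← hq, map_mul, hxt, mul_zero]
  obtain ⟨w, hw⟩ : ∃ w, MvPolynomial.eval w (c * c1) ≠ 0 := by
    by_contra hcon
    push Not at hcon
    exact mul_ne_zero hc0 hc10 (MvPolynomial.funext (fun v => by rw [hcon v, map_zero]))
  have hwc : MvPolynomial.eval w c ≠ 0 := fun h0 => hw (by rw [map_mul, h0, zero_mul])
  have hwc1 : MvPolynomial.eval w c1 ≠ 0 := fun h0 => hw (by rw [map_mul, h0, mul_zero])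
  have hwa : w ≠ a := fun h0 => hwc1 (h0 ▸ hc1a)
  obtain ⟨i0, hi0⟩ : ∃ i, w i ≠ a i := by
    by_contra hcon
    push Not at hcon
    exact hwa (funext hcon)
  set v : Fin d → ℂ := fun i => w i - a i with hv
  have hv0 : v i0 ≠ 0 := sub_ne_zero.2 hi0
  let ℓ : MvPolynomial (Fin d) ℂ →ₐ[ℂ] Polynomial ℂ :=
    MvPolynomial.aeval (fun i => Polynomial.C (a i) + Polynomial.C (v i) * Polynomial.X)
  have hℓX : ∀ i, ℓ (MvPolynomial.X i) = Polynomial.C (a i) + Polynomial.C (v i) * Polynomial.X :=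
    fun i => by simp [ℓ]
  have hℓev : ∀ (z : ℂ) p, Polynomial.eval z (ℓ p) = MvPolynomial.eval (fun i => a i + v i * z) p := by
    intro z p
    induction p using MvPolynomial.induction_on with
    | C b => simp [ℓ]
    | add p q hp hq => simp [hp, hq]
    | mul_X p i hp => simp [hp, hℓX]
  let 𝔭 : Ideal (MvPolynomial (Fin d) ℂ) := RingHom.ker (ℓ : MvPolynomial (Fin d) ℂ →+* Polynomial ℂ)
  have h𝔭 : 𝔭.IsPrime := RingHom.ker_isPrime _
  have hmem𝔭 : ∀ p, p ∈ 𝔭 ↔ ℓ p = 0 := fun p => Iff.rfl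
  let m : Ideal D := RingHom.ker (x : D →+* ℂ)
  have hm : m.IsPrime := RingHom.ker_isPrime _
  have hmem : ∀ b, b ∈ m ↔ x b = 0 := fun b => Iff.rfl
  have hle : 𝔭 ≤ m.under (MvPolynomial (Fin d) ℂ) := by
    intro p hp
    rw [Ideal.mem_comap, hmem, hgmap, hxg]
    have h3 := hℓev 0 p
    rw [(hmem𝔭 p).1 hp] at h3
    simpa using h3.symm
  obtain ⟨Q, hQm, hQp, hQo⟩ := Ideal.exists_ideal_le_liesOver_of_le (p := 𝔭)
    (q := m.under (MvPolynomial (Fin d) ℂ)) m hle
  have hcQ : ∀ p, g p ∈ Q ↔ ℓ p = 0 := by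
    intro p
    rw [← hmem𝔭, hQo.over, Ideal.mem_comap, hgmap]
  have hhQ : h ∉ Q := by
    intro hh'
    have h4 : g c ∈ Q := (Ideal.span_singleton_le_iff_mem Q).2 hh' hc
    rw [hcQ] at h4
    have h5 := hℓev 1 c
    rw [h4] at h5
    apply hwc
    have h6 : (fun i => a i + v i * 1) = w := by
      funext i; simp [hv]
    rw [h6] at h5
    simpa using h5.symm
  let sA : MvPolynomial (Fin d) ℂ :=
    MvPolynomial.C (v i0)⁻¹ * (MvPolynomial.X i0 - MvPolynomial.C (a i0))
  have hℓs : ℓ sA = Polynomial.X := by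
    have e1 : ℓ (MvPolynomial.C (v i0)⁻¹) = Polynomial.C (v i0)⁻¹ := by simp [ℓ]
    have e2 : ℓ (MvPolynomial.C (a i0)) = Polynomial.C (a i0) := by simp [ℓ]
    simp only [sA, map_mul, map_sub, hℓX, e1, e2]
    rw [add_sub_cancel_left, ← mul_assoc, ← Polynomial.C_mul, inv_mul_cancel₀ hv0]
    simp
  refine ⟨Q, hQp, hQm, hhQ, g sA, ?_, ?_, ?_⟩
  · rw [hxg]
    simp [sA]
  · -- injectivity
    rw [injective_iff_map_eq_zero]
    intro q hq
    have e3 : Polynomial.aeval (Ideal.Quotient.mk Q (g sA)) q =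
        Ideal.Quotient.mk Q (g (Polynomial.aeval sA q)) := by
      have : (Polynomial.aeval (Ideal.Quotient.mk Q (g sA)) : Polynomial ℂ →ₐ[ℂ] D ⧸ Q) =
        ((Ideal.Quotient.mkₐ ℂ Q).comp g).comp (Polynomial.aeval sA) := by
        ext; simp
      exact DFunLike.congr_fun this q
    rw [e3, Ideal.Quotient.eq_zero_iff_mem, hcQ] at hq
    have e4 : ℓ (Polynomial.aeval sA q) = q := by
      have : ℓ.comp (Polynomial.aeval sA) = AlgHom.id ℂ (Polynomial ℂ) := by
        ext; simp [hℓs]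
      exact DFunLike.congr_fun this q
    rw [e4] at hq
    exact hq
  · -- finiteness
    have e5 : ((Ideal.Quotient.mkₐ ℂ Q).comp g) =
        (Polynomial.aeval (Ideal.Quotient.mk Q (g sA)) : Polynomial ℂ →ₐ[ℂ] D ⧸ Q).comp ℓ := by
      apply MvPolynomial.algHom_ext
      intro i
      have e6 : MvPolynomial.X i - (MvPolynomial.C (a i) + MvPolynomial.C (v i) * sA) ∈ 𝔭 := by
        rw [hmem𝔭]
        have e1 : ∀ b, ℓ (MvPolynomial.C b) = Polynomial.C b := fun b => by simp [ℓ]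
        simp only [map_sub, map_add, map_mul, hℓX, hℓs, e1]
        ring
      have e7 : g (MvPolynomial.X i - (MvPolynomial.C (a i) + MvPolynomial.C (v i) * sA)) ∈ Q :=
        (hcQ _).2 ((hmem𝔭 _).1 e6)
      rw [map_sub, ← Ideal.Quotient.eq] at e7
      have eC : ∀ b : ℂ, g (MvPolynomial.C b) = algebraMap ℂ D b := fun b => by
        have := g.commutes b
        simp
      simp only [AlgHom.comp_apply, Ideal.Quotient.mkₐ_eq_mk, hℓX]
      rw [e7]
      simp only [map_add, map_mul, Polynomial.aeval_C, Polynomial.aeval_X, eC]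
      rfl
    have e8 : ((Ideal.Quotient.mkₐ ℂ Q).comp g).Finite := by
      apply AlgHom.Finite.comp
      · exact AlgHom.Finite.of_surjective _ (Ideal.Quotient.mkₐ_surjective ℂ Q)
      · exact gfin
    rw [e5] at e8
    exact AlgHom.Finite.of_comp_finite e8

end S1

section S4

attribute [local instance] FractionRing.liftAlgebra FractionRing.isScalarTower_liftAlgebra

theorem exists_normalisation {D : Type*} [CommRing D] [IsDomain D] [Algebra ℂ D] (s : D)
    (hinj : Function.Injective (Polynomial.aeval (R := ℂ) s))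
    (hfin : (Polynomial.aeval (R := ℂ) s : Polynomial ℂ →ₐ[ℂ] D).Finite) :
    ∃ (R : Subalgebra ℂ (FractionRing D)), 
      IsDedekindDomain R ∧ Algebra.FiniteType ℂ R ∧
      ∃ φ : D →ₐ[ℂ] R, Function.Injective φ ∧ (φ : D →+* R).IsIntegral := by
  classical
  let : Algebra (Polynomial ℂ) D := (Polynomial.aeval (R := ℂ) s).toRingHom.toAlgebra
  have hmap : ∀ p : Polynomial ℂ, algebraMap (Polynomial ℂ) D p = Polynomial.aeval s p := fun p => rfl
  have : Module.Finite (Polynomial ℂ) D := hfin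
  have : FaithfulSMul (Polynomial ℂ) D := (faithfulSMul_iff_algebraMap_injective _ _).2 hinj
  have : IsScalarTower ℂ (Polynomial ℂ) D := IsScalarTower.of_algebraMap_eq (fun r => by
    rw [hmap]; simp)
  have : CharZero (FractionRing (Polynomial ℂ)) :=
    charZero_of_injective_algebraMap (IsFractionRing.injective (Polynomial ℂ) _)
  have : FiniteDimensional (FractionRing (Polynomial ℂ)) (FractionRing D) := inferInstance
  have : Algebra.IsSeparable (FractionRing (Polynomial ℂ)) (FractionRing D) := inferInstance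
  have hded : IsDedekindDomain (integralClosure (Polynomial ℂ) (FractionRing D)) := inferInstance
  have hfin2 : Module.Finite (Polynomial ℂ) (integralClosure (Polynomial ℂ) (FractionRing D)) :=
    IsIntegralClosure.finite (Polynomial ℂ) (FractionRing (Polynomial ℂ)) (FractionRing D) _
  have : IsScalarTower ℂ (Polynomial ℂ) (FractionRing D) := inferInstance
  have hint : ∀ d : D, algebraMap D (FractionRing D) d ∈ integralClosure (Polynomial ℂ) (FractionRing D) := by
    intro d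
    exact (Algebra.IsIntegral.isIntegral (R := Polynomial ℂ) d).algebraMap
  refine ⟨(integralClosure (Polynomial ℂ) (FractionRing D)).restrictScalars ℂ, hded, ?_, ?_⟩
  · have h1 : Algebra.FiniteType (Polynomial ℂ) (integralClosure (Polynomial ℂ) (FractionRing D)) := inferInstance
    have h2 : Algebra.FiniteType ℂ (Polynomial ℂ) := inferInstance
    have h3 : Algebra.FiniteType ℂ (integralClosure (Polynomial ℂ) (FractionRing D)) := h2.trans h1
    exact h3
  · refine ⟨(IsScalarTower.toAlgHom ℂ D (FractionRing D)).codRestrict _ hint, ?_, ?_⟩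
    · intro a b hab
      apply IsFractionRing.injective D (FractionRing D)
      exact congrArg Subtype.val hab
    · apply RingHom.IsIntegral.tower_top (algebraMap (Polynomial ℂ) D)
      have h4 : (algebraMap (Polynomial ℂ) (integralClosure (Polynomial ℂ) (FractionRing D))).IsIntegral :=
        algebraMap_isIntegral_iff.2 inferInstance
      exact h4

end S4

section S5

theorem exists_lift_pt {D R : Type*} [CommRing D] [CommRing R] [Algebra ℂ D] [Algebra ℂ R]
    (hft : Algebra.FiniteType ℂ R) (φ : D →ₐ[ℂ] R) (hφ : Function.Injective φ)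
    (hint : (φ : D →+* R).IsIntegral) (x : D →ₐ[ℂ] ℂ) : ∃ x' : R →ₐ[ℂ] ℂ, x'.comp φ = x := by
  classical
  let : Algebra D R := (φ : D →+* R).toAlgebra
  have hmap : ∀ d : D, algebraMap D R d = φ d := fun d => rfl
  have : Algebra.IsIntegral D R := ⟨hint⟩
  have hxs : Function.Surjective (x : D →+* ℂ) := fun c => ⟨algebraMap ℂ D c, by simp⟩
  have hmax : (RingHom.ker (x : D →+* ℂ)).IsMaximal := RingHom.ker_isMaximal_of_surjective _ hxs
  obtain ⟨N, hN, hNc⟩ := Ideal.exists_ideal_over_maximal_of_isIntegral (S := R)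
    (RingHom.ker (x : D →+* ℂ)) (by
      intro d hd
      rw [RingHom.mem_ker, hmap] at hd
      have : d = 0 := hφ (by rw [hd, map_zero])
      rw [this]; exact Ideal.zero_mem _)
  let := Ideal.Quotient.field N
  have hft2 : Algebra.FiniteType ℂ (R ⧸ N) := hft.of_surjective (Ideal.Quotient.mkₐ ℂ N) (Ideal.Quotient.mkₐ_surjective ℂ N)
  have hfin : Module.Finite ℂ (R ⧸ N) := finite_of_finite_type_of_isJacobsonRing ℂ (R ⧸ N)
  have hbij : Function.Bijective (algebraMap ℂ (R ⧸ N)) :=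
    IsAlgClosed.algebraMap_bijective_of_isIntegral
  let e : ℂ ≃ₐ[ℂ] (R ⧸ N) := AlgEquiv.ofBijective (Algebra.ofId ℂ (R ⧸ N)) hbij
  refine ⟨(e.symm : (R ⧸ N) →ₐ[ℂ] ℂ).comp (Ideal.Quotient.mkₐ ℂ N), ?_⟩
  set x' := (e.symm : (R ⧸ N) →ₐ[ℂ] ℂ).comp (Ideal.Quotient.mkₐ ℂ N) with hx'
  have hker : ∀ r ∈ N, x' r = 0 := by
    intro r hr
    rw [hx', AlgHom.comp_apply, Ideal.Quotient.mkₐ_eq_mk, Ideal.Quotient.eq_zero_iff_mem.2 hr,
      map_zero]
  ext d
  have h1 : d - algebraMap ℂ D (x d) ∈ RingHom.ker (x : D →+* ℂ) := by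
    rw [RingHom.mem_ker]; simp
  rw [← hNc, Ideal.mem_comap, hmap] at h1
  have h2 := hker _ h1
  rw [map_sub, map_sub, AlgHom.commutes, AlgHom.commutes, sub_eq_zero] at h2
  simpa using h2

end S5

section S6

theorem exists_uniformizer {R : Type*} [CommRing R] [IsDedekindDomain R] (N : Ideal R)
    (hN : N.IsMaximal) (hN0 : N ≠ ⊥) :
    ∃ u ∈ N, N ≤ Ideal.span {u} ⊔ N ^ 2 ∧ ∀ i, u ^ i ∉ N ^ (i + 1) := by
  classical
  have hNp : N.IsPrime := hN.isPrime
  have hlt : N ^ 2 < N := by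
    apply lt_of_le_of_ne (Ideal.pow_le_self two_ne_zero)
    intro h
    have h1 : N ^ 2 = N ^ 1 := by rw [pow_one]; exact h
    have := Ideal.pow_right_strictAnti N hN0 hNp.ne_top
    exact absurd (this.injective h1) (by norm_num)
  obtain ⟨u, huN, hu2⟩ := SetLike.exists_of_lt hlt
  refine ⟨u, huN, ?_, ?_⟩
  · intro c hc
    obtain ⟨d, e, he, hde⟩ := Ideal.exists_mul_add_mem_pow_succ (P := N) hN0 (i := 1) u c
      (by rwa [pow_one]) hu2 (by rwa [pow_one])
    rw [← hde]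
    exact Ideal.add_mem _ (Ideal.mem_sup_left (Ideal.mem_span_singleton'.2 ⟨d, mul_comm _ _⟩))
      (Ideal.mem_sup_right he)
  · intro i hi
    have hNpr : Prime N := Ideal.prime_of_isPrime hN0 hNp
    have h1 : N ∣ Ideal.span {u} := Ideal.dvd_iff_le.2 ((Ideal.span_singleton_le_iff_mem N).2 huN)
    obtain ⟨J, hJ⟩ := h1
    have h2 : ¬ N ∣ J := by
      rintro ⟨J', hJ'⟩
      apply hu2
      rw [← Ideal.span_singleton_le_iff_mem, ← Ideal.dvd_iff_le]
      exact ⟨J', by rw [hJ, hJ', pow_two, mul_assoc]⟩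
    have h3 : N ^ (i + 1) ∣ N ^ i * J ^ i := by
      rw [← mul_pow, ← hJ, Ideal.span_singleton_pow, Ideal.dvd_iff_le,
        Ideal.span_singleton_le_iff_mem]
      exact hi
    rw [pow_succ, mul_dvd_mul_iff_left (pow_ne_zero i hNpr.ne_zero)] at h3
    exact h2 (hNpr.dvd_of_dvd_pow h3)

end S6

section S7

/-- **holomorphic disc** in `V(P)` through `y`, outside `V(h)` except at the centre -/
theorem exists_disc {B : Type*} [CommRing B] [Algebra ℂ B] (hft : Algebra.FiniteType ℂ B)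
    (y : B →ₐ[ℂ] ℂ) (P : Ideal B) (hP : P.IsPrime) (hPy : P ≤ RingHom.ker (y : B →+* ℂ))
    (hne : P ≠ RingHom.ker (y : B →+* ℂ)) (h : B) (hh : h ∉ P) :
    ∃ γ : ℂ → (B →ₐ[ℂ] ℂ), γ 0 = y ∧ ∃ r : ℝ, 0 < r ∧
      (∀ b, AnalyticOnNhd ℂ (fun τ => γ τ b) (Metric.ball 0 r)) ∧
      (∀ τ, ∀ f ∈ P, γ τ f = 0) ∧
      (∀ τ ∈ Metric.ball (0 : ℂ) r, τ ≠ 0 → γ τ h ≠ 0) := by
  classical
  obtain ⟨t0, ht0, ht0P⟩ := SetLike.exists_of_lt (lt_of_le_of_ne hPy hne)
  have hftD : Algebra.FiniteType ℂ (B ⧸ P) :=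
    hft.of_surjective (Ideal.Quotient.mkₐ ℂ P) (Ideal.Quotient.mkₐ_surjective ℂ P)
  let x : (B ⧸ P) →ₐ[ℂ] ℂ := Ideal.Quotient.liftₐ P y (fun a ha => hPy ha)
  have hx : ∀ b, x (Ideal.Quotient.mk P b) = y b := fun b => rfl
  obtain ⟨Q, hQ, hQx, hhQ, s, hxs, hinj, hfin⟩ := exists_curve_prime hftD x
    (Ideal.Quotient.mk P t0) (fun h0 => ht0P (Ideal.Quotient.eq_zero_iff_mem.1 h0))
    (by rw [hx]; exact ht0) (Ideal.Quotient.mk P h)
    (fun h0 => hh (Ideal.Quotient.eq_zero_iff_mem.1 h0))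
  let x1 : ((B ⧸ P) ⧸ Q) →ₐ[ℂ] ℂ := Ideal.Quotient.liftₐ Q x (fun a ha => hQx ha)
  have hx1 : ∀ b, x1 (Ideal.Quotient.mk Q b) = x b := fun b => rfl
  obtain ⟨R, hRd, hRft, φ, hφinj, hφint⟩ := exists_normalisation (Ideal.Quotient.mk Q s) hinj hfin
  obtain ⟨x', hx'⟩ := exists_lift_pt hRft φ hφinj hφint x1
  have hsur : Function.Surjective (x' : R →+* ℂ) := fun c => ⟨algebraMap ℂ R c, by simp⟩
  have hmax : (RingHom.ker (x' : R →+* ℂ)).IsMaximal := RingHom.ker_isMaximal_of_surjective _ hsur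
  have hs0 : Ideal.Quotient.mk Q s ≠ 0 := by
    intro h0
    have h1 : Polynomial.aeval (R := ℂ) (Ideal.Quotient.mk Q s) Polynomial.X =
        Polynomial.aeval (R := ℂ) (Ideal.Quotient.mk Q s) 0 := by
      rw [Polynomial.aeval_X, map_zero, h0]
    exact Polynomial.X_ne_zero (hinj h1)
  have hker0 : RingHom.ker (x' : R →+* ℂ) ≠ ⊥ := by
    intro h0
    have h1 : φ (Ideal.Quotient.mk Q s) ∈ RingHom.ker (x' : R →+* ℂ) := by
      rw [RingHom.mem_ker]
      have h2 : x' (φ (Ideal.Quotient.mk Q s)) = x1 (Ideal.Quotient.mk Q s) :=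
        DFunLike.congr_fun hx' _
      exact h2.trans hxs
    rw [h0, Ideal.mem_bot] at h1
    exact hs0 (hφinj (by rw [h1, map_zero]))
  obtain ⟨u, huN, hu1, hu2⟩ := exists_uniformizer (RingHom.ker (x' : R →+* ℂ)) hmax hker0
  obtain ⟨γ, hγ0, ⟨r, hr, hγr⟩, -, hγn⟩ :=
    exists_disc_of_uniformizer hRft x' u huN hu1 hu2
  let π : B →ₐ[ℂ] R := φ.comp ((Ideal.Quotient.mkₐ ℂ Q).comp (Ideal.Quotient.mkₐ ℂ P))
  have hπP : ∀ f ∈ P, π f = 0 := by
    intro f hf
    have h1 : π f = φ (Ideal.Quotient.mk Q (Ideal.Quotient.mk P f)) := rfl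
    rw [h1, Ideal.Quotient.eq_zero_iff_mem.2 hf, map_zero, map_zero]
  have hπh : π h ≠ 0 := by
    have h1 : π h = φ (Ideal.Quotient.mk Q (Ideal.Quotient.mk P h)) := rfl
    intro h0
    rw [h1, ← map_zero φ] at h0
    exact hhQ (Ideal.Quotient.eq_zero_iff_mem.1 (hφinj h0))
  have h3 := hγn (π h) hπh
  rw [eventually_nhdsWithin_iff, Metric.eventually_nhds_iff_ball] at h3
  obtain ⟨r', hr', hr'2⟩ := h3
  refine ⟨fun τ => (γ τ).comp π, ?_, min r r', lt_min hr hr', ?_, ?_, ?_⟩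
  · ext b
    have h1 : x' (φ (Ideal.Quotient.mk Q (Ideal.Quotient.mk P b))) =
        x1 (Ideal.Quotient.mk Q (Ideal.Quotient.mk P b)) := DFunLike.congr_fun hx' _
    have h2 : (γ 0) (π b) = x' (π b) := by rw [hγ0]
    exact h2.trans h1
  · intro b
    exact (hγr (π b)).mono (Metric.ball_subset_ball (min_le_left _ _))
  · intro τ f hf
    rw [AlgHom.comp_apply, hπP f hf, map_zero]
  · intro τ hτ hτ0
    exact hr'2 τ (Metric.ball_subset_ball (min_le_right _ _) hτ) hτ0

open Crest.Agent.R271.Defs710 in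
/-- **N4** -/
theorem discFact {n : ℕ} (X : FCtx n) : DiscFact X := by
  intro y P h hP hPy hne hh
  obtain ⟨γ, hγ0, r, hr, hγr, hγP, hγh⟩ := exists_disc X.ft y P hP hPy hne h hh
  refine ⟨γ, hγ0, fun f => hγr f 0 (Metric.mem_ball_self hr), ?_⟩
  rw [eventually_nhdsWithin_iff]
  filter_upwards [Metric.ball_mem_nhds (0 : ℂ) hr] with τ hτ hτ0
  exact ⟨hγP τ, hγh τ hτ hτ0⟩

end S7

end Crest.Agent.R271.Disc846
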