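import Crest.Agent.R271.H9_51
import Crest.Agent.R271.T2_361

/-!
# Row 271, analytic engine (H): the Hörmander engine, unconditional (helper51)
-/

set_option autoImplicit false

open MeasureTheory
open scoped ENNReal

namespace Crest.Agent.R271.Ho51

/-- **the a priori inequality** (T2, helper361) -/
theorem aprioriAll {n : ℕ} {M : Type*} [TopologicalSpace M] [T2Space M]
    [SecondCountableTopology M] [RDom n M]
    [MeasurableSpace M] [BorelSpace M] {μ : Measure M} (hμ : IsLeb μ) : H88.Apriori μ :=
  fun φ ψ hφ hψ f hf hc => H361.apriori hμ φ ψ hφ hψ f hf hc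

/-- **the engine**: `EngineP` -/
theorem engineP : Ball399.EngineP :=
  engineP_of fun _ _ _ _ _ _ _ _ _ hμ => aprioriAll hμ

end Crest.Agent.R271.Ho51
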