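import Crest.Agent.R271.Exi_302
import Crest.Agent.R271.CaseBF_376

/-!
# R271: `ExiMain`
-/

set_option autoImplicit false

namespace Crest.Agent.R271.Exi302

open Crest.Agent.R271.Defs710 Crest.Agent.R271.Assembly710

/-- **ExiMain** (Parts 4, 5.3, 6) -/
theorem exiMain : Assembly710.ExiMain := by
  refine exiMain_of (fun n X hn _ hB => ?_)
  obtain ⟨η₃, τ₀, hη, hτ, h⟩ := CaseBF376.caseBSum X hn hB
  obtain ⟨C₁, hC₁⟩ := X.ordbd
  exact ⟨C₁, η₃, τ₀, hη, hτ, fun τ h0 h1 => h τ h0 h1 C₁ (fun m f hf hne e he =>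
    hC₁ m f hf hne X.x e he)⟩

end Crest.Agent.R271.Exi302
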