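import Crest.Agent.R271.IIntLib_140

/-!
Row 271, team F, Part 3 of the blueprint: `Good`, `thr`, (A3), lower semicontinuity of the threshold,
scaling of filtrations, the filtration by the order at a point, the distance `fdist`.
-/

set_option autoImplicit false

open scoped ENNReal NNReal Topology BigOperators
open MeasureTheory Crest.Agent.R271.Defs710

noncomputable section

namespace Crest.Agent.R271.F140

variable {n : ℕ} {X : FCtx n}

/-! ### one ideal -/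

theorem IInt1_mono (hM : MonoFact X) {y : X.B →ₐ[ℂ] ℂ} {I J : Ideal X.B} {c c' : ℝ} (hI : I ≠ ⊥)
    (hIJ : I ≤ J) (hc : 0 ≤ c) (hcc : c' ≤ c)
    (h : IInt X.z y (fun _ : Unit => I) (fun _ => c)) :
    IInt X.z y (fun _ : Unit => J) (fun _ => c') :=
  hM y Unit _ _ _ _ (fun _ => hI) (fun _ => ne_bot_of_le_ne_bot hI hIJ) (fun _ => hcc)
    (fun _ => Or.inr ⟨hc, hIJ⟩) h

theorem pow_ne_bot {I : Ideal X.B} (hI : I ≠ ⊥) (k : ℕ) : I ^ k ≠ ⊥ := fun h =>
  hI (eq_zero_of_pow_eq_zero' h)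

theorem IInt1_pow (hP : ProdFact X) {y : X.B →ₐ[ℂ] ℂ} {I : Ideal X.B} (hI : I ≠ ⊥) (k : ℕ)
    (θ : ℝ) : IInt X.z y (fun _ : Unit => I ^ k) (fun _ => θ) ↔
      IInt X.z y (fun _ : Unit => I) (fun _ => θ * k) := by
  have h := hP y Empty Unit (fun e => e.elim) (fun e => e.elim) (fun _ => I) (fun _ => k) θ
    (fun e => e.elim) (fun _ => hI)
  have h1 := IInt_equiv X.z y (Equiv.emptySum Empty Unit).symm
    (Sum.elim (fun e : Empty => e.elim) (fun _ : Unit => ∏ j : Unit, (fun _ : Unit => I) j ^ k))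
    (Sum.elim (fun e : Empty => e.elim) (fun _ : Unit => θ))
  have h2 := IInt_equiv X.z y (Equiv.emptySum Empty Unit).symm
    (Sum.elim (fun e : Empty => e.elim) (fun _ : Unit => I))
    (Sum.elim (fun e : Empty => e.elim) (fun _ : Unit => θ * k))
  simp only [Equiv.emptySum_symm_apply, Sum.elim_inr, Finset.univ_unique,
    Finset.prod_singleton] at h1 h2 h
  exact h1.trans (h.trans h2.symm)

/-- the unit ideal is integrable -/
theorem IInt_top (hC : ChartEx X) (y : X.B →ₐ[ℂ] ℂ) (c : ℝ) :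
    IInt X.z y (fun _ : Unit => (⊤ : Ideal X.B)) (fun _ => c) := by
  obtain ⟨C⟩ := hC y
  refine ⟨fun _ => {1}, fun _ => by simp, C, Metric.ball 0 1, Metric.ball_mem_nhds _ one_pos, ?_⟩
  have h : ∀ ζ : Cn n, wB (fun _ : Unit => ({1} : Finset X.B)) (fun _ => c) (C.s ζ) = 1 := by
    intro ζ
    simp [wB, wt]
  simp only [h]
  rw [lintegral_const, Measure.restrict_apply_univ, one_mul]
  exact measure_ball_lt_top

/-! ### `Good` -/

theorem idl_ne_bot_of_IInt {F : Filt X.V} {y : X.B →ₐ[ℂ] ℂ} {k : ℕ} (hk : 1 ≤ k) {l : ℝ}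
    (h : IInt X.z y (fun _ : Unit => idl F l) (fun _ => 1 / (k : ℝ))) : idl F l ≠ ⊥ :=
  ne_bot_of_IInt X.z y _ _ (by have : (0 : ℝ) < k := by exact_mod_cast hk
                               positivity) h

theorem Good_anti (hM : MonoFact X) {F : Filt X.V} {y : X.B →ₐ[ℂ] ℂ} {l l' : ℝ} (hl : l' ≤ l)
    (h : Good X.z F y l) : Good X.z F y l' := by
  obtain ⟨k, hk, h⟩ := h
  exact ⟨k, hk, IInt1_mono hM (idl_ne_bot_of_IInt hk h)
    (idl_anti F (mul_le_mul_of_nonneg_left hl (Nat.cast_nonneg k))) (by positivity) le_rfl h⟩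

/-- level `l` integrable with denominator `k` gives the same with denominator `k N` -/
theorem Good_mul (hM : MonoFact X) (hP : ProdFact X) {F : Filt X.V} {y : X.B →ₐ[ℂ] ℂ} {l : ℝ}
    {k N : ℕ} (hk : 1 ≤ k) (hN : 1 ≤ N)
    (h : IInt X.z y (fun _ : Unit => idl F (k * l)) (fun _ => 1 / (k : ℝ))) :
    IInt X.z y (fun _ : Unit => idl F ((k * N : ℕ) * l)) (fun _ => 1 / ((k * N : ℕ) : ℝ)) := by
  have hk0 : (0 : ℝ) < k := by exact_mod_cast hk
  have hN0 : (0 : ℝ) < N := by exact_mod_cast hN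
  have hne := idl_ne_bot_of_IInt hk h
  have h1 : IInt X.z y (fun _ : Unit => idl F (k * l) ^ N) (fun _ => 1 / ((k * N : ℕ) : ℝ)) := by
    rw [IInt1_pow hP hne]
    have : 1 / ((k * N : ℕ) : ℝ) * N = 1 / (k : ℝ) := by
      push_cast; field_simp
    rwa [this]
  refine IInt1_mono hM (pow_ne_bot hne N) ?_ (by positivity) le_rfl h1
  refine (idl_pow (one_mem_V X) F _ N).trans (le_of_eq ?_)
  congr 1; push_cast; ring

theorem Good_of_nonpos (hC : ChartEx X) (F : Filt X.V) (y : X.B →ₐ[ℂ] ℂ) {l : ℝ} (hl : l ≤ 0) :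
    Good X.z F y l := by
  refine ⟨1, le_rfl, ?_⟩
  rw [idl_nonpos (one_mem_V X) F (by simpa using hl)]
  exact IInt_top hC y _

theorem le_thr {F : Filt X.V} {y : X.B →ₐ[ℂ] ℂ} {l : ℝ} (h : Good X.z F y l) :
    ENNReal.ofReal l ≤ thr X.z F y := by
  rcases le_total 0 l with h0 | h0
  · have hc : ((l.toNNReal : ℝ≥0) : ℝ) = l := Real.coe_toNNReal l h0
    refine le_iSup₂_of_le (l.toNNReal) ?_ le_rfl
    rw [hc]
    exact h
  · rw [ENNReal.ofReal_of_nonpos h0]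
    exact bot_le

theorem thr_le_iff {F : Filt X.V} {y : X.B →ₐ[ℂ] ℂ} {a : ℝ≥0∞} :
    thr X.z F y ≤ a ↔ ∀ l : ℝ, Good X.z F y l → ENNReal.ofReal l ≤ a := by
  constructor
  · intro h l hl
    exact (le_thr hl).trans h
  · intro h
    refine iSup₂_le fun l hl => ?_
    have := h l hl
    rwa [ENNReal.ofReal_coe_nnreal] at this

theorem thr_le_ofReal_iff {F : Filt X.V} {y : X.B →ₐ[ℂ] ℂ} {a : ℝ} (ha : 0 ≤ a) :
    thr X.z F y ≤ ENNReal.ofReal a ↔ ∀ l : ℝ, Good X.z F y l → l ≤ a := by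
  rw [thr_le_iff]
  refine forall₂_congr fun l _ => ?_
  exact ENNReal.ofReal_le_ofReal_iff ha

theorem good_of_lt_thr (hC : ChartEx X) (hM : MonoFact X) {F : Filt X.V} {y : X.B →ₐ[ℂ] ℂ} {l : ℝ}
    (h : ENNReal.ofReal l < thr X.z F y) : Good X.z F y l := by
  rcases le_total l 0 with h0 | h0
  · exact Good_of_nonpos hC F y h0
  · obtain ⟨l', hl'⟩ := lt_iSup_iff.1 h
    obtain ⟨hg, hlt⟩ := lt_iSup_iff.1 hl'
    refine Good_anti hM ?_ hg
    rw [ENNReal.ofReal_lt_coe_iff h0] at hlt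
    exact hlt.le

/-- `Good l` for all `l < A` is the same as `A ≤ thr` -/
theorem le_thr_of_forall_lt {F : Filt X.V} {y : X.B →ₐ[ℂ] ℂ} {A : ℝ}
    (h : ∀ l < A, Good X.z F y l) : ENNReal.ofReal A ≤ thr X.z F y := by
  refine le_of_forall_lt fun c hc => ?_
  have hcfin : c ≠ ∞ := ne_top_of_lt hc
  have hc' : c.toReal < A := by
    by_contra hcon
    push Not at hcon
    have := ENNReal.ofReal_le_ofReal hcon
    rw [ENNReal.ofReal_toReal hcfin] at this
    exact absurd hc (not_lt.2 this)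
  obtain ⟨l, hl1, hl2⟩ := exists_between hc'
  calc c = ENNReal.ofReal c.toReal := (ENNReal.ofReal_toReal hcfin).symm
    _ < ENNReal.ofReal l := by
        rw [ENNReal.ofReal_lt_ofReal_iff_of_nonneg ENNReal.toReal_nonneg]; exact hl1
    _ ≤ thr X.z F y := le_thr (h l hl2)

/-- thresholds are monotone in the filtration -/
theorem Good_mono (hM : MonoFact X) {F G : Filt X.V} (hFG : ∀ m l, F.F m l ≤ G.F m l)
    {y : X.B →ₐ[ℂ] ℂ} {l : ℝ} (h : Good X.z F y l) : Good X.z G y l := by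
  obtain ⟨k, hk, h⟩ := h
  refine ⟨k, hk, IInt1_mono hM (idl_ne_bot_of_IInt hk h) ?_ (by positivity) le_rfl h⟩
  refine Ideal.span_mono ?_
  rintro b ⟨m, hb⟩
  exact ⟨m, hFG m _ hb⟩

theorem thr_mono (hM : MonoFact X) {F G : Filt X.V} (hFG : ∀ m l, F.F m l ≤ G.F m l)
    (y : X.B →ₐ[ℂ] ℂ) : thr X.z F y ≤ thr X.z G y :=
  thr_le_iff.2 fun _ hl => le_thr (Good_mono hM hFG hl)

/-! ### (A3) -/

/-- (A3) -/
theorem good_of_notMem (af : AFacts X) (F : Filt X.V) {y : X.B →ₐ[ℂ] ℂ} {m e : ℕ} {l μ : ℝ}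
    {f : X.B} (hf : f ∈ F.F m l) (hfe : f ∉ mI y ^ (e + 1)) (hμ : μ * e < l) (hl : 0 < l) :
    Good X.z F y μ := by
  rcases le_or_gt μ 0 with h0 | h0
  · exact Good_of_nonpos af.chart F y h0
  have hne : f ≠ 0 := fun h => hfe (h ▸ Ideal.zero_mem _)
  have hsp : Ideal.span {f} ≠ ⊥ := fun h => hne (Ideal.span_singleton_eq_bot.1 h)
  obtain ⟨c, hc1, hc2⟩ : ∃ c : ℝ, μ / l < c ∧ c * e < 1 := by
    rcases Nat.eq_zero_or_pos e with he | he
    · exact ⟨μ / l + 1, by linarith, by simp [he]⟩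
    · have he0 : (0 : ℝ) < e := by exact_mod_cast he
      have : μ / l < 1 / e := by
        rw [div_lt_div_iff₀ hl he0]; linarith
      obtain ⟨c, h1, h2⟩ := exists_between this
      refine ⟨c, h1, ?_⟩
      rwa [lt_div_iff₀ he0] at h2
  have hc0 : 0 ≤ c := le_trans (by positivity) hc1.le
  have h1 := af.ord y f e c hfe hc0 hc2
  have hle : Ideal.span {f} ≤ idl F l := by
    rw [Ideal.span_singleton_le_iff_mem]
    exact mem_idl F hf
  have h2 := IInt1_mono af.mono hsp hle hc0 le_rfl h1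
  refine good_of_IInt af.mono af.prod F (κ := Unit) (l := fun _ => l) (d := fun _ => c)
    (fun _ => ne_bot_of_le_ne_bot hsp hle) (fun _ => hc0) h2 ?_
  rw [div_lt_iff₀ hl] at hc1
  simpa using hc1

/-- (A3), consequence: a finite threshold bounds the jumps of `F` -/
theorem F_eq_bot (af : AFacts X) {C₁ : ℕ}
    (hC₁ : ∀ m, ∀ f ∈ X.V m, f ≠ 0 → ∀ (y : X.B →ₐ[ℂ] ℂ) (e : ℕ), f ∈ mI y ^ e → e ≤ C₁ * m)
    (F : Filt X.V) {y : X.B →ₐ[ℂ] ℂ} {A : ℝ} (hA0 : 0 ≤ A)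
    (hA : thr X.z F y ≤ ENNReal.ofReal A) {m : ℕ} {l : ℝ} (hl : A * (C₁ * m) < l) :
    F.F m l = ⊥ := by
  rw [thr_le_ofReal_iff hA0] at hA
  by_contra hne
  obtain ⟨f, hf, hf0⟩ := Submodule.exists_mem_ne_zero_of_ne_bot hne
  have hnot : f ∉ mI y ^ (C₁ * m + 1) := fun h => by
    have := hC₁ m f (F.le_V m l hf) hf0 y _ h
    omega
  have hC0 : (0 : ℝ) ≤ C₁ * m := by positivity
  have hl0 : 0 < l := lt_of_le_of_lt (mul_nonneg hA0 hC0) hl
  obtain ⟨μ, hμ1, hμ2⟩ : ∃ μ : ℝ, A < μ ∧ μ * (C₁ * m) < l := by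
    rcases hC0.eq_or_lt with h | h
    · exact ⟨A + 1, by linarith, by rw [← h]; linarith⟩
    · have : A < l / (C₁ * m) := by rwa [lt_div_iff₀ h]
      obtain ⟨μ, h1, h2⟩ := exists_between this
      exact ⟨μ, h1, by rwa [lt_div_iff₀ h] at h2⟩
  have := hA μ (good_of_notMem af F hf hnot (by push_cast; exact hμ2) hl0)
  linarith

/-! ### lower semicontinuity -/

/-- ideals `𝔞_l(F)` are generated in bounded degree -/
theorem exists_bound_idl (F : Filt X.V) (l : ℝ) :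
    ∃ D : ℕ, idl F l = Ideal.span {b | ∃ m ≤ D, b ∈ F.F m l} := by
  classical
  have := noeth X
  obtain ⟨T, hTsub, hT⟩ := Submodule.fg_span_iff_fg_span_finset_subset
    {b : X.B | ∃ m, b ∈ F.F m l} |>.1 ((isNoetherianRing_iff_ideal_fg X.B).1 this
      (Ideal.span {b : X.B | ∃ m, b ∈ F.F m l}))
  have hdeg : ∀ b : X.B, ∃ m : ℕ, b ∈ T → b ∈ F.F m l := by
    intro b
    by_cases hb : b ∈ T
    · obtain ⟨m, hm⟩ := hTsub hb
      exact ⟨m, fun _ => hm⟩
    · exact ⟨0, fun h => absurd h hb⟩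
  choose d hd using hdeg
  refine ⟨T.sup d, le_antisymm ?_ ?_⟩
  · unfold idl
    change Submodule.span X.B {b : X.B | ∃ m, b ∈ F.F m l} ≤ _
    rw [hT]
    refine Ideal.span_mono ?_
    intro b hb
    exact ⟨d b, Finset.le_sup (f := d) hb, hd b hb⟩
  · refine Ideal.span_mono ?_
    rintro b ⟨m, -, hb⟩
    exact ⟨m, hb⟩

/-- lower semicontinuity of the threshold -/
theorem good_lsc (hM : MonoFact X) (F : Filt X.V) {y : X.B →ₐ[ℂ] ℂ} {l l' : ℝ} (hl : l' < l)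
    (h : Good X.z F y l) :
    ∃ e : ℝ, 0 < e ∧ ∀ G : Filt X.V, (∀ (m : ℕ) (l : ℝ), F.F m l ≤ G.F m (l - e * m)) →
      Good X.z G y l' := by
  obtain ⟨k, hk, h⟩ := h
  have hk0 : (0 : ℝ) < k := by exact_mod_cast hk
  obtain ⟨D, hD⟩ := exists_bound_idl F (k * l)
  refine ⟨k * (l - l') / (D + 1), by
    have : 0 < l - l' := by linarith
    positivity, ?_⟩
  intro G hG
  refine ⟨k, hk, IInt1_mono hM (idl_ne_bot_of_IInt hk h) ?_ (by positivity) le_rfl h⟩
  rw [hD]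
  refine Ideal.span_mono ?_
  rintro b ⟨m, hm, hb⟩
  refine ⟨m, G.anti m ?_ (hG m _ hb)⟩
  have hmD : (m : ℝ) ≤ D := by exact_mod_cast hm
  have h1 : k * (l - l') / ((D : ℝ) + 1) * m ≤ k * (l - l') := by
    rw [div_mul_eq_mul_div, div_le_iff₀ (by positivity)]
    have : 0 ≤ k * (l - l') := by
      have : 0 < l - l' := by linarith
      positivity
    nlinarith
  linarith

theorem lt_thr_lsc (hM : MonoFact X) (F : Filt X.V) {y : X.B →ₐ[ℂ] ℂ} {a : ℝ≥0∞}
    (h : a < thr X.z F y) :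
    ∃ e : ℝ, 0 < e ∧ ∀ G : Filt X.V, (∀ (m : ℕ) (l : ℝ), F.F m l ≤ G.F m (l - e * m)) →
      a < thr X.z G y := by
  obtain ⟨l, hl⟩ := lt_iSup_iff.1 h
  obtain ⟨hg, hlt⟩ := lt_iSup_iff.1 hl
  obtain ⟨b, hab, hbl⟩ := ENNReal.lt_iff_exists_nnreal_btwn.1 hlt
  have hbl' : (b : ℝ) < l := by exact_mod_cast hbl
  obtain ⟨e, he, H⟩ := good_lsc hM F hbl' hg
  refine ⟨e, he, fun G hG => lt_of_lt_of_le hab ?_⟩
  have := le_thr (H G hG)
  rwa [ENNReal.ofReal_coe_nnreal] at this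

/-! ### the distance -/

section dist

variable {B : Type} [CommRing B] [Algebra ℂ B] {V : ℕ → Submodule ℂ B}

/-- `e` is an admissible distance of `F` and `G` -/
def Adm (F G : Filt V) (e : ℝ) : Prop :=
  0 ≤ e ∧ ∀ m l, F.F m l ≤ G.F m (l - e * m) ∧ G.F m l ≤ F.F m (l - e * m)

theorem Adm.mono {F G : Filt V} {e e' : ℝ} (h : Adm F G e) (hee : e ≤ e') : Adm F G e' := by
  refine ⟨h.1.trans hee, fun m l => ⟨(h.2 m l).1.trans (G.anti m ?_),
    (h.2 m l).2.trans (F.anti m ?_)⟩⟩ <;>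
  · have : e * m ≤ e' * m := mul_le_mul_of_nonneg_right hee (Nat.cast_nonneg m)
    linarith

theorem Adm.symm {F G : Filt V} {e : ℝ} (h : Adm F G e) : Adm G F e :=
  ⟨h.1, fun m l => ⟨(h.2 m l).2, (h.2 m l).1⟩⟩

theorem Adm.refl (F : Filt V) : Adm F F 0 := ⟨le_rfl, fun m l => by simp⟩

theorem Adm.trans {F G H : Filt V} {e e' : ℝ} (h : Adm F G e) (h' : Adm G H e') :
    Adm F H (e + e') := by
  refine ⟨add_nonneg h.1 h'.1, fun m l => ⟨?_, ?_⟩⟩
  · refine (h.2 m l).1.trans (((h'.2 m _).1).trans (le_of_eq ?_))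
    congr 1; ring
  · refine (h'.2 m l).2.trans (((h.2 m _).2).trans (le_of_eq ?_))
    congr 1; ring

theorem exists_adm (F G : Filt V) : ∃ e, Adm F G e := by
  obtain ⟨C, hC⟩ := F.bdd
  obtain ⟨C', hC'⟩ := G.bdd
  have key : ∀ (F G : Filt V) (C e : ℝ), C ≤ e → (∀ (m : ℕ) (l : ℝ), C * m < l → F.F m l = ⊥) →
      ∀ (m : ℕ) (l : ℝ), F.F m l ≤ G.F m (l - e * m) := by
    intro F G C e hCe hC m l
    rcases lt_or_ge (C * m) l with h | h
    · rw [hC m l h]; exact bot_le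
    · rw [G.zero m (l - e * m)]
      · exact F.le_V m l
      · have : C * m ≤ e * m := mul_le_mul_of_nonneg_right hCe (Nat.cast_nonneg m)
        linarith
  refine ⟨max 0 (max C C'), le_max_left _ _, fun m l => ⟨?_, ?_⟩⟩
  · exact key F G C _ ((le_max_left _ _).trans (le_max_right _ _)) hC m l
  · exact key G F C' _ ((le_max_right _ _).trans (le_max_right _ _)) hC' m l

theorem fdist_eq (F G : Filt V) : fdist F G = sInf {e | Adm F G e} := rfl

theorem fdist_le {F G : Filt V} {e : ℝ} (h : Adm F G e) : fdist F G ≤ e :=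
  csInf_le ⟨0, fun _ he => he.1⟩ h

theorem fdist_nonneg (F G : Filt V) : 0 ≤ fdist F G :=
  le_csInf (exists_adm F G) fun _ he => he.1

theorem adm_of_fdist_lt {F G : Filt V} {e : ℝ} (h : fdist F G < e) : Adm F G e := by
  obtain ⟨e', he', hlt⟩ := exists_lt_of_csInf_lt (exists_adm F G) h
  exact Adm.mono he' hlt.le

/-- the distance is attained -/
theorem adm_fdist (F G : Filt V) : Adm F G (fdist F G) := by
  have key : ∀ (F G : Filt V) (d : ℝ), (∀ e, d < e → ∀ m l, F.F m l ≤ G.F m (l - e * m)) →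
      ∀ m l, F.F m l ≤ G.F m (l - d * m) := by
    intro F G d hd m l b hb
    refine G.cont m _ b fun l' hl' => ?_
    have : ∃ e, d < e ∧ l' ≤ l - e * m := by
      refine ⟨d + (l - d * m - l') / (m + 1), ?_, ?_⟩
      · have : 0 < (l - d * m - l') / ((m : ℝ) + 1) := div_pos (by linarith) (by positivity)
        linarith
      · have : (l - d * m - l') / ((m : ℝ) + 1) * m ≤ l - d * m - l' := by
          rw [div_mul_eq_mul_div, div_le_iff₀ (by positivity)]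
          nlinarith
        nlinarith
    obtain ⟨e, he, hle⟩ := this
    exact G.anti m hle (hd e he m l hb)
  refine ⟨fdist_nonneg F G, fun m l => ⟨?_, ?_⟩⟩
  · exact key F G _ (fun e he m l => ((adm_of_fdist_lt he).2 m l).1) m l
  · exact key G F _ (fun e he m l => ((adm_of_fdist_lt he).2 m l).2) m l

theorem fdist_le_iff {F G : Filt V} {e : ℝ} : fdist F G ≤ e ↔ Adm F G e :=
  ⟨fun h => Adm.mono (adm_fdist F G) h, fdist_le⟩

theorem fdist_symm (F G : Filt V) : fdist F G = fdist G F :=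
  le_antisymm (fdist_le (adm_fdist G F).symm) (fdist_le (adm_fdist F G).symm)

theorem fdist_triangle (F G H : Filt V) : fdist F H ≤ fdist F G + fdist G H :=
  fdist_le ((adm_fdist F G).trans (adm_fdist G H))

theorem fdist_self (F : Filt V) : fdist F F = 0 :=
  le_antisymm (fdist_le (Adm.refl F)) (fdist_nonneg F F)

theorem Filt.ext' {F G : Filt V} (h : ∀ m l, F.F m l = G.F m l) : F = G := by
  cases F; cases G
  congr
  funext m l
  exact h m l

theorem eq_of_fdist_eq_zero {F G : Filt V} (h : fdist F G = 0) : F = G := by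
  have := adm_fdist F G
  rw [h] at this
  refine Filt.ext' fun m l => le_antisymm ?_ ?_
  · simpa using (this.2 m l).1
  · simpa using (this.2 m l).2

end dist

/-! ### scaling -/

section scale

variable {B : Type} [CommRing B] [Algebra ℂ B] {V : ℕ → Submodule ℂ B}

/-- the filtration `F_{l/s}` -/
def scale (s : ℝ) (hs : 0 < s) (F : Filt V) : Filt V where
  F m l := F.F m (l / s)
  le_V m l := F.le_V m _
  zero m l hl := F.zero m _ (div_nonpos_of_nonpos_of_nonneg hl hs.le)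
  anti m _ _ h := F.anti m (div_le_div_of_nonneg_right h hs.le)
  cont m l b h := by
    refine F.cont m _ b fun l' hl' => ?_
    have := h (l' * s) (by rwa [lt_div_iff₀ hs] at hl')
    rwa [mul_div_cancel_right₀ _ hs.ne'] at this
  mul m l m' l' a b ha hb := by
    rw [add_div]
    exact F.mul m _ m' _ a b ha hb
  bdd := by
    obtain ⟨C, hC⟩ := F.bdd
    refine ⟨C * s, fun m l h => hC m _ ?_⟩
    rw [lt_div_iff₀ hs]
    linarith

theorem scale_F (s : ℝ) (hs : 0 < s) (F : Filt V) (m : ℕ) (l : ℝ) :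
    (scale s hs F).F m l = F.F m (l / s) := rfl

theorem idl_scale (s : ℝ) (hs : 0 < s) (F : Filt V) (l : ℝ) :
    idl (scale s hs F) l = idl F (l / s) := rfl

theorem good_scale {n : ℕ} (z : Fin n → B) (s : ℝ) (hs : 0 < s) (F : Filt V) (y : B →ₐ[ℂ] ℂ)
    (l : ℝ) : Good z (scale s hs F) y l ↔ Good z F y (l / s) := by
  unfold Good
  simp only [idl_scale, mul_div_assoc]

end scale

theorem thr_scale (s : ℝ) (hs : 0 < s) (F : Filt X.V) (y : X.B →ₐ[ℂ] ℂ) :
    thr X.z (scale s hs F) y = ENNReal.ofReal s * thr X.z F y := by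
  have hs0 : ENNReal.ofReal s ≠ 0 := by simpa using hs
  have hst : ENNReal.ofReal s ≠ ∞ := ENNReal.ofReal_ne_top
  refine le_antisymm ?_ ?_
  · refine thr_le_iff.2 fun l hl => ?_
    rw [good_scale] at hl
    have h1 := le_thr hl
    calc ENNReal.ofReal l = ENNReal.ofReal (s * (l / s)) := by
          congr 1; field_simp
      _ = ENNReal.ofReal s * ENNReal.ofReal (l / s) := ENNReal.ofReal_mul hs.le
      _ ≤ _ := by gcongr
  · rw [mul_comm, ← ENNReal.le_div_iff_mul_le (Or.inl hs0) (Or.inl hst)]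
    refine thr_le_iff.2 fun l hl => ?_
    rw [ENNReal.le_div_iff_mul_le (Or.inl hs0) (Or.inl hst), mul_comm, ← ENNReal.ofReal_mul hs.le]
    refine le_thr ?_
    rw [good_scale, mul_div_cancel_left₀ _ hs.ne']
    exact hl

/-! ### the filtration by the order at a point -/

/-- `F m l = V m ⊓ 𝔪_y^⌈l/s⌉` -/
def ordFilt (X : FCtx n) (y : X.B →ₐ[ℂ] ℂ) (s : ℝ) (hs : 0 < s) : Filt X.V where
  F m l := X.V m ⊓ (mI y ^ ⌈l / s⌉₊).restrictScalars ℂ
  le_V m l := inf_le_left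
  zero m l hl := by
    have : ⌈l / s⌉₊ = 0 := Nat.ceil_eq_zero.2 (div_nonpos_of_nonpos_of_nonneg hl hs.le)
    rw [this, pow_zero, Ideal.one_eq_top]
    simp
  anti m l l' h := by
    refine inf_le_inf_left _ ?_
    intro b hb
    exact Ideal.pow_le_pow_right (Nat.ceil_mono (div_le_div_of_nonneg_right h hs.le)) hb
  cont m l b h := by
    have hV : b ∈ X.V m := (h (l - 1) (by linarith)).1
    refine ⟨hV, ?_⟩
    change b ∈ mI y ^ ⌈l / s⌉₊
    rcases Nat.eq_zero_or_pos ⌈l / s⌉₊ with h0 | h0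
    · rw [h0, pow_zero, Ideal.one_eq_top]; trivial
    · have h1 : ((⌈l / s⌉₊ - 1 : ℕ) : ℝ) < l / s := Nat.lt_ceil.1 (Nat.sub_lt h0 one_pos)
      obtain ⟨u, hu1, hu2⟩ := exists_between h1
      have h2 := (h (u * s) (by rwa [← lt_div_iff₀ hs])).2
      change b ∈ mI y ^ ⌈u * s / s⌉₊ at h2
      rw [mul_div_cancel_right₀ _ hs.ne'] at h2
      refine Ideal.pow_le_pow_right ?_ h2
      have := Nat.lt_ceil.2 hu1
      omega
  mul m l m' l' a b ha hb := by
    refine ⟨X.V_mul m m' a b ha.1 hb.1, ?_⟩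
    have ha2 : a ∈ mI y ^ ⌈l / s⌉₊ := ha.2
    have hb2 : b ∈ mI y ^ ⌈l' / s⌉₊ := hb.2
    have := Ideal.mul_mem_mul ha2 hb2
    rw [← pow_add] at this
    refine Ideal.pow_le_pow_right ?_ this
    rw [add_div]
    exact Nat.ceil_add_le _ _
  bdd := by
    obtain ⟨C₁, hC₁⟩ := X.ordbd
    refine ⟨s * C₁, fun m l h => ?_⟩
    rw [Submodule.eq_bot_iff]
    rintro f ⟨hf1, hf2⟩
    by_contra hne
    have h1 := hC₁ m f hf1 hne y _ hf2
    have h2 : l / s ≤ (C₁ * m : ℕ) := (Nat.le_ceil _).trans (by exact_mod_cast h1)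
    rw [div_le_iff₀ hs] at h2
    push_cast at h2
    nlinarith

theorem idl_ordFilt_le (y : X.B →ₐ[ℂ] ℂ) (s : ℝ) (hs : 0 < s) (l : ℝ) :
    idl (ordFilt X y s hs) l ≤ mI y ^ ⌈l / s⌉₊ := by
  refine Ideal.span_le.2 ?_
  rintro b ⟨m, hb⟩
  exact hb.2

theorem thr_ordFilt_le (af : AFacts X) (hn : 1 ≤ n) (y : X.B →ₐ[ℂ] ℂ) (s : ℝ) (hs : 0 < s) :
    thr X.z (ordFilt X y s hs) y ≤ ENNReal.ofReal (s * n) := by
  rw [thr_le_ofReal_iff (by positivity)]
  rintro l ⟨k, hk, h⟩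
  by_contra hlt
  push Not at hlt
  have hk0 : (0 : ℝ) < k := by exact_mod_cast hk
  refine af.nonint y (idl (ordFilt X y s hs) (k * l)) ⌈k * l / s⌉₊ (1 / (k : ℝ))
    (idl_ordFilt_le y s hs _) ?_ hn h
  have h1 : k * l / s ≤ ⌈k * l / s⌉₊ := Nat.le_ceil _
  have h2 : (n : ℝ) * k ≤ k * l / s := by
    rw [le_div_iff₀ hs]
    nlinarith
  rw [one_div, inv_mul_eq_div, le_div_iff₀ hk0]
  linarith

/-! ### points -/

/-- Nullstellensatz: every proper ideal is contained in the maximal ideal of a point -/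
theorem exists_point (X : FCtx n) (I : Ideal X.B) (hI : I ≠ ⊤) : ∃ y : X.B →ₐ[ℂ] ℂ, I ≤ mI y := by
  obtain ⟨M, hM, hIM⟩ := Ideal.exists_le_maximal I hI
  have hft := X.ft
  let _ : Field (X.B ⧸ M) := Ideal.Quotient.field M
  have hft' : Algebra.FiniteType ℂ (X.B ⧸ M) :=
    Algebra.FiniteType.of_surjective (Ideal.Quotient.mkₐ ℂ M) (Ideal.Quotient.mkₐ_surjective ℂ M)
  have hfin : Module.Finite ℂ (X.B ⧸ M) := finite_of_finite_type_of_isJacobsonRing ℂ (X.B ⧸ M)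
  have hbij : Function.Bijective (algebraMap ℂ (X.B ⧸ M)) :=
    IsAlgClosed.algebraMap_bijective_of_isIntegral
  let e : ℂ ≃ₐ[ℂ] (X.B ⧸ M) := AlgEquiv.ofBijective (Algebra.ofId ℂ (X.B ⧸ M)) hbij
  refine ⟨(e.symm : (X.B ⧸ M) →ₐ[ℂ] ℂ).comp (Ideal.Quotient.mkₐ ℂ M), fun b hb => ?_⟩
  change (e.symm : (X.B ⧸ M) →ₐ[ℂ] ℂ) (Ideal.Quotient.mkₐ ℂ M b) = 0
  have : Ideal.Quotient.mkₐ ℂ M b = 0 := Ideal.Quotient.eq_zero_iff_mem.2 (hIM hb)
  rw [this, map_zero]

theorem mem_mI {B : Type} [CommRing B] [Algebra ℂ B] (y : B →ₐ[ℂ] ℂ) (b : B) :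
    b ∈ mI y ↔ y b = 0 := by
  unfold mI
  rw [RingHom.mem_ker]
  rfl

/-- `V j` generates the unit ideal for large `j` -/
theorem span_V_eq_top (X : FCtx n) : ∃ j₀ : ℕ, ∀ j, j₀ ≤ j → Ideal.span (X.V j : Set X.B) = ⊤ := by
  obtain ⟨j₀, hj₀⟩ := X.jets 0
  refine ⟨j₀, fun j hj => ?_⟩
  by_contra hne
  obtain ⟨y, hy⟩ := exists_point X _ hne
  obtain ⟨f, hf, hf1⟩ := hj₀ j hj y 1
  rw [zero_add, pow_one, mem_mI, map_sub, map_one, sub_eq_zero] at hf1
  have : f ∈ mI y := hy (Ideal.subset_span hf)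
  rw [mem_mI, hf1] at this
  exact one_ne_zero this

end Crest.Agent.R271.F140
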