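import Crest.Agent.R271.Gibbs_302

/-!
# R271, (4.2): generating function bounds from polynomial growth
-/

set_option autoImplicit false

open Real Finset

namespace Crest.Agent.R271.Gibbs302

lemma half_le_one_sub_exp {s : ℝ} (hs : 0 < s) (hs1 : s ≤ 1) : s / 2 ≤ 1 - exp (-s) := by
  -- `exp (-s) ≤ 1/(1+s)`
  have h1 := add_one_le_exp s
  have h2 : exp (-s) * exp s = 1 := by rw [← exp_add]; simp
  have h3 : exp (-s) ≤ 1 / (1 + s) := by
    rw [le_div_iff₀ (by linarith)]
    calc exp (-s) * (1 + s) ≤ exp (-s) * exp s :=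
          mul_le_mul_of_nonneg_left (by linarith) (exp_pos _).le
      _ = 1 := h2
  have h4 : 1 / (1 + s) ≤ 1 - s / 2 := by
    rw [div_le_iff₀ (by linarith)]
    nlinarith
  linarith

lemma pow_le_choose (m n : ℕ) : ((m : ℝ) + 1) ^ n ≤ n.factorial * ((m + n).choose n : ℝ) := by
  have h1 : (m + 1) ^ n ≤ (m + 1).ascFactorial n := Nat.pow_succ_le_ascFactorial (m + 1) n
  rw [Nat.ascFactorial_eq_factorial_mul_choose] at h1
  exact_mod_cast h1

/-- summability of `(m+1)^n exp (-s m)` -/
lemma summable_pow_exp (n : ℕ) {s : ℝ} (hs : 0 < s) :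
    Summable fun m : ℕ => ((m : ℝ) + 1) ^ n * exp (-(s * m)) := by
  have hr : ‖exp (-s)‖ < 1 := by
    rw [Real.norm_eq_abs, abs_of_pos (exp_pos _)]
    exact exp_lt_one_iff.mpr (by linarith)
  have h1 := (summable_choose_mul_geometric_of_norm_lt_one n hr).mul_left (n.factorial : ℝ)
  refine Summable.of_nonneg_of_le (fun m => by positivity) (fun m => ?_) h1
  have h2 : exp (-(s * m)) = exp (-s) ^ m := by
    rw [← exp_nat_mul]; congr 1; ring
  rw [h2, ← mul_assoc]
  exact mul_le_mul_of_nonneg_right (pow_le_choose m n) (by positivity)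

lemma tsum_pow_exp_le (n : ℕ) {s : ℝ} (hs : 0 < s) (hs1 : s ≤ 1) :
    ∑' m : ℕ, ((m : ℝ) + 1) ^ n * exp (-(s * m)) ≤ (n.factorial * 2 ^ (n + 1)) / s ^ (n + 1) := by
  have hr : ‖exp (-s)‖ < 1 := by
    rw [Real.norm_eq_abs, abs_of_pos (exp_pos _)]
    exact exp_lt_one_iff.mpr (by linarith)
  have h0 := (summable_choose_mul_geometric_of_norm_lt_one n hr).mul_left (n.factorial : ℝ)
  have h1 := (summable_pow_exp n hs).tsum_le_tsum (fun m => ?_) h0
  · rw [tsum_mul_left, tsum_choose_mul_geometric_of_norm_lt_one n hr] at h1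
    refine h1.trans ?_
    have h2 := half_le_one_sub_exp hs hs1
    have h3 : (s / 2) ^ (n + 1) ≤ (1 - exp (-s)) ^ (n + 1) :=
      pow_le_pow_left₀ (by positivity) h2 _
    rw [mul_div_assoc]
    apply mul_le_mul_of_nonneg_left _ (by positivity)
    rw [div_le_div_iff₀ (by apply pow_pos; linarith) (by positivity)]
    rw [div_pow] at h3
    have h4 : s ^ (n + 1) ≤ 2 ^ (n + 1) * (1 - exp (-s)) ^ (n + 1) := by
      rw [div_le_iff₀ (by positivity)] at h3
      linarith
    linarith
  · have h2 : exp (-(s * m)) = exp (-s) ^ m := by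
      rw [← exp_nat_mul]; congr 1; ring
    rw [h2, ← mul_assoc]
    exact mul_le_mul_of_nonneg_right (pow_le_choose m n) (by positivity)

/-- Growth structure from polynomial bounds for the dimensions `N m`. -/
theorem growth_of_bounds (N : ℕ → ℕ) (n : ℕ) (Cu : ℝ) (hCu : ∀ m : ℕ, (N m : ℝ) ≤ Cu * ((m : ℝ) + 1) ^ n)
    (cl : ℝ) (hcl : 0 < cl) (m1 : ℕ) (hl : ∀ m : ℕ, m1 ≤ m → cl * (m : ℝ) ^ n ≤ N m)
    (h0 : 1 ≤ N 0) :
    ∃ c C : ℝ, Growth (fun p : (Σ m : ℕ, Fin (N m)) => (p.1 : ℝ)) n c C := by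
  classical
  have hCu0 : 0 ≤ Cu := by
    have h := hCu 0
    simp only [Nat.cast_zero, zero_add, one_pow, mul_one] at h
    have : (0 : ℝ) ≤ N 0 := Nat.cast_nonneg _
    linarith
  have hfib : ∀ (s : ℝ) (m : ℕ), (∑' _ : Fin (N m), exp (-(s * (m : ℝ)))) = N m * exp (-(s * m)) := by
    intro s m
    rw [tsum_fintype]; simp
  have hsum1 : ∀ s : ℝ, 0 < s → Summable fun m : ℕ => (N m : ℝ) * exp (-(s * m)) := by
    intro s hs
    have h1 := (summable_pow_exp n hs).mul_left Cu
    refine Summable.of_nonneg_of_le (fun m => by positivity) (fun m => ?_) h1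
    rw [← mul_assoc]
    exact mul_le_mul_of_nonneg_right (hCu m) (exp_pos _).le
  have hsum : ∀ s : ℝ, 0 < s →
      Summable fun p : (Σ m : ℕ, Fin (N m)) => exp (-(s * (p.1 : ℝ))) := by
    intro s hs
    rw [summable_sigma_of_nonneg (fun p => (exp_pos _).le)]
    refine ⟨fun m => (hasSum_fintype _).summable, ?_⟩
    simpa only [hfib] using hsum1 s hs
  have htsum : ∀ s : ℝ, 0 < s →
      ∑' p : (Σ m : ℕ, Fin (N m)), exp (-(s * (p.1 : ℝ))) = ∑' m : ℕ, (N m : ℝ) * exp (-(s * m)) := by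
    intro s hs
    rw [(hsum s hs).tsum_sigma' (fun m => (hasSum_fintype _).summable)]
    exact tsum_congr (fun m => hfib s m)
  -- lower constants
  set s0 : ℝ := 1 / ((m1 : ℝ) + 1) with hs0
  have hs0pos : 0 < s0 := by positivity
  have hs01 : s0 ≤ 1 := by
    rw [hs0, div_le_iff₀ (by positivity)]
    have : (0 : ℝ) ≤ m1 := Nat.cast_nonneg _
    linarith
  refine ⟨min (s0 ^ (n + 1)) (cl * exp (-4)), Cu * (n.factorial * 2 ^ (n + 1)), ?_, ?_, hsum, ?_, ?_⟩
  · exact lt_min (by positivity) (by positivity)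
  · intro p; exact Nat.cast_nonneg _
  · intro s hs hs1
    rw [htsum s hs]
    have h1 : ∑' m : ℕ, (N m : ℝ) * exp (-(s * m))
        ≤ ∑' m : ℕ, Cu * (((m : ℝ) + 1) ^ n * exp (-(s * m))) := by
      refine (hsum1 s hs).tsum_le_tsum (fun m => ?_) ((summable_pow_exp n hs).mul_left Cu)
      rw [← mul_assoc]
      exact mul_le_mul_of_nonneg_right (hCu m) (exp_pos _).le
    rw [tsum_mul_left] at h1
    refine h1.trans ?_
    rw [mul_div_assoc]
    exact mul_le_mul_of_nonneg_left (tsum_pow_exp_le n hs hs1) hCu0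
  · intro s hs
    rw [htsum s hs]
    rcases le_total s0 s with hcase | hcase
    · -- `N 0 ≥ 1`
      have h1 : (1 : ℝ) ≤ ∑' m : ℕ, (N m : ℝ) * exp (-(s * m)) := by
        have h2 := (hsum1 s hs).sum_le_tsum {0} (fun m _ => by positivity)
        simp only [Finset.sum_singleton, Nat.cast_zero, mul_zero, neg_zero, exp_zero, mul_one] at h2
        have h3 : (1 : ℝ) ≤ N 0 := by exact_mod_cast h0
        linarith
      refine le_trans ?_ h1
      rw [div_le_one (by positivity)]
      exact (min_le_left _ _).trans (pow_le_pow_left₀ hs0pos.le hcase _)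
    · -- block `[M, 2M)`, `M = ⌈1/s⌉`
      set M : ℕ := ⌈1 / s⌉₊ with hM
      have hM1 : 1 / s ≤ M := Nat.le_ceil _
      have hM2 : (M : ℝ) < 1 / s + 1 := Nat.ceil_lt_add_one (by positivity)
      have hMm : m1 ≤ M := by
        have h3 : (m1 : ℝ) + 1 ≤ 1 / s := by
          rw [le_div_iff₀ hs]
          rw [hs0, le_div_iff₀ (by positivity)] at hcase
          linarith
        have h4 : (m1 : ℝ) ≤ M := by linarith
        exact_mod_cast h4
      have hMs : (M : ℝ) * s ≤ 2 := by
        have h5 : (M : ℝ) * s < (1 / s + 1) * s := mul_lt_mul_of_pos_right hM2 hs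
        have h6 : (1 / s + 1) * s = 1 + s := by field_simp
        have h7 : s ≤ 1 := hcase.trans hs01
        linarith
      have h1 := (hsum1 s hs).sum_le_tsum (Finset.Ico M (2 * M)) (fun m _ => by positivity)
      refine le_trans ?_ h1
      have h2 : ∀ m ∈ Finset.Ico M (2 * M), cl * (M : ℝ) ^ n * exp (-4) ≤ (N m : ℝ) * exp (-(s * m)) := by
        intro m hm
        rw [Finset.mem_Ico] at hm
        have h3 : cl * (M : ℝ) ^ n ≤ N m := by
          refine le_trans ?_ (hl m (hMm.trans hm.1))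
          apply mul_le_mul_of_nonneg_left _ hcl.le
          apply pow_le_pow_left₀ (Nat.cast_nonneg _)
          exact_mod_cast hm.1
        have h4 : exp (-4) ≤ exp (-(s * m)) := by
          apply exp_le_exp.mpr
          have h5 : (m : ℝ) ≤ 2 * M := by exact_mod_cast hm.2.le
          nlinarith [mul_le_mul_of_nonneg_left h5 hs.le]
        exact mul_le_mul h3 h4 (exp_pos _).le (Nat.cast_nonneg _)
      have h3 := Finset.card_nsmul_le_sum _ _ _ h2
      rw [Nat.card_Ico, nsmul_eq_mul] at h3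
      refine le_trans ?_ h3
      have h4 : ((2 * M - M : ℕ) : ℝ) = M := by
        congr 1; omega
      rw [h4]
      calc min (s0 ^ (n + 1)) (cl * exp (-4)) / s ^ (n + 1)
          ≤ cl * exp (-4) / s ^ (n + 1) :=
            div_le_div_of_nonneg_right (min_le_right _ _) (by positivity)
        _ = cl * exp (-4) * (1 / s) ^ (n + 1) := by
            rw [one_div, inv_pow, div_eq_mul_inv]
        _ ≤ cl * exp (-4) * (M : ℝ) ^ (n + 1) := by
            apply mul_le_mul_of_nonneg_left _ (by positivity)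
            exact pow_le_pow_left₀ (by positivity) hM1 _
        _ = (M : ℝ) * (cl * (M : ℝ) ^ n * exp (-4)) := by ring

end Crest.Agent.R271.Gibbs302
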