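import Crest.Agent.R271.Gibbs_302

/-!
# R271, Part 4: expansions of `log Z`
-/

set_option autoImplicit false

open Real Finset

namespace Crest.Agent.R271.Gibbs302

variable {P : Type*} {deg : P → ℝ} {n : ℕ} {c C : ℝ} {κ t : ℝ} {L : P → ℝ}

lemma exp_neg_le_quad {y : ℝ} (hy : 0 ≤ y) : exp (-y) ≤ 1 - y + y ^ 2 / 2 := by
  -- `f y = 1 - y + y²/2 - exp (-y)` is nondecreasing on `[0,∞)`
  have hmono : MonotoneOn (fun y : ℝ => 1 - y + y ^ 2 / 2 - exp (-y)) (Set.Ici 0) := by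
    apply monotoneOn_of_deriv_nonneg (convex_Ici 0)
    · fun_prop
    · intro x _
      apply DifferentiableAt.differentiableWithinAt
      fun_prop
    · intro x hx
      simp only [interior_Ici, Set.mem_Ioi] at hx
      have hd : HasDerivAt (fun y : ℝ => 1 - y + y ^ 2 / 2 - exp (-y))
          (0 - 1 + (2 * x ^ 1 * 1) / 2 - exp (-x) * (-1)) x := by
        refine HasDerivAt.sub ?_ ?_
        · refine HasDerivAt.add ?_ ?_
          · exact (hasDerivAt_const x (1 : ℝ)).sub (hasDerivAt_id x)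
          · exact ((hasDerivAt_id x).pow 2).div_const 2
        · exact ((hasDerivAt_id x).neg).exp
      rw [hd.deriv]
      have h1 := add_one_le_exp (-x)
      nlinarith
  have h := hmono (Set.mem_Ici.mpr le_rfl) (Set.mem_Ici.mpr hy) hy
  simp at h
  linarith

lemma exp_le_quad {y : ℝ} (hy : 0 ≤ y) : exp y ≤ 1 + y + y ^ 2 / 2 * exp y := by
  -- equivalent to `1 ≤ exp (-y) (1+y) + y²/2`
  have h1 : exp y * exp (-y) = 1 := by rw [← exp_add]; simp
  have h2 : 1 ≤ (1 + y) * exp (-y) + y ^ 2 / 2 := by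
    have hmono : MonotoneOn (fun y : ℝ => (1 + y) * exp (-y) + y ^ 2 / 2) (Set.Ici 0) := by
      apply monotoneOn_of_deriv_nonneg (convex_Ici 0)
      · fun_prop
      · intro x _
        apply DifferentiableAt.differentiableWithinAt
        fun_prop
      · intro x hx
        simp only [interior_Ici, Set.mem_Ioi] at hx
        have hd : HasDerivAt (fun y : ℝ => (1 + y) * exp (-y) + y ^ 2 / 2)
            ((0 + 1) * exp (-x) + (1 + x) * (exp (-x) * (-1)) + (2 * x ^ 1 * 1) / 2) x := by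
          refine HasDerivAt.add ?_ ?_
          · refine HasDerivAt.mul ?_ ?_
            · exact (hasDerivAt_const x (1 : ℝ)).add (hasDerivAt_id x)
            · exact ((hasDerivAt_id x).neg).exp
          · exact ((hasDerivAt_id x).pow 2).div_const 2
        rw [hd.deriv]
        have h3 : exp (-x) ≤ 1 := exp_le_one_iff.mpr (by linarith)
        nlinarith
    have h := hmono (Set.mem_Ici.mpr le_rfl) (Set.mem_Ici.mpr hy) hy
    simpa using h
  have h3 := mul_le_mul_of_nonneg_left h2 (exp_pos y).le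
  have h4 : exp y * ((1 + y) * exp (-y) + y ^ 2 / 2) = 1 + y + y ^ 2 / 2 * exp y := by
    calc exp y * ((1 + y) * exp (-y) + y ^ 2 / 2)
        = (1 + y) * (exp y * exp (-y)) + y ^ 2 / 2 * exp y := by ring
      _ = 1 + y + y ^ 2 / 2 * exp y := by rw [h1]; ring
  linarith

/-- `x ≤ (1/a) exp (a x)`. -/
lemma le_exp_mul {x a : ℝ} (ha : 0 < a) : x ≤ 1 / a * exp (a * x) := by
  have h := add_one_le_exp (a * x)
  rw [div_mul_eq_mul_div, one_mul, le_div_iff₀ ha]
  linarith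

/-- `x² ≤ (4/a²) exp (a x)` for `x ≥ 0`. -/
lemma sq_le_exp_mul {x a : ℝ} (ha : 0 < a) (hx : 0 ≤ x) : x ^ 2 ≤ 4 / a ^ 2 * exp (a * x) := by
  have h := le_exp_mul (x := x) (a := a / 2) (by positivity)
  have h2 : x ^ 2 ≤ (1 / (a / 2) * exp (a / 2 * x)) ^ 2 := pow_le_pow_left₀ hx h 2
  refine h2.trans (le_of_eq ?_)
  rw [mul_pow, ← exp_nat_mul]
  have : ((2 : ℕ) : ℝ) * (a / 2 * x) = a * x := by push_cast; ring
  rw [this]
  congr 1
  field_simp
  norm_num

/-- exponential domination of `(t·deg)²·exp(μ t deg)` with `μ ≤ κ/4`. -/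
lemma sq_dom (hG : Growth deg n c C) (ht : 0 < t) (hκ : 0 < κ) {μ : ℝ} (_hμ : 0 ≤ μ)
    (hμ' : μ ≤ κ / 4) (p : P) :
    (t * deg p) ^ 2 * exp (μ * (t * deg p)) ≤ 64 / κ ^ 2 * exp (t * (κ / 2) * deg p) := by
  have hx : 0 ≤ t * deg p := mul_nonneg ht.le (hG.deg_nonneg p)
  have h := sq_le_exp_mul (x := t * deg p) (a := κ / 4) (by positivity) hx
  calc (t * deg p) ^ 2 * exp (μ * (t * deg p))
      ≤ (4 / (κ / 4) ^ 2 * exp (κ / 4 * (t * deg p))) * exp (κ / 4 * (t * deg p)) := by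
        apply mul_le_mul h _ (exp_pos _).le (by positivity)
        exact exp_le_exp.mpr (mul_le_mul_of_nonneg_right hμ' hx)
    _ = 64 / κ ^ 2 * exp (t * (κ / 2) * deg p) := by
        rw [mul_assoc, ← exp_add]
        congr 1
        · field_simp; norm_num
        · congr 1; ring

lemma lin_dom (_hG : Growth deg n c C) (_ht : 0 < t) (hκ : 0 < κ) (p : P) :
    t * deg p ≤ 2 / κ * exp (t * (κ / 2) * deg p) := by
  have h := le_exp_mul (x := t * deg p) (a := κ / 2) (by positivity)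
  calc t * deg p ≤ 1 / (κ / 2) * exp (κ / 2 * (t * deg p)) := h
    _ = 2 / κ * exp (t * (κ / 2) * deg p) := by
      congr 1
      · field_simp
      · congr 1; ring

/-- summability of linearly bounded observables -/
lemma summable_lin (hG : Growth deg n c C) (ht : 0 < t) (hκ : 0 < κ) (hL : ∀ p, 0 ≤ L p)
    {φ : P → ℝ} {a : ℝ} (ha : 0 ≤ a) (hφ0 : ∀ p, 0 ≤ φ p) (hφ : ∀ p, φ p ≤ a * (t * deg p)) :
    Summable fun p => w deg κ t L p * φ p := by
  refine summable_obs hG ht hκ hL (K := a * (2 / κ)) ?_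
  intro p
  rw [abs_of_nonneg (hφ0 p)]
  calc φ p ≤ a * (t * deg p) := hφ p
    _ ≤ a * (2 / κ * exp (t * (κ / 2) * deg p)) :=
        mul_le_mul_of_nonneg_left (lin_dom hG ht hκ p) ha
    _ = a * (2 / κ) * exp (t * (κ / 2) * deg p) := by ring

lemma summable_sq (hG : Growth deg n c C) (ht : 0 < t) (hκ : 0 < κ) (hL : ∀ p, 0 ≤ L p)
    {φ : P → ℝ} {a : ℝ} (_ha : 0 ≤ a) (hφ0 : ∀ p, 0 ≤ φ p) (hφ : ∀ p, φ p ≤ a * (t * deg p)) :
    Summable fun p => w deg κ t L p * (φ p) ^ 2 := by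
  refine summable_obs hG ht hκ hL (K := a ^ 2 * (64 / κ ^ 2)) ?_
  intro p
  rw [abs_of_nonneg (by positivity)]
  have h := sq_dom hG ht hκ (μ := 0) le_rfl (by positivity) p
  rw [zero_mul, exp_zero, mul_one] at h
  calc φ p ^ 2 ≤ (a * (t * deg p)) ^ 2 := pow_le_pow_left₀ (hφ0 p) (hφ p) 2
    _ = a ^ 2 * (t * deg p) ^ 2 := by ring
    _ ≤ a ^ 2 * (64 / κ ^ 2 * exp (t * (κ / 2) * deg p)) :=
        mul_le_mul_of_nonneg_left h (by positivity)
    _ = a ^ 2 * (64 / κ ^ 2) * exp (t * (κ / 2) * deg p) := by ring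

/-- second moments are bounded, uniformly in `t`, `κ` -/
lemma Ex_sq_le (hG : Growth deg n c C) (ht : 0 < t) (ht1 : t ≤ 1) (hκ : 1 / 2 ≤ κ) (hκ1 : κ ≤ 1)
    (hL : ∀ p, 0 ≤ L p) {a : ℝ} (ha : 0 ≤ a) (hLa : ∀ p, L p ≤ a * deg p)
    {φ : P → ℝ} {b : ℝ} (_hb : 0 ≤ b) (hφ0 : ∀ p, 0 ≤ φ p) (hφ : ∀ p, φ p ≤ b * (t * deg p)) :
    Ex deg κ t L (fun p => (φ p) ^ 2)
      ≤ (b ^ 2 * 256) * (C * 4 ^ (n + 1)) * (1 + a) ^ (n + 1) / c := by
  have hκ0 : 0 < κ := by linarith
  refine Ex_le hG ht ht1 hκ hκ1 hL ha hLa (by positivity) ?_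
  intro p
  rw [abs_of_nonneg (by positivity)]
  have h := sq_dom hG ht hκ0 (μ := 0) le_rfl (by positivity) p
  rw [zero_mul, exp_zero, mul_one] at h
  have hk : (64 : ℝ) / κ ^ 2 ≤ 256 := by
    rw [div_le_iff₀ (by positivity)]
    nlinarith
  calc φ p ^ 2 ≤ (b * (t * deg p)) ^ 2 := pow_le_pow_left₀ (hφ0 p) (hφ p) 2
    _ = b ^ 2 * (t * deg p) ^ 2 := by ring
    _ ≤ b ^ 2 * (64 / κ ^ 2 * exp (t * (κ / 2) * deg p)) :=
        mul_le_mul_of_nonneg_left h (by positivity)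
    _ ≤ b ^ 2 * (256 * exp (t * (κ / 2) * deg p)) := by
        apply mul_le_mul_of_nonneg_left _ (by positivity)
        exact mul_le_mul_of_nonneg_right hk (exp_pos _).le
    _ = b ^ 2 * 256 * exp (t * (κ / 2) * deg p) := by ring

/-- first moments are bounded, uniformly in `t`, `κ` -/
lemma Ex_lin_le (hG : Growth deg n c C) (ht : 0 < t) (ht1 : t ≤ 1) (hκ : 1 / 2 ≤ κ) (hκ1 : κ ≤ 1)
    (hL : ∀ p, 0 ≤ L p) {a : ℝ} (ha : 0 ≤ a) (hLa : ∀ p, L p ≤ a * deg p)
    {φ : P → ℝ} {b : ℝ} (hb : 0 ≤ b) (hφ0 : ∀ p, 0 ≤ φ p) (hφ : ∀ p, φ p ≤ b * (t * deg p)) :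
    Ex deg κ t L φ
      ≤ (b * 4) * (C * 4 ^ (n + 1)) * (1 + a) ^ (n + 1) / c := by
  have hκ0 : 0 < κ := by linarith
  refine Ex_le hG ht ht1 hκ hκ1 hL ha hLa (by positivity) ?_
  intro p
  rw [abs_of_nonneg (hφ0 p)]
  have hk : (2 : ℝ) / κ ≤ 4 := by
    rw [div_le_iff₀ (by positivity)]
    nlinarith
  calc φ p ≤ b * (t * deg p) := hφ p
    _ ≤ b * (2 / κ * exp (t * (κ / 2) * deg p)) :=
        mul_le_mul_of_nonneg_left (lin_dom hG ht hκ0 p) hb
    _ ≤ b * (4 * exp (t * (κ / 2) * deg p)) := by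
        apply mul_le_mul_of_nonneg_left _ hb
        exact mul_le_mul_of_nonneg_right hk (exp_pos _).le
    _ = b * 4 * exp (t * (κ / 2) * deg p) := by ring

/-- (G3) gain: `L' ≥ L + g`, `g ≥ 0`:
`log Z(L') ≤ log Z(L) - E[t g] + E[(t g)²]/2`. -/
lemma log_Z_gain (hG : Growth deg n c C) (ht : 0 < t) (hκ : 0 < κ) (hL : ∀ p, 0 ≤ L p)
    {L' g : P → ℝ} {b : ℝ} (hb : 0 ≤ b) (hg0 : ∀ p, 0 ≤ g p) (hg : ∀ p, g p ≤ b * deg p)
    (hL' : ∀ p, L p + g p ≤ L' p) :
    log (Z deg κ t L') ≤ log (Z deg κ t L) - Ex deg κ t L (fun p => t * g p)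
      + Ex deg κ t L (fun p => (t * g p) ^ 2) / 2 := by
  have h0 : ∀ p, 0 ≤ t * g p := fun p => mul_nonneg ht.le (hg0 p)
  have h1 : ∀ p, t * g p ≤ b * (t * deg p) := fun p => by
    have := mul_le_mul_of_nonneg_left (hg p) ht.le
    linarith
  have s1 := summable_lin hG ht hκ hL hb h0 h1
  have s2 := summable_sq hG ht hκ hL hb h0 h1
  have s1' : Summable fun p => w deg κ t L p * (-(t * g p)) := by
    simpa [mul_neg] using s1.neg
  have s2' : Summable fun p => w deg κ t L p * ((1 / 2) * (t * g p) ^ 2) := by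
    have := s2.mul_left (1 / 2)
    refine this.congr (fun p => by ring)
  have hsum : Summable fun p => w deg κ t L p * (-(t * g p) + (1 / 2) * (t * g p) ^ 2) := by
    refine (s1'.add s2').congr (fun p => by ring)
  have hL'0 : ∀ p, 0 ≤ L' p := fun p => by linarith [hL p, hg0 p, hL' p]
  have h := log_Z_le_of_le hG ht hκ hL ht hκ hL'0 hsum (fun p => ?_)
  · rw [Ex_add s1' s2', Ex_mul_left (1 / 2)] at h
    have h2 : Ex deg κ t L (fun p => -(t * g p)) = - Ex deg κ t L (fun p => t * g p) := by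
      have := Ex_mul_left (deg := deg) (κ := κ) (t := t) (L := L) (φ := fun p => t * g p) (-1)
      simpa using this
    rw [h2] at h
    linarith
  · have hq := exp_neg_le_quad (h0 p)
    have : w deg κ t L' p ≤ w deg κ t L p * exp (-(t * g p)) := by
      unfold w
      rw [← exp_add]
      apply exp_le_exp.mpr
      nlinarith [mul_le_mul_of_nonneg_left (hL' p) ht.le]
    refine this.trans ?_
    apply mul_le_mul_of_nonneg_left _ (w_pos p).le
    linarith

/-- (G5) loss: `L' ≥ L - μ g`, `0 ≤ g ≤ b·deg`, `μ b ≤ κ/4`: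
`log Z(L') ≤ log Z(L) + μ E[t g] + μ² b² K`. -/
lemma log_Z_loss (hG : Growth deg n c C) (ht : 0 < t) (ht1 : t ≤ 1) (hκ : 1 / 2 ≤ κ) (hκ1 : κ ≤ 1)
    (hL : ∀ p, 0 ≤ L p) {a : ℝ} (ha : 0 ≤ a) (hLa : ∀ p, L p ≤ a * deg p)
    {L' g : P → ℝ} {b μ : ℝ} (hb : 0 ≤ b) (hμ : 0 ≤ μ) (hμb : μ * b ≤ κ / 4)
    (hg0 : ∀ p, 0 ≤ g p) (hg : ∀ p, g p ≤ b * deg p)
    (hL'0 : ∀ p, 0 ≤ L' p) (hL' : ∀ p, L p - μ * g p ≤ L' p) :
    log (Z deg κ t L') ≤ log (Z deg κ t L) + μ * Ex deg κ t L (fun p => t * g p)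
      + μ ^ 2 * ((b ^ 2 * 128) * (C * 4 ^ (n + 1)) * (1 + a) ^ (n + 1) / c) := by
  have hκ0 : 0 < κ := by linarith
  have h0 : ∀ p, 0 ≤ t * g p := fun p => mul_nonneg ht.le (hg0 p)
  have h1 : ∀ p, t * g p ≤ b * (t * deg p) := fun p => by
    have := mul_le_mul_of_nonneg_left (hg p) ht.le
    linarith
  have s1 := summable_lin hG ht hκ0 hL hb h0 h1
  set ψ : P → ℝ := fun p => (b * (t * deg p)) ^ 2 * exp (μ * b * (t * deg p)) with hψ
  have hψb : ∀ p, |ψ p| ≤ (b ^ 2 * 256) * exp (t * (κ / 2) * deg p) := by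
    intro p
    rw [abs_of_nonneg (by rw [hψ]; positivity)]
    have h := sq_dom hG ht hκ0 (μ := μ * b) (by positivity) hμb p
    have hk : (64 : ℝ) / κ ^ 2 ≤ 256 := by
      rw [div_le_iff₀ (by positivity)]
      nlinarith
    calc (b * (t * deg p)) ^ 2 * exp (μ * b * (t * deg p))
        = b ^ 2 * ((t * deg p) ^ 2 * exp (μ * b * (t * deg p))) := by ring
      _ ≤ b ^ 2 * (64 / κ ^ 2 * exp (t * (κ / 2) * deg p)) :=
          mul_le_mul_of_nonneg_left h (by positivity)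
      _ ≤ b ^ 2 * (256 * exp (t * (κ / 2) * deg p)) := by
          apply mul_le_mul_of_nonneg_left _ (by positivity)
          exact mul_le_mul_of_nonneg_right hk (exp_pos _).le
      _ = _ := by ring
  have s2 := summable_obs hG ht hκ0 hL hψb
  have s1' : Summable fun p => w deg κ t L p * (μ * (t * g p)) := by
    refine (s1.mul_left μ).congr (fun p => by ring)
  have s2' : Summable fun p => w deg κ t L p * ((μ ^ 2 / 2) * ψ p) := by
    refine (s2.mul_left (μ ^ 2 / 2)).congr (fun p => by ring)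
  have hsum : Summable fun p => w deg κ t L p * (μ * (t * g p) + (μ ^ 2 / 2) * ψ p) := by
    refine (s1'.add s2').congr (fun p => by ring)
  have h := log_Z_le_of_le hG ht hκ0 hL ht hκ0 hL'0 hsum (fun p => ?_)
  · rw [Ex_add s1' s2', Ex_mul_left (μ ^ 2 / 2), Ex_mul_left μ] at h
    have h3 := Ex_le hG ht ht1 hκ hκ1 hL ha hLa (by positivity) hψb
    have h4 : μ ^ 2 / 2 * Ex deg κ t L ψ
        ≤ μ ^ 2 / 2 * (b ^ 2 * 256 * (C * 4 ^ (n + 1)) * (1 + a) ^ (n + 1) / c) :=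
      mul_le_mul_of_nonneg_left h3 (by positivity)
    have h5 : μ ^ 2 / 2 * (b ^ 2 * 256 * (C * 4 ^ (n + 1)) * (1 + a) ^ (n + 1) / c)
        = μ ^ 2 * ((b ^ 2 * 128) * (C * 4 ^ (n + 1)) * (1 + a) ^ (n + 1) / c) := by ring
    linarith
  · have hy : 0 ≤ μ * (t * g p) := mul_nonneg hμ (h0 p)
    have hq := exp_le_quad hy
    have h6 : w deg κ t L' p ≤ w deg κ t L p * exp (μ * (t * g p)) := by
      unfold w
      rw [← exp_add]
      apply exp_le_exp.mpr
      nlinarith [mul_le_mul_of_nonneg_left (hL' p) ht.le]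
    refine h6.trans ?_
    apply mul_le_mul_of_nonneg_left _ (w_pos p).le
    have h7 : (μ * (t * g p)) ^ 2 / 2 * exp (μ * (t * g p)) ≤ μ ^ 2 / 2 * ψ p := by
      have h8 : (t * g p) ^ 2 ≤ (b * (t * deg p)) ^ 2 := pow_le_pow_left₀ (h0 p) (h1 p) 2
      have h9 : exp (μ * (t * g p)) ≤ exp (μ * b * (t * deg p)) := by
        apply exp_le_exp.mpr
        have := mul_le_mul_of_nonneg_left (h1 p) hμ
        linarith
      calc (μ * (t * g p)) ^ 2 / 2 * exp (μ * (t * g p))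
          = μ ^ 2 / 2 * ((t * g p) ^ 2 * exp (μ * (t * g p))) := by ring
        _ ≤ μ ^ 2 / 2 * ((b * (t * deg p)) ^ 2 * exp (μ * b * (t * deg p))) := by
            apply mul_le_mul_of_nonneg_left _ (by positivity)
            exact mul_le_mul h8 h9 (exp_pos _).le (by positivity)
        _ = μ ^ 2 / 2 * ψ p := rfl
    linarith

/-- (G6) change of `t`: `log Z_{t+h} ≤ log Z_t - h E[W] + h² E[W²]/2`, `W = κ deg + L`. -/
lemma log_Z_time (hG : Growth deg n c C) (ht : 0 < t) (hκ : 0 < κ) (hL : ∀ p, 0 ≤ L p)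
    {a : ℝ} (ha : 0 ≤ a) (hLa : ∀ p, L p ≤ a * deg p) {h : ℝ} (hh : 0 ≤ h) :
    log (Z deg κ (t * (1 + h)) L) ≤ log (Z deg κ t L)
      - h * Ex deg κ t L (fun p => t * (κ * deg p + L p))
      + h ^ 2 / 2 * Ex deg κ t L (fun p => (t * (κ * deg p + L p)) ^ 2) := by
  have h0 : ∀ p, 0 ≤ t * (κ * deg p + L p) := fun p => by
    have := hG.deg_nonneg p
    have := hL p
    positivity
  have h1 : ∀ p, t * (κ * deg p + L p) ≤ (κ + a) * (t * deg p) := fun p => by
    have := mul_le_mul_of_nonneg_left (hLa p) ht.le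
    nlinarith
  have hb : 0 ≤ κ + a := by positivity
  have s1 := summable_lin hG ht hκ hL hb h0 h1
  have s2 := summable_sq hG ht hκ hL hb h0 h1
  have s1' : Summable fun p => w deg κ t L p * ((-h) * (t * (κ * deg p + L p))) := by
    refine (s1.mul_left (-h)).congr (fun p => by ring)
  have s2' : Summable fun p => w deg κ t L p * ((h ^ 2 / 2) * (t * (κ * deg p + L p)) ^ 2) := by
    refine (s2.mul_left (h ^ 2 / 2)).congr (fun p => by ring)
  have hsum : Summable fun p => w deg κ t L p *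
      ((-h) * (t * (κ * deg p + L p)) + (h ^ 2 / 2) * (t * (κ * deg p + L p)) ^ 2) := by
    refine (s1'.add s2').congr (fun p => by ring)
  have ht' : 0 < t * (1 + h) := by positivity
  have key := log_Z_le_of_le hG ht hκ hL ht' hκ hL hsum (fun p => ?_)
  · rw [Ex_add s1' s2', Ex_mul_left (h ^ 2 / 2), Ex_mul_left (-h)] at key
    linarith
  · have hy : 0 ≤ h * (t * (κ * deg p + L p)) := mul_nonneg hh (h0 p)
    have hq := exp_neg_le_quad hy
    have h6 : w deg κ (t * (1 + h)) L p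
        = w deg κ t L p * exp (-(h * (t * (κ * deg p + L p)))) := by
      unfold w
      rw [← exp_add]
      congr 1; ring
    rw [h6]
    apply mul_le_mul_of_nonneg_left _ (w_pos p).le
    nlinarith

/-- (G7) Jensen: if `L' ≤ L + g` then `log Z(L') ≥ log Z(L) - E[t g]`. -/
lemma log_Z_jensen (hG : Growth deg n c C) (ht : 0 < t) (hκ : 0 < κ) (hL : ∀ p, 0 ≤ L p)
    {L' g : P → ℝ} {b : ℝ} (hb : 0 ≤ b) (hg0 : ∀ p, 0 ≤ g p) (hg : ∀ p, g p ≤ b * deg p)
    (hL'0 : ∀ p, 0 ≤ L' p) (hL' : ∀ p, L' p ≤ L p + g p) :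
    log (Z deg κ t L) - Ex deg κ t L (fun p => t * g p) ≤ log (Z deg κ t L') := by
  have h0 : ∀ p, 0 ≤ t * g p := fun p => mul_nonneg ht.le (hg0 p)
  have h1 : ∀ p, t * g p ≤ b * (t * deg p) := fun p => by
    have := mul_le_mul_of_nonneg_left (hg p) ht.le
    linarith
  have s1 := summable_lin hG ht hκ hL hb h0 h1
  set e := Ex deg κ t L (fun p => t * g p) with he
  have hZ := Z_pos hG ht hκ hL
  have hZ' := Z_pos hG ht hκ hL'0
  -- tangent line inequality
  have hpt : ∀ p, w deg κ t L p * (exp (-e) * (1 + e)) - exp (-e) * (w deg κ t L p * (t * g p))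
      ≤ w deg κ t L' p := by
    intro p
    have h2 : w deg κ t L p * exp (-(t * g p)) ≤ w deg κ t L' p := by
      unfold w
      rw [← exp_add]
      apply exp_le_exp.mpr
      nlinarith [mul_le_mul_of_nonneg_left (hL' p) ht.le]
    refine le_trans ?_ h2
    have h3 : exp (-e) * (1 + e - t * g p) ≤ exp (-(t * g p)) := by
      have h4 := add_one_le_exp (e - t * g p)
      have h5 : exp (-(t * g p)) = exp (-e) * exp (e - t * g p) := by
        rw [← exp_add]; congr 1; ring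
      rw [h5]
      apply mul_le_mul_of_nonneg_left _ (exp_pos _).le
      linarith
    have h6 := mul_le_mul_of_nonneg_left h3 (w_pos (deg := deg) (κ := κ) (t := t) (L := L) p).le
    calc w deg κ t L p * (exp (-e) * (1 + e)) - exp (-e) * (w deg κ t L p * (t * g p))
        = w deg κ t L p * (exp (-e) * (1 + e - t * g p)) := by ring
      _ ≤ _ := h6
  have sw := summable_w hG ht hκ hL
  have h7 : ∑' p, (w deg κ t L p * (exp (-e) * (1 + e)) - exp (-e) * (w deg κ t L p * (t * g p)))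
      ≤ ∑' p, w deg κ t L' p :=
    ((sw.mul_right _).sub (s1.mul_left _)).tsum_le_tsum hpt (summable_w hG ht hκ hL'0)
  rw [(sw.mul_right _).tsum_sub (s1.mul_left _), tsum_mul_right, tsum_mul_left] at h7
  have h8 : (∑' p, w deg κ t L p * (t * g p)) = e * Z deg κ t L := by
    rw [he]; unfold Ex
    rw [div_mul_cancel₀ _ hZ.ne']
  rw [h8] at h7
  have h9 : Z deg κ t L * exp (-e) ≤ Z deg κ t L' := by
    have : (∑' p, w deg κ t L p) * (exp (-e) * (1 + e)) - exp (-e) * (e * Z deg κ t L)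
        = Z deg κ t L * exp (-e) := by
      unfold Z; ring
    rw [this] at h7
    exact h7
  calc log (Z deg κ t L) - e = log (Z deg κ t L * exp (-e)) := by
        rw [log_mul hZ.ne' (exp_pos _).ne', log_exp]; ring
    _ ≤ log (Z deg κ t L') := log_le_log (by positivity) h9

/-- (G8) modulus of continuity: `L' ≥ L - e·deg` : `Z(L') ≤ Z(L) + e K`, `K = K(t)`. -/
lemma Z_le_add (hG : Growth deg n c C) (ht : 0 < t) (ht1 : t ≤ 1) (hκ : 1 / 2 ≤ κ) (hκ1 : κ ≤ 1)
    (hL : ∀ p, 0 ≤ L p) {L' : P → ℝ} (hL'0 : ∀ p, 0 ≤ L' p) {e : ℝ} (he : 0 ≤ e)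
    (he' : e ≤ κ / 4) (h : ∀ p, L p - e * deg p ≤ L' p) :
    Z deg κ t L' ≤ Z deg κ t L + e * (8 * (C * 4 ^ (n + 1)) / t ^ (n + 1)) := by
  have hκ0 : 0 < κ := by linarith
  set ψ : P → ℝ := fun p => t * deg p * exp (e * (t * deg p)) with hψ
  have hψb : ∀ p, |ψ p| ≤ 8 * exp (t * (κ / 2) * deg p) := by
    intro p
    have hx : 0 ≤ t * deg p := mul_nonneg ht.le (hG.deg_nonneg p)
    rw [abs_of_nonneg (by rw [hψ]; positivity)]
    have h1 := le_exp_mul (x := t * deg p) (a := κ / 4) (by positivity)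
    calc t * deg p * exp (e * (t * deg p))
        ≤ (1 / (κ / 4) * exp (κ / 4 * (t * deg p))) * exp (κ / 4 * (t * deg p)) := by
          apply mul_le_mul h1 _ (exp_pos _).le (by positivity)
          exact exp_le_exp.mpr (mul_le_mul_of_nonneg_right he' hx)
      _ = 1 / (κ / 4) * exp (t * (κ / 2) * deg p) := by
          rw [mul_assoc, ← exp_add]; congr 2; ring
      _ ≤ 8 * exp (t * (κ / 2) * deg p) := by
          apply mul_le_mul_of_nonneg_right _ (exp_pos _).le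
          rw [div_le_iff₀ (by positivity)]
          linarith
  have s2 := summable_obs hG ht hκ0 hL hψb
  have hb := tsum_obs_le hG ht ht1 hκ hκ1 hL (by norm_num) hψb
  have hpt : ∀ p, w deg κ t L' p ≤ w deg κ t L p + e * (w deg κ t L p * ψ p) := by
    intro p
    have hx : 0 ≤ t * deg p := mul_nonneg ht.le (hG.deg_nonneg p)
    have h6 : w deg κ t L' p ≤ w deg κ t L p * exp (e * (t * deg p)) := by
      unfold w
      rw [← exp_add]
      apply exp_le_exp.mpr
      nlinarith [mul_le_mul_of_nonneg_left (h p) ht.le]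
    refine h6.trans ?_
    have h7 : exp (e * (t * deg p)) ≤ 1 + e * (t * deg p) * exp (e * (t * deg p)) := by
      have hy : 0 ≤ e * (t * deg p) := mul_nonneg he hx
      have h8 := add_one_le_exp (-(e * (t * deg p)))
      have h9 : exp (-(e * (t * deg p))) * exp (e * (t * deg p)) = 1 := by
        rw [← exp_add]; simp
      nlinarith [mul_le_mul_of_nonneg_right h8 (exp_pos (e * (t * deg p))).le]
    calc w deg κ t L p * exp (e * (t * deg p))
        ≤ w deg κ t L p * (1 + e * (t * deg p) * exp (e * (t * deg p))) :=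
          mul_le_mul_of_nonneg_left h7 (w_pos p).le
      _ = w deg κ t L p + e * (w deg κ t L p * ψ p) := by rw [hψ]; ring
  have sw := summable_w hG ht hκ0 hL
  have h10 := (summable_w hG ht hκ0 hL'0).tsum_le_tsum hpt (sw.add (s2.mul_left e))
  rw [sw.tsum_add (s2.mul_left e), tsum_mul_left] at h10
  calc Z deg κ t L' ≤ Z deg κ t L + e * ∑' p, w deg κ t L p * ψ p := h10
    _ ≤ _ := by
      have := mul_le_mul_of_nonneg_left hb he
      linarith

end Crest.Agent.R271.Gibbs302
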