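import Crest.Agent.R271.Defs_710
import Crest.Agent.R271.Gibbs2_302

/-!
# R271, (4.1): jumps of a filtration
-/

set_option autoImplicit false

open Real Finset Module
open Crest.Agent.R271.Defs710

namespace Crest.Agent.R271.Jump302

noncomputable section

variable {B : Type} [CommRing B] [Algebra ℂ B] {V : ℕ → Submodule ℂ B}

/-- the `i`-th jump of `F` on `V m` (decreasing order, `i < finrank (V m)`) -/
def jump (F : Filt V) (m i : ℕ) : ℝ := sSup {l : ℝ | i < finrank ℂ (F.F m l)}

/-- index set of the jumps -/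
abbrev Idx (V : ℕ → Submodule ℂ B) : Type := Σ m : ℕ, Fin (finrank ℂ (V m))

/-- degree of an index -/
def deg (p : Idx V) : ℝ := (p.1 : ℝ)

/-- jump function of a filtration -/
def LL (F : Filt V) (p : Idx V) : ℝ := jump F p.1 p.2

lemma F_fin (F : Filt V) (m : ℕ) (l : ℝ) [FiniteDimensional ℂ (V m)] :
    FiniteDimensional ℂ (F.F m l) :=
  Submodule.finiteDimensional_of_le (F.le_V m l)

lemma finrank_anti (F : Filt V) (m : ℕ) [FiniteDimensional ℂ (V m)] {l l' : ℝ} (h : l ≤ l') :
    finrank ℂ (F.F m l') ≤ finrank ℂ (F.F m l) := by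
  have := F_fin F m l
  exact Submodule.finrank_mono (F.anti m h)

lemma finrank_le (F : Filt V) (m : ℕ) [FiniteDimensional ℂ (V m)] (l : ℝ) :
    finrank ℂ (F.F m l) ≤ finrank ℂ (V m) :=
  Submodule.finrank_mono (F.le_V m l)

/-- left-continuity for finite dimensional `V m`: `F m` is constant on some `[l', l]`, `l' < l` -/
lemma exists_left_const (F : Filt V) (m : ℕ) [FiniteDimensional ℂ (V m)] (l : ℝ) :
    ∃ l' < l, F.F m l' = F.F m l := by
  classical
  -- minimise `finrank (F m l')` over `l' < l`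
  have hne : ∃ d : ℕ, ∃ l' < l, finrank ℂ (F.F m l') = d :=
    ⟨_, l - 1, by linarith, rfl⟩
  obtain ⟨l', hl', hd⟩ := Nat.find_spec hne
  have hmin : ∀ l'' < l, finrank ℂ (F.F m l') ≤ finrank ℂ (F.F m l'') := by
    intro l'' hl''
    rw [hd]
    exact Nat.find_min' hne ⟨l'', hl'', rfl⟩
  refine ⟨l', hl', le_antisymm ?_ (F.anti m hl'.le)⟩
  intro b hb
  refine F.cont m l b (fun l'' hl'' => ?_)
  rcases le_total l'' l' with h | h
  · exact F.anti m h hb
  · have := F_fin F m l'
    have heq : F.F m l'' = F.F m l' :=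
      Submodule.eq_of_le_of_finrank_le (F.anti m h) (hmin l'' hl'')
    rw [heq]; exact hb

lemma set_bddAbove (F : Filt V) (m i : ℕ) : BddAbove {l : ℝ | i < finrank ℂ (F.F m l)} := by
  obtain ⟨C, hC⟩ := F.bdd
  refine ⟨C * m, fun l hl => ?_⟩
  by_contra hcon
  push Not at hcon
  have h0 := hC m l hcon
  simp only [Set.mem_ofPred_eq] at hl
  rw [h0] at hl
  simp at hl

lemma zero_mem (F : Filt V) {m i : ℕ} (hi : i < finrank ℂ (V m)) {l : ℝ} (hl : l ≤ 0) :
    l ∈ {l : ℝ | i < finrank ℂ (F.F m l)} := by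
  simp only [Set.mem_ofPred_eq]
  rw [F.zero m l hl]; exact hi

/-- `l ≤ jump i ↔ i < dim F(m,l)` -/
lemma le_jump_iff (F : Filt V) {m i : ℕ} [FiniteDimensional ℂ (V m)] (hi : i < finrank ℂ (V m))
    (l : ℝ) : l ≤ jump F m i ↔ i < finrank ℂ (F.F m l) := by
  constructor
  · intro h
    obtain ⟨l', hl', heq⟩ := exists_left_const F m l
    have hlt : l' < jump F m i := lt_of_lt_of_le hl' h
    obtain ⟨l'', hl''mem, hl''⟩ := exists_lt_of_lt_csSup ⟨0, zero_mem F hi le_rfl⟩ hlt
    rw [← heq]
    exact lt_of_lt_of_le hl''mem (finrank_anti F m hl''.le)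
  · intro h
    exact le_csSup (set_bddAbove F m i) h

lemma jump_nonneg (F : Filt V) {m i : ℕ} [FiniteDimensional ℂ (V m)] (hi : i < finrank ℂ (V m)) :
    0 ≤ jump F m i := by
  rw [le_jump_iff F hi, F.zero m 0 le_rfl]; exact hi

lemma LL_nonneg [∀ m, FiniteDimensional ℂ (V m)] (F : Filt V) (p : Idx V) : 0 ≤ LL F p :=
  jump_nonneg F p.2.2

lemma deg_nonneg (p : Idx V) : 0 ≤ deg p := Nat.cast_nonneg _

/-- upper bound of the jumps -/
lemma jump_le (F : Filt V) {m i : ℕ} [FiniteDimensional ℂ (V m)] (hi : i < finrank ℂ (V m))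
    {a : ℝ} (h : ∀ l, a < l → F.F m l = ⊥) : jump F m i ≤ a := by
  by_contra hcon
  push Not at hcon
  have h1 := (le_jump_iff F hi (jump F m i)).mp le_rfl
  rw [h _ hcon] at h1
  simp at h1

lemma exists_LL_le [∀ m, FiniteDimensional ℂ (V m)] (F : Filt V) :
    ∃ a : ℝ, 0 ≤ a ∧ ∀ p : Idx V, LL F p ≤ a * deg p := by
  obtain ⟨C, hC⟩ := F.bdd
  refine ⟨max C 0, le_max_right _ _, fun p => ?_⟩
  refine (jump_le F p.2.2 (hC p.1)).trans ?_
  exact mul_le_mul_of_nonneg_right (le_max_left _ _) (deg_nonneg p)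

/-- comparison of jumps: dimension inequality with shift -/
lemma jump_shift {F G : Filt V} {m i : ℕ} [FiniteDimensional ℂ (V m)] (hi : i < finrank ℂ (V m))
    {a : ℝ} (h : ∀ l, F.F m l ≤ G.F m (l - a)) : jump F m i - a ≤ jump G m i := by
  rw [le_jump_iff G hi]
  have h1 := (le_jump_iff F hi (jump F m i)).mp le_rfl
  have := F_fin G m (jump F m i - a)
  exact lt_of_lt_of_le h1 (Submodule.finrank_mono (h _))

/-- number of jumps `≥ l` -/
lemma card_jump_ge (F : Filt V) (m : ℕ) [FiniteDimensional ℂ (V m)] (l : ℝ) :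
    (Finset.univ.filter (fun i : Fin (finrank ℂ (V m)) => l ≤ jump F m i.1)).card
      = finrank ℂ (F.F m l) := by
  have h1 : (Finset.univ.filter (fun i : Fin (finrank ℂ (V m)) => l ≤ jump F m i.1))
      = Finset.univ.filter
        (fun i : Fin (finrank ℂ (V m)) => i.1 < finrank ℂ (F.F m l)) := by
    ext i
    simp only [Finset.mem_filter, Finset.mem_univ, true_and]
    exact le_jump_iff F i.2 l
  rw [h1, Fin.card_filter_val_lt]
  exact min_eq_right (finrank_le F m l)

lemma jump_antitone (F : Filt V) {m i j : ℕ} [FiniteDimensional ℂ (V m)] (hij : i ≤ j)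
    (hj : j < finrank ℂ (V m)) : jump F m j ≤ jump F m i := by
  rw [le_jump_iff F (lt_of_le_of_lt hij hj)]
  exact lt_of_le_of_lt hij ((le_jump_iff F hj _).mp le_rfl)

/-! ### stochastic dominance -/

/-- If `b : Fin N → ℝ` is sorted decreasingly (by `b`) and for every level `l` at least as many `b`'s
as `a`'s are `≥ l`, then sums of decreasing functions are smaller for `b`. -/
lemma sum_le_of_dominates {N : ℕ} (a b : Fin N → ℝ)
    (h : ∀ l : ℝ, (Finset.univ.filter (fun i => l ≤ a i)).card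
      ≤ (Finset.univ.filter (fun i => l ≤ b i)).card)
    {φ : ℝ → ℝ} (hφ : Antitone φ) : ∑ i, φ (b i) ≤ ∑ i, φ (a i) := by
  classical
  -- sort both families
  set σ := Tuple.sort a
  set τ := Tuple.sort b
  have ha : Monotone (a ∘ σ) := Tuple.monotone_sort a
  have hb : Monotone (b ∘ τ) := Tuple.monotone_sort b
  have key : ∀ i, (a ∘ σ) i ≤ (b ∘ τ) i := by
    intro i
    by_contra hcon
    push Not at hcon
    set l := (a ∘ σ) i with hl
    -- at least `N - i` of the `a`'s are `≥ l`
    have h1 : N - (i : ℕ) ≤ (Finset.univ.filter (fun j => l ≤ a j)).card := by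
      have h2 : (Finset.univ.filter (fun j : Fin N => i ≤ j)).card = N - (i : ℕ) := by
        have : (Finset.univ.filter (fun j : Fin N => i ≤ j)) = Finset.Ici i := by
          ext j; simp
        rw [this, Fin.card_Ici]
      rw [← h2]
      refine Finset.card_le_card_of_injOn σ ?_ (σ.injective.injOn)
      intro j hj
      simp only [Finset.coe_filter, Finset.mem_univ, true_and, Set.mem_ofPred_eq] at hj ⊢
      exact ha hj
    -- at most `N - i - 1` of the `b`'s are `≥ l`
    have h3 : (Finset.univ.filter (fun j => l ≤ b j)).card ≤ N - (i : ℕ) - 1 := by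
      have h4 : (Finset.univ.filter (fun j : Fin N => i < j)).card = N - (i : ℕ) - 1 := by
        have : (Finset.univ.filter (fun j : Fin N => i < j)) = Finset.Ioi i := by
          ext j; simp
        rw [this, Fin.card_Ioi]; omega
      rw [← h4]
      refine Finset.card_le_card_of_injOn τ.symm ?_ (τ.symm.injective.injOn)
      intro j hj
      simp only [Finset.coe_filter, Finset.mem_univ, true_and, Set.mem_ofPred_eq] at hj ⊢
      by_contra hcon2
      push Not at hcon2
      have h5 := hb hcon2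
      simp only [Function.comp_apply, Equiv.apply_symm_apply] at h5
      have h6 : b j < l := lt_of_le_of_lt h5 hcon
      linarith
    have h7 := h l
    have h8 := i.2
    omega
  calc ∑ i, φ (b i) = ∑ i, φ ((b ∘ τ) i) := (Equiv.sum_comp τ (fun i => φ (b i))).symm
    _ ≤ ∑ i, φ ((a ∘ σ) i) := Finset.sum_le_sum (fun i _ => hφ (key i))
    _ = ∑ i, φ (a i) := Equiv.sum_comp σ (fun i => φ (a i))

/-- the form used for filtrations: `a i` arbitrary, `#{i | l ≤ a i} ≤ dim G(m,l)` -/
lemma sum_jump_le (G : Filt V) (m : ℕ) [FiniteDimensional ℂ (V m)]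
    (a : Fin (finrank ℂ (V m)) → ℝ)
    (h : ∀ l : ℝ, (Finset.univ.filter (fun i => l ≤ a i)).card ≤ finrank ℂ (G.F m l))
    {φ : ℝ → ℝ} (hφ : Antitone φ) :
    ∑ i : Fin (finrank ℂ (V m)), φ (jump G m i.1) ≤ ∑ i, φ (a i) := by
  refine sum_le_of_dominates a (fun i => jump G m i.1) (fun l => ?_) hφ
  rw [card_jump_ge]
  exact h l

end

end Crest.Agent.R271.Jump302
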