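import Crest.Agent.R271.Filt_140

/-!
Row 271, team F, (4.5): the space of filtrations with the distance `fdist` is complete.
-/

set_option autoImplicit false

open scoped ENNReal NNReal Topology BigOperators
open MeasureTheory Filter Crest.Agent.R271.Defs710

noncomputable section

namespace Crest.Agent.R271.F140

variable {B : Type} [CommRing B] [Algebra ℂ B] {V : ℕ → Submodule ℂ B}

/-- limit of a sequence of filtrations -/
def limF (G : ℕ → Filt V) (e : ℕ → ℝ) (h : ∀ k j, k ≤ j → Adm (G k) (G j) (e k)) : Filt V where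
  F m l :=
    { carrier := {b | ∀ l' < l, ∀ᶠ k in atTop, b ∈ (G k).F m l'}
      add_mem' := fun {a b} ha hb l' hl' => by
        filter_upwards [ha l' hl', hb l' hl'] with k h1 h2
        exact Submodule.add_mem _ h1 h2
      zero_mem' := fun l' _ => Eventually.of_forall fun k => Submodule.zero_mem _
      smul_mem' := fun c a ha l' hl' => by
        filter_upwards [ha l' hl'] with k h1
        exact Submodule.smul_mem _ c h1 }
  le_V m l := by
    intro b hb
    obtain ⟨k, hk⟩ := (hb (l - 1) (by linarith)).exists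
    exact (G k).le_V m _ hk
  zero m l hl := by
    refine le_antisymm ?_ ?_
    · intro b hb
      obtain ⟨k, hk⟩ := (hb (l - 1) (by linarith)).exists
      exact (G k).le_V m _ hk
    · intro b hb l' hl'
      refine Eventually.of_forall fun k => ?_
      rw [(G k).zero m l' (by linarith)]
      exact hb
  anti m l l' hll b hb l'' hl'' := hb l'' (lt_of_lt_of_le hl'' hll)
  cont m l b hb l' hl' := by
    obtain ⟨u, hu1, hu2⟩ := exists_between hl'
    exact hb u hu2 l' hu1
  mul m l m' l' a b ha hb := by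
    intro l'' hl''
    have h1 := ha (l - (l + l' - l'') / 2) (by linarith)
    have h2 := hb (l' - (l + l' - l'') / 2) (by linarith)
    filter_upwards [h1, h2] with k h1 h2
    have := (G k).mul m _ m' _ a b h1 h2
    refine (G k).anti (m + m') (le_of_eq ?_) this
    ring
  bdd := by
    obtain ⟨C, hC⟩ := (G 0).bdd
    refine ⟨C + e 0, fun m l hl => ?_⟩
    rw [Submodule.eq_bot_iff]
    intro b hb
    obtain ⟨l', hl1, hl2⟩ := exists_between hl
    obtain ⟨k, hk⟩ := (hb l' hl2).exists
    have h1 := (h 0 k (Nat.zero_le k)).2 m l'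
    have h2 := h1.2 hk
    rw [hC m _ (by linarith)] at h2
    simpa using h2

theorem mem_limF {G : ℕ → Filt V} {e : ℕ → ℝ} {h : ∀ k j, k ≤ j → Adm (G k) (G j) (e k)}
    {m : ℕ} {l : ℝ} {b : B} :
    b ∈ (limF G e h).F m l ↔ ∀ l' < l, ∀ᶠ k in atTop, b ∈ (G k).F m l' := Iff.rfl

theorem adm_limF (G : ℕ → Filt V) (e : ℕ → ℝ) (h : ∀ k j, k ≤ j → Adm (G k) (G j) (e k)) (k : ℕ) :
    Adm (G k) (limF G e h) (e k) := by
  refine ⟨(h k k le_rfl).1, fun m l => ⟨fun b hb => ?_, fun b hb => ?_⟩⟩
  · rw [mem_limF]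
    intro l' hl'
    filter_upwards [eventually_ge_atTop k] with j hj
    exact (G j).anti m hl'.le (((h k j hj).2 m l).1 hb)
  · rw [mem_limF] at hb
    refine (G k).cont m _ b fun l'' hl'' => ?_
    obtain ⟨j, hj1, hj2⟩ := ((hb (l'' + e k * m) (by linarith)).and (eventually_ge_atTop k)).exists
    have := ((h k j hj2).2 m _).2 hj1
    simpa using this

/-- completeness: the limit of a Cauchy sequence, with rate -/
theorem exists_lim (G : ℕ → Filt V) (e : ℕ → ℝ) (h : ∀ k j, k ≤ j → Adm (G k) (G j) (e k)) :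
    ∃ F : Filt V, ∀ k, Adm (G k) F (e k) := ⟨limF G e h, adm_limF G e h⟩

/-- completeness with `fdist` and a rate -/
theorem exists_lim_fdist (G : ℕ → Filt V) (e : ℕ → ℝ) (h : ∀ k j, k ≤ j → fdist (G k) (G j) ≤ e k) :
    ∃ F : Filt V, ∀ k, fdist (G k) F ≤ e k := by
  obtain ⟨F, hF⟩ := exists_lim G e fun k j hkj => fdist_le_iff.1 (h k j hkj)
  exact ⟨F, fun k => fdist_le (hF k)⟩

/-- the metric space of filtrations -/
@[reducible] def filtMetric (V : ℕ → Submodule ℂ B) : MetricSpace (Filt V) where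
  dist := fdist
  dist_self := fdist_self
  dist_comm := fdist_symm
  dist_triangle := fdist_triangle
  eq_of_dist_eq_zero := eq_of_fdist_eq_zero

theorem filt_complete (V : ℕ → Submodule ℂ B) :
    @CompleteSpace (Filt V) (filtMetric V).toUniformSpace := by
  let _ := filtMetric V
  refine Metric.complete_of_convergent_controlled_sequences (fun k => (1 / 2 : ℝ) ^ k)
    (fun k => by positivity) ?_
  intro u hu
  obtain ⟨F, hF⟩ := exists_lim_fdist u (fun k => (1 / 2 : ℝ) ^ k)
    (fun k j hkj => (hu k k j le_rfl hkj).le)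
  refine ⟨F, ?_⟩
  rw [tendsto_iff_dist_tendsto_zero]
  exact squeeze_zero (fun _ => dist_nonneg) hF
    (tendsto_pow_atTop_nhds_zero_of_lt_one (by norm_num) (by norm_num))

/-- Cauchy sequences for `fdist` converge -/
theorem filt_cauchy (G : ℕ → Filt V)
    (hG : ∀ ε : ℝ, 0 < ε → ∃ N, ∀ k j, N ≤ k → N ≤ j → fdist (G k) (G j) < ε) :
    ∃ F : Filt V, Tendsto (fun k => fdist (G k) F) atTop (𝓝 0) := by
  let _ := filtMetric V
  have := filt_complete V
  have hc : CauchySeq G := by
    rw [Metric.cauchySeq_iff]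
    intro ε hε
    obtain ⟨N, hN⟩ := hG ε hε
    exact ⟨N, fun k hk j hj => hN k j hk hj⟩
  obtain ⟨F, hF⟩ := cauchySeq_tendsto_of_complete hc
  exact ⟨F, tendsto_iff_dist_tendsto_zero.1 hF⟩

end Crest.Agent.R271.F140
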