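import Mathlib

/-!
Row 271, (4.4): the pigeonhole principle for the logarithmic derivative.
-/

set_option autoImplicit false

namespace Crest.Agent.R271.PH593

/-- (4.4) -/
theorem pigeonhole (h : ℝ → ℝ) (d K : ℝ) (_hd : 0 < d)
    (hup : ∀ t, 0 < t → t ≤ 1 → h t ≤ -d * Real.log t + K)
    (hlo : ∀ t, 0 < t → t ≤ 1 → -d * Real.log t - K ≤ h t) (a : ℝ) (ha : 0 < a) (e : ℝ)
    (he : 0 < e) (t₀ : ℝ) (ht₀ : 0 < t₀) :
    ∃ t, 0 < t ∧ t ≤ t₀ ∧ t * (1 + a) ≤ 1 ∧ h t - h (t * (1 + a)) ≤ (d + e) * Real.log (1 + a) := by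
  by_contra hcon
  push Not at hcon
  set q : ℝ := 1 + a with hq
  have hq1 : 1 < q := by linarith
  have hq0 : 0 < q := by linarith
  have hlq : 0 < Real.log q := Real.log_pos hq1
  -- start point `s ≤ min t₀ 1 / q`
  set s : ℝ := min t₀ 1 / q with hs
  have hmin : 0 < min t₀ 1 := lt_min ht₀ one_pos
  have hs0 : 0 < s := div_pos hmin hq0
  have hsq : s * q = min t₀ 1 := div_mul_cancel₀ _ hq0.ne'
  -- the sequence `s / q^j`
  have hpos : ∀ j : ℕ, 0 < s / q ^ j := fun j => div_pos hs0 (pow_pos hq0 j)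
  have hle : ∀ j : ℕ, s / q ^ j * q ≤ min t₀ 1 := by
    intro j
    rw [← hsq]
    exact mul_le_mul_of_nonneg_right (div_le_self hs0.le (one_le_pow₀ hq1.le)) hq0.le
  have hle' : ∀ j : ℕ, s / q ^ j ≤ min t₀ 1 := by
    intro j
    refine le_trans ?_ (hle j)
    nlinarith [hpos j]
  have hstep : ∀ j : ℕ, (d + e) * Real.log q < h (s / q ^ (j + 1)) - h (s / q ^ j) := by
    intro j
    have h1 := hcon (s / q ^ (j + 1)) (hpos _) ((hle' _).trans (min_le_left _ _))
      ((hle _).trans (min_le_right _ _))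
    have h2 : s / q ^ (j + 1) * q = s / q ^ j := by
      rw [pow_succ]; field_simp
    rwa [h2] at h1
  have hsum : ∀ N : ℕ, N * ((d + e) * Real.log q) ≤ h (s / q ^ N) - h s := by
    intro N
    induction N with
    | zero => simp
    | succ N ih =>
      have h1 := hstep N
      push_cast
      linarith
  -- upper bound
  have hub : ∀ N : ℕ, h (s / q ^ N) ≤ -d * Real.log s + d * (N * Real.log q) + K := by
    intro N
    have h1 := hup (s / q ^ N) (hpos N) ((hle' N).trans (min_le_right _ _))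
    rw [Real.log_div hs0.ne' (pow_pos hq0 N).ne', Real.log_pow] at h1
    linarith
  have hs1 : s ≤ 1 := by
    have := (hle' 0).trans (min_le_right _ _)
    simpa using this
  have hlb := hlo s hs0 hs1
  -- choose `N` large
  obtain ⟨N, hN⟩ := exists_nat_gt (2 * K / (e * Real.log q))
  have hN' : 2 * K < N * (e * Real.log q) := by
    rwa [div_lt_iff₀ (by positivity)] at hN
  have h1 := hsum N
  have h2 := hub N
  nlinarith

end Crest.Agent.R271.PH593
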