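import Crest.Agent.R271.Jump_302

/-!
Row 271: the integral form `Zm`, `ZZ` of `Defs_710` equals the sum over the jumps (`Jump_302`).
-/

set_option autoImplicit false

open Module MeasureTheory Set

namespace Crest.Agent.R271.ZZ593

open Crest.Agent.R271.Defs710 Crest.Agent.R271.Jump302

variable {B : Type} [CommRing B] [Algebra ℂ B] {V : ℕ → Submodule ℂ B}

/-- `N_m - dim F(m,l) = ∑ᵢ 1_{jump i < l}` -/
lemma sub_finrank (F : Filt V) (m : ℕ) [FiniteDimensional ℂ (V m)] (l : ℝ) :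
    (finrank ℂ (V m) : ℝ) - finrank ℂ (F.F m l) =
      ∑ i : Fin (finrank ℂ (V m)), (Ioi (jump F m i)).indicator (fun _ => (1 : ℝ)) l := by
  classical
  have h1 := card_jump_ge F m l
  have h2 : ∀ i : Fin (finrank ℂ (V m)), (Ioi (jump F m i)).indicator (fun _ => (1 : ℝ)) l
      = 1 - (if l ≤ jump F m i then 1 else 0) := by
    intro i
    by_cases h : l ≤ jump F m i
    · simp [indicator, h]
    · simp only [indicator, mem_Ioi, not_le.mp h, h, if_true, if_false]; ring
  simp only [h2, Finset.sum_sub_distrib, Finset.sum_const, Finset.card_univ, Fintype.card_fin,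
    nsmul_eq_mul, mul_one]
  congr 1
  rw [← h1, Finset.card_filter]
  push_cast
  rfl

lemma integral_one {t : ℝ} (ht : 0 < t) {a : ℝ} (ha : 0 ≤ a) :
    ∫ l in Ioi (0 : ℝ), t * Real.exp (-t * l) * (Ioi a).indicator (fun _ => (1 : ℝ)) l =
      Real.exp (-(t * a)) := by
  have h1 : ∀ l : ℝ, t * Real.exp (-t * l) * (Ioi a).indicator (fun _ => (1 : ℝ)) l =
      (Ioi a).indicator (fun l => t * Real.exp (-t * l)) l := by
    intro l
    by_cases h : l ∈ Ioi a <;> simp [h]
  simp only [h1]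
  rw [setIntegral_indicator measurableSet_Ioi, Ioi_inter_Ioi, sup_eq_right.mpr ha,
    integral_const_mul, integral_exp_mul_Ioi (by linarith : -t < 0)]
  rw [neg_div_neg_eq, mul_div_assoc', mul_div_cancel_left₀ _ ht.ne']
  congr 1; ring

lemma integrable_one {t : ℝ} (ht : 0 < t) (a : ℝ) :
    IntegrableOn (fun l : ℝ => t * Real.exp (-t * l) * (Ioi a).indicator (fun _ => (1 : ℝ)) l)
      (Ioi 0) := by
  have h0 : IntegrableOn (fun l : ℝ => t * Real.exp (-t * l)) (Ioi 0) :=
    (integrableOn_exp_mul_Ioi (by linarith : -t < 0) 0).const_mul t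
  have h1 : ∀ l : ℝ, t * Real.exp (-t * l) * (Ioi a).indicator (fun _ => (1 : ℝ)) l =
      (Ioi a).indicator (fun l => t * Real.exp (-t * l)) l := by
    intro l
    by_cases h : l ∈ Ioi a <;> simp [h]
  simp only [h1]
  exact h0.indicator measurableSet_Ioi

/-- `Zm = ∑ᵢ exp (-t jump i)` -/
theorem Zm_eq [∀ m, FiniteDimensional ℂ (V m)] (F : Filt V) {t : ℝ} (ht : 0 < t) (m : ℕ) :
    Zm F t m = ∑ i : Fin (finrank ℂ (V m)), Real.exp (-(t * jump F m i)) := by
  unfold Zm
  have h1 : ∀ l : ℝ, t * Real.exp (-t * l) *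
      ((finrank ℂ (V m) : ℝ) - (finrank ℂ (F.F m l) : ℝ)) =
      ∑ i : Fin (finrank ℂ (V m)), t * Real.exp (-t * l) *
        (Ioi (jump F m i)).indicator (fun _ => (1 : ℝ)) l := by
    intro l
    rw [sub_finrank, Finset.mul_sum]
  simp only [h1]
  rw [integral_finsetSum _ (fun i _ => integrable_one ht _)]
  exact Finset.sum_congr rfl fun i _ => integral_one ht (jump_nonneg F i.2)

/-- `ZZ = ∑ over all jumps` -/
theorem ZZ_eq [∀ m, FiniteDimensional ℂ (V m)] (F : Filt V) {t κ : ℝ} (ht : 0 < t)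
    (hs : Summable (Gibbs302.w (deg : Idx V → ℝ) κ t (LL F))) :
    ZZ F t κ = Gibbs302.Z (deg : Idx V → ℝ) κ t (LL F) := by
  unfold ZZ Gibbs302.Z
  rw [hs.tsum_sigma' (fun m => (hasSum_fintype _).summable)]
  refine tsum_congr fun m => ?_
  rw [Zm_eq F ht, tsum_fintype, Finset.mul_sum]
  refine Finset.sum_congr rfl fun i _ => ?_
  unfold Gibbs302.w deg LL
  rw [← Real.exp_add]
  congr 1
  ring

end Crest.Agent.R271.ZZ593
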