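import Crest.Agent.R271.Exist3_302
import Crest.Agent.R271.Growth_302
import Crest.Agent.R271.Jump_302
import Crest.Agent.R271.Assembly_710
import Crest.Agent.R271.Filt_140
import Crest.Agent.R271.Lim_140
import Crest.Agent.R271.ZZ_593
import Crest.Agent.R271.PH_593
import Crest.Agent.R271.V1_992

/-!
# R271: `ExiMain` (Parts 4, 5.3, 6) from the sums form of Case B
-/

set_option autoImplicit false

open scoped ENNReal NNReal Topology BigOperators
open Finset Module Filter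

noncomputable section

namespace Crest.Agent.R271.Exi302

open Crest.Agent.R271.Defs710 Crest.Agent.R271.Assembly710 Crest.Agent.R271.Jump302
open Crest.Agent.R271.Gibbs302

variable {n : ℕ}

/-- sums form of (5.3)/(9.4) -/
def CaseBSum (X : FCtx n) : Prop :=
  ∃ (C₁ : ℕ) (η₃ τ₀ : ℝ), 0 < η₃ ∧ 0 < τ₀ ∧ ∀ τ : ℝ, 0 < τ → τ ≤ τ₀ →
    ((n : ℝ) + η₃) / τ * ∑' m : ℕ, Real.exp (-τ * m) * (finrank ℂ (X.V m) : ℝ) ≤
      ∑' m : ℕ, Real.exp (-τ * m) * ∑ e ∈ Finset.Icc 1 (C₁ * m), (dimOrd X m e : ℝ)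

/-- filtrations with finite threshold at `x` -/
abbrev FT (X : FCtx n) : Type := {F : Filt X.V // thr X.z F X.x ≠ ∞}

/-- threshold as a real number -/
def AA (X : FCtx n) (F : FT X) : ℝ := (thr X.z F.1 X.x).toReal

lemma thr_eq (X : FCtx n) (F : FT X) : thr X.z F.1 X.x = ENNReal.ofReal (AA X F) :=
  (ENNReal.ofReal_toReal F.2).symm

/-- the abstract data -/
theorem data (X : FCtx n) (af : AFacts X) : ∃ c C C1 : ℝ, 0 < C1 ∧
    (∃ C₁ : ℕ, (C₁ : ℝ) ≤ C1 ∧ ∀ m, ∀ f ∈ X.V m, f ≠ 0 → ∀ (y : X.B →ₐ[ℂ] ℂ) (e : ℕ),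
      f ∈ mI y ^ e → e ≤ C₁ * m) ∧
    Data (deg : Idx X.V → ℝ) n c C (AA X) (fun F => LL F.1)
      (fun F G => fdist F.1 G.1) C1 := by
  classical
  have hfd := X.V_fin
  obtain ⟨c, C, hG⟩ := Growth302.growth_V X
  obtain ⟨C₁, hC₁⟩ := X.ordbd
  have hC₁0 : (0 : ℝ) ≤ C₁ := Nat.cast_nonneg _
  refine ⟨c, C, (C₁ : ℝ) + 1, by positivity, ⟨C₁, by linarith, hC₁⟩, ?_⟩
  have hA0 : ∀ F : FT X, 0 ≤ AA X F := fun F => ENNReal.toReal_nonneg
  have hbot : ∀ (F : FT X) (m : ℕ) (l : ℝ), AA X F * (C₁ * m) < l → F.1.F m l = ⊥ :=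
    fun F m l hl => F140.F_eq_bot af hC₁ F.1 (hA0 F) (thr_eq X F).le hl
  refine
    { growth := hG
      C1_pos := by positivity
      A_nonneg := hA0
      L_nonneg := fun F p => LL_nonneg F.1 p
      L_le := ?_
      fd_self := fun F => F140.fdist_self F.1
      fd_nonneg := fun F G => F140.fdist_nonneg F.1 G.1
      fd_tri := fun F G H => F140.fdist_triangle F.1 G.1 H.1
      lip := ?_
      complete := ?_
      scale := ?_ }
  · rintro F ⟨m, i⟩
    have h1 : jump F.1 m i ≤ AA X F * (C₁ * m) := jump_le F.1 i.2 (hbot F m)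
    refine h1.trans ?_
    change AA X F * (C₁ * m) ≤ AA X F * ((C₁ : ℝ) + 1) * (m : ℝ)
    have hm : (0 : ℝ) ≤ m := Nat.cast_nonneg _
    have := mul_nonneg (hA0 F) hm
    nlinarith
  · rintro F G ⟨m, i⟩
    have h1 := (F140.adm_fdist F.1 G.1).2 m
    exact jump_shift (F := F.1) (G := G.1) (m := m) (i := i) i.2 (a := fdist F.1 G.1 * m)
      (fun l => (h1 l).1)
  · intro x M hM hsum
    let _ := F140.filtMetric X.V
    have hcomp : CompleteSpace (Filt X.V) := F140.filt_complete X.V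
    have hc : CauchySeq (fun j => (x j).1) := by
      apply cauchySeq_of_summable_dist
      exact hsum
    obtain ⟨u, hu⟩ := cauchySeq_tendsto_of_complete hc
    have hu2 : Tendsto (fun j => fdist (x j).1 u) atTop (𝓝 0) :=
      tendsto_iff_dist_tendsto_zero.1 hu
    have hlsc : ∀ a : ℝ, (∀ᶠ j in atTop, AA X (x j) ≤ a) → thr X.z u X.x ≤ ENNReal.ofReal a := by
      intro a ha
      by_contra hcon
      push Not at hcon
      obtain ⟨e, he, H⟩ := F140.lt_thr_lsc af.mono u hcon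
      obtain ⟨j, hj1, hj2⟩ := (ha.and (hu2.eventually (gt_mem_nhds he))).exists
      have hadm := (F140.adm_of_fdist_lt hj2).symm
      have h1 := H (x j).1 (fun m l => (hadm.2 m l).1)
      rw [thr_eq X (x j)] at h1
      exact absurd (ENNReal.ofReal_le_ofReal hj1) (not_le.2 h1)
    have hufin : thr X.z u X.x ≠ ∞ :=
      ne_top_of_le_ne_top ENNReal.ofReal_ne_top (hlsc M (Eventually.of_forall hM))
    refine ⟨⟨u, hufin⟩, hu2, fun a ha => ?_⟩
    obtain ⟨j, hj⟩ := ha.exists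
    have ha0 : 0 ≤ a := (hA0 (x j)).trans hj
    exact ENNReal.toReal_le_of_le_ofReal ha0 (hlsc a ha)
  · intro F s hs hs1
    have hthr := F140.thr_scale s hs F.1 X.x
    have hfin : thr X.z (F140.scale s hs F.1) X.x ≠ ∞ := by
      rw [hthr]
      exact ENNReal.mul_ne_top ENNReal.ofReal_ne_top F.2
    refine ⟨⟨F140.scale s hs F.1, hfin⟩, ?_, ?_, ?_⟩
    · unfold AA
      simp only
      rw [hthr, ENNReal.toReal_mul, ENNReal.toReal_ofReal hs.le]
    · rintro ⟨m, i⟩
      change s * jump F.1 m i ≤ jump (F140.scale s hs F.1) m i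
      rw [le_jump_iff _ i.2, F140.scale_F, mul_div_cancel_left₀ _ hs.ne']
      exact (le_jump_iff F.1 i.2 _).1 le_rfl
    · refine F140.fdist_le ⟨?_, fun m l => ⟨?_, ?_⟩⟩
      · have := hA0 F
        have h1s : 0 ≤ 1 - s := by linarith
        positivity
      · rw [F140.scale_F]
        have hm : (0 : ℝ) ≤ m := Nat.cast_nonneg _
        have he0 : 0 ≤ (1 - s) * (AA X F * ((C₁ : ℝ) + 1)) * m := by
          have := hA0 F
          have h1s : 0 ≤ 1 - s := by linarith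
          positivity
        rcases le_or_gt l 0 with hl | hl
        · rw [F.1.zero m l hl, F.1.zero m _ (div_nonpos_of_nonpos_of_nonneg (by linarith) hs.le)]
        · rcases lt_or_ge (AA X F * (C₁ * m)) l with h2 | h2
          · rw [hbot F m l h2]; exact bot_le
          · apply F.1.anti m
            rw [div_le_iff₀ hs]
            have h3 : l ≤ AA X F * ((C₁ : ℝ) + 1) * m := by
              have := mul_nonneg (hA0 F) hm
              nlinarith
            have h4 : (1 - s) * l ≤ (1 - s) * (AA X F * ((C₁ : ℝ) + 1) * m) :=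
              mul_le_mul_of_nonneg_left h3 (by linarith)
            nlinarith
      · rw [F140.scale_F]
        have hm : (0 : ℝ) ≤ m := Nat.cast_nonneg _
        have he0 : 0 ≤ (1 - s) * (AA X F * ((C₁ : ℝ) + 1)) * m := by
          have := hA0 F
          have h1s : 0 ≤ 1 - s := by linarith
          positivity
        rcases le_or_gt l 0 with hl | hl
        · rw [F.1.zero m (l - _) (by linarith)]
          exact F.1.le_V m _
        · apply F.1.anti m
          have h5 : l ≤ l / s := by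
            rw [le_div_iff₀ hs]
            nlinarith
          linarith

/-- lower bound for the sum of the jumps of the order filtration -/
theorem sum_ord_ge (X : FCtx n) (m K : ℕ) :
    ∑ e ∈ Finset.Icc 1 K, (dimOrd X m e : ℝ) ≤
      ∑ i : Fin (finrank ℂ (X.V m)), jump (F140.ordFilt X X.x 1 one_pos) m i := by
  classical
  have hfd := X.V_fin
  have hF : ∀ e : ℕ, (F140.ordFilt X X.x 1 one_pos).F m (e : ℝ)
      = X.V m ⊓ ((mI X.x ^ e).restrictScalars ℂ) := by
    intro e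
    change X.V m ⊓ (mI X.x ^ ⌈(e : ℝ) / 1⌉₊).restrictScalars ℂ = _
    rw [div_one, Nat.ceil_natCast]
  have hdim : ∀ e : ℕ, dimOrd X m e
      = finrank ℂ ((F140.ordFilt X X.x 1 one_pos).F m (e : ℝ)) := by
    intro e
    rw [hF e]; rfl
  have hle : ∀ e : ℕ, dimOrd X m e ≤ finrank ℂ (X.V m) := by
    intro e
    rw [hdim e]
    exact finrank_le _ m _
  -- pointwise bound
  have hpt : ∀ i : Fin (finrank ℂ (X.V m)),
      (((Finset.Icc 1 K).filter (fun e => (i : ℕ) < dimOrd X m e)).card : ℝ)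
        ≤ jump (F140.ordFilt X X.x 1 one_pos) m i := by
    intro i
    set S := (Finset.Icc 1 K).filter (fun e => (i : ℕ) < dimOrd X m e) with hS
    rcases S.eq_empty_or_nonempty with h0 | hne
    · rw [h0, Finset.card_empty, Nat.cast_zero]
      exact jump_nonneg _ i.2
    · set E := S.max' hne with hE
      have hEmem : E ∈ S := S.max'_mem hne
      have h1 : S.card ≤ E := by
        have h2 : S ⊆ Finset.Icc 1 E := by
          intro e he
          have h3 := S.le_max' e he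
          have h4 := (Finset.mem_filter.1 he).1
          rw [Finset.mem_Icc] at h4 ⊢
          exact ⟨h4.1, h3⟩
        have := Finset.card_le_card h2
        simpa using this
      have h5 : (E : ℝ) ≤ jump (F140.ordFilt X X.x 1 one_pos) m i := by
        rw [le_jump_iff _ i.2, ← hdim E]
        exact (Finset.mem_filter.1 hEmem).2
      exact le_trans (by exact_mod_cast h1) h5
  refine le_trans (le_of_eq ?_) (Finset.sum_le_sum (fun i _ => hpt i))
  -- double counting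
  have h6 : ∀ e : ℕ, (dimOrd X m e : ℝ)
      = ∑ i : Fin (finrank ℂ (X.V m)), if (i : ℕ) < dimOrd X m e then (1 : ℝ) else 0 := by
    intro e
    rw [Finset.sum_boole, Fin.card_filter_val_lt, min_eq_right (hle e)]
  rw [Finset.sum_congr rfl (fun e _ => h6 e), Finset.sum_comm]
  refine Finset.sum_congr rfl (fun i _ => ?_)
  rw [Finset.sum_boole]

/-- order function on the index set -/
def ordL (X : FCtx n) : Idx X.V → ℝ := LL (F140.ordFilt X X.x 1 one_pos)

/-- Case B in the form of expectations -/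
theorem caseB_Ex (X : FCtx n) (hB : CaseBSum X) :
    ∃ η₃ t₃ : ℝ, 0 < η₃ ∧ 0 < t₃ ∧ ∀ κ t : ℝ, 1 / 2 ≤ κ → κ ≤ 1 → 0 < t → t ≤ t₃ → t ≤ 1 →
      n + η₃ ≤ Ex (deg : Idx X.V → ℝ) κ t (fun _ => 0) (fun p => t * ordL X p) := by
  classical
  have hfd := X.V_fin
  obtain ⟨c, C, hG⟩ := Growth302.growth_V X
  obtain ⟨C₁, η₃, τ₀, hη, hτ₀, hB⟩ := hB
  refine ⟨η₃, τ₀, hη, hτ₀, fun κ t hκ hκ1 ht htt ht1 => ?_⟩
  have hκ0 : 0 < κ := by linarith
  have hτ : 0 < t * κ := by positivity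
  have hττ : t * κ ≤ τ₀ := le_trans (by nlinarith) htt
  have h1 := hB (t * κ) hτ hττ
  have hL0 : ∀ p : Idx X.V, (0 : ℝ) ≤ (fun _ => 0 : Idx X.V → ℝ) p := fun _ => le_rfl
  have hZpos := Z_pos (deg := (deg : Idx X.V → ℝ)) hG ht hκ0 hL0
  -- the partition function as a sum over `m`
  have hw : ∀ p : Idx X.V, w (deg : Idx X.V → ℝ) κ t (fun _ => 0) p
      = Real.exp (-(t * κ) * (p.1 : ℝ)) := by
    intro p
    unfold w
    congr 1
    change -(t * (κ * (p.1 : ℝ) + 0)) = _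
    ring
  have hsw := summable_w (deg := (deg : Idx X.V → ℝ)) hG ht hκ0 hL0
  have hZ : Z (deg : Idx X.V → ℝ) κ t (fun _ => 0)
      = ∑' m : ℕ, Real.exp (-(t * κ) * m) * (finrank ℂ (X.V m) : ℝ) := by
    unfold Z
    rw [hsw.tsum_sigma' (fun m => (hasSum_fintype _).summable)]
    refine tsum_congr fun m => ?_
    rw [tsum_fintype]
    simp only [hw]
    rw [Finset.sum_const, Finset.card_univ, Fintype.card_fin, nsmul_eq_mul]
    ring
  -- bound of the order function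
  obtain ⟨a, ha0, ha⟩ := exists_LL_le (F140.ordFilt X X.x 1 one_pos)
  have hord0 : ∀ p, 0 ≤ ordL X p := fun p => LL_nonneg _ p
  have hs : Summable fun p => w (deg : Idx X.V → ℝ) κ t (fun _ => 0) p * (t * ordL X p) := by
    refine summable_lin hG ht hκ0 hL0 (φ := fun p => t * ordL X p) ha0
      (fun p => mul_nonneg ht.le (hord0 p)) (fun p => ?_)
    have h0 : t * LL (F140.ordFilt X X.x 1 one_pos) p ≤ t * (a * (p.1 : ℝ)) :=
      mul_le_mul_of_nonneg_left (ha p) ht.le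
    refine h0.trans (le_of_eq ?_)
    ring
  have hN : ∑' p, w (deg : Idx X.V → ℝ) κ t (fun _ => 0) p * (t * ordL X p)
      = ∑' m : ℕ, Real.exp (-(t * κ) * m) * (t * ∑ i : Fin (finrank ℂ (X.V m)),
        jump (F140.ordFilt X X.x 1 one_pos) m i) := by
    rw [hs.tsum_sigma' (fun m => (hasSum_fintype _).summable)]
    refine tsum_congr fun m => ?_
    rw [tsum_fintype]
    simp only [hw]
    rw [← Finset.mul_sum, ← Finset.mul_sum]
    rfl
  have hsN : Summable fun m : ℕ => Real.exp (-(t * κ) * m) * (t * ∑ i : Fin (finrank ℂ (X.V m)),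
        jump (F140.ordFilt X X.x 1 one_pos) m i) := by
    refine hs.sigma.congr (fun m => ?_)
    rw [tsum_fintype]
    simp only [hw]
    rw [← Finset.mul_sum, ← Finset.mul_sum]
    rfl
  have hle : ∀ m : ℕ, Real.exp (-(t * κ) * m) *
      (t * ∑ e ∈ Finset.Icc 1 (C₁ * m), (dimOrd X m e : ℝ)) ≤
      Real.exp (-(t * κ) * m) * (t * ∑ i : Fin (finrank ℂ (X.V m)),
        jump (F140.ordFilt X X.x 1 one_pos) m i) := by
    intro m
    apply mul_le_mul_of_nonneg_left _ (Real.exp_pos _).le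
    exact mul_le_mul_of_nonneg_left (sum_ord_ge X m _) ht.le
  have hsO : Summable fun m : ℕ => Real.exp (-(t * κ) * m) *
      (t * ∑ e ∈ Finset.Icc 1 (C₁ * m), (dimOrd X m e : ℝ)) := by
    refine Summable.of_nonneg_of_le (fun m => ?_) hle hsN
    have : (0 : ℝ) ≤ ∑ e ∈ Finset.Icc 1 (C₁ * m), (dimOrd X m e : ℝ) :=
      Finset.sum_nonneg (fun e _ => Nat.cast_nonneg _)
    positivity
  have h2 := hsO.tsum_le_tsum hle hsN
  rw [← hN] at h2
  have h3 : ∑' m : ℕ, Real.exp (-(t * κ) * m) *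
      (t * ∑ e ∈ Finset.Icc 1 (C₁ * m), (dimOrd X m e : ℝ))
      = t * ∑' m : ℕ, Real.exp (-(t * κ) * m) *
      ∑ e ∈ Finset.Icc 1 (C₁ * m), (dimOrd X m e : ℝ) := by
    rw [← tsum_mul_left]
    refine tsum_congr fun m => ?_
    ring
  rw [h3] at h2
  rw [← hZ] at h1
  unfold Ex
  rw [le_div_iff₀ hZpos]
  refine le_trans ?_ h2
  have h4 : t * (((n : ℝ) + η₃) / (t * κ) * Z (deg : Idx X.V → ℝ) κ t (fun _ => 0))
      ≤ t * ∑' m : ℕ, Real.exp (-(t * κ) * m) *
      ∑ e ∈ Finset.Icc 1 (C₁ * m), (dimOrd X m e : ℝ) :=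
    mul_le_mul_of_nonneg_left h1 ht.le
  refine le_trans ?_ h4
  have h5 : t * (((n : ℝ) + η₃) / (t * κ) * Z (deg : Idx X.V → ℝ) κ t (fun _ => 0))
      = ((n : ℝ) + η₃) / κ * Z (deg : Idx X.V → ℝ) κ t (fun _ => 0) := by
    field_simp
  rw [h5]
  apply mul_le_mul_of_nonneg_right _ hZpos.le
  rw [le_div_iff₀ hκ0]
  have : (0 : ℝ) ≤ n + η₃ := by positivity
  nlinarith

/-- **ExiMain** from the sums form of Case B -/
theorem exiMain_of (hCB : ∀ (n : ℕ) (X : FCtx n), 1 ≤ n → AFacts X → CaseB X → CaseBSum X) :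
    ExiMain := by
  classical
  intro n X hn af hB
  have hfd := X.V_fin
  obtain ⟨η₃, t₃, hη₃, ht₃, hBE⟩ := caseB_Ex X (hCB n X hn af hB)
  obtain ⟨c, C, C1, hC1, ⟨C₁, hC₁le, hC₁⟩, D⟩ := data X af
  have hG := D.growth
  have hord0 : ∀ p, 0 ≤ ordL X p := fun p => LL_nonneg _ p
  have hord : ∀ p, ordL X p ≤ C1 * deg p := by
    rintro ⟨m, i⟩
    change jump (F140.ordFilt X X.x 1 one_pos) m i ≤ C1 * (m : ℝ)
    refine jump_le _ i.2 (fun l hl => ?_)
    rw [Submodule.eq_bot_iff]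
    rintro f ⟨hf1, hf2⟩
    by_contra hne
    have h1 := hC₁ m f hf1 hne X.x _ hf2
    have h2 : l / 1 ≤ (C₁ * m : ℕ) := (Nat.le_ceil _).trans (by exact_mod_cast h1)
    rw [div_one] at h2
    push_cast at h2
    have h3 : (C₁ : ℝ) * m ≤ C1 * m := mul_le_mul_of_nonneg_right hC₁le (Nat.cast_nonneg _)
    linarith
  have hordF : ∀ s : ℝ, 0 < s → ∃ G : FT X, AA X G ≤ s * n ∧ ∀ p, s * ordL X p ≤ LL G.1 p := by
    intro s hs
    have h1 := F140.thr_ordFilt_le af hn X.x s hs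
    have hfin : thr X.z (F140.ordFilt X X.x s hs) X.x ≠ ∞ :=
      ne_top_of_le_ne_top ENNReal.ofReal_ne_top h1
    refine ⟨⟨F140.ordFilt X X.x s hs, hfin⟩,
      ENNReal.toReal_le_of_le_ofReal (by positivity) h1, ?_⟩
    rintro ⟨m, i⟩
    change s * jump (F140.ordFilt X X.x 1 one_pos) m i ≤ jump (F140.ordFilt X X.x s hs) m i
    rw [le_jump_iff _ i.2]
    have h2 := (le_jump_iff (F140.ordFilt X X.x 1 one_pos) i.2 _).1
      (le_refl (jump (F140.ordFilt X X.x 1 one_pos) m i))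
    have h3 : (F140.ordFilt X X.x s hs).F m (s * jump (F140.ordFilt X X.x 1 one_pos) m i)
        = (F140.ordFilt X X.x 1 one_pos).F m (jump (F140.ordFilt X X.x 1 one_pos) m i) := by
      change X.V m ⊓ (mI X.x ^ ⌈s * jump (F140.ordFilt X X.x 1 one_pos) m i / s⌉₊).restrictScalars ℂ
        = X.V m ⊓ (mI X.x ^ ⌈jump (F140.ordFilt X X.x 1 one_pos) m i / 1⌉₊).restrictScalars ℂ
      rw [mul_div_cancel_left₀ _ hs.ne', div_one]
    rw [h3]; exact h2
  have hPH : PH := fun h d K hd hup hlo a ha e he t₀ ht₀ =>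
    PH593.pigeonhole h d K hd hup hlo a ha e he t₀ ht₀
  obtain ⟨η₀, hη₀, K, hmain⟩ := exi_abs hPH D (ordL X) hord0 hord hordF η₃ t₃ hη₃ ht₃ hBE
  refine ⟨η₀, hη₀, fun κ hκ hκ1 ε₁ hε₁ ε hε t₀ ht₀ => ?_⟩
  obtain ⟨t, F, ε', ht, htt, ht1, hε'0, hε', hek, hηA, hAK, hfin⟩ :=
    hmain κ hκ hκ1 ε₁ hε₁ ε hε t₀ ht₀
  have hκ0 : 0 < κ := by linarith
  have hZZ : ∀ G : Filt X.V, ZZ G t κ = Z (deg : Idx X.V → ℝ) κ t (LL G) := fun G =>
    ZZ593.ZZ_eq G ht (summable_w hG ht hκ0 (fun p => LL_nonneg G p))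
  -- Ekeland inequality
  have hek' : ∀ G : Filt X.V, thr X.z G X.x ≠ ∞ →
      (thr X.z F.1 X.x).toReal + Real.log (Z (deg : Idx X.V → ℝ) κ t (LL F.1)) ≤
        (thr X.z G X.x).toReal + Real.log (Z (deg : Idx X.V → ℝ) κ t (LL G)) + ε' * fdist F.1 G :=
    fun G hGf => hek ⟨G, hGf⟩
  refine ⟨t, F.1, ht, htt, ⟨F.2, fun G hGf => ?_⟩, hηA, ?_⟩
  · rw [hZZ F.1, hZZ G]
    have h1 := hek' G hGf
    have h2 : ε' * fdist F.1 G ≤ ε t * fdist F.1 G :=
      mul_le_mul_of_nonneg_right hε' (F140.fdist_nonneg _ _)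
    linarith
  · -- (6.2)
    intro c' hc' l hl
    set E : ℝ := Ex (deg : Idx X.V → ℝ) κ t (LL F.1) (fun p => t * deg p) + ε' with hE
    have hEc : E < c' := by
      refine lt_of_le_of_lt ?_ hc'
      rw [le_div_iff₀ hκ0]
      have : E * κ = κ * E := mul_comm _ _
      rw [this]
      exact hfin
    refine V1_992.V1 af F.1 F.2 E ?_ c' hEc l hl
    have hA := D.A_nonneg F
    set a : ℝ := AA X F * C1 with ha
    have ha0 : 0 ≤ a := by positivity
    refine ⟨((1 : ℝ) ^ 2 * 128) * (C * 4 ^ (n + 1)) * (1 + a) ^ (n + 1) / c, κ / 4, by positivity,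
      fun μ hμ hμ4 F' hF1 hF2 hF'fin => ?_⟩
    have h1 := hek' F' hF'fin
    have hdist : fdist F.1 F' ≤ μ := by
      refine F140.fdist_le ⟨hμ.le, fun m l => ⟨hF1 m l, (hF2 m l).trans (F.1.anti m ?_)⟩⟩
      have : 0 ≤ μ * (m : ℝ) := by positivity
      linarith
    have hloss := log_Z_loss hG ht ht1 hκ hκ1 (D.L_nonneg F) (a := a) ha0 (D.L_le F)
      (L' := LL F') (g := deg) (b := 1) (μ := μ) zero_le_one hμ.le (by linarith)
      (fun p => hG.deg_nonneg p) (fun p => by rw [one_mul]) (fun p => LL_nonneg F' p)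
      (fun p => by
        obtain ⟨m, i⟩ := p
        exact jump_shift (F := F.1) (G := F') (m := m) (i := i) i.2 (a := μ * m)
          (fun l => hF1 m l))
    have h2 : ε' * fdist F.1 F' ≤ ε' * μ := mul_le_mul_of_nonneg_left hdist hε'0.le
    rw [hE]
    nlinarith

end Crest.Agent.R271.Exi302
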