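import Crest.Agent.R271.CaseBF_376
import Crest.Agent.R271.Exi_302

/-!
# Row 271: `ExiMain`
-/

set_option autoImplicit false

namespace Crest.Agent.R271.CaseBF376

open Crest.Agent.R271.Defs710 Crest.Agent.R271.Assembly710

theorem caseBSum' {n : ℕ} (X : FCtx n) (hn : 1 ≤ n) (hB : CaseB X) : Exi302.CaseBSum X := by
  obtain ⟨η₃, τ₀, h1, h2, h3⟩ := caseBSum X hn hB
  obtain ⟨C₁, hC₁⟩ := X.ordbd
  exact ⟨C₁, η₃, τ₀, h1, h2, fun τ h4 h5 =>
    h3 τ h4 h5 C₁ fun m f hf h0 e he => hC₁ m f hf h0 X.x e he⟩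

theorem exiMain : Assembly710.ExiMain :=
  Exi302.exiMain_of fun _ X hn _ hB => caseBSum' X hn hB

end Crest.Agent.R271.CaseBF376
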