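import Crest.Agent.R271.Lim_140
import Crest.Agent.R271.V1_992
import Crest.Agent.R271.Jump_302
import Crest.Agent.R271.Growth_302
import Crest.Agent.R271.Assembly_710

/-!
Row 271, team F: (6.1), (6.2) and the assembly of `ExiMain` from the existence of Ekeland points.
-/

set_option autoImplicit false

open scoped ENNReal NNReal Topology BigOperators
open MeasureTheory Filter Module Crest.Agent.R271.Defs710 Crest.Agent.R271.Assembly710
open Crest.Agent.R271.F140 Crest.Agent.R271.Jump302 Crest.Agent.R271.Gibbs302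

noncomputable section

namespace Crest.Agent.R271.Exi140

variable {n : ℕ} {X : FCtx n}

/-- Output of Parts 4 and 5.3: Ekeland points with threshold bounded below (in jump form). -/
def MinExists (X : FCtx n) : Prop :=
  ∃ η₀ K : ℝ, 0 < η₀ ∧ ∀ κ : ℝ, 1 / 2 ≤ κ → κ ≤ 1 → ∀ ε₁ : ℝ, 0 < ε₁ → ∀ t₀ : ℝ, 0 < t₀ →
    ∃ t : ℝ, 0 < t ∧ t ≤ t₀ ∧ t ≤ 1 ∧ ∀ ε : ℝ, 0 < ε → ∃ F : Filt X.V,
      thr X.z F X.x ≠ ∞ ∧ η₀ ≤ (thr X.z F X.x).toReal ∧ (thr X.z F X.x).toReal ≤ K ∧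
      Ex (deg : Idx X.V → ℝ) κ t (LL F) (fun p => t * (κ * deg p + LL F p)) ≤ n + 1 + ε₁ ∧
      ∀ (G : Filt X.V) (e : ℝ), thr X.z G X.x ≠ ∞ → Adm F G e →
        (thr X.z F X.x).toReal + Real.log (Z (deg : Idx X.V → ℝ) κ t (LL F)) ≤
          (thr X.z G X.x).toReal + Real.log (Z (deg : Idx X.V → ℝ) κ t (LL G)) + ε * e

section jumps

variable {B : Type} [CommRing B] [Algebra ℂ B] {V : ℕ → Submodule ℂ B}
  [∀ m, FiniteDimensional ℂ (V m)]

theorem LL_shift {F G : Filt V} {e : ℝ} (h : ∀ (m : ℕ) (l : ℝ), F.F m l ≤ G.F m (l - e * m))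
    (p : Idx V) : LL F p - e * deg p ≤ LL G p :=
  jump_shift p.2.2 (fun l => h p.1 l)

theorem LL_scale (s : ℝ) (hs : 0 < s) (F : Filt V) (p : Idx V) :
    LL (scale s hs F) p = s * LL F p := by
  refine eq_of_forall_le_iff fun l => ?_
  unfold LL
  rw [le_jump_iff _ p.2.2, scale_F, ← le_jump_iff F p.2.2, div_le_iff₀ hs, mul_comm]

end jumps

theorem LL_le (af : AFacts X) [∀ m, FiniteDimensional ℂ (X.V m)] {C₁ : ℕ}
    (hC₁ : ∀ m, ∀ f ∈ X.V m, f ≠ 0 → ∀ (y : X.B →ₐ[ℂ] ℂ) (e : ℕ), f ∈ mI y ^ e → e ≤ C₁ * m)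
    (F : Filt X.V) (hfin : thr X.z F X.x ≠ ∞) (p : Idx X.V) :
    LL F p ≤ ((thr X.z F X.x).toReal * C₁) * deg p := by
  refine jump_le F p.2.2 fun l hl => ?_
  refine F_eq_bot af hC₁ F (y := X.x) (A := (thr X.z F X.x).toReal) ENNReal.toReal_nonneg
    (by rw [ENNReal.ofReal_toReal hfin]) ?_
  unfold deg at hl
  linarith

/-- scaling by `1 - δ` moves a filtration by at most `δ A C₁` -/
theorem adm_scale (af : AFacts X) {C₁ : ℕ}
    (hC₁ : ∀ m, ∀ f ∈ X.V m, f ≠ 0 → ∀ (y : X.B →ₐ[ℂ] ℂ) (e : ℕ), f ∈ mI y ^ e → e ≤ C₁ * m)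
    (F : Filt X.V) (hfin : thr X.z F X.x ≠ ∞) {δ : ℝ} (hδ : 0 ≤ δ) (hδ1 : δ < 1) :
    Adm F (scale (1 - δ) (by linarith) F) (δ * ((thr X.z F X.x).toReal * C₁)) := by
  set A := (thr X.z F X.x).toReal with hA
  have hA0 : 0 ≤ A := ENNReal.toReal_nonneg
  refine ⟨by positivity, fun m l => ⟨?_, ?_⟩⟩
  · rw [scale_F]
    rcases lt_or_ge (A * (C₁ * m)) l with h | h
    · rw [F_eq_bot af hC₁ F (y := X.x) (A := A) hA0 (by rw [hA, ENNReal.ofReal_toReal hfin]) h]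
      exact bot_le
    · rcases le_or_gt l 0 with h0 | h0
      · rw [F.zero m ((l - δ * (A * C₁) * m) / (1 - δ))]
        · exact F.le_V m l
        · refine div_nonpos_of_nonpos_of_nonneg ?_ (by linarith)
          have : 0 ≤ δ * (A * C₁) * m := by positivity
          linarith
      · refine F.anti m ?_
        rw [div_le_iff₀ (by linarith)]
        nlinarith
  · rw [scale_F]
    rcases le_or_gt l 0 with h0 | h0
    · rw [F.zero m (l - δ * (A * C₁) * m)]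
      · exact F.le_V m _
      · have : 0 ≤ δ * (A * C₁) * m := by positivity
        linarith
    · refine F.anti m ?_
      rw [le_div_iff₀ (by linarith)]
      have h1 : 0 ≤ δ * (A * C₁) * m := by positivity
      have h2 : 0 < 1 - δ := by linarith
      nlinarith [mul_nonneg h1 h2.le]

/-- (6.1) V0 -/
theorem V0 (af : AFacts X) [∀ m, FiniteDimensional ℂ (X.V m)] {C₁ : ℕ}
    (hC₁ : ∀ m, ∀ f ∈ X.V m, f ≠ 0 → ∀ (y : X.B →ₐ[ℂ] ℂ) (e : ℕ), f ∈ mI y ^ e → e ≤ C₁ * m)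
    {c C : ℝ} (hG : Growth (deg : Idx X.V → ℝ) n c C)
    {κ t : ℝ} (ht : 0 < t) (ht1 : t ≤ 1) (hκ : 1 / 2 ≤ κ) (hκ1 : κ ≤ 1)
    (F : Filt X.V) (hfin : thr X.z F X.x ≠ ∞) {ε : ℝ}
    (hek : ∀ (G : Filt X.V) (e : ℝ), thr X.z G X.x ≠ ∞ → Adm F G e →
        (thr X.z F X.x).toReal + Real.log (Z (deg : Idx X.V → ℝ) κ t (LL F)) ≤
          (thr X.z G X.x).toReal + Real.log (Z (deg : Idx X.V → ℝ) κ t (LL G)) + ε * e) :
    (thr X.z F X.x).toReal * (1 - ε * C₁) ≤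
      Ex (deg : Idx X.V → ℝ) κ t (LL F) (fun p => t * LL F p) := by
  set A := (thr X.z F X.x).toReal with hA
  have hA0 : 0 ≤ A := ENNReal.toReal_nonneg
  set b := A * C₁ with hb
  have hb0 : 0 ≤ b := by positivity
  set K' := (b ^ 2 * 128) * (C * 4 ^ (n + 1)) * (1 + b) ^ (n + 1) / c with hK'
  set E := Ex (deg : Idx X.V → ℝ) κ t (LL F) (fun p => t * LL F p) with hE
  -- inequality for every small `δ`
  have key : ∀ δ : ℝ, 0 < δ → δ * (b + 1) ≤ 1 / 8 → A * (1 - ε * C₁) ≤ E + δ * K' := by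
    intro δ hδ hδb
    have hδ1 : δ < 1 := by nlinarith
    have hs : 0 < 1 - δ := by linarith
    have hthr : thr X.z (scale (1 - δ) hs F) X.x = ENNReal.ofReal ((1 - δ) * A) := by
      rw [thr_scale, ENNReal.ofReal_mul hs.le, hA, ENNReal.ofReal_toReal hfin]
    have hek1 := hek (scale (1 - δ) hs F) (δ * b) (by rw [hthr]; exact ENNReal.ofReal_ne_top)
      (adm_scale af hC₁ F hfin hδ.le hδ1)
    rw [hthr, ENNReal.toReal_ofReal (by positivity)] at hek1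
    have hloss := log_Z_loss (deg := (deg : Idx X.V → ℝ)) (κ := κ) (t := t) (L := LL F) hG ht ht1 hκ hκ1
      (LL_nonneg F) hb0 (fun p => LL_le af hC₁ F hfin p) (L' := LL (scale (1 - δ) hs F))
      (g := LL F) (b := b) (μ := δ) hb0 hδ.le (by nlinarith) (LL_nonneg F)
      (fun p => LL_le af hC₁ F hfin p) (LL_nonneg _)
      (fun p => by rw [LL_scale]; linarith)
    have h3 : δ * (A * (1 - ε * C₁)) ≤ δ * (E + δ * K') := by
      have : ε * (δ * b) = δ * (ε * (A * C₁)) := by rw [hb]; ring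
      nlinarith
    exact le_of_mul_le_mul_left h3 hδ
  -- `δ → 0`
  refine le_of_forall_pos_le_add fun η hη => ?_
  set δ := min (1 / (8 * (b + 1))) (η / (|K'| + 1)) with hδ
  have hδ0 : 0 < δ := lt_min (by positivity) (by positivity)
  have h1 : δ * (b + 1) ≤ 1 / 8 := by
    calc δ * (b + 1) ≤ 1 / (8 * (b + 1)) * (b + 1) :=
          mul_le_mul_of_nonneg_right (min_le_left _ _) (by linarith)
      _ = 1 / 8 := by field_simp
  have h2 : δ * K' ≤ η := by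
    calc δ * K' ≤ δ * |K'| := mul_le_mul_of_nonneg_left (le_abs_self _) hδ0.le
      _ ≤ η / (|K'| + 1) * |K'| := mul_le_mul_of_nonneg_right (min_le_right _ _) (abs_nonneg _)
      _ ≤ η := by
          rw [div_mul_eq_mul_div, div_le_iff₀ (by positivity)]
          nlinarith [abs_nonneg K']
  linarith [key δ hδ0 h1]

/-- (6.2), hypothesis of `V1_992.V1` -/
theorem Cmu (af : AFacts X) [∀ m, FiniteDimensional ℂ (X.V m)] {C₁ : ℕ}
    (hC₁ : ∀ m, ∀ f ∈ X.V m, f ≠ 0 → ∀ (y : X.B →ₐ[ℂ] ℂ) (e : ℕ), f ∈ mI y ^ e → e ≤ C₁ * m)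
    {c C : ℝ} (hG : Growth (deg : Idx X.V → ℝ) n c C)
    {κ t : ℝ} (ht : 0 < t) (ht1 : t ≤ 1) (hκ : 1 / 2 ≤ κ) (hκ1 : κ ≤ 1)
    (F : Filt X.V) (hfin : thr X.z F X.x ≠ ∞) {ε : ℝ}
    (hek : ∀ (G : Filt X.V) (e : ℝ), thr X.z G X.x ≠ ∞ → Adm F G e →
        (thr X.z F X.x).toReal + Real.log (Z (deg : Idx X.V → ℝ) κ t (LL F)) ≤
          (thr X.z G X.x).toReal + Real.log (Z (deg : Idx X.V → ℝ) κ t (LL G)) + ε * e) :
    ∃ K μ₀ : ℝ, 0 < μ₀ ∧ ∀ μ, 0 < μ → μ ≤ μ₀ → ∀ F' : Filt X.V,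
      (∀ (m : ℕ) (l : ℝ), F.F m l ≤ F'.F m (l - μ * m)) → (∀ m l, F'.F m l ≤ F.F m l) →
      thr X.z F' X.x ≠ ∞ →
      (thr X.z F X.x).toReal - μ * ((Ex (deg : Idx X.V → ℝ) κ t (LL F) (fun p => t * deg p) + ε)
        + K * μ) ≤ (thr X.z F' X.x).toReal := by
  set A := (thr X.z F X.x).toReal with hA
  have hA0 : 0 ≤ A := ENNReal.toReal_nonneg
  set a := A * C₁ with ha
  have ha0 : 0 ≤ a := by positivity
  refine ⟨((1 : ℝ) ^ 2 * 128) * (C * 4 ^ (n + 1)) * (1 + a) ^ (n + 1) / c, 1 / 8, by norm_num,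
    fun μ hμ hμ1 F' h1 h2 hfin' => ?_⟩
  have hadm : Adm F F' μ := ⟨hμ.le, fun m l => ⟨h1 m l, (h2 m l).trans (F.anti m (by
    have : 0 ≤ μ * m := by positivity
    linarith))⟩⟩
  have hek1 := hek F' μ hfin' hadm
  have hloss := log_Z_loss (deg := (deg : Idx X.V → ℝ)) (κ := κ) (t := t) (L := LL F) hG ht ht1 hκ hκ1
    (LL_nonneg F) ha0 (fun p => LL_le af hC₁ F hfin p) (L' := LL F')
    (g := deg) (b := 1) (μ := μ) zero_le_one hμ.le (by linarith) deg_nonneg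
    (fun p => by linarith) (LL_nonneg _) (fun p => LL_shift h1 p)
  nlinarith

/-- assembly of `ExiMain` -/
theorem exiMain
    (hZZ : ∀ (n : ℕ) (X : FCtx n) [∀ m, FiniteDimensional ℂ (X.V m)] (F : Filt X.V) (t κ : ℝ),
      0 < t → Summable (w (deg : Idx X.V → ℝ) κ t (LL F)) →
      ZZ F t κ = Z (deg : Idx X.V → ℝ) κ t (LL F))
    (H : ∀ (n : ℕ) (X : FCtx n), 1 ≤ n → AFacts X → CaseB X → MinExists X) : ExiMain := by
  intro n X hn af hB
  have := X.V_fin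
  obtain ⟨η₀, K, hη₀, hmin⟩ := H n X hn af hB
  obtain ⟨C₁, hC₁⟩ := X.ordbd
  obtain ⟨c, C, hG⟩ := Growth302.growth_V X
  change Growth (deg : Idx X.V → ℝ) n c C at hG
  refine ⟨η₀, hη₀, fun κ hκ hκ1 ε₁ hε₁ ε hε t₀ ht₀ => ?_⟩
  have hκ0 : 0 < κ := by linarith
  obtain ⟨t, ht, htt, ht1, hmin⟩ := hmin κ hκ hκ1 (ε₁ / 2) (by linarith) t₀ ht₀
  -- choice of the Ekeland parameter
  set ε' := min (ε t) (ε₁ / 2 / (C₁ * |K| + 1)) with hε'
  have hε'0 : 0 < ε' := lt_min (hε t) (by positivity)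
  obtain ⟨F, hfin, hA1, hA2, hE, hek⟩ := hmin ε' hε'0
  set A := (thr X.z F X.x).toReal with hA
  have hA0 : 0 ≤ A := ENNReal.toReal_nonneg
  refine ⟨t, F, ht, htt, ⟨hfin, ?_⟩, hA1, ?_⟩
  · intro G hGfin
    rw [hZZ n X F t κ ht (summable_w hG ht hκ0 (LL_nonneg F)),
      hZZ n X G t κ ht (summable_w hG ht hκ0 (LL_nonneg G))]
    have h1 := hek G (fdist F G) hGfin (adm_fdist F G)
    have h2 : ε' * fdist F G ≤ ε t * fdist F G :=
      mul_le_mul_of_nonneg_right (min_le_left _ _) (fdist_nonneg F G)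
    linarith
  · intro c₀ hc₀ l hl
    have hV0 := V0 af hC₁ hG ht ht1 hκ hκ1 F hfin hek
    have hC := Cmu af hC₁ hG ht ht1 hκ hκ1 F hfin hek
    refine V1_992.V1 af F hfin _ hC c₀ ?_ l hl
    -- split the expectation
    have hdeg : ∀ p : Idx X.V, t * deg p ≤ 1 * (t * deg p) := fun p => by linarith
    have hdeg0 : ∀ p : Idx X.V, 0 ≤ t * deg p := fun p => mul_nonneg ht.le (deg_nonneg p)
    have hLL0 : ∀ p : Idx X.V, 0 ≤ t * LL F p := fun p => mul_nonneg ht.le (LL_nonneg F p)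
    have hLLle : ∀ p : Idx X.V, t * LL F p ≤ (A * C₁) * (t * deg p) := fun p => by
      have := mul_le_mul_of_nonneg_left (LL_le af hC₁ F hfin p) ht.le
      linarith
    have s1 := summable_lin hG ht hκ0 (LL_nonneg F) zero_le_one hdeg0 hdeg
    have s2 := summable_lin hG ht hκ0 (LL_nonneg F) (by positivity) hLL0 hLLle
    have s1' : Summable fun p => w (deg : Idx X.V → ℝ) κ t (LL F) p * (κ * (t * deg p)) := by
      have := s1.mul_left κ
      refine this.congr fun p => by ring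
    have hsplit : Ex (deg : Idx X.V → ℝ) κ t (LL F) (fun p => t * (κ * deg p + LL F p)) =
        κ * Ex (deg : Idx X.V → ℝ) κ t (LL F) (fun p => t * deg p) +
          Ex (deg : Idx X.V → ℝ) κ t (LL F) (fun p => t * LL F p) := by
      rw [← Ex_mul_left, ← Ex_add s1' s2]
      congr 1
      funext p
      ring
    rw [hsplit] at hE
    rw [div_lt_iff₀ hκ0] at hc₀
    set E := Ex (deg : Idx X.V → ℝ) κ t (LL F) (fun p => t * deg p) with hEdef
    have hK : A ≤ |K| := hA2.trans (le_abs_self K)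
    have h5 : ε' * (C₁ * |K| + 1) ≤ ε₁ / 2 := by
      calc ε' * (C₁ * |K| + 1) ≤ ε₁ / 2 / (C₁ * |K| + 1) * (C₁ * |K| + 1) :=
            mul_le_mul_of_nonneg_right (min_le_right _ _) (by positivity)
        _ = ε₁ / 2 := by field_simp
    have h6 : A * (ε' * C₁) ≤ ε' * (C₁ * |K|) := by
      have : 0 ≤ ε' * (C₁ : ℝ) := by positivity
      nlinarith
    have h7 : κ * ε' ≤ ε' := by nlinarith
    have h8 : κ * (E + ε') < κ * c₀ := by nlinarith
    exact lt_of_mul_lt_mul_left h8 hκ0.le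

end Crest.Agent.R271.Exi140
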