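import Crest.Agent.R271.Gibbs2_302
import Crest.Agent.R241.B11Ekeland

/-!
# R271, Part 4: uniform bounds of the functional `H = A + log Z`
-/

set_option autoImplicit false

open Real Finset Filter Topology

namespace Crest.Agent.R271.Gibbs302

variable {P : Type*} {deg : P → ℝ} {n : ℕ} {c C : ℝ} {κ t : ℝ} {L : P → ℝ}

/-- `d · log (1 + b x) ≤ x / 2 + K` -/
lemma log_lin_bound (d b : ℝ) (hd : 0 < d) (hb : 0 < b) :
    ∃ K : ℝ, ∀ x : ℝ, 0 ≤ x → d * log (1 + b * x) ≤ x / 2 + K := by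
  refine ⟨d * log (2 * d * b) + 1 / (2 * b), fun x hx => ?_⟩
  have hs : 0 < 2 * d * b := by positivity
  have hy : 0 < 1 + b * x := by positivity
  have h1 : log ((1 + b * x) / (2 * d * b)) ≤ (1 + b * x) / (2 * d * b) - 1 :=
    log_le_sub_one_of_pos (by positivity)
  rw [log_div hy.ne' hs.ne'] at h1
  have h2 : d * ((1 + b * x) / (2 * d * b)) = 1 / (2 * b) + x / 2 := by
    field_simp
  nlinarith [mul_le_mul_of_nonneg_left h1 hd.le]

/-- (4.2) lower bound of the functional, coercive in `A` -/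
lemma H_lower (hG : Growth deg n c C) {C1 : ℝ} (hC1 : 0 < C1) :
    ∃ K : ℝ, ∀ (κ t A : ℝ) (L : P → ℝ), 1 / 2 ≤ κ → κ ≤ 1 → 0 < t → 0 ≤ A →
      (∀ p, 0 ≤ L p) → (∀ p, L p ≤ A * C1 * deg p) →
      -((n : ℝ) + 1) * log t + A / 2 - K ≤ A + log (Z deg κ t L) := by
  obtain ⟨K, hK⟩ := log_lin_bound ((n : ℝ) + 1) C1 (by positivity) hC1
  refine ⟨K - log c, fun κ t A L hκ hκ1 ht hA hL hLA => ?_⟩
  have hκ0 : 0 < κ := by linarith
  have hc := hG.c_pos
  have h1 := Z_ge hG ht hκ0 hL (a := A * C1) (by positivity) hLA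
  have hpos : 0 < κ + A * C1 := by positivity
  have h2 : log (c / (t * (κ + A * C1)) ^ (n + 1)) ≤ log (Z deg κ t L) :=
    log_le_log (by positivity) h1
  rw [log_div hc.ne' (by positivity), log_pow, log_mul ht.ne' hpos.ne'] at h2
  have h3 : log (κ + A * C1) ≤ log (1 + C1 * A) := log_le_log hpos (by linarith)
  have h4 := hK A hA
  push_cast at h2
  have h5 : ((n : ℝ) + 1) * log (κ + A * C1) ≤ ((n : ℝ) + 1) * log (1 + C1 * A) :=
    mul_le_mul_of_nonneg_left h3 (by positivity)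
  nlinarith

/-- upper bound of `log Z` -/
lemma log_Z_upper (hG : Growth deg n c C) :
    ∃ K : ℝ, ∀ (κ t : ℝ) (L : P → ℝ), 1 / 2 ≤ κ → κ ≤ 1 → 0 < t → t ≤ 1 → (∀ p, 0 ≤ L p) →
      log (Z deg κ t L) ≤ -((n : ℝ) + 1) * log t + K := by
  have hCpos : 0 < C := by
    have h5 := hG.upper 1 one_pos le_rfl
    have h6 := hG.lower 1 one_pos
    have := hG.c_pos
    simp at h5 h6
    linarith
  refine ⟨log (C * 4 ^ (n + 1)), fun κ t L hκ hκ1 ht ht1 hL => ?_⟩
  have h1 := Z_le hG ht ht1 hκ hκ1 hL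
  have hκ0 : 0 < κ := by linarith
  have hZ := Z_pos hG ht hκ0 hL
  have h2 := log_le_log hZ h1
  rw [log_div (by positivity) (by positivity), log_pow] at h2
  push_cast at h2
  linarith

/-- (4.3) -/
lemma H_jensen (hG : Growth deg n c C) {C1 : ℝ} (hC1 : 0 ≤ C1) :
    ∃ K : ℝ, 0 < K ∧ ∀ (κ t A : ℝ) (L : P → ℝ), 1 / 2 ≤ κ → κ ≤ 1 → 0 < t → t ≤ 1 → 0 ≤ A →
      (∀ p, 0 ≤ L p) → (∀ p, L p ≤ A * C1 * deg p) →
      log (Z deg κ t (fun _ => 0)) - K * A ≤ log (Z deg κ t L) := by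
  have hC := C_nonneg hG
  have hc := hG.c_pos
  refine ⟨C1 * (4 * (C * 4 ^ (n + 1)) / c) + 1, by positivity,
    fun κ t A L hκ hκ1 ht ht1 hA hL hLA => ?_⟩
  have hκ0 : 0 < κ := by linarith
  have h1 := log_Z_jensen hG ht hκ0 (L := fun _ => 0) (fun _ => le_rfl) (L' := L)
    (g := fun p => A * C1 * deg p) (b := A * C1) (by positivity)
    (fun p => by have := hG.deg_nonneg p; positivity) (fun p => le_rfl) hL
    (fun p => by simpa using hLA p)
  have h2 := Ex_lin_le hG ht ht1 hκ hκ1 (L := fun _ => 0) (fun _ => le_rfl) (a := 0) le_rfl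
    (fun p => by simp) (φ := fun p => t * (A * C1 * deg p)) (b := A * C1) (by positivity)
    (fun p => by have := hG.deg_nonneg p; positivity) (fun p => by
      apply le_of_eq; ring)
  have h3 : A * C1 * 4 * (C * 4 ^ (n + 1)) * (1 + 0) ^ (n + 1) / c
      = (C1 * (4 * (C * 4 ^ (n + 1)) / c)) * A := by
    rw [add_zero, one_pow]; ring
  rw [h3] at h2
  nlinarith

end Crest.Agent.R271.Gibbs302
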