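import Crest.Agent.R271.Exist1_302

/-!
# R271, Parts 4, 5.3 (numerical half), 6.1: existence of Ekeland points, abstract form
-/

set_option autoImplicit false

open Real Finset Filter Topology

namespace Crest.Agent.R271.Gibbs302

variable {P : Type*} {α : Type*}

/-- the abstract data: `α` = filtrations with finite threshold -/
structure Data (deg : P → ℝ) (n : ℕ) (c C : ℝ) (A : α → ℝ) (L : α → P → ℝ) (fd : α → α → ℝ)
    (C1 : ℝ) : Prop where
  growth : Growth deg n c C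
  C1_pos : 0 < C1
  A_nonneg : ∀ F, 0 ≤ A F
  L_nonneg : ∀ F p, 0 ≤ L F p
  L_le : ∀ F p, L F p ≤ A F * C1 * deg p
  fd_self : ∀ F, fd F F = 0
  fd_nonneg : ∀ F G, 0 ≤ fd F G
  fd_tri : ∀ F G H, fd F H ≤ fd F G + fd G H
  lip : ∀ F G p, L F p - fd F G * deg p ≤ L G p
  complete : ∀ (x : ℕ → α) (M : ℝ), (∀ j, A (x j) ≤ M) →
    Summable (fun j => fd (x j) (x (j + 1))) →
    ∃ u, Tendsto (fun j => fd (x j) u) atTop (𝓝 0) ∧
      ∀ a, (∀ᶠ j in atTop, A (x j) ≤ a) → A u ≤ a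
  scale : ∀ (F : α) (s : ℝ), 0 < s → s < 1 →
    ∃ G, A G ≤ s * A F ∧ (∀ p, s * L F p ≤ L G p) ∧ fd F G ≤ (1 - s) * (A F * C1)

variable {deg : P → ℝ} {n : ℕ} {c C : ℝ} {κ t : ℝ} {A : α → ℝ} {L : α → P → ℝ}
  {fd : α → α → ℝ} {C1 : ℝ}

/-- the functional -/
noncomputable def H (deg : P → ℝ) (A : α → ℝ) (L : α → P → ℝ) (κ t : ℝ) (F : α) : ℝ :=
  A F + log (Z deg κ t (L F))

/-- (4.5) Ekeland -/
theorem ekeland_point (D : Data deg n c C A L fd C1) (hκ : 1 / 2 ≤ κ) (hκ1 : κ ≤ 1) (ht : 0 < t)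
    (ht1 : t ≤ 1) {ε : ℝ} (hε : 0 < ε) (x₀ : α) :
    ∃ F, H deg A L κ t F ≤ H deg A L κ t x₀ ∧
      ∀ G, H deg A L κ t F ≤ H deg A L κ t G + ε * fd F G := by
  have hG := D.growth
  have hκ0 : 0 < κ := by linarith
  obtain ⟨K, hK⟩ := H_lower hG D.C1_pos
  have hlow : ∀ F, -((n : ℝ) + 1) * log t + A F / 2 - K ≤ H deg A L κ t F := fun F =>
    hK κ t (A F) (L F) hκ hκ1 ht (D.A_nonneg F) (D.L_nonneg F) (D.L_le F)
  have hlow' : ∀ F, -((n : ℝ) + 1) * log t - K ≤ H deg A L κ t F := fun F => by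
    have := hlow F
    have := D.A_nonneg F
    linarith
  have hcomp : ∀ x : ℕ → α, (∀ j, H deg A L κ t (x (j + 1)) ≤ H deg A L κ t (x j)) →
      Summable (fun j => fd (x j) (x (j + 1))) →
      ∃ u, Tendsto (fun j => fd (x j) u) atTop (𝓝 0) ∧
        ∀ c, (∀ᶠ j in atTop, H deg A L κ t (x j) ≤ c) → H deg A L κ t u ≤ c := by
    intro x hmono hsum
    -- bound for `A`
    have hanti : Antitone (fun j => H deg A L κ t (x j)) := antitone_nat_of_succ_le hmono
    set M : ℝ := 2 * (H deg A L κ t (x 0) + ((n : ℝ) + 1) * log t + K) with hM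
    have hAM : ∀ j, A (x j) ≤ M := by
      intro j
      have h1 := hlow (x j)
      have h2 := hanti (Nat.zero_le j)
      simp only at h2
      rw [hM]; linarith
    obtain ⟨u, hu, hulsc⟩ := D.complete x M hAM hsum
    refine ⟨u, hu, fun a ha => ?_⟩
    have hM0 : 0 ≤ M := (D.A_nonneg (x 0)).trans (hAM 0)
    set z0 : ℝ := c / (t * (κ + M * C1)) ^ (n + 1) with hz0
    have hc := hG.c_pos
    have hC1 := D.C1_pos
    have hz0pos : 0 < z0 := by positivity
    have hZ0 : ∀ j, z0 ≤ Z deg κ t (L (x j)) := by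
      intro j
      refine Z_ge hG ht hκ0 (D.L_nonneg _) (a := M * C1) (by positivity) (fun p => ?_)
      refine (D.L_le _ p).trans ?_
      apply mul_le_mul_of_nonneg_right _ (hG.deg_nonneg p)
      exact mul_le_mul_of_nonneg_right (hAM j) hC1.le
    set K' : ℝ := 8 * (C * 4 ^ (n + 1)) / t ^ (n + 1) with hK'
    have hK'0 : 0 ≤ K' := by have := C_nonneg hG; positivity
    have hev : ∀ᶠ j in atTop, log (Z deg κ t (L u)) ≤
        log (Z deg κ t (L (x j))) + fd (x j) u * K' / z0 := by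
      have hsmall : ∀ᶠ j in atTop, fd (x j) u < κ / 4 := hu.eventually (gt_mem_nhds (by positivity))
      filter_upwards [hsmall] with j hj
      have h1 := Z_le_add hG ht ht1 hκ hκ1 (D.L_nonneg (x j)) (D.L_nonneg u)
        (D.fd_nonneg (x j) u) hj.le (D.lip (x j) u)
      have hZj := Z_pos hG ht hκ0 (D.L_nonneg (x j))
      have hZu := Z_pos hG ht hκ0 (D.L_nonneg u)
      have h2 : Z deg κ t (L u) ≤ Z deg κ t (L (x j)) * (1 + fd (x j) u * K' / z0) := by
        refine h1.trans ?_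
        rw [mul_add, mul_one]
        have h3 : fd (x j) u * K' = z0 * (fd (x j) u * K' / z0) := by field_simp
        have h4 : z0 * (fd (x j) u * K' / z0) ≤ Z deg κ t (L (x j)) * (fd (x j) u * K' / z0) :=
          mul_le_mul_of_nonneg_right (hZ0 j)
            (div_nonneg (mul_nonneg (D.fd_nonneg _ _) hK'0) hz0pos.le)
        linarith
      have h5 : 0 < 1 + fd (x j) u * K' / z0 := by
        have := div_nonneg (mul_nonneg (D.fd_nonneg (x j) u) hK'0) hz0pos.le
        linarith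
      calc log (Z deg κ t (L u)) ≤ log (Z deg κ t (L (x j)) * (1 + fd (x j) u * K' / z0)) :=
            log_le_log hZu h2
        _ = log (Z deg κ t (L (x j))) + log (1 + fd (x j) u * K' / z0) :=
            log_mul hZj.ne' h5.ne'
        _ ≤ log (Z deg κ t (L (x j))) + fd (x j) u * K' / z0 := by
            have := log_le_sub_one_of_pos h5
            linarith
    refine le_of_forall_pos_le_add fun δ hδ => ?_
    have hδev : ∀ᶠ j in atTop, fd (x j) u * K' / z0 < δ := by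
      have h6 : Tendsto (fun j => fd (x j) u * K' / z0) atTop (𝓝 (0 * K' / z0)) :=
        (hu.mul_const K').div_const z0
      rw [zero_mul, zero_div] at h6
      exact h6.eventually (gt_mem_nhds hδ)
    have hAu : A u ≤ a - log (Z deg κ t (L u)) + δ := by
      refine hulsc _ ?_
      filter_upwards [hev, hδev, ha] with j h1 h2 h3
      unfold H at h3
      linarith
    unfold H
    linarith
  obtain ⟨u, hu1, hu2⟩ := R241.B11.ekeland fd D.fd_self D.fd_nonneg D.fd_tri (H deg A L κ t)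
    (-((n : ℝ) + 1) * log t - K) hlow' hcomp ε hε x₀
  refine ⟨u, ?_, hu2⟩
  have := mul_nonneg hε.le (D.fd_nonneg x₀ u)
  linarith

/-- (6.1) V0 at an Ekeland point: `A ≤ E[t L] + ε A C₁`. -/
theorem V0 (D : Data deg n c C A L fd C1) (hκ : 1 / 2 ≤ κ) (hκ1 : κ ≤ 1) (ht : 0 < t)
    (ht1 : t ≤ 1) {ε : ℝ} (hε : 0 ≤ ε) (F : α)
    (hF : ∀ G, H deg A L κ t F ≤ H deg A L κ t G + ε * fd F G) :
    A F ≤ Ex deg κ t (L F) (fun p => t * L F p) + ε * (A F * C1) := by
  have hG := D.growth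
  have hκ0 : 0 < κ := by linarith
  have hC1 := D.C1_pos
  have hA := D.A_nonneg F
  set b := A F * C1 with hb
  have hb0 : 0 ≤ b := by positivity
  set K5 := (b ^ 2 * 128) * (C * 4 ^ (n + 1)) * (1 + b) ^ (n + 1) / c with hK5
  have hK5' : 0 ≤ K5 := by have := C_nonneg hG; have := hG.c_pos; positivity
  refine le_of_forall_pos_le_add fun η hη => ?_
  -- choose `δ`
  obtain ⟨δ, hδ0, hδ1, hδb, hδη⟩ : ∃ δ : ℝ, 0 < δ ∧ δ < 1 ∧ δ * b ≤ κ / 4 ∧ δ * K5 ≤ η := by
    refine ⟨min (1 / 2) (min (κ / 4 / (b + 1)) (η / (K5 + 1))), ?_, ?_, ?_, ?_⟩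
    · exact lt_min (by norm_num) (lt_min (by positivity) (by positivity))
    · exact lt_of_le_of_lt (min_le_left _ _) (by norm_num)
    · have h1 : min (1 / 2) (min (κ / 4 / (b + 1)) (η / (K5 + 1))) ≤ κ / 4 / (b + 1) :=
        (min_le_right _ _).trans (min_le_left _ _)
      calc _ ≤ κ / 4 / (b + 1) * b := mul_le_mul_of_nonneg_right h1 hb0
        _ ≤ κ / 4 := by
          rw [div_mul_eq_mul_div, div_le_iff₀ (by positivity)]
          nlinarith
    · have h1 : min (1 / 2) (min (κ / 4 / (b + 1)) (η / (K5 + 1))) ≤ η / (K5 + 1) :=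
        (min_le_right _ _).trans (min_le_right _ _)
      calc _ ≤ η / (K5 + 1) * K5 := mul_le_mul_of_nonneg_right h1 hK5'
        _ ≤ η := by
          rw [div_mul_eq_mul_div, div_le_iff₀ (by positivity)]
          nlinarith
  obtain ⟨G, hG1, hG2, hG3⟩ := D.scale F (1 - δ) (by linarith) (by linarith)
  have h1 := hF G
  have h2 := log_Z_loss hG ht ht1 hκ hκ1 (D.L_nonneg F) (a := b) hb0 (D.L_le F)
    (L' := L G) (g := L F) (b := b) (μ := δ) hb0 hδ0.le hδb (D.L_nonneg F) (D.L_le F)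
    (D.L_nonneg G) (fun p => by have := hG2 p; linarith)
  unfold H at h1
  have h3 : ε * fd F G ≤ ε * (δ * b) := by
    apply mul_le_mul_of_nonneg_left _ hε
    have : (1 : ℝ) - (1 - δ) = δ := by ring
    rw [this] at hG3
    exact hG3
  -- `δ A ≤ δ E + δ² K5 + ε δ b`
  have h4 : δ * A F ≤ δ * (Ex deg κ t (L F) (fun p => t * L F p) + ε * b + δ * K5) := by
    have h5 : δ ^ 2 * K5 = δ * (δ * K5) := by ring
    rw [← hK5] at h2
    nlinarith
  have h6 := le_of_mul_le_mul_left h4 hδ0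
  linarith

end Crest.Agent.R271.Gibbs302
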