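import Crest.Agent.R271.Exist2_302

/-!
# R271, Parts 4, 5.3 (numerical half), 6.1: existence of Ekeland points, abstract form
-/

set_option autoImplicit false

open Real Finset Filter Topology

namespace Crest.Agent.R271.Gibbs302

variable {P : Type*} {α : Type*}
variable {deg : P → ℝ} {n : ℕ} {c C : ℝ} {κ t : ℝ} {A : α → ℝ} {L : α → P → ℝ}
  {fd : α → α → ℝ} {C1 : ℝ}

/-- pigeonhole (4.4) -/
def PH : Prop := ∀ (h : ℝ → ℝ) (d K : ℝ), 0 < d →
  (∀ t, 0 < t → t ≤ 1 → h t ≤ -d * Real.log t + K) →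
  (∀ t, 0 < t → t ≤ 1 → -d * Real.log t - K ≤ h t) →
  ∀ a : ℝ, 0 < a → ∀ e : ℝ, 0 < e → ∀ t₀ : ℝ, 0 < t₀ →
    ∃ t, 0 < t ∧ t ≤ t₀ ∧ t * (1 + a) ≤ 1 ∧
      h t - h (t * (1 + a)) ≤ (d + e) * Real.log (1 + a)

/-- numerical half of (5.3) -/
theorem caseB_gain (D : Data deg n c C A L fd C1)
    (ord : P → ℝ) (hord0 : ∀ p, 0 ≤ ord p) (hord : ∀ p, ord p ≤ C1 * deg p)
    (hordF : ∀ s : ℝ, 0 < s → ∃ G, A G ≤ s * n ∧ ∀ p, s * ord p ≤ L G p)
    (η₃ t₃ : ℝ) (hη₃ : 0 < η₃)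
    (hB : ∀ κ t : ℝ, 1 / 2 ≤ κ → κ ≤ 1 → 0 < t → t ≤ t₃ → t ≤ 1 →
      n + η₃ ≤ Ex deg κ t (fun _ => 0) (fun p => t * ord p)) :
    ∃ η₁ : ℝ, 0 < η₁ ∧ ∃ G : α, ∀ κ t : ℝ, 1 / 2 ≤ κ → κ ≤ 1 → 0 < t → t ≤ t₃ → t ≤ 1 →
      H deg A L κ t G ≤ log (Z deg κ t (fun _ => 0)) - η₁ := by
  have hG := D.growth
  have hC1 := D.C1_pos
  have hC := C_nonneg hG
  have hc := hG.c_pos
  set K3 : ℝ := (C1 ^ 2 * 256) * (C * 4 ^ (n + 1)) * (1 + 0) ^ (n + 1) / c with hK3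
  have hK30 : 0 ≤ K3 := by positivity
  set s : ℝ := η₃ / (K3 + 1) with hs
  have hs0 : 0 < s := by positivity
  have hsK : s * K3 ≤ η₃ := by
    rw [hs, div_mul_eq_mul_div, div_le_iff₀ (by positivity)]
    nlinarith
  obtain ⟨G, hG1, hG2⟩ := hordF s hs0
  refine ⟨s * η₃ / 2, by positivity, G, fun κ t hκ hκ1 ht ht3 ht1 => ?_⟩
  have hκ0 : 0 < κ := by linarith
  have h1 := log_Z_gain hG ht hκ0 (L := fun _ => 0) (fun _ => le_rfl) (L' := L G)
    (g := fun p => s * ord p) (b := s * C1) (by positivity)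
    (fun p => mul_nonneg hs0.le (hord0 p))
    (fun p => by have := mul_le_mul_of_nonneg_left (hord p) hs0.le; linarith)
    (fun p => by simpa using hG2 p)
  have e1 : Ex deg κ t (fun _ => 0) (fun p => t * (s * ord p))
      = s * Ex deg κ t (fun _ => 0) (fun p => t * ord p) := by
    rw [← Ex_mul_left]
    congr 1; funext p; ring
  have e2 : Ex deg κ t (fun _ => 0) (fun p => (t * (s * ord p)) ^ 2)
      = s ^ 2 * Ex deg κ t (fun _ => 0) (fun p => (t * ord p) ^ 2) := by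
    rw [← Ex_mul_left]
    congr 1; funext p; ring
  rw [e1, e2] at h1
  have h2 := hB κ t hκ hκ1 ht ht3 ht1
  have h3 : Ex deg κ t (fun _ => 0) (fun p => (t * ord p) ^ 2) ≤ K3 := by
    refine Ex_sq_le hG ht ht1 hκ hκ1 (L := fun _ => 0) (fun _ => le_rfl) (a := 0) le_rfl
      (fun p => by simp) (φ := fun p => t * ord p) (b := C1) hC1.le
      (fun p => mul_nonneg ht.le (hord0 p)) (fun p => ?_)
    have := mul_le_mul_of_nonneg_left (hord p) ht.le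
    linarith
  unfold H
  have h4 : s * (n + η₃) ≤ s * Ex deg κ t (fun _ => 0) (fun p => t * ord p) :=
    mul_le_mul_of_nonneg_left h2 hs0.le
  have h5 : s ^ 2 * Ex deg κ t (fun _ => 0) (fun p => (t * ord p) ^ 2) ≤ s * η₃ := by
    calc s ^ 2 * Ex deg κ t (fun _ => 0) (fun p => (t * ord p) ^ 2)
        ≤ s ^ 2 * K3 := mul_le_mul_of_nonneg_left h3 (by positivity)
      _ = s * (s * K3) := by ring
      _ ≤ s * η₃ := mul_le_mul_of_nonneg_left hsK hs0.le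
  nlinarith

/-- MAIN abstract existence theorem -/
theorem exi_abs (hPH : PH) (D : Data deg n c C A L fd C1)
    (ord : P → ℝ) (hord0 : ∀ p, 0 ≤ ord p) (hord : ∀ p, ord p ≤ C1 * deg p)
    (hordF : ∀ s : ℝ, 0 < s → ∃ G, A G ≤ s * n ∧ ∀ p, s * ord p ≤ L G p)
    (η₃ t₃ : ℝ) (hη₃ : 0 < η₃) (ht₃ : 0 < t₃)
    (hB : ∀ κ t : ℝ, 1 / 2 ≤ κ → κ ≤ 1 → 0 < t → t ≤ t₃ → t ≤ 1 →
      n + η₃ ≤ Ex deg κ t (fun _ => 0) (fun p => t * ord p)) :
    ∃ η₀ : ℝ, 0 < η₀ ∧ ∃ K : ℝ, ∀ κ : ℝ, 1 / 2 ≤ κ → κ ≤ 1 → ∀ ε₁ : ℝ, 0 < ε₁ →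
      ∀ ε : ℝ → ℝ, (∀ t, 0 < ε t) → ∀ t₀ : ℝ, 0 < t₀ →
        ∃ (t : ℝ) (F : α) (ε' : ℝ), 0 < t ∧ t ≤ t₀ ∧ t ≤ 1 ∧ 0 < ε' ∧ ε' ≤ ε t ∧
          (∀ G, H deg A L κ t F ≤ H deg A L κ t G + ε' * fd F G) ∧
          η₀ ≤ A F ∧ A F ≤ K ∧
          κ * (Ex deg κ t (L F) (fun p => t * deg p) + ε') ≤ n + 1 + ε₁ - A F := by
  classical
  have hG := D.growth
  have hC1 := D.C1_pos
  have hC := C_nonneg hG
  have hc := hG.c_pos
  obtain ⟨K0, hK0⟩ := H_lower hG D.C1_pos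
  obtain ⟨K1, hK1⟩ := log_Z_upper hG
  obtain ⟨K2, hK20, hK2⟩ := H_jensen hG D.C1_pos.le
  obtain ⟨η₁, hη₁, G₀, hG₀⟩ := caseB_gain D ord hord0 hord hordF η₃ t₃ hη₃ hB
  have hlow : ∀ κ t F, 1 / 2 ≤ κ → κ ≤ 1 → 0 < t →
      -((n : ℝ) + 1) * log t + A F / 2 - K0 ≤ H deg A L κ t F := fun κ t F hκ hκ1 ht =>
    hK0 κ t (A F) (L F) hκ hκ1 ht (D.A_nonneg F) (D.L_nonneg F) (D.L_le F)
  refine ⟨η₁ / (2 * K2), by positivity, 2 * (K0 + K1), ?_⟩
  intro κ hκ hκ1 ε₁ hε₁ ε hε t₀ ht₀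
  have hκ0 : 0 < κ := by linarith
  -- the infimum
  set h : ℝ → ℝ := fun t => ⨅ F : α, H deg A L κ t F with hh
  have hbdd : ∀ t, 0 < t → BddBelow (Set.range (fun F : α => H deg A L κ t F)) := by
    intro t ht
    refine ⟨-((n : ℝ) + 1) * log t - K0, ?_⟩
    rintro _ ⟨F, rfl⟩
    have := hlow κ t F hκ hκ1 ht
    have := D.A_nonneg F
    simp only
    linarith
  have hne : Nonempty α := ⟨G₀⟩
  have hle : ∀ t F, 0 < t → h t ≤ H deg A L κ t F := fun t F ht => ciInf_le (hbdd t ht) F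
  have hhlow : ∀ t, 0 < t → -((n : ℝ) + 1) * log t - K0 ≤ h t := by
    intro t ht
    refine le_ciInf (fun F => ?_)
    have := hlow κ t F hκ hκ1 ht
    have := D.A_nonneg F
    linarith
  have hhup : ∀ t, 0 < t → t ≤ 1 → h t ≤ -((n : ℝ) + 1) * log t + (A G₀ + K1) := by
    intro t ht ht1
    refine (hle t G₀ ht).trans ?_
    unfold H
    have := hK1 κ t (L G₀) hκ hκ1 ht ht1 (D.L_nonneg G₀)
    linarith
  -- constants
  set Am : ℝ := max (2 * (K0 + K1)) 0 with hAm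
  have hAm0 : 0 ≤ Am := le_max_right _ _
  set K4 : ℝ := ((1 + Am * C1) ^ 2 * 256) * (C * 4 ^ (n + 1)) * (1 + Am * C1) ^ (n + 1) / c
    with hK4
  have hK40 : 0 ≤ K4 := by positivity
  set a : ℝ := ε₁ / (4 * (K4 + 1)) with ha
  have ha0 : 0 < a := by positivity
  have haK : a * K4 ≤ ε₁ / 4 := by
    rw [ha, div_mul_eq_mul_div, div_le_iff₀ (by positivity)]
    nlinarith
  set KK : ℝ := max K0 (A G₀ + K1) with hKK
  obtain ⟨t, ht, htt₀, hta, htph⟩ := hPH h ((n : ℝ) + 1) KK (by positivity)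
    (fun t ht ht1 => (hhup t ht ht1).trans (by have := le_max_right K0 (A G₀ + K1); linarith))
    (fun t ht ht1 => le_trans (by have := le_max_left K0 (A G₀ + K1); linarith) (hhlow t ht))
    a ha0 (ε₁ / 8) (by positivity) (min t₀ t₃) (lt_min ht₀ ht₃)
  have ht1 : t ≤ 1 := by nlinarith
  have htt0 : t ≤ t₀ := htt₀.trans (min_le_left _ _)
  have htt3 : t ≤ t₃ := htt₀.trans (min_le_right _ _)
  -- near minimiser
  set e2 : ℝ := min (a * ε₁ / 8) (η₁ / 2) with he2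
  have he20 : 0 < e2 := lt_min (by positivity) (by positivity)
  obtain ⟨x₀, hx₀⟩ := exists_lt_of_ciInf_lt (show h t < h t + e2 by linarith)
  set ε' : ℝ := min (ε t) (ε₁ / (2 * (Am * C1 + 1))) with hε'
  have hε'0 : 0 < ε' := lt_min (hε t) (by positivity)
  obtain ⟨F, hF1, hF2⟩ := ekeland_point D hκ hκ1 ht ht1 hε'0 x₀
  have hHF : H deg A L κ t F ≤ h t + e2 := hF1.trans hx₀.le
  have hJ : h t ≤ log (Z deg κ t (fun _ => 0)) - η₁ :=
    (hle t G₀ ht).trans (hG₀ κ t hκ hκ1 ht htt3 ht1)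
  have hHF2 : H deg A L κ t F ≤ log (Z deg κ t (fun _ => 0)) - η₁ / 2 := by
    have : e2 ≤ η₁ / 2 := min_le_right _ _
    linarith
  -- `A F ≤ K`
  have hAF : A F ≤ 2 * (K0 + K1) := by
    have h1 := hlow κ t F hκ hκ1 ht
    have h2 := hK1 κ t (fun _ => 0) hκ hκ1 ht ht1 (fun _ => le_rfl)
    linarith
  have hAFm : A F ≤ Am := hAF.trans (le_max_left _ _)
  -- `η₀ ≤ A F`
  have hη : η₁ / (2 * K2) ≤ A F := by
    have h1 := hK2 κ t (A F) (L F) hκ hκ1 ht ht1 (D.A_nonneg F) (D.L_nonneg F) (D.L_le F)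
    unfold H at hHF2
    have h2 := D.A_nonneg F
    rw [div_le_iff₀ (by positivity)]
    nlinarith
  refine ⟨t, F, ε', ht, htt0, ht1, hε'0, min_le_left _ _, hF2, hη, hAF, ?_⟩
  -- first variations
  have hLF : ∀ p, L F p ≤ Am * C1 * deg p := fun p => by
    refine (D.L_le F p).trans ?_
    apply mul_le_mul_of_nonneg_right _ (hG.deg_nonneg p)
    exact mul_le_mul_of_nonneg_right hAFm hC1.le
  have hV0 := V0 D hκ hκ1 ht ht1 hε'0.le F hF2
  have htime := log_Z_time hG ht hκ0 (D.L_nonneg F) (a := Am * C1) (by positivity) hLF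
    (h := a) ha0.le
  have hsq : Ex deg κ t (L F) (fun p => (t * (κ * deg p + L F p)) ^ 2) ≤ K4 := by
    refine Ex_sq_le hG ht ht1 hκ hκ1 (D.L_nonneg F) (a := Am * C1) (by positivity) hLF
      (φ := fun p => t * (κ * deg p + L F p)) (b := 1 + Am * C1) (by positivity)
      (fun p => ?_) (fun p => ?_)
    · have h1 := hG.deg_nonneg p
      have h2 := D.L_nonneg F p
      positivity
    · have h1 := hG.deg_nonneg p
      have h2 : κ * deg p ≤ 1 * deg p := mul_le_mul_of_nonneg_right hκ1 h1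
      have h3 := mul_le_mul_of_nonneg_left (add_le_add h2 (hLF p)) ht.le
      linarith
  have hta1 : 0 < t * (1 + a) := by positivity
  have hnext : h (t * (1 + a)) ≤ H deg A L κ (t * (1 + a)) F := hle _ F hta1
  unfold H at hnext hHF
  have hlog : Real.log (1 + a) ≤ a := by
    have := log_le_sub_one_of_pos (show (0 : ℝ) < 1 + a by linarith)
    linarith
  have hph2 : h t - h (t * (1 + a)) ≤ ((n : ℝ) + 1 + ε₁ / 8) * a := by
    refine htph.trans ?_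
    apply mul_le_mul_of_nonneg_left hlog (by positivity)
  set EW := Ex deg κ t (L F) (fun p => t * (κ * deg p + L F p)) with hEW
  have he2' : e2 ≤ a * ε₁ / 8 := min_le_left _ _
  -- `a EW ≤ …`
  have h5 : a * EW ≤ a * ((n : ℝ) + 1 + ε₁ / 2) := by
    have h6 : a ^ 2 / 2 * Ex deg κ t (L F) (fun p => (t * (κ * deg p + L F p)) ^ 2)
        ≤ a * (ε₁ / 8) := by
      calc a ^ 2 / 2 * Ex deg κ t (L F) (fun p => (t * (κ * deg p + L F p)) ^ 2)
          ≤ a ^ 2 / 2 * K4 := mul_le_mul_of_nonneg_left hsq (by positivity)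
        _ = a / 2 * (a * K4) := by ring
        _ ≤ a / 2 * (ε₁ / 4) := mul_le_mul_of_nonneg_left haK (by positivity)
        _ = a * (ε₁ / 8) := by ring
    have h7 : 0 < a * ε₁ := by positivity
    have e1 : a * ((n : ℝ) + 1 + ε₁ / 2) = a * ((n : ℝ) + 1) + a * ε₁ / 2 := by ring
    have e2' : ((n : ℝ) + 1 + ε₁ / 8) * a = a * ((n : ℝ) + 1) + a * ε₁ / 8 := by ring
    have e3 : a * (ε₁ / 8) = a * ε₁ / 8 := by ring
    rw [e1]
    rw [e2'] at hph2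
    rw [e3] at h6
    linarith
  have h8 : EW ≤ (n : ℝ) + 1 + ε₁ / 2 := le_of_mul_le_mul_left h5 ha0
  -- split `EW`
  have s1 : Summable fun p => w deg κ t (L F) p * (κ * (t * deg p)) := by
    have := (summable_lin hG ht hκ0 (D.L_nonneg F) (φ := fun p => t * deg p) (a := 1) zero_le_one
      (fun p => mul_nonneg ht.le (hG.deg_nonneg p)) (fun p => by rw [one_mul])).mul_left κ
    refine this.congr (fun p => by ring)
  have s2 : Summable fun p => w deg κ t (L F) p * (t * L F p) := by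
    refine summable_lin hG ht hκ0 (D.L_nonneg F) (φ := fun p => t * L F p) (a := Am * C1)
      (by positivity) (fun p => mul_nonneg ht.le (D.L_nonneg F p)) (fun p => ?_)
    have := mul_le_mul_of_nonneg_left (hLF p) ht.le
    linarith
  have h9 : EW = κ * Ex deg κ t (L F) (fun p => t * deg p) + Ex deg κ t (L F) (fun p => t * L F p) := by
    rw [hEW, ← Ex_mul_left, ← Ex_add s1 s2]
    congr 1; funext p; ring
  have h10 : ε' * (Am * C1 + 1) ≤ ε₁ / 2 := by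
    have h11 : ε' ≤ ε₁ / (2 * (Am * C1 + 1)) := min_le_right _ _
    have h12 : (0 : ℝ) < Am * C1 + 1 := by positivity
    calc ε' * (Am * C1 + 1) ≤ ε₁ / (2 * (Am * C1 + 1)) * (Am * C1 + 1) :=
          mul_le_mul_of_nonneg_right h11 h12.le
      _ = ε₁ / 2 := by field_simp
  have h13 : ε' * (A F * C1) ≤ ε' * (Am * C1) :=
    mul_le_mul_of_nonneg_left (mul_le_mul_of_nonneg_right hAFm hC1.le) hε'0.le
  have h14 : κ * ε' ≤ 1 * ε' := mul_le_mul_of_nonneg_right hκ1 hε'0.le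
  have h15 : κ * (Ex deg κ t (L F) (fun p => t * deg p) + ε')
      = κ * Ex deg κ t (L F) (fun p => t * deg p) + κ * ε' := by ring
  have h16 : ε' * (Am * C1 + 1) = ε' * (Am * C1) + ε' := by ring
  rw [h15]
  rw [h16] at h10
  linarith

end Crest.Agent.R271.Gibbs302
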