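import Crest.Agent.R271.N0_710
import Crest.Agent.R271.NSpec_647

/-!
Row 271: glue between `N0_710.center`, `NSpec_647.Center` and `Assembly_710.NonIsoMain`.
-/

set_option autoImplicit false

open scoped ENNReal NNReal Topology BigOperators
open MeasureTheory

noncomputable section

namespace Crest.Agent.R271.N0x710

open Crest.Agent.R271.Defs710 Crest.Agent.R271.Assembly710

variable {n : ℕ} {X : FCtx n}

/-- the dimension of a proper, non-maximal quotient is a positive natural number -/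
theorem exists_dim (X : FCtx n) (P : Ideal X.B) (hP : P.IsPrime) (y : X.B →ₐ[ℂ] ℂ)
    (hle : P ≤ mI y) (hne : P ≠ mI y) : ∃ d : ℕ, 1 ≤ d ∧ ringKrullDim (X.B ⧸ P) = d := by
  have := hP
  have hft := X.ft
  obtain ⟨N, f, hf⟩ := (Algebra.FiniteType.iff_quotient_mvPolynomial'' (R := ℂ) (S := X.B)).1 hft
  have h1 : ringKrullDim (X.B ⧸ P) ≤ N := by
    refine (ringKrullDim_le_of_surjective (Ideal.Quotient.mk P)
      Ideal.Quotient.mk_surjective).trans ?_
    refine (ringKrullDim_le_of_surjective (f : MvPolynomial (Fin N) ℂ →+* X.B) hf).trans ?_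
    rw [MvPolynomial.ringKrullDim_of_isNoetherianRing]
    simp
  have h2 : (1 : WithBot ℕ∞) ≤ ringKrullDim (X.B ⧸ P) := by
    -- two primes `⊥ < m`
    have hlt : P < mI y := lt_of_le_of_ne hle hne
    have hmax := mI_max y
    by_contra hcon
    have h0 : ringKrullDim (X.B ⧸ P) ≤ 0 := by
      have h1' : ringKrullDim (X.B ⧸ P) < 1 := not_le.1 hcon
      rcases hx : ringKrullDim (X.B ⧸ P) with _ | e
      · exact bot_le
      · rw [hx] at h1'
        have h2' : e < 1 := WithBot.coe_lt_coe.1 h1'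
        have h3' : e = 0 := Order.lt_one_iff.1 h2'
        rw [h3']; exact le_rfl
    have hKD : Ring.KrullDimLE 0 (X.B ⧸ P) := by
      rw [Ring.krullDimLE_iff]
      simpa using h0
    have hfield := Ring.KrullDimLE.isField_of_isDomain (R := X.B ⧸ P)
    have hPmax : P.IsMaximal := Ideal.Quotient.maximal_of_isField P hfield
    exact hne (hPmax.eq_of_le hmax.ne_top hle)
  have h3 : ∃ d : ℕ, ringKrullDim (X.B ⧸ P) = d := by
    have hnb : ringKrullDim (X.B ⧸ P) ≠ ⊥ := by
      intro h; rw [h] at h2; simp at h2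
    obtain ⟨e, he⟩ := WithBot.ne_bot_iff_exists.1 hnb
    rw [← he] at h1 ⊢
    have h4 : e ≤ N := by exact_mod_cast h1
    have h5 : e ≠ ⊤ := ne_top_of_le_ne_top (ENat.natCast_ne_top N) h4
    obtain ⟨d, hd⟩ := ENat.ne_top_iff_exists.1 h5
    exact ⟨d, by rw [← hd]; rfl⟩
  obtain ⟨d, hd⟩ := h3
  refine ⟨d, ?_, hd⟩
  rw [hd] at h2
  exact_mod_cast h2

/-- (7.1)+(8.0) in the form of team N -/
theorem iso_or_center (af : AFacts X) (F : Filt X.V) (A : ℝ) (hA : 0 < A)
    (hthr : thr X.z F X.x = ENNReal.ofReal A) :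
    IsoAt X F ∨ ∃ (P : Ideal X.B) (d : ℕ), 1 ≤ d ∧ N647.Center X F A P d := by
  have hfin : thr X.z F X.x ≠ ∞ := by rw [hthr]; exact ENNReal.ofReal_ne_top
  have hreal : (thr X.z F X.x).toReal = A := by rw [hthr, ENNReal.toReal_ofReal hA.le]
  rcases center af F hfin (by rw [hreal]; exact hA) with h | h
  · exact Or.inl h
  · right
    obtain ⟨l₁, k₁, J, P, h₀, K, hl₁, hk₁, hK, hPp, hJP, hPx, hPne, hPbot, hh₀, hPK, hJ1, hJ2,
      hthrle⟩ := h
    obtain ⟨d, hd1, hd⟩ := exists_dim X P hPp X.x hPx hPne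
    have hne : ∀ L, idl F L ≠ ⊥ := by
      apply idl_ne_bot F (y := X.x)
      rw [hthr]
      simpa using hA
    refine ⟨P, d, hd1, ⟨hPp, hd, hPbot, hPx, hA, hne, ?_, l₁, k₁, K, h₀, hreal ▸ hl₁, hk₁, hK,
      hh₀, ?_⟩⟩
    · intro y hy l hl
      by_cases hl0 : 0 ≤ l
      · have h1 := (le_thr_of_good F y hl0 hl).trans (hthrle y hy)
        rw [hthr] at h1
        exact (ENNReal.ofReal_le_ofReal_iff hA.le).1 h1
      · linarith
    · intro y hy hyh
      have h1 := hJ2 y (P ^ K) (pow_ne_zero K hPbot) ⟨h₀, hyh, hPK⟩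
      have h2 := (af.prod y Unit Unit (fun _ => idl F (k₁ * l₁)) (fun _ => 1 / (k₁ : ℝ))
        (fun _ => P) (fun _ => K) (-1) (fun _ => hne _) (fun _ => hPbot)).1 (by simpa using h1)
      let e : Fin 2 ≃ Unit ⊕ Unit :=
        { toFun := ![Sum.inl (), Sum.inr ()]
          invFun := Sum.elim (fun _ => 0) (fun _ => 1)
          left_inv := by intro i; fin_cases i <;> rfl
          right_inv := by rintro (⟨⟩ | ⟨⟩) <;> rfl }
      rw [← IInt_equiv e] at h2
      convert h2 using 1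
      · funext i; fin_cases i <;> rfl
      · funext i; fin_cases i <;> simp [e]

/-- `NonIsoMain` from team N's `NonIsoStmt` -/
theorem nonIsoMain_of (h : ∀ (n : ℕ) (X : FCtx n), 1 ≤ n → AFacts X → N647.NonIsoStmt X) :
    NonIsoMain := by
  intro n X hn af κ hκ1 hκ2
  obtain ⟨t₀, ht₀, H⟩ := h n X hn af κ hκ1 hκ2
  refine ⟨t₀, ht₀, fun t ht htt => ?_⟩
  obtain ⟨ε₀, hε₀, H2⟩ := H t ht htt
  refine ⟨ε₀, hε₀, fun F hF hpos => ?_⟩
  set A := (thr X.z F X.x).toReal with hAdef
  have hthr : thr X.z F X.x = ENNReal.ofReal A := (ENNReal.ofReal_toReal hF.fin).symm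
  rcases iso_or_center af F A hpos hthr with h1 | ⟨P, d, hd, hc⟩
  · exact h1
  · exfalso
    refine H2 ε₀ hε₀ le_rfl F A ?_ P d hd hc
    intro F' ρ A' hρ hA' hdist hgood
    have hthr' : thr X.z F' X.x ≤ ENNReal.ofReal A' := by
      unfold thr
      refine iSup₂_le fun l hl => ?_
      have := hgood l hl
      calc (l : ℝ≥0∞) = ENNReal.ofReal l := by simp
        _ ≤ ENNReal.ofReal A' := ENNReal.ofReal_le_ofReal this
    have hfin' : thr X.z F' X.x ≠ ∞ := ne_top_of_le_ne_top ENNReal.ofReal_ne_top hthr'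
    have h1 := hF.ek F' hfin'
    have h2 : (thr X.z F' X.x).toReal ≤ A' := by
      calc (thr X.z F' X.x).toReal ≤ (ENNReal.ofReal A').toReal :=
            ENNReal.toReal_mono ENNReal.ofReal_ne_top hthr'
        _ = A' := ENNReal.toReal_ofReal hA'
    have h3 : fdist F F' ≤ ρ := by
      unfold fdist
      exact csInf_le ⟨0, fun e he => he.1⟩ ⟨hρ, hdist⟩
    have h4 : ε₀ * fdist F F' ≤ ε₀ * ρ := mul_le_mul_of_nonneg_left h3 hε₀.le
    linarith

end Crest.Agent.R271.N0x710
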