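import Crest.Agent.R271.Defs_710
import Crest.Agent.R271.Assembly_710
import Crest.Agent.R271.N0b_710
import Crest.Agent.R271.NSpec_647

/-!
Row 271: top level assembly from the leaves (as hypotheses), for the final file `S0413.lean`.
-/

set_option autoImplicit false

open scoped ENNReal NNReal Topology BigOperators
open MeasureTheory

noncomputable section

namespace Crest.Agent.R271.Facts710

open Crest.Agent.R271.Defs710

/-- ANALYSIS: `AFacts` from its fields -/
theorem analysisMain
    (chart : ∀ (n : ℕ) (X : FCtx n), ChartEx X)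
    (change : ∀ (n : ℕ) (X : FCtx n), ChartChange X)
    (gens : ∀ (n : ℕ) (X : FCtx n), GensFact X)
    (mult : ∀ (n : ℕ) (X : FCtx n), MultIdeal X)
    (sum : ∀ (n : ℕ) (X : FCtx n), SumIdeal X)
    (holder : ∀ (n : ℕ) (X : FCtx n), Holder X)
    (mono : ∀ (n : ℕ) (X : FCtx n), MonoFact X)
    (prod : ∀ (n : ℕ) (X : FCtx n), ProdFact X)
    (ord : ∀ (n : ℕ) (X : FCtx n), OrdFact X)
    (nonint : ∀ (n : ℕ) (X : FCtx n), NonIntFact X)
    (fubini : ∀ (n : ℕ) (X : FCtx n), FubiniFact X)
    (spec : ∀ (n : ℕ) (X : FCtx n), SpecFact X)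
    (disc : ∀ (n : ℕ) (X : FCtx n), DiscFact X)
    (gen : ∀ (n : ℕ) (X : FCtx n), GenFact X) : AnalysisMain :=
  fun n X _ => ⟨chart n X, change n X, gens n X, mult n X, sum n X, holder n X, mono n X, prod n X,
    ord n X, nonint n X, fubini n X, spec n X, disc n X, gen n X⟩

/-- ABSTRACT PART from its four statements -/
theorem abstractMain (hA : Assembly710.CaseA) (hE : Assembly710.ExiMain)
    (hN : ∀ (n : ℕ) (X : FCtx n), 1 ≤ n → AFacts X → N647.NonIsoStmt X)
    (hI : Assembly710.IsoMain) : AbstractMain :=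
  Assembly710.abstractMain hA hE (N0x710.nonIsoMain_of hN) hI

end Crest.Agent.R271.Facts710
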