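import Crest.Agent.R271.GenA_86
import Crest.Agent.R271.Defs_710

/-! R271, team N, N1 (GEN): `GenFact`. -/

set_option autoImplicit false

namespace Crest.Agent.R271.Gen86

open KaehlerDifferential TensorProduct

section Dim

variable {A S : Type*} [CommRing A] [CommRing S] [Algebra A S]

theorem ringKrullDim_le_of_isIntegral [Algebra.IsIntegral A S] :
    ringKrullDim S ≤ ringKrullDim A := by
  apply Order.krullDim_le_of_strictMono (PrimeSpectrum.comap (algebraMap A S))
  intro p q hpq
  have h1 : p.asIdeal < q.asIdeal := hpq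
  exact Ideal.IsIntegral.comap_lt_comap (R := A) h1

theorem exists_ltSeries_lift [Algebra.IsIntegral A S] (hinj : Function.Injective (algebraMap A S))
    (l : LTSeries (PrimeSpectrum A)) : ∃ L : LTSeries (PrimeSpectrum S), L.length = l.length := by
  obtain ⟨P, -, hP, hPl⟩ := Ideal.exists_ideal_over_prime_of_isIntegral
    l.head.asIdeal (⊥ : Ideal S) (by
      change RingHom.ker (algebraMap A S) ≤ _
      rw [(RingHom.injective_iff_ker_eq_bot _).1 hinj]; exact bot_le)
  have : P.LiesOver l.head.asIdeal := ⟨hPl.symm⟩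
  have : Algebra.HasGoingUp A S := Algebra.HasGoingUp.of_isIntegral
  obtain ⟨L, hL, -, -⟩ := Ideal.exists_ltSeries_of_hasGoingUp l P
  exact ⟨L, hL⟩

/-- an injective integral extension has the same dimension -/
theorem ringKrullDim_eq_of_isIntegral_of_injective [Algebra.IsIntegral A S]
    (hinj : Function.Injective (algebraMap A S)) : ringKrullDim S = ringKrullDim A := by
  refine le_antisymm ringKrullDim_le_of_isIntegral ?_
  refine iSup_le fun l => ?_
  obtain ⟨L, hL⟩ := exists_ltSeries_lift (S := S) hinj l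
  rw [← hL]
  exact le_iSup (fun L : LTSeries (PrimeSpectrum S) => (L.length : WithBot ℕ∞)) L

end Dim

/-- `dim Ω_{K/k} = dim A` for a finitely generated domain `A` with fraction field `K`, char. 0 -/
theorem finrank_kaehler {k A K : Type*} [Field k] [CharZero k] [CommRing A] [IsDomain A]
    [Algebra k A] [Algebra.FiniteType k A] [Field K] [Algebra A K] [IsFractionRing A K]
    [Algebra k K] [IsScalarTower k A K] (d : ℕ) (hd : ringKrullDim A = d) :
    Module.finrank K Ω[K⁄k] = d := by
  obtain ⟨s, g, hg, hint⟩ := exists_integral_inj_algHom_of_fg k A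
  let _ : Algebra (MvPolynomial (Fin s) k) A := g.toRingHom.toAlgebra
  have hgA : algebraMap (MvPolynomial (Fin s) k) A = g.toRingHom := rfl
  have : IsScalarTower k (MvPolynomial (Fin s) k) A := IsScalarTower.of_algebraMap_eq fun x => by
    rw [hgA]; exact (g.commutes x).symm
  have : Algebra.IsIntegral (MvPolynomial (Fin s) k) A := ⟨hint⟩
  have hs : s = d := by
    have h1 := ringKrullDim_eq_of_isIntegral_of_injective (A := MvPolynomial (Fin s) k) (S := A) hg
    rw [hd, MvPolynomial.ringKrullDim_of_isNoetherianRing, ringKrullDim_eq_zero_of_field,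
      zero_add, Nat.card_eq_fintype_card, Fintype.card_fin] at h1
    exact_mod_cast h1.symm
  let _ : Algebra (MvPolynomial (Fin s) k) K := ((algebraMap A K).comp g.toRingHom).toAlgebra
  have : IsScalarTower (MvPolynomial (Fin s) k) A K := IsScalarTower.of_algebraMap_eq' rfl
  have : IsScalarTower k (MvPolynomial (Fin s) k) K := IsScalarTower.of_algebraMap_eq fun x => by
    rw [IsScalarTower.algebraMap_apply k A K, IsScalarTower.algebraMap_apply k
      (MvPolynomial (Fin s) k) A, ← IsScalarTower.algebraMap_apply (MvPolynomial (Fin s) k) A K]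
  have hinjK : Function.Injective (algebraMap (MvPolynomial (Fin s) k) K) :=
    (IsFractionRing.injective A K).comp hg
  have : FaithfulSMul (MvPolynomial (Fin s) k) K := (faithfulSMul_iff_algebraMap_injective _ _).2 hinjK
  have : FaithfulSMul (MvPolynomial (Fin s) k) A := (faithfulSMul_iff_algebraMap_injective _ _).2 hg
  let _ : Algebra (FractionRing (MvPolynomial (Fin s) k)) K := FractionRing.liftAlgebra _ K
  have : IsScalarTower (MvPolynomial (Fin s) k) (FractionRing (MvPolynomial (Fin s) k)) K :=
    FractionRing.isScalarTower_liftAlgebra _ K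
  have halgAK : Algebra.IsAlgebraic A K := IsLocalization.isAlgebraic K (nonZeroDivisors A)
  have halg : Algebra.IsAlgebraic (MvPolynomial (Fin s) k) K :=
    Algebra.IsIntegral.trans_isAlgebraic _ A K
  have halg' : Algebra.IsAlgebraic (FractionRing (MvPolynomial (Fin s) k)) K :=
    (IsFractionRing.comap_isAlgebraic_iff (A := MvPolynomial (Fin s) k)
      (K := FractionRing (MvPolynomial (Fin s) k)) (C := K)).1 halg
  have : CharZero (FractionRing (MvPolynomial (Fin s) k)) := inferInstance
  have : Algebra.IsSeparable (FractionRing (MvPolynomial (Fin s) k)) K := inferInstance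
  have h1 : Algebra.FormallyEtale (FractionRing (MvPolynomial (Fin s) k)) K :=
    Algebra.FormallyEtale.of_isSeparable _ K
  have h2 : Algebra.FormallyEtale (MvPolynomial (Fin s) k)
      (FractionRing (MvPolynomial (Fin s) k)) :=
    .of_isLocalization (nonZeroDivisors (MvPolynomial (Fin s) k))
  have h3 : Algebra.FormallyEtale (MvPolynomial (Fin s) k) K :=
    .comp _ (FractionRing (MvPolynomial (Fin s) k)) K
  have e := tensorKaehlerEquivOfFormallyEtale k (MvPolynomial (Fin s) k) K
  rw [← e.finrank_eq, Module.finrank_baseChange,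
    Module.finrank_eq_card_basis (mvPolynomialBasis k (Fin s)), Fintype.card_fin, hs]

open Crest.Agent.R271.Defs710

/-- existence of the permutation moving `{i < d}` to `I` -/
lemma exists_perm {n d : ℕ} (I : Finset (Fin n)) (hI : I.card = d) :
    ∃ e : Equiv.Perm (Fin n), ∀ i, e i ∈ I ↔ i.1 < d := by
  classical
  have hdn : d ≤ n := by
    rw [← hI]; simpa using Finset.card_le_univ I
  have hc : Fintype.card {i : Fin n // i.1 < d} = Fintype.card {i // i ∈ I} := by
    rw [Fintype.card_coe, hI, Fintype.card_subtype]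
    have : (Finset.univ.filter fun i : Fin n => i.1 < d) =
        Finset.univ.image (Fin.castLE hdn) := by
      ext i
      simp only [Finset.mem_filter, Finset.mem_univ, true_and, Finset.mem_image]
      constructor
      · intro h; exact ⟨⟨i.1, h⟩, rfl⟩
      · rintro ⟨a, rfl⟩; exact a.2
    rw [this, Finset.card_image_of_injective _ (Fin.castLE_injective hdn), Finset.card_univ,
      Fintype.card_fin]
  let e0 := Fintype.equivOfCardEq hc
  refine ⟨e0.extendSubtype, fun i => ⟨fun h => ?_, fun h => e0.extendSubtype_mem i h⟩⟩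
  by_contra h'
  exact e0.extendSubtype_not_mem i h' h

theorem genFact {n : ℕ} (X : FCtx n) : GenFact X := by
  classical
  intro P d hP hd
  have : P.IsPrime := hP
  have hft := X.ft
  have hnoeth : IsNoetherianRing X.B := Algebra.FiniteType.isNoetherianRing ℂ X.B
  let _ : Algebra (MvPolynomial (Fin n) ℂ) X.B :=
    (MvPolynomial.aeval X.z : MvPolynomial (Fin n) ℂ →ₐ[ℂ] X.B).toRingHom.toAlgebra
  have hal : algebraMap (MvPolynomial (Fin n) ℂ) X.B =
    (MvPolynomial.aeval X.z : MvPolynomial (Fin n) ℂ →ₐ[ℂ] X.B).toRingHom := rfl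
  have : IsScalarTower ℂ (MvPolynomial (Fin n) ℂ) X.B := IsScalarTower.of_algebraMap_eq fun x => by
    rw [hal]; exact ((MvPolynomial.aeval X.z : MvPolynomial (Fin n) ℂ →ₐ[ℂ] X.B).commutes x).symm
  have het : Algebra.Etale (MvPolynomial (Fin n) ℂ) X.B := X.etale
  have hfs : Algebra.FormallySmooth ℂ X.B := .comp ℂ (MvPolynomial (Fin n) ℂ) X.B
  let bs : Module.Basis (Fin n) X.B Ω[X.B⁄ℂ] :=
    (Algebra.TensorProduct.basis X.B (mvPolynomialBasis ℂ (Fin n))).map
      (tensorKaehlerEquivOfFormallyEtale ℂ (MvPolynomial (Fin n) ℂ) X.B)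
  have hbs : ∀ i, bs i = D ℂ X.B (X.z i) := by
    intro i
    simp only [bs, Module.Basis.map_apply, Algebra.TensorProduct.basis_apply,
      mvPolynomialBasis_apply, tensorKaehlerEquivOfFormallyEtale_apply, mapBaseChange_tmul,
      one_smul, map_D]
    rw [hal]
    simp
  have hreprz : ∀ i l, bs.repr (D ℂ X.B (X.z i)) l = if i = l then 1 else 0 := by
    intro i l
    rw [← hbs, Module.Basis.repr_self, Finsupp.single_apply]
  obtain ⟨I, f, h, hh, hfP, hspan, hdet, hcard⟩ := gen_alg (k := ℂ) P bs
  have hId : I.card = d := by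
    rw [hcard]
    exact finrank_kaehler (k := ℂ) (A := X.B ⧸ P) d hd
  obtain ⟨e, he⟩ := exists_perm I hId
  refine ⟨h * (Matrix.of fun j l : {j // j ∉ I} => bs.repr (D ℂ X.B (f j)) l).det, ?_, ?_⟩
  · intro hmem
    rcases hP.mem_or_mem hmem with h1 | h1
    · exact hh h1
    · exact hdet h1
  intro y hyP hy
  rw [map_mul] at hy
  have hy1 : y h ≠ 0 := left_ne_zero_of_mul hy
  have hy2 := right_ne_zero_of_mul hy
  let w : Fin n → X.B := fun i =>
    if hi : e i ∈ I then X.z (e i) - algebraMap ℂ X.B (y (X.z (e i))) else f ⟨e i, hi⟩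
  have hw0 : ∀ i, y (w i) = 0 := by
    intro i
    simp only [w]
    split_ifs with hi
    · rw [map_sub, AlgHom.commutes, Algebra.algebraMap_self, RingHom.id_apply, sub_self]
    · exact hyP _ (hfP _)
  have hwd : ∀ i : Fin n, d ≤ i.1 → ∃ hi : e i ∉ I, w i = f ⟨e i, hi⟩ := by
    intro i hi
    have h1 : e i ∉ I := fun h => absurd ((he i).1 h) (not_lt.2 hi)
    exact ⟨h1, by simp only [w, dif_neg h1]⟩
  have hmprime : (mI y).IsPrime := RingHom.ker_isPrime _
  -- the full Jacobian
  have hJ : (Matrix.of fun j l : Fin n => bs.repr (D ℂ X.B (w j)) l).det ∉ mI y := by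
    intro hmem
    have h0 : y (Matrix.of fun j l : Fin n => bs.repr (D ℂ X.B (w j)) l).det = 0 := hmem
    rw [AlgHom.map_det] at h0
    obtain ⟨v, hv0, hv⟩ := Matrix.exists_mulVec_eq_zero_iff.2 h0
    have hrow : ∀ j, ∑ l, y (bs.repr (D ℂ X.B (w j)) l) * v l = 0 := by
      intro j
      have := congrFun hv j
      simpa [Matrix.mulVec, dotProduct] using this
    have hvI : ∀ l, l ∈ I → v l = 0 := by
      intro l hl
      have h1 := hrow (e.symm l)
      have h2 : w (e.symm l) = X.z l - algebraMap ℂ X.B (y (X.z l)) := by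
        simp only [w, Equiv.apply_symm_apply, dif_pos hl]
      rw [h2, map_sub, Derivation.map_algebraMap, sub_zero] at h1
      simp only [hreprz] at h1
      simpa using h1
    have hvn : ∀ j : {j // j ∉ I}, ∑ l : {l // l ∉ I}, y (bs.repr (D ℂ X.B (f j)) l) * v l = 0 := by
      intro j
      have h1 := hrow (e.symm j.1)
      have h2 : w (e.symm j.1) = f j := by
        have : e (e.symm j.1) ∉ I := by rw [Equiv.apply_symm_apply]; exact j.2
        simp only [w, dif_neg this]
        congr 1
        exact Subtype.ext (Equiv.apply_symm_apply _ _)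
      rw [h2] at h1
      rw [← h1, ← Finset.sum_subtype (Finset.univ.filter (· ∉ I)) (by simp)
        (fun l => y (bs.repr (D ℂ X.B (f j)) l) * v l)]
      apply Finset.sum_subset (Finset.subset_univ _)
      intro l _ hl
      have : l ∈ I := by simpa using hl
      rw [hvI l this, mul_zero]
    apply hy2
    rw [AlgHom.map_det]
    apply Matrix.exists_mulVec_eq_zero_iff.1
    refine ⟨fun l => v l, ?_, ?_⟩
    · intro hz
      apply hv0
      funext l
      by_cases hl : l ∈ I
      · exact hvI l hl
      · exact congrFun hz ⟨l, hl⟩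
    · funext j
      simpa [Matrix.mulVec, dotProduct] using hvn j
  obtain ⟨g, hg, hgspan⟩ := local_gen (k := ℂ) (mI y) bs w hw0 hJ
  refine ⟨w, hw0, fun i hi => ?_, h * g, ?_, ?_, ?_⟩
  · obtain ⟨h1, h2⟩ := hwd i hi
    rw [h2]; exact hfP _
  · rw [map_mul]; exact mul_ne_zero hy1 hg
  · intro b hb
    have h1 : Ideal.span (Set.range f) ≤ Ideal.span (w '' {i | d ≤ i.1}) := by
      apply Ideal.span_mono
      rintro _ ⟨j, rfl⟩
      have h2 : e (e.symm j.1) ∉ I := by rw [Equiv.apply_symm_apply]; exact j.2
      refine ⟨e.symm j.1, ?_, ?_⟩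
      · exact not_lt.1 fun h3 => h2 ((he _).2 h3)
      · simp only [w, dif_neg h2]
        congr 1
        exact Subtype.ext (Equiv.apply_symm_apply _ _)
    have h2 : h * g * b = g * (h * b) := by ring
    rw [h2]
    exact Ideal.mul_mem_left _ _ (h1 (hspan b hb))
  · intro b hb
    have h2 : h * g * b = h * (g * b) := by ring
    rw [h2]
    exact Ideal.mul_mem_left _ _ (hgspan b hb)

end Crest.Agent.R271.Gen86
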