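import Mathlib
import Crest.Agent.R271.Defs_710
import Crest.Agent.R271.IInt_821
import Crest.Agent.R271.Ord_969

/-!
Row 271, team L (helper821): `Holder X`, unconditional.
-/

set_option autoImplicit false

open scoped Topology
open Filter

noncomputable section

namespace Crest.Agent.R271.Local821

open Crest.Agent.R271.Defs710

variable {n : ℕ} (X : FCtx n)

/-- germs at `y` of nonzero functions are nonzero -/
theorem germInj (y : X.B →ₐ[ℂ] ℂ) : GermInj X.z y := fun C _ hb =>
  Ord969.fctx_frequently_ne X y C hb

/-- (AF3) convexity of the integrability conditions -/
theorem holder : Holder X := holderFact X (germInj X)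

end Crest.Agent.R271.Local821
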