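import Crest.Agent.R271.Assembly_710

/-!
Row 271, (7.1) and (8.0): the centre of a filtration.
-/

set_option autoImplicit false

open scoped ENNReal NNReal Topology BigOperators
open MeasureTheory

noncomputable section

namespace Crest.Agent.R271.N0x710

open Crest.Agent.R271.Defs710 Crest.Agent.R271.Assembly710

variable {n : ℕ} {X : FCtx n}

theorem noeth (X : FCtx n) : IsNoetherianRing X.B := by
  have := X.ft
  exact Algebra.FiniteType.isNoetherianRing ℂ X.B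

theorem jacobson (X : FCtx n) : IsJacobsonRing X.B := by
  have := X.ft
  exact isJacobsonRing_of_finiteType (A := ℂ) (B := X.B)

theorem mI_max (y : X.B →ₐ[ℂ] ℂ) : (mI y).IsMaximal := by
  apply RingHom.ker_isMaximal_of_surjective
  intro c
  exact ⟨algebraMap ℂ X.B c, by simp⟩

theorem mem_mI (y : X.B →ₐ[ℂ] ℂ) (f : X.B) : f ∈ mI y ↔ y f = 0 := by
  simp [mI, RingHom.mem_ker]

theorem mI_inj {y y' : X.B →ₐ[ℂ] ℂ} (h : mI y ≤ mI y') : y = y' := by
  ext f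
  have h1 : f - algebraMap ℂ X.B (y f) ∈ mI y := by
    rw [mem_mI]; simp
  have h2 := h h1
  rw [mem_mI] at h2
  simp only [map_sub, AlgHom.commutes] at h2
  exact (sub_eq_zero.1 h2).symm

/-- Nullstellensatz -/
theorem exists_pt (m : Ideal X.B) (hm : m.IsMaximal) : ∃ y : X.B →ₐ[ℂ] ℂ, mI y = m := by
  have := X.ft
  have := hm
  let _ : Field (X.B ⧸ m) := Ideal.Quotient.field m
  have : Algebra.FiniteType ℂ (X.B ⧸ m) :=
    Algebra.FiniteType.of_surjective (Ideal.Quotient.mkₐ ℂ m) (Ideal.Quotient.mkₐ_surjective ℂ m)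
  have : Module.Finite ℂ (X.B ⧸ m) := finite_of_finite_type_of_isJacobsonRing ℂ (X.B ⧸ m)
  have hbij : Function.Bijective (algebraMap ℂ (X.B ⧸ m)) :=
    IsAlgClosed.algebraMap_bijective_of_isIntegral
  let e : ℂ ≃ₐ[ℂ] (X.B ⧸ m) := AlgEquiv.ofBijective (Algebra.ofId ℂ (X.B ⧸ m)) hbij
  refine ⟨(e.symm : (X.B ⧸ m) →ₐ[ℂ] ℂ).comp (Ideal.Quotient.mkₐ ℂ m), ?_⟩
  ext f
  rw [mem_mI]
  rw [AlgHom.comp_apply, Ideal.Quotient.mkₐ_eq_mk]
  change e.symm (Ideal.Quotient.mk m f) = 0 ↔ _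
  rw [map_eq_zero_iff _ e.symm.injective, Ideal.Quotient.eq_zero_iff_mem]

/-- radical in terms of points -/
theorem mem_radical (J : Ideal X.B) (f : X.B) :
    f ∈ J.radical ↔ ∀ y : X.B →ₐ[ℂ] ℂ, J ≤ mI y → y f = 0 := by
  have := jacobson X
  rw [Ideal.radical_eq_jacobson, Ideal.jacobson, Ideal.mem_sInf]
  constructor
  · intro h y hy
    rw [← mem_mI]
    exact h ⟨hy, mI_max y⟩
  · rintro h m ⟨hm1, hm2⟩
    obtain ⟨y, rfl⟩ := exists_pt m hm2
    rw [mem_mI]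
    exact h y hm1

/-! ### calculus of `IInt` -/

theorem IInt_equiv {ι κ : Type} [Fintype ι] [Fintype κ] (e : ι ≃ κ) (y : X.B →ₐ[ℂ] ℂ)
    (I : κ → Ideal X.B) (c : κ → ℝ) :
    IInt X.z y (fun i => I (e i)) (fun i => c (e i)) ↔ IInt X.z y I c := by
  constructor
  · rintro ⟨S, hS, C, hC⟩
    refine ⟨fun k => S (e.symm k), fun k => by simpa using hS (e.symm k), C, ?_⟩
    convert hC using 2
    simp only [wB]
    symm
    apply Fintype.prod_equiv e
    intro i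
    simp
  · rintro ⟨S, hS, C, hC⟩
    refine ⟨fun i => S (e i), fun i => hS (e i), C, ?_⟩
    convert hC using 2
    simp only [wB]
    apply Fintype.prod_equiv e
    intro i
    simp

/-- one ideal -/
def I1 (y : X.B →ₐ[ℂ] ℂ) (I : Ideal X.B) (c : ℝ) : Prop :=
  IInt X.z y (fun _ : Unit => I) (fun _ => c)

theorem I1_pow (af : AFacts X) (y : X.B →ₐ[ℂ] ℂ) {I : Ideal X.B} (hI : I ≠ ⊥) (p : ℕ) (θ : ℝ) :
    I1 y (I ^ p) θ ↔ I1 y I (θ * p) := by
  have h := af.prod y Empty Unit (fun _ => ⊤) (fun _ => 0) (fun _ => I) (fun _ => p) θ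
    (fun i => i.elim) (fun _ => hI)
  let e : Unit ≃ Empty ⊕ Unit := (Equiv.emptySum Empty Unit).symm
  rw [← IInt_equiv e, ← IInt_equiv e] at h
  simpa [e, I1] using h

theorem I1_mono (af : AFacts X) (y : X.B →ₐ[ℂ] ℂ) {I J : Ideal X.B} (hI : I ≠ ⊥) (hJ : J ≠ ⊥)
    {c c' : ℝ} (hc : 0 ≤ c) (hcc : c' ≤ c) (hIJ : I ≤ J) (h : I1 y I c) : I1 y J c' :=
  af.mono y Unit (fun _ => I) (fun _ => J) (fun _ => c) (fun _ => c') (fun _ => hI) (fun _ => hJ)
    (fun _ => hcc) (fun _ => Or.inr ⟨hc, hIJ⟩) h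

theorem not_I1_bot (y : X.B →ₐ[ℂ] ℂ) {c : ℝ} (hc : 0 < c) : ¬ I1 y (⊥ : Ideal X.B) c := by
  rintro ⟨S, hS, C, U, hU, hlt⟩
  have h0 : ∀ y' : X.B →ₐ[ℂ] ℂ, wB S (fun _ : Unit => c) y' = ⊤ := by
    intro y'
    have hz : ∀ b ∈ S (), b = 0 := by
      intro b hb
      have h1 : b ∈ Ideal.span (S () : Set X.B) := Ideal.subset_span hb
      rw [hS] at h1
      simpa using h1
    have hw : wt (S ()) y' = 0 := by
      unfold wt
      apply Finset.sum_eq_zero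
      intro b hb
      rw [hz b hb]; simp
    simp only [wB, Finset.univ_unique, PUnit.default_eq_unit, Finset.prod_singleton, hw,
      ENNReal.ofReal_zero]
    exact ENNReal.zero_rpow_of_neg (by linarith)
  simp only [h0] at hlt
  rw [lintegral_const, ENNReal.top_mul'] at hlt
  split_ifs at hlt with hz
  · rw [Measure.restrict_apply_univ] at hz
    have : 0 < volume U := Measure.measure_pos_of_mem_nhds volume hU
    exact this.ne' hz
  · exact lt_irrefl _ hlt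

/-! ### the ideals `𝔞_l` -/

theorem idl_anti (F : Filt X.V) {l l' : ℝ} (h : l ≤ l') : idl F l' ≤ idl F l := by
  apply Ideal.span_mono
  rintro b ⟨m, hb⟩
  exact ⟨m, F.anti m h hb⟩

theorem idl_mul (F : Filt X.V) (l l' : ℝ) : idl F l * idl F l' ≤ idl F (l + l') := by
  rw [idl, idl, Ideal.span_mul_span']
  apply Ideal.span_le.2
  rintro _ ⟨a, ⟨m, ha⟩, b, ⟨m', hb⟩, rfl⟩
  exact Ideal.subset_span ⟨m + m', F.mul m l m' l' a b ha hb⟩

theorem idl_nonpos (F : Filt X.V) {l : ℝ} (h : l ≤ 0) : idl F l = ⊤ := by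
  rw [Ideal.eq_top_iff_one]
  apply Ideal.subset_span
  refine ⟨0, ?_⟩
  rw [F.zero 0 l h, X.V_zero]
  exact Submodule.one_le.1 le_rfl

theorem idl_pow (F : Filt X.V) (l : ℝ) (p : ℕ) : idl F l ^ p ≤ idl F (p * l) := by
  induction p with
  | zero => simp [idl_nonpos F (l := 0) le_rfl]
  | succ p ih =>
    rw [pow_succ]
    refine (Ideal.mul_mono_left ih).trans ((idl_mul F _ _).trans (le_of_eq ?_))
    congr 1
    push_cast; ring

/-- if some ideal at a positive level is non-zero, all are -/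
theorem idl_ne_bot_of (F : Filt X.V) {l : ℝ} (hl : 0 < l) (h : idl F l ≠ ⊥) (L : ℝ) :
    idl F L ≠ ⊥ := by
  obtain ⟨p, hp⟩ := exists_nat_gt (L / l)
  have h1 : idl F l ^ p ≠ ⊥ := pow_ne_zero p h
  intro hL
  apply h1
  rw [eq_bot_iff, ← hL]
  refine (idl_pow F l p).trans (idl_anti F ?_)
  rw [div_lt_iff₀ hl] at hp
  exact hp.le

theorem idl_ne_bot (F : Filt X.V) {y : X.B →ₐ[ℂ] ℂ} (h : thr X.z F y ≠ 0) (L : ℝ) :
    idl F L ≠ ⊥ := by
  have : ∃ l : ℝ≥0, l ≠ 0 ∧ Good X.z F y l := by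
    by_contra hcon
    push Not at hcon
    apply h
    unfold thr
    simp only [ENNReal.iSup_eq_zero]
    intro l hl
    by_contra hl0
    exact hcon l (by simpa using hl0) hl
  obtain ⟨l, hl0, k, hk, hI⟩ := this
  have hlpos : (0 : ℝ) < l := by
    have := l.2
    exact lt_of_le_of_ne this (fun h => hl0 (by ext; exact h.symm))
  have hkpos : (0 : ℝ) < k := by exact_mod_cast hk
  have hne : idl F (k * l) ≠ ⊥ := by
    intro hb
    have h2 : I1 y (idl F (k * l)) (1 / (k : ℝ)) := hI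
    rw [hb] at h2
    exact not_I1_bot y (by positivity) h2
  exact idl_ne_bot_of F (mul_pos hkpos hlpos) hne L

/-- change of `k` to a multiple and of `l` to something smaller -/
theorem good_mul (af : AFacts X) (F : Filt X.V) (hne : ∀ L, idl F L ≠ ⊥) (y : X.B →ₐ[ℂ] ℂ)
    {k k' : ℕ} (hk : 1 ≤ k) (hk' : 1 ≤ k') {l l' : ℝ} (hl : l' ≤ l)
    (h : I1 y (idl F (k * l)) (1 / (k : ℝ))) :
    I1 y (idl F (((k * k' : ℕ) : ℝ) * l')) (1 / ((k * k' : ℕ) : ℝ)) := by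
  have hkpos : (0 : ℝ) < k := by exact_mod_cast hk
  have hkpos' : (0 : ℝ) < k' := by exact_mod_cast hk'
  have h1 : I1 y (idl F (k * l) ^ k') (1 / ((k * k' : ℕ) : ℝ)) := by
    rw [I1_pow af y (hne _)]
    convert h using 1
    push_cast
    field_simp
  refine I1_mono af y (pow_ne_zero _ (hne _)) (hne _) (by positivity) le_rfl ?_ h1
  refine (idl_pow F _ _).trans (idl_anti F ?_)
  push_cast
  nlinarith [mul_le_mul_of_nonneg_left hl (mul_pos hkpos hkpos').le]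

/-- if level `l` is good then `A_y ≥ l` -/
theorem le_thr_of_good (F : Filt X.V) (y : X.B →ₐ[ℂ] ℂ) {l : ℝ} (hl : 0 ≤ l)
    (h : Good X.z F y l) : ENNReal.ofReal l ≤ thr X.z F y := by
  unfold thr
  refine le_trans ?_ (le_iSup₂ (⟨l, hl⟩ : ℝ≥0) h)
  rw [ENNReal.ofReal, Real.toNNReal_of_nonneg hl]
  exact le_rfl

/-- the centre -/
theorem center (af : AFacts X) (F : Filt X.V) (hfin : thr X.z F X.x ≠ ∞)
    (hpos : 0 < (thr X.z F X.x).toReal) :
    IsoAt X F ∨ ∃ (l₁ : ℝ) (k₁ : ℕ) (J P : Ideal X.B) (h₀ : X.B) (K : ℕ),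
      (thr X.z F X.x).toReal < l₁ ∧ 1 ≤ k₁ ∧ 1 ≤ K ∧ P.IsPrime ∧ J ≤ P ∧ P ≤ mI X.x ∧
      P ≠ mI X.x ∧ P ≠ ⊥ ∧ h₀ ∉ P ∧ (∀ f ∈ P ^ K, h₀ * f ∈ J) ∧
      (∀ y : X.B →ₐ[ℂ] ℂ, (∃ f ∈ J, y f ≠ 0) ↔
        IInt X.z y (fun _ : Unit => idl F (k₁ * l₁)) (fun _ => 1 / (k₁ : ℝ))) ∧
      (∀ (y : X.B →ₐ[ℂ] ℂ) (Q : Ideal X.B), Q ≠ ⊥ → (∃ g : X.B, y g ≠ 0 ∧ ∀ f ∈ Q, g * f ∈ J) →
        IInt X.z y (Sum.elim (fun _ : Unit => idl F (k₁ * l₁)) (fun _ : Unit => Q))
          (Sum.elim (fun _ : Unit => 1 / (k₁ : ℝ)) (fun _ : Unit => -1))) ∧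
      (∀ y : X.B →ₐ[ℂ] ℂ, P ≤ mI y → thr X.z F y ≤ thr X.z F X.x) := by
  have := noeth X
  set A := (thr X.z F X.x).toReal with hA
  have hne : ∀ L, idl F L ≠ ⊥ := by
    apply idl_ne_bot F (y := X.x)
    intro h0
    rw [hA, h0] at hpos
    simp at hpos
  -- multiplier ideals
  have hJex : ∀ (l : ℝ) (k : ℕ), 1 ≤ k → ∃ J : Ideal X.B,
      (∀ y : X.B →ₐ[ℂ] ℂ, (∃ f ∈ J, y f ≠ 0) ↔ I1 y (idl F (k * l)) (1 / (k : ℝ))) ∧
      (∀ (y : X.B →ₐ[ℂ] ℂ) (Q : Ideal X.B), Q ≠ ⊥ → (∃ g : X.B, y g ≠ 0 ∧ ∀ f ∈ Q, g * f ∈ J) →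
        IInt X.z y (Sum.elim (fun _ : Unit => idl F (k * l)) (fun _ : Unit => Q))
          (Sum.elim (fun _ : Unit => 1 / (k : ℝ)) (fun _ : Unit => -1))) := by
    intro l k hk
    exact af.mult Unit (fun _ => idl F (k * l)) (fun _ => 1 / (k : ℝ)) (fun _ => hne _)
      (fun _ => by positivity)
  choose! JJ hJ1 hJ2 using hJex
  have hle : ∀ (J : Ideal X.B) (y : X.B →ₐ[ℂ] ℂ), J ≤ mI y ↔ ¬ ∃ f ∈ J, y f ≠ 0 := by
    intro J y
    constructor
    · rintro h ⟨f, hf, hf'⟩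
      exact hf' ((mem_mI y f).1 (h hf))
    · intro h f hf
      rw [mem_mI]
      by_contra hne'
      exact h ⟨f, hf, hne'⟩
  -- maximal radical
  let Fam : Set (Ideal X.B) := {R | ∃ (l : ℝ) (k : ℕ), A < l ∧ 1 ≤ k ∧ R = (JJ l k).radical}
  have hFam : Fam.Nonempty := ⟨_, A + 1, 1, by linarith, le_rfl, rfl⟩
  obtain ⟨R, ⟨l₁, k₁, hl₁, hk₁, hR⟩, hmax⟩ := set_has_maximal_iff_noetherian.2 ‹_› Fam hFam
  have hdir : ∀ (l : ℝ) (k : ℕ), A < l → 1 ≤ k → (JJ l k).radical ≤ R := by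
    intro l k hl hk
    set l' := min l l₁ with hl'
    have hl'A : A < l' := lt_min hl hl₁
    have hkk : 1 ≤ k * k₁ := Nat.mul_pos hk hk₁
    have h1 : (JJ l k).radical ≤ (JJ l' (k * k₁)).radical := by
      intro f hf
      rw [mem_radical] at hf ⊢
      intro y hy
      apply hf y
      rw [hle] at hy ⊢
      intro hcon
      apply hy
      rw [hJ1 _ _ hkk]
      rw [hJ1 _ _ hk] at hcon
      exact good_mul af F hne y hk hk₁ (min_le_left _ _) hcon
    have h2 : (JJ l₁ k₁).radical ≤ (JJ l' (k * k₁)).radical := by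
      intro f hf
      rw [mem_radical] at hf ⊢
      intro y hy
      apply hf y
      rw [hle] at hy ⊢
      intro hcon
      apply hy
      rw [hJ1 _ _ hkk]
      rw [hJ1 _ _ hk₁] at hcon
      have := good_mul af F hne y hk₁ hk (min_le_right l l₁) hcon
      rwa [mul_comm k₁ k] at this
    have h3 : (JJ l' (k * k₁)).radical ∈ Fam := ⟨l', k * k₁, hl'A, hkk, rfl⟩
    have h4 := hmax _ h3
    have h5 : R = (JJ l' (k * k₁)).radical := by
      by_contra hne'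
      exact h4 (lt_of_le_of_ne (hR ▸ h2) hne')
    rw [h5]; exact h1
  set J := JJ l₁ k₁ with hJdef
  have hcenter : ∀ y : X.B →ₐ[ℂ] ℂ, J ≤ mI y → thr X.z F y ≤ thr X.z F X.x := by
    intro y hy
    have hRy : R ≤ mI y := by
      rw [hR]
      intro f hf
      rw [mem_mI]
      exact (mem_radical _ f).1 hf y hy
    have hbad : ∀ l : ℝ, A < l → ¬ Good X.z F y l := by
      rintro l hl ⟨k, hk, hI⟩
      have h1 : ∃ f ∈ JJ l k, y f ≠ 0 := (hJ1 l k hk y).2 hI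
      obtain ⟨f, hf, hf'⟩ := h1
      exact hf' ((mem_mI y f).1 (hRy (hdir l k hl hk (Ideal.le_radical hf))))
    unfold thr
    refine iSup₂_le ?_
    intro l hl
    have h1 : (l : ℝ) ≤ A := by
      by_contra h
      exact hbad l (not_le.1 h) hl
    have h2 : (l : ℝ≥0∞) = ENNReal.ofReal l := by simp
    rw [h2]
    calc ENNReal.ofReal l ≤ ENNReal.ofReal A := ENNReal.ofReal_le_ofReal h1
      _ = thr X.z F X.x := ENNReal.ofReal_toReal hfin
      _ ≤ _ := le_rfl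
  have hxJ : J ≤ mI X.x := by
    rw [hle, hJ1 l₁ k₁ hk₁]
    intro h
    have h1 := le_thr_of_good F X.x (hpos.le.trans hl₁.le) ⟨k₁, hk₁, h⟩
    rw [← ENNReal.ofReal_toReal hfin] at h1
    have := (ENNReal.ofReal_le_ofReal_iff hpos.le).1 h1
    linarith
  have hJbot : J ≠ ⊥ := by
    -- a point where some element of the ideal does not vanish
    obtain ⟨f, hf, hf0⟩ := Submodule.exists_mem_ne_zero_of_ne_bot (hne (k₁ * l₁))
    have : ∃ y : X.B →ₐ[ℂ] ℂ, y f ≠ 0 := by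
      by_contra hcon
      push Not at hcon
      have h1 : f ∈ (⊥ : Ideal X.B).radical := (mem_radical _ f).2 fun y _ => hcon y
      rw [Ideal.mem_radical_iff] at h1
      obtain ⟨N, hN⟩ := h1
      exact pow_ne_zero N hf0 (by simpa using hN)
    obtain ⟨y, hy⟩ := this
    have h1 : I1 y (Ideal.span {f}) (1 / (k₁ : ℝ)) := by
      apply af.ord y f 0 (1 / (k₁ : ℝ))
      · simpa [mem_mI] using hy
      · positivity
      · simp
    have h2 : I1 y (idl F (k₁ * l₁)) (1 / (k₁ : ℝ)) := by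
      refine I1_mono af y ?_ (hne _) (by positivity) le_rfl ?_ h1
      · simpa using hf0
      · rw [Ideal.span_singleton_le_iff_mem]; exact hf
    obtain ⟨g, hg, hg'⟩ := (hJ1 l₁ k₁ hk₁ y).2 h2
    intro hb
    have hg2 : g ∈ (⊥ : Ideal X.B) := hb ▸ hg
    rw [Ideal.mem_bot] at hg2
    rw [hg2] at hg'
    simp at hg'
  have hfinmin : J.minimalPrimes.Finite := J.finite_minimalPrimes_of_isNoetherianRing X.B
  -- an element of all minimal primes but one
  have havoid : ∀ (P : Ideal X.B), P.IsPrime → (∀ Q ∈ J.minimalPrimes, Q ≠ P → ¬ Q ≤ P) →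
      ∃ b : X.B, b ∉ P ∧ ∀ Q ∈ J.minimalPrimes, Q ≠ P → b ∈ Q := by
    intro P hP hQ
    have hfin2 : (J.minimalPrimes \ {P}).Finite := hfinmin.subset Set.sdiff_subset
    have hnot : ¬ (hfin2.toFinset.inf id ≤ P) := by
      intro hcon
      obtain ⟨Q, hQ1, hQ2⟩ := (Ideal.IsPrime.inf_le' hP).1 hcon
      rw [Set.Finite.mem_toFinset] at hQ1
      exact hQ Q hQ1.1 hQ1.2 hQ2
    obtain ⟨b, hb1, hb2⟩ := SetLike.not_le_iff_exists.1 hnot
    refine ⟨b, hb2, fun Q hQ1 hQ2 => ?_⟩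
    have : hfin2.toFinset.inf id ≤ Q := Finset.inf_le (f := id)
      (by rw [Set.Finite.mem_toFinset]; exact ⟨hQ1, hQ2⟩)
    exact this hb1
  by_cases hcase : ∃ P ∈ J.minimalPrimes, P ≤ mI X.x ∧ P ≠ mI X.x
  · right
    obtain ⟨P, hPmin, hPx, hPne⟩ := hcase
    have hPprime : P.IsPrime := hPmin.1.1
    have hJP : J ≤ P := hPmin.1.2
    obtain ⟨h', hh', hh'Q⟩ := havoid P hPprime (by
      intro Q hQ hQP hQle
      exact hQP (le_antisymm hQle (hPmin.2 hQ.1 hQle)))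
    have hrad : ∀ f ∈ P, h' * f ∈ J.radical := by
      intro f hf
      rw [← Ideal.sInf_minimalPrimes, Ideal.mem_sInf]
      intro Q hQ
      by_cases hQP : Q = P
      · rw [hQP]; exact P.mul_mem_left _ hf
      · exact Q.mul_mem_right _ (hh'Q Q hQ hQP)
    obtain ⟨K, hK⟩ := J.exists_radical_pow_le_of_fg J.radical.fg_of_isNoetherianRing
    refine ⟨l₁, k₁, J, P, h' ^ (K + 1), K + 1, hl₁, hk₁, by omega, hPprime, hJP, hPx, hPne, ?_,
      ?_, ?_, fun y => hJ1 l₁ k₁ hk₁ y, fun y Q => hJ2 l₁ k₁ hk₁ y Q, ?_⟩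
    · intro hb
      apply hJbot
      rw [eq_bot_iff, ← hb]; exact hJP
    · intro hmem
      exact hh' (hPprime.mem_of_pow_mem _ hmem)
    · intro f hf
      have h1 : (Ideal.span {h'} * P) ^ (K + 1) ≤ J := by
        have h2 : Ideal.span {h'} * P ≤ J.radical := by
          rw [Ideal.mul_le]
          intro r hr s hs
          rw [Ideal.mem_span_singleton'] at hr
          obtain ⟨a, rfl⟩ := hr
          rw [mul_assoc]
          exact J.radical.mul_mem_left _ (hrad s hs)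
        calc (Ideal.span {h'} * P) ^ (K + 1) ≤ J.radical ^ (K + 1) := Ideal.pow_right_mono h2 _
          _ ≤ J.radical ^ K := Ideal.pow_le_pow_right (by omega)
          _ ≤ J := hK
      apply h1
      rw [mul_pow, Ideal.span_singleton_pow]
      exact Ideal.mul_mem_mul (Ideal.mem_span_singleton_self _) hf
    · intro y hy
      exact hcenter y (hJP.trans hy)
  · left
    push Not at hcase
    have := (mI_max X.x).isPrime
    obtain ⟨P₀, hP₀, hP₀x⟩ := Ideal.exists_minimalPrimes_le hxJ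
    have hP₀eq : P₀ = mI X.x := hcase P₀ hP₀ hP₀x
    obtain ⟨b, hb, hbQ⟩ := havoid (mI X.x) (mI_max X.x).isPrime (by
      intro Q hQ hQx hQle
      exact hQx (hcase Q hQ hQle))
    refine ⟨l₁, k₁, b, hl₁, hk₁, fun h => hb ((mem_mI _ _).2 h), ?_⟩
    intro y hyx hyb
    have h1 : ¬ J ≤ mI y := by
      intro hJy
      have := (mI_max y).isPrime
      obtain ⟨Q, hQ, hQy⟩ := Ideal.exists_minimalPrimes_le hJy
      by_cases hQx : Q = mI X.x
      · rw [hQx] at hQy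
        exact hyx (mI_inj hQy).symm
      · exact hyb ((mem_mI _ _).1 (hQy (hbQ Q hQ hQx)))
    rw [hle, not_not] at h1
    exact (hJ1 l₁ k₁ hk₁ y).1 h1

end Crest.Agent.R271.N0x710
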