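import Crest.Agent.R271.Assembly_710
import Crest.Agent.R271.V1_992
import Crest.Agent.R271.N0_710

/-!
Row 271, piece F4 = Part 7 (`IsoMain`): an isolated centre and a threshold attained in degree
`c₀ < n+1` give the Main Local Theorem.
-/

set_option autoImplicit false

open scoped ENNReal NNReal Topology BigOperators
open MeasureTheory

noncomputable section

namespace Crest.Agent.R271.Iso399

open Crest.Agent.R271.Defs710 Crest.Agent.R271.Assembly710 Crest.Agent.R271.V1_992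

variable {n : ℕ} {X : FCtx n}

/-- the sections of every large degree have no common zeros -/
theorem exists_span_top (X : FCtx n) : ∃ j₀ : ℕ, ∀ j, j₀ ≤ j →
    Ideal.span (X.V j : Set X.B) = ⊤ := by
  obtain ⟨j₀, hj₀⟩ := exists_unit_section X
  refine ⟨j₀, fun j hj => ?_⟩
  by_contra hne
  obtain ⟨m, hm, hle⟩ := Ideal.exists_le_maximal _ hne
  obtain ⟨y, rfl⟩ := N0x710.exists_pt m hm
  obtain ⟨f, hf, hfy⟩ := hj₀ j hj y
  exact hfy ((N0x710.mem_mI y f).mp (hle (Ideal.subset_span hf)))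

/-- the ideal `𝔞_l(F)` is generated by the sections of a single degree -/
theorem exists_degree (F : Filt X.V) (l : ℝ) : ∃ m' : ℕ, sp F m' l = idl F l := by
  classical
  obtain ⟨j₀, hj₀⟩ := exists_span_top X
  obtain ⟨T, hTs, hT⟩ := (Submodule.fg_span_iff_fg_span_finset_subset
    {b : X.B | ∃ m : ℕ, b ∈ F.F m l}).mp (IsNoetherian.noetherian (idl F l))
  have hTs' : ∀ b ∈ T, ∃ m : ℕ, b ∈ F.F m l := fun b hb => hTs hb
  choose! dg hdg using hTs'
  refine ⟨T.sup dg + j₀, le_antisymm (Ideal.span_mono fun b hb => ⟨_, hb⟩) ?_⟩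
  have hT' : idl F l = Ideal.span (T : Set X.B) := hT
  rw [hT', Ideal.span_le]
  intro b hb
  have hle : dg b ≤ T.sup dg := Finset.le_sup hb
  have h1 : b ∈ sp F (dg b) l := Ideal.subset_span (hdg b hb)
  have h2 : sp F (T.sup dg + j₀ - dg b) 0 = ⊤ := by
    unfold sp
    rw [F.zero _ _ le_rfl]
    exact hj₀ _ (by omega)
  have h3 := sp_mul F (dg b) (T.sup dg + j₀ - dg b) l 0
  rw [h2, Ideal.mul_top, add_zero] at h3
  have h4 : dg b + (T.sup dg + j₀ - dg b) = T.sup dg + j₀ := by omega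
  rw [h4] at h3
  exact h3 h1

/-- finite sets of nonzero generators -/
theorem exists_gens (F : Filt X.V) (d : ℕ) (l : ℝ) (h : sp F d l ≠ ⊥) :
    ∃ S : Finset X.B, S.Nonempty ∧ (∀ f ∈ S, f ∈ X.V d ∧ f ≠ 0) ∧
      Ideal.span (S : Set X.B) = sp F d l := by
  classical
  obtain ⟨T, hTs, hT⟩ := (Submodule.fg_span_iff_fg_span_finset_subset
    (F.F d l : Set X.B)).mp (IsNoetherian.noetherian (sp F d l))
  have hT' : sp F d l = Ideal.span (T : Set X.B) := hT
  have hsp : Ideal.span ((T.erase 0 : Finset X.B) : Set X.B) = sp F d l := by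
    refine le_antisymm ?_ ?_
    · rw [hT']
      exact Ideal.span_mono (by simp)
    · rw [hT', Ideal.span_le]
      intro b hb
      by_cases hb0 : b = 0
      · rw [hb0]; exact Ideal.zero_mem _
      · exact Ideal.subset_span (by simp [hb0]; exact hb)
  refine ⟨T.erase 0, ?_, ?_, hsp⟩
  · rw [Finset.nonempty_iff_ne_empty]
    intro he
    apply h
    rw [← hsp, he]
    simp
  · intro f hf
    exact ⟨F.le_V d l (hTs (Finset.mem_of_mem_erase hf)), Finset.ne_of_mem_erase hf⟩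

/-- local integrability in a chart -/
theorem IInt_iff_LInt (af : AFacts X) {y : X.B →ₐ[ℂ] ℂ} (C : Chart X.z y) {ζ : Cn n}
    (hζ : ζ ∈ Metric.ball (0 : Cn n) C.r) {ι : Type} [Fintype ι] {I : ι → Ideal X.B} {c : ι → ℝ}
    {S : ι → Finset X.B} (hS : ∀ i, Ideal.span (S i : Set X.B) = I i) :
    IInt X.z (C.s ζ) I c ↔ LInt (fun ζ' => wB S c (C.s ζ')) ζ :=
  (af.gens (C.s ζ) ι I c S hS).trans (af.change y C ζ hζ _)

theorem LInt_eventually {g : Cn n → ℝ≥0∞} {a : Cn n} (h : LInt g a) : ∀ᶠ ζ in 𝓝 a, LInt g ζ := by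
  obtain ⟨U, hU, hlt⟩ := h
  filter_upwards [eventually_mem_nhds_iff.mpr hU] with ζ hζ
  exact ⟨U, hζ, hlt⟩

/-- two ideals -/
def e2 : Fin 2 ≃ Unit ⊕ Unit where
  toFun := ![Sum.inl (), Sum.inr ()]
  invFun := Sum.elim (fun _ => 0) (fun _ => 1)
  left_inv := by intro i; fin_cases i <;> rfl
  right_inv := by rintro (⟨⟩ | ⟨⟩) <;> rfl

theorem IInt_two (af : AFacts X) {y : X.B →ₐ[ℂ] ℂ} {I₁ I₂ : Ideal X.B} {c₁ c₂ τ : ℝ}
    (h₁ : I₁ ≠ ⊥) (h₂ : I₂ ≠ ⊥) (hτ0 : 0 ≤ τ) (hτ1 : τ ≤ 1)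
    (hI₁ : IInt X.z y (fun _ : Unit => I₁) (fun _ => c₁))
    (hI₂ : IInt X.z y (fun _ : Unit => I₂) (fun _ => c₂)) :
    IInt X.z y ![I₁, I₂] ![(1 - τ) * c₁, τ * c₂] := by
  have a1 := IInt_add_zero (fun _ : Unit => I₂) hI₁
  have a2 := IInt_zero_add (fun _ : Unit => I₁) hI₂
  have hne : ∀ i, Sum.elim (fun _ : Unit => I₁) (fun _ : Unit => I₂) i ≠ ⊥ := by
    rintro (i | i)
    · exact h₁
    · exact h₂
  have a3 := IInt_reindex e2 (af.holder y _ _ _ _ (1 - τ) hne (by linarith) (by linarith) a1 a2)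
  convert a3 using 1
  · funext i
    fin_cases i <;> rfl
  · funext i
    fin_cases i
    · simp [e2]
    · simp [e2]

theorem isoMain : IsoMain := by
  intro n X hn af F c₀ hfin hApos hc₀ hgood hiso
  set A : ℝ := (thr X.z F X.x).toReal with hA
  obtain ⟨l₁, k₁, b, hl₁, hk₁, hb, hoff⟩ := hiso
  have hk₁0 : (0 : ℝ) < k₁ := by exact_mod_cast hk₁
  obtain ⟨m', hm'⟩ := exists_degree F (k₁ * l₁)
  have hthr0 : thr X.z F X.x ≠ 0 := by
    intro h0
    rw [hA, h0] at hApos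
    simp at hApos
  have hI2 : sp F m' (k₁ * l₁) ≠ ⊥ := by
    rw [hm']
    exact N0x710.idl_ne_bot F hthr0 _
  -- choice of `τ`
  set c₁ : ℝ := max c₀ 0 with hc₁
  have hc₁n : c₁ < n + 1 := max_lt hc₀ (by positivity)
  obtain ⟨τ, hτ0, hτ1, hτ⟩ : ∃ τ : ℝ, 0 < τ ∧ τ < 1 ∧ (1 - τ) * c₁ + τ * (m' / k₁) < n + 1 := by
    have hcont : Filter.Tendsto (fun τ : ℝ => (1 - τ) * c₁ + τ * (m' / k₁)) (𝓝[>] 0) (𝓝 c₁) := by
      have : Continuous (fun τ : ℝ => (1 - τ) * c₁ + τ * (m' / k₁)) := by fun_prop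
      have h2 := this.tendsto 0
      simp only [sub_zero, one_mul, zero_mul, add_zero] at h2
      exact h2.mono_left nhdsWithin_le_nhds
    have hev : ∀ᶠ τ in 𝓝[>] (0 : ℝ), (1 - τ) * c₁ + τ * (m' / k₁) < n + 1 ∧ 0 < τ ∧ τ < 1 := by
      refine (hcont.eventually (gt_mem_nhds hc₁n)).and ?_
      exact (eventually_mem_nhdsWithin).and
        (Filter.eventually_of_mem (Ioo_mem_nhdsGT one_pos) (fun a ha => ha.2))
    obtain ⟨τ, h1, h2, h3⟩ := hev.exists
    exact ⟨τ, h2, h3, h1⟩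
  -- choice of `ρ`
  set ρ : ℝ := τ * (l₁ - A) / 2 with hρ
  have hρ0 : 0 < ρ := by rw [hρ]; have := sub_pos.mpr hl₁; positivity
  have hlev : A < (1 - τ) * (A - ρ) + τ * l₁ := by
    have h1 : (1 - τ) * ρ ≤ ρ := by nlinarith
    have h2 : τ * (l₁ - A) = 2 * ρ := by rw [hρ]; ring
    nlinarith
  obtain ⟨k, hk, hI1⟩ := hgood (A - ρ) (by linarith)
  have hk0 : (0 : ℝ) < k := by exact_mod_cast hk
  set m₁ : ℕ := ⌊k * c₀⌋₊ with hm₁
  change IInt X.z X.x (fun _ : Unit => sp F m₁ (k * (A - ρ))) (fun _ => 1 / (k : ℝ)) at hI1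
  have hI1ne : sp F m₁ (k * (A - ρ)) ≠ ⊥ := IInt_ne_bot (by positivity) hI1
  have hm₁le : (m₁ : ℝ) ≤ k * c₁ := by
    rcases le_or_gt 0 c₀ with h | h
    · refine (Nat.floor_le (by positivity)).trans ?_
      exact mul_le_mul_of_nonneg_left (le_max_left _ _) hk0.le
    · have : m₁ = 0 := by
        rw [hm₁]
        apply Nat.floor_of_nonpos
        nlinarith
      rw [this, Nat.cast_zero]
      exact mul_nonneg hk0.le (le_max_right _ _)
  -- generators
  obtain ⟨S₁, hS₁n, hS₁V, hS₁⟩ := exists_gens F m₁ (k * (A - ρ)) hI1ne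
  obtain ⟨S₂, hS₂n, hS₂V, hS₂⟩ := exists_gens F m' (k₁ * l₁) hI2
  obtain ⟨C⟩ := af.chart X.x
  -- the data
  set d : Fin 2 → ℕ := ![m₁, m'] with hd
  set lv : Fin 2 → ℝ := ![k * (A - ρ), k₁ * l₁] with hlv
  set S : Fin 2 → Finset X.B := ![S₁, S₂] with hS
  set c : Fin 2 → ℝ := ![(1 - τ) * (1 / k), τ * (1 / k₁)] with hc
  have hspan : ∀ i, Ideal.span (S i : Set X.B) = sp F (d i) (lv i) := by
    intro i
    fin_cases i
    · exact hS₁
    · exact hS₂
  have hIne : ∀ i, sp F (d i) (lv i) ≠ ⊥ := by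
    intro i
    fin_cases i
    · exact hI1ne
    · exact hI2
  have hcpos : ∀ i, 0 < c i := by
    intro i
    fin_cases i
    · change 0 < (1 - τ) * (1 / (k : ℝ))
      have : 0 < 1 - τ := by linarith
      positivity
    · change 0 < τ * (1 / (k₁ : ℝ))
      positivity
  have hIeq : (fun i => sp F (d i) (lv i)) = ![sp F m₁ (k * (A - ρ)), sp F m' (k₁ * l₁)] := by
    funext i
    fin_cases i <;> rfl
  -- the shell
  have hint0 : ∀ᶠ ζ in 𝓝 (0 : Cn n), LInt (fun ζ' => wB (fun _ : Unit => S₁) (fun _ => 1 / (k : ℝ))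
      (C.s ζ')) ζ := by
    apply LInt_eventually
    rw [← IInt_iff_LInt af C (Metric.mem_ball_self C.r_pos)
      (I := fun _ => sp F m₁ (k * (A - ρ))) (fun _ => hS₁), C.s_zero]
    exact hI1
  have hbne : ∀ᶠ ζ in 𝓝 (0 : Cn n), C.s ζ b ≠ 0 := by
    have hcont : ContinuousAt (fun ζ => C.s ζ b) 0 :=
      (C.anal b 0 (Metric.mem_ball_self C.r_pos)).continuousAt
    apply hcont.eventually_ne
    rw [C.s_zero]
    exact hb
  have hball : ∀ᶠ ζ in 𝓝 (0 : Cn n), ζ ∈ Metric.ball (0 : Cn n) C.r :=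
    Metric.ball_mem_nhds _ C.r_pos
  obtain ⟨δ, hδ0, hδ⟩ := Metric.eventually_nhds_iff.mp (hint0.and (hbne.and hball))
  refine ⟨2, S, d, c, C, min δ C.r / 3, min δ C.r / 2, ?_, hcpos, ?_, ?_, ?_, ?_, ?_, ?_⟩
  · intro i
    fin_cases i
    · exact ⟨hS₁n, hS₁V⟩
    · exact ⟨hS₂n, hS₂V⟩
  · rw [Fin.sum_univ_two]
    change (1 - τ) * (1 / (k : ℝ)) * m₁ + τ * (1 / (k₁ : ℝ)) * m' < n + 1
    have h1 : (1 - τ) * (1 / (k : ℝ)) * m₁ ≤ (1 - τ) * c₁ := by
      have h2 : 1 / (k : ℝ) * m₁ ≤ c₁ := by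
        rw [one_div, inv_mul_le_iff₀ hk0]
        exact hm₁le
      rw [mul_assoc]
      exact mul_le_mul_of_nonneg_left h2 (by linarith)
    have h3 : τ * (1 / (k₁ : ℝ)) * m' = τ * (m' / k₁) := by ring
    linarith
  · have : 0 < min δ C.r := lt_min hδ0 C.r_pos
    positivity
  · have : 0 < min δ C.r := lt_min hδ0 C.r_pos
    linarith
  · have h1 : 0 < min δ C.r := lt_min hδ0 C.r_pos
    have h2 : min δ C.r ≤ C.r := min_le_right _ _
    linarith
  · intro hL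
    rw [← IInt_iff_LInt af C (Metric.mem_ball_self C.r_pos) hspan, C.s_zero] at hL
    obtain ⟨L, hL1, hL2⟩ := exists_between hlev
    have hsum : ∑ i, c i * lv i = (1 - τ) * (A - ρ) + τ * l₁ := by
      rw [Fin.sum_univ_two]
      change (1 - τ) * (1 / (k : ℝ)) * (k * (A - ρ)) + τ * (1 / (k₁ : ℝ)) * (k₁ * l₁) = _
      field_simp
    have hG := conv af F X.x d lv c (fun i => (hcpos i).le) hIne hL (∑ i, c i * d i + 1) L
      (by linarith) (by rw [hsum]; exact hL2)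
    have := good_le hfin (GoodC_good af hG)
    linarith
  · intro ζ hζ1 hζ2
    have hm0 : 0 < min δ C.r := lt_min hδ0 C.r_pos
    have hζδ : dist ζ 0 < δ := by
      rw [dist_zero_right]
      have : min δ C.r ≤ δ := min_le_left _ _
      linarith
    obtain ⟨hLζ, hbζ, hζr⟩ := hδ hζδ
    have hζ0 : ζ ≠ 0 := by
      rintro rfl
      rw [norm_zero] at hζ1
      linarith
    have hne : C.s ζ ≠ X.x := by
      intro he
      apply hζ0
      funext i
      have := C.s_z ζ hζr i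
      rw [he] at this
      simpa using this.symm
    have hi1 : IInt X.z (C.s ζ) (fun _ : Unit => sp F m₁ (k * (A - ρ))) (fun _ => 1 / (k : ℝ)) :=
      (IInt_iff_LInt af C hζr (fun _ => hS₁)).mpr hLζ
    have hi2 : IInt X.z (C.s ζ) (fun _ : Unit => sp F m' (k₁ * l₁)) (fun _ => 1 / (k₁ : ℝ)) := by
      rw [hm']
      exact hoff _ hne hbζ
    have h12 := IInt_two af hI1ne hI2 hτ0.le hτ1.le hi1 hi2
    rw [← hIeq] at h12
    exact (IInt_iff_LInt af C hζr hspan).mp h12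

end Crest.Agent.R271.Iso399
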