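import Crest.Agent.R271.Defs_710

/-!
# Row 271, sub-team L: transfer of the Sum Theorem to ideals of `B` (helper934)

`sumIdeal_of_sumThm : SumThm → SumIdeal X`.
-/

set_option autoImplicit false
open MeasureTheory Filter Topology Set Metric
open scoped ENNReal NNReal

namespace Crest.Agent.R271.L934

open Crest.Agent.R271.Defs710

section

variable {n : ℕ} {B : Type} [CommRing B] [Algebra ℂ B]

theorem Chart_analyticAt {z : Fin n → B} {y : B →ₐ[ℂ] ℂ} (C : Chart z y) (b : B) :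
    AnalyticAt ℂ (fun ζ => C.s ζ b) 0 := C.anal b 0 (mem_ball_self C.r_pos)

theorem Chart_tendsto {z : Fin n → B} {y : B →ₐ[ℂ] ℂ} (C : Chart z y) (b : B) :
    ContinuousAt (fun ζ => C.s ζ b) 0 := (Chart_analyticAt C b).continuousAt

theorem wt_nonneg (S : Finset B) (y : B →ₐ[ℂ] ℂ) : 0 ≤ wt S y :=
  Finset.sum_nonneg fun _ _ => by positivity

/-- comparison of weights: `|S|² ≤ K |T|²` near `y` if `S ⊆ (T)` -/
theorem wt_le_of_subset_span {z : Fin n → B} {y : B →ₐ[ℂ] ℂ} (C : Chart z y) (S T : Finset B)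
    (h : ∀ s ∈ S, s ∈ Ideal.span (T : Set B)) :
    ∃ K : ℝ, 0 < K ∧ ∀ᶠ ζ in 𝓝 (0 : Cn n), wt S (C.s ζ) ≤ K * wt T (C.s ζ) := by
  classical
  have h1 : ∀ s : B, ∃ f : B → B, s ∈ S → ∑ t ∈ T, f t * t = s := by
    intro s
    by_cases hs : s ∈ S
    · obtain ⟨f, -, hf⟩ := Submodule.mem_span_finset.1 (h s hs)
      exact ⟨f, fun _ => by simpa [smul_eq_mul] using hf⟩
    · exact ⟨0, fun h => absurd h hs⟩
  choose f hf using h1
  set k : Cn n → ℝ := fun ζ => ∑ s ∈ S, ∑ t ∈ T, ‖C.s ζ (f s t)‖ ^ 2 with hk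
  have hkc : ContinuousAt k 0 := by
    apply tendsto_finsetSum
    intro s _
    apply tendsto_finsetSum
    intro t _
    exact (Chart_tendsto C (f s t)).norm.pow 2
  have hev : ∀ᶠ ζ in 𝓝 (0 : Cn n), k ζ < k 0 + 1 := hkc.eventually_lt_const (by linarith)
  have hk0 : 0 ≤ k 0 := by positivity
  refine ⟨k 0 + 1, by linarith, ?_⟩
  filter_upwards [hev] with ζ hζ
  have hW : 0 ≤ wt T (C.s ζ) := wt_nonneg T _
  calc wt S (C.s ζ) = ∑ s ∈ S, ‖C.s ζ s‖ ^ 2 := rfl
    _ ≤ ∑ s ∈ S, (∑ t ∈ T, ‖C.s ζ (f s t)‖ ^ 2) * wt T (C.s ζ) := by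
        apply Finset.sum_le_sum
        intro s hs
        have e : C.s ζ s = ∑ t ∈ T, C.s ζ (f s t) * C.s ζ t := by
          conv_lhs => rw [← hf s hs]
          simp [map_sum, map_mul]
        rw [e]
        calc ‖∑ t ∈ T, C.s ζ (f s t) * C.s ζ t‖ ^ 2
            ≤ (∑ t ∈ T, ‖C.s ζ (f s t)‖ * ‖C.s ζ t‖) ^ 2 := by
              gcongr
              exact (norm_sum_le _ _).trans (by simp)
          _ ≤ (∑ t ∈ T, ‖C.s ζ (f s t)‖ ^ 2) * ∑ t ∈ T, ‖C.s ζ t‖ ^ 2 :=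
              Finset.sum_mul_sq_le_sq_mul_sq _ _ _
          _ = (∑ t ∈ T, ‖C.s ζ (f s t)‖ ^ 2) * wt T (C.s ζ) := rfl
    _ = k ζ * wt T (C.s ζ) := by rw [← Finset.sum_mul]
    _ ≤ (k 0 + 1) * wt T (C.s ζ) := by gcongr

theorem sq_coe (S : Finset B) (w : Cn n → (B →ₐ[ℂ] ℂ)) (ζ : Cn n) :
    Defs710.sq (fun (b : {b // b ∈ S}) (ζ : Cn n) => w ζ (b : B)) ζ = wt S (w ζ) := by
  unfold Defs710.sq wt
  exact Finset.sum_coe_sort S (fun b => ‖w ζ b‖ ^ 2)

theorem LInt_mono_const {g g' : Cn n → ℝ≥0∞} {a : Cn n} (h : LInt g' a) {K : ℝ≥0∞} (hK : K ≠ ∞)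
    (hle : ∀ᶠ z in 𝓝 a, g z ≤ K * g' z) : LInt g a := by
  obtain ⟨U, hU, hlt⟩ := h
  obtain ⟨V, hVs, hV, haV⟩ := _root_.eventually_nhds_iff.1 hle
  obtain ⟨U', hU'U, hU', haU'⟩ := _root_.mem_nhds_iff.1 hU
  refine ⟨U' ∩ V, (hU'.inter hV).mem_nhds ⟨haU', haV⟩, ?_⟩
  calc ∫⁻ z in U' ∩ V, g z ≤ ∫⁻ z in U' ∩ V, K * g' z := by
        refine setLIntegral_mono' (hU'.inter hV).measurableSet ?_
        intro z hz
        exact hVs z hz.2
    _ ≤ ∫⁻ z in U, K * g' z := lintegral_mono_set (inter_subset_left.trans hU'U)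
    _ = K * ∫⁻ z in U, g' z := lintegral_const_mul' _ _ hK
    _ < ∞ := ENNReal.mul_lt_top hK.lt_top hlt

/-- the Sum Theorem for ideals, from the germ version; `B` Noetherian -/
theorem sumIdeal_core (hS : SumThm) [IsNoetherianRing B] (z : Fin n → B) (y : B →ₐ[ℂ] ℂ)
    (ι κ : Type) [Fintype ι] [Fintype κ] [Nonempty κ]
    (I : ι → Ideal B) (c : ι → ℝ) (J : κ → Ideal B) (θ : ℝ) (hc : ∀ i, 0 ≤ c i) (hθ : 0 ≤ θ)
    (hI : IInt z y (Sum.elim I (fun _ : Unit => ⨆ j, J j)) (Sum.elim c (fun _ : Unit => θ)))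
    (ε : ℝ) (hε : 0 < ε) (hε1 : ε < 1) : ∃ s : κ → ℝ, (∀ j, 0 ≤ s j) ∧ ∑ j, s j = 1 ∧
      IInt z y (Sum.elim I J) (Sum.elim (fun i => (1 - ε) * c i) (fun j => (1 - ε) * (s j * θ))) := by
  classical
  obtain ⟨S, hSp, C, hC⟩ := hI
  -- generators of the `J j`
  have hT : ∀ j, ∃ T : Finset B, Ideal.span (T : Set B) = J j := fun j =>
    (isNoetherianRing_iff_ideal_fg B).1 inferInstance (J j)
  choose T hT using hT
  set h : ∀ i : ι, {b // b ∈ S (Sum.inl i)} → Cn n → ℂ := fun i b ζ => C.s ζ (b : B) with hh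
  set g : ∀ j : κ, {b // b ∈ T j} → Cn n → ℂ := fun j b ζ => C.s ζ (b : B) with hg
  -- comparison for the last factor
  obtain ⟨K, hK, hKev⟩ := wt_le_of_subset_span C (S (Sum.inr ())) (Finset.univ.biUnion T) (by
    intro s hs
    have h1 : s ∈ Ideal.span (S (Sum.inr ()) : Set B) := Ideal.subset_span hs
    rw [hSp] at h1
    have h2 : (⨆ j, J j) ≤ Ideal.span ((Finset.univ.biUnion T : Finset B) : Set B) := by
      apply iSup_le
      intro j
      rw [← hT j]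
      apply Ideal.span_mono
      intro b hb
      simp only [Finset.coe_biUnion, Set.mem_iUnion]
      exact ⟨j, Finset.mem_coe.2 (Finset.mem_univ j), hb⟩
    exact h2 h1)
  have hwU : ∀ y' : B →ₐ[ℂ] ℂ, wt (Finset.univ.biUnion T) y' ≤ ∑ j, wt (T j) y' := by
    intro y'
    unfold wt
    calc ∑ b ∈ Finset.univ.biUnion T, ‖y' b‖ ^ 2
        ≤ ∑ b ∈ Finset.univ.biUnion T, ∑ j, (if b ∈ T j then ‖y' b‖ ^ 2 else 0) := by
          apply Finset.sum_le_sum
          intro b hb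
          obtain ⟨j, -, hj⟩ := Finset.mem_biUnion.1 hb
          calc ‖y' b‖ ^ 2 = (if b ∈ T j then ‖y' b‖ ^ 2 else 0) := by rw [if_pos hj]
            _ ≤ _ := Finset.single_le_sum (f := fun j => (if b ∈ T j then ‖y' b‖ ^ 2 else 0))
              (fun j _ => by split_ifs <;> positivity) (Finset.mem_univ j)
      _ = ∑ j, ∑ b ∈ Finset.univ.biUnion T, (if b ∈ T j then ‖y' b‖ ^ 2 else 0) :=
          Finset.sum_comm
      _ ≤ ∑ j, ∑ b ∈ T j, ‖y' b‖ ^ 2 := by
          apply Finset.sum_le_sum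
          intro j _
          rw [← Finset.sum_filter]
          apply Finset.sum_le_sum_of_subset_of_nonneg
          · intro b hb
            exact (Finset.mem_filter.1 hb).2
          · intro _ _ _; positivity
  have hmain : LInt (fun ζ => wInt h c ζ * ⨅ j : κ, (ENNReal.ofReal (Defs710.sq (g j) ζ)) ^ (-θ)) 0 := by
    have hcard : (0:ℝ) < Fintype.card κ := by exact_mod_cast Fintype.card_pos
    refine LInt_mono_const hC (K := (ENNReal.ofReal (K * Fintype.card κ)) ^ θ) ?_ ?_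
    · exact ENNReal.rpow_ne_top_of_nonneg hθ ENNReal.ofReal_ne_top
    · filter_upwards [hKev] with ζ hζ
      simp only [wB, wInt, Fintype.prod_sum_type, Sum.elim_inl, Sum.elim_inr, hh, hg, sq_coe,
        Finset.univ_unique, Finset.prod_singleton]
      rw [← mul_assoc, mul_comm (ENNReal.ofReal (K * Fintype.card κ) ^ θ), mul_assoc]
      gcongr
      -- the index with the largest weight
      obtain ⟨j0, -, hj0⟩ := Finset.exists_max_image Finset.univ (fun j => wt (T j) (C.s ζ))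
        Finset.univ_nonempty
      have h1 : wt (S (Sum.inr ())) (C.s ζ) ≤ K * Fintype.card κ * wt (T j0) (C.s ζ) := by
        calc _ ≤ K * wt (Finset.univ.biUnion T) (C.s ζ) := hζ
          _ ≤ K * ∑ j, wt (T j) (C.s ζ) := by gcongr; exact hwU _
          _ ≤ K * ∑ _j : κ, wt (T j0) (C.s ζ) := by
              gcongr with j hj
              exact hj0 j hj
          _ = K * Fintype.card κ * wt (T j0) (C.s ζ) := by
              rw [Finset.sum_const, nsmul_eq_mul, Finset.card_univ]; ring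
      refine (iInf_le _ j0).trans ?_
      have hKc : (0:ℝ) < K * Fintype.card κ := by positivity
      have e1 : ENNReal.ofReal (wt (S (Sum.inr ())) (C.s ζ)) ≤
          ENNReal.ofReal (K * Fintype.card κ) * ENNReal.ofReal (wt (T j0) (C.s ζ)) := by
        rw [← ENNReal.ofReal_mul hKc.le]
        exact ENNReal.ofReal_le_ofReal h1
      set a := ENNReal.ofReal (K * Fintype.card κ) with ha
      have ha0 : a ≠ 0 := by rw [ha]; simpa using hKc
      have hat : a ≠ ∞ := ENNReal.ofReal_ne_top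
      set u := ENNReal.ofReal (wt (S (Sum.inr ())) (C.s ζ)) with hu
      set v := ENNReal.ofReal (wt (T j0) (C.s ζ)) with hv
      -- `v^{-θ} ≤ a^θ u^{-θ}`
      rw [ENNReal.rpow_neg, ENNReal.rpow_neg]
      have e2 : u ^ θ ≤ a ^ θ * v ^ θ := by
        rw [← ENNReal.mul_rpow_of_nonneg _ _ hθ]
        exact ENNReal.rpow_le_rpow e1 hθ
      have haθ0 : a ^ θ ≠ 0 := by
        intro h0
        rcases ENNReal.rpow_eq_zero_iff.1 h0 with ⟨h1, -⟩ | ⟨h1, -⟩
        · exact ha0 h1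
        · exact hat h1
      have haθt : a ^ θ ≠ ∞ := ENNReal.rpow_ne_top_of_nonneg hθ hat
      calc (v ^ θ)⁻¹ = a ^ θ * (a ^ θ * v ^ θ)⁻¹ := by
            rw [ENNReal.mul_inv (Or.inl haθ0) (Or.inl haθt), ← mul_assoc,
              ENNReal.mul_inv_cancel haθ0 haθt, one_mul]
        _ ≤ a ^ θ * (u ^ θ)⁻¹ := by gcongr
  obtain ⟨s, hs0, hs1, hs⟩ := hS n ι κ _ _ h g c (fun _ => θ)
    (fun i b => Chart_analyticAt C _) (fun j b => Chart_analyticAt C _) hc (fun _ => hθ) hmain ε hε hε1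
  refine ⟨s, hs0, hs1, Sum.elim (fun i => S (Sum.inl i)) T, ?_, C, ?_⟩
  · rintro (i | j)
    · simpa using hSp (Sum.inl i)
    · exact hT j
  · convert hs using 2 with ζ
    simp only [wB, wInt, Fintype.prod_sum_type, Sum.elim_inl, Sum.elim_inr]
    congr 1
    · apply Finset.prod_congr rfl; intro i _; rw [hh]; rw [sq_coe]
    · apply Finset.prod_congr rfl; intro i _; rw [hg]; rw [sq_coe]

end

theorem sumIdeal_of_sumThm (hS : SumThm) {n : ℕ} (X : FCtx n) : SumIdeal X := by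
  intro y ι κ _ _ _ I c J θ _ _ hc hθ h ε hε hε1
  haveI : IsNoetherianRing X.B := by
    haveI := X.ft
    exact Algebra.FiniteType.isNoetherianRing ℂ X.B
  exact sumIdeal_core hS X.z y ι κ I c J θ hc hθ h ε hε hε1

end Crest.Agent.R271.L934
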