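import Mathlib
import Crest.Agent.R271.Defs_710
import Crest.Agent.R271.IInt_821
import Crest.Agent.R271.L0_934

/-!
Row 271, team L (helper821): functions in `mI y ^ e` are `O(‖ζ‖^e)`; the fact `NonIntFact` (AF6).
-/

set_option autoImplicit false
set_option linter.unusedVariables false

open scoped ENNReal NNReal Topology BigOperators
open MeasureTheory Filter Set Metric Asymptotics

noncomputable section

namespace Crest.Agent.R271.Local821

open Crest.Agent.R271.Defs710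

section order

variable {n : ℕ} {B : Type} [CommRing B] [Algebra ℂ B] {z : Fin n → B} {y : B →ₐ[ℂ] ℂ}

/-- the ideal of the functions that are `O(‖ζ‖^e)` at `y` -/
def bigOIdeal (C : Chart z y) (e : ℕ) : Ideal B where
  carrier := {b | (fun ζ => C.s ζ b) =O[𝓝 (0 : Cn n)] (fun ζ => ‖ζ‖ ^ e)}
  add_mem' := by
    intro a b ha hb
    have h := IsBigO.add ha hb
    simpa only [Set.mem_ofPred_eq, map_add] using h
  zero_mem' := by
    simp only [Set.mem_ofPred_eq, map_zero]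
    exact isBigO_zero _ _
  smul_mem' := by
    intro a b hb
    have h1 : (fun ζ => C.s ζ a) =O[𝓝 (0 : Cn n)] (fun _ => (1 : ℝ)) :=
      (chart_tendsto C a).isBigO_one ℝ
    have h := IsBigO.mul h1 hb
    simpa only [Set.mem_ofPred_eq, smul_eq_mul, map_mul, one_mul] using h

theorem mem_bigOIdeal {C : Chart z y} {e : ℕ} {b : B} :
    b ∈ bigOIdeal C e ↔ (fun ζ => C.s ζ b) =O[𝓝 (0 : Cn n)] (fun ζ => ‖ζ‖ ^ e) := Iff.rfl

theorem bigOIdeal_mul_le (C : Chart z y) (e e' : ℕ) :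
    bigOIdeal C e * bigOIdeal C e' ≤ bigOIdeal C (e + e') := by
  rw [Ideal.mul_le]
  intro a ha b hb
  rw [mem_bigOIdeal] at ha hb ⊢
  have h := IsBigO.mul ha hb
  simpa only [map_mul, pow_add] using h

theorem mI_le_bigOIdeal (C : Chart z y) : mI y ≤ bigOIdeal C 1 := by
  intro b hb
  have hb' : y b = 0 := hb
  rw [mem_bigOIdeal]
  have h := (chart_analyticAt C b).differentiableAt.isBigO_sub
  rw [C.s_zero, hb'] at h
  simp only [sub_zero] at h
  have h2 : (fun ζ : Cn n => ζ) =O[𝓝 (0 : Cn n)] (fun ζ => ‖ζ‖ ^ 1) := by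
    simp only [pow_one]
    exact (isBigO_refl (fun ζ : Cn n => ζ) (𝓝 0)).norm_right
  exact h.trans h2

/-- elements of `mI y ^ e` are `O(‖ζ‖^e)` in every chart at `y` -/
theorem mI_pow_le_bigOIdeal (C : Chart z y) (e : ℕ) : mI y ^ e ≤ bigOIdeal C e := by
  induction e with
  | zero =>
    intro b _
    rw [mem_bigOIdeal]
    simp only [pow_zero]
    exact (chart_tendsto C b).isBigO_one ℝ
  | succ e ih =>
    rw [pow_succ]
    exact (Ideal.mul_mono ih (mI_le_bigOIdeal C)).trans (bigOIdeal_mul_le C e 1)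

theorem wt_le_norm_pow {S : Finset B} {e : ℕ} (h : ∀ b ∈ S, b ∈ mI y ^ e) (C : Chart z y) :
    ∃ K : ℝ, 0 < K ∧ ∀ᶠ ζ in 𝓝 (0 : Cn n), wt S (C.s ζ) ≤ K * (‖ζ‖ ^ e) ^ 2 := by
  have h1 : (fun ζ => wt S (C.s ζ)) =O[𝓝 (0 : Cn n)] (fun ζ => (‖ζ‖ ^ e) ^ 2) := by
    unfold wt
    refine IsBigO.fun_sum fun b hb => ?_
    have h2 := (mem_bigOIdeal.1 (mI_pow_le_bigOIdeal C e (h b hb))).norm_left
    exact h2.pow 2
  obtain ⟨K, hK, hb⟩ := h1.exists_pos
  refine ⟨K, hK, ?_⟩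
  filter_upwards [hb.bound] with ζ hζ
  rw [Real.norm_of_nonneg (wt_nonneg _ _), Real.norm_of_nonneg (by positivity)] at hζ
  exact hζ

theorem not_LInt_norm (hn : 1 ≤ n) {a : ℝ} (ha : 2 * (n : ℝ) ≤ a) :
    ¬ LInt (fun ζ : Cn n => (ENNReal.ofReal ‖ζ‖) ^ (-a)) 0 := by
  intro h
  have hfr : Module.finrank ℝ (Cn n) = 2 * n := by
    rw [Module.finrank_pi_fintype]
    simp [Complex.finrank_real_complex, mul_comm]
  have h1 : LInt (fun ζ : Cn n => (ENNReal.ofReal ‖ζ‖) ^ (-(2 * (n : ℝ)))) 0 := by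
    refine LInt.mono_const h (K := 1 ^ (a - 2 * (n : ℝ))) (by simp) ?_
    filter_upwards [ball_mem_nhds (0 : Cn n) one_pos] with ζ hζ
    refine rpow_neg_le_of_exponent one_ne_zero ENNReal.one_ne_top ?_ ha
    rw [mem_ball_zero_iff] at hζ
    exact ENNReal.ofReal_le_one.2 hζ.le
  obtain ⟨r, hr, h2⟩ := LInt.exists_ball h1
  have h3 := L934.lintegral_ball_norm_eq_top (V := Cn n) (volume : Measure (Cn n))
    (by rw [hfr]; omega) hr
  rw [hfr] at h3
  have h4 := h2 r le_rfl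
  push_cast at h3
  rw [h3] at h4
  exact lt_irrefl _ h4

end order

section facts

variable {n : ℕ} (X : FCtx n)

/-- (AF6) non-integrability: an ideal contained in `m_y^e` -/
theorem nonIntFact : NonIntFact X := by
  intro y I e c hI hc hn
  rintro ⟨S, hS, C, hC⟩
  have hce : 0 < c * e := lt_of_lt_of_le (by exact_mod_cast hn) hc
  have he : (0 : ℝ) ≤ e := Nat.cast_nonneg _
  have hc0 : 0 ≤ c := by
    by_contra hneg
    push Not at hneg
    nlinarith
  have hSI : Ideal.span (S () : Set X.B) = I := hS ()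
  have hSm : ∀ b ∈ S (), b ∈ mI y ^ e := fun b hb => hI (by
    rw [← hSI]
    exact Ideal.subset_span hb)
  obtain ⟨K, hK, hle⟩ := wt_le_norm_pow hSm C
  refine not_LInt_norm hn (a := 2 * (c * e)) (by linarith) ?_
  refine LInt.mono_const hC (K := (ENNReal.ofReal K) ^ c)
    (ENNReal.rpow_ne_top_of_nonneg hc0 ENNReal.ofReal_ne_top) ?_
  filter_upwards [hle] with ζ hζ
  have e1 : wB S (fun _ => c) (C.s ζ) = (ENNReal.ofReal (wt (S ()) (C.s ζ))) ^ (-c) := by
    unfold wB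
    simp
  rw [e1]
  have h1 : ENNReal.ofReal (wt (S ()) (C.s ζ)) ≤
      ENNReal.ofReal K * ENNReal.ofReal ((‖ζ‖ ^ e) ^ 2) := by
    rw [← ENNReal.ofReal_mul hK.le]
    exact ENNReal.ofReal_le_ofReal hζ
  have h2 := rpow_neg_le_of_le (c := c) (by simpa using hK) ENNReal.ofReal_ne_top hc0 h1
  have e2 : (ENNReal.ofReal ((‖ζ‖ ^ e) ^ 2)) ^ (-c) = (ENNReal.ofReal ‖ζ‖) ^ (-(2 * (c * e))) := by
    rw [← pow_mul, ENNReal.ofReal_pow (norm_nonneg _), ← ENNReal.rpow_natCast, ← ENNReal.rpow_mul]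
    congr 1
    push_cast
    ring
  rw [e2] at h2
  exact h2

end facts

end Crest.Agent.R271.Local821
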