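import Crest.Agent.R271.AF5_785
import Crest.Agent.R271.Ord_969
import Crest.Agent.R271.Rd3_692

/-!
Row 271: (AF5) `OrdFact X` for every context `X`.
-/

set_option autoImplicit false
open MeasureTheory Filter Topology Set Metric
open scoped ENNReal NNReal

namespace Crest.Agent.R271.AF5x785

open Crest.Agent.R271.Defs710

theorem ordFact {n : ℕ} (X : FCtx n) : OrdFact X := by
  intro y f e c hf hc hce
  obtain ⟨C⟩ := Crest.Agent.R271.Rd692.chartEx X y
  have hne : ¬ (fun ζ => C.s (0 + ζ) f) =O[𝓝 0] fun ζ : Cn n => ‖ζ‖ ^ (e + 1) := by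
    intro h
    apply hf
    rw [Crest.Agent.R271.Ord969.fctx_mem_pow_iff X y C]
    simpa using h
  obtain ⟨U, hU, hint⟩ := af5 (f := fun ζ => C.s ζ f) (a := (0 : Cn n))
    (C.anal f 0 (mem_ball_self C.r_pos)) hne hc hce
  refine ⟨fun _ => {f}, fun _ => by simp, C, U, hU, ?_⟩
  convert hint using 3 with ζ
  simp [wB, wt]

end Crest.Agent.R271.AF5x785
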