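import Crest.Agent.R271.Facts_710
import Crest.Agent.R271.Rd3_692
import Crest.Agent.R271.Rd4_692
import Crest.Agent.R271.IInt_821
import Crest.Agent.R271.Holder_821
import Crest.Agent.R271.NonInt_821
import Crest.Agent.R271.OrdFact_785
import Crest.Agent.R271.GenB_86
import Crest.Agent.R271.Disc3_846
import Crest.Agent.R271.L6_934
import Crest.Agent.R271.CaseAMain_112
import Crest.Agent.R271.Iso_399

/-!
Row 271: final assembly, from the leaves which are not landed yet.
-/

set_option autoImplicit false

open scoped ENNReal NNReal Topology BigOperators
open MeasureTheory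

noncomputable section

namespace Crest.Agent.R271.Fin710

open Crest.Agent.R271.Defs710

theorem aFacts (hS : SumThm) {n : ℕ} (X : FCtx n) (hM : MultIdeal X) (hF : FubiniFact X)
    (hSp : SpecFact X) : AFacts X where
  chart := Rd692.chartEx X
  change := Rd692.chartChange X
  gens := Local821.gensFact X
  mult := hM
  sum := L934.sumIdeal_of_sumThm hS X
  holder := Local821.holder X
  mono := Local821.monoFact X
  prod := Local821.prodFact X
  ord := AF5x785.ordFact X
  nonint := Local821.nonIntFact X
  fubini := hF
  spec := hSp
  disc := Disc846.discFact X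
  gen := Gen86.genFact X

theorem abstractMain (hE : Assembly710.ExiMain)
    (hN : ∀ (n : ℕ) (X : FCtx n), 1 ≤ n → AFacts X → N647.NonIsoStmt X) : AbstractMain :=
  Facts710.abstractMain CaseA112.caseAMain hE hN Iso399.isoMain

end Crest.Agent.R271.Fin710
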