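import Mathlib
import Crest.Agent.R271.Defs_710
import Crest.Agent.R271.Coord_821
import Crest.Agent.R271.Rd4_692

/-!
Row 271, team L (helper103): AF8 (`FubiniFact`) from the Fubini theorem for germs.
-/

set_option autoImplicit false
set_option linter.unusedVariables false
set_option linter.unusedSectionVars false

open scoped ENNReal NNReal Topology BigOperators
open MeasureTheory Filter Set Metric

noncomputable section

namespace Crest.Agent.R271.Fub103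

open Crest.Agent.R271.Defs710 Crest.Agent.R271.Local821

/-- (AF8) for germs at `0 ∈ ℂⁿ` -/
def AF8Germ (n : ℕ) : Prop :=
  ∀ (d : ℕ), d < n → ∀ (m : ℕ) (h : Fin m → Cn n → ℂ) (a b g : ℝ),
    (∀ j, AnalyticAt ℂ (h j) 0) → 0 ≤ a → 0 ≤ b → (d : ℝ) < g →
    LInt (fun ζ => (ENNReal.ofReal (∑ j, ‖h j ζ‖ ^ 2)) ^ (-a) *
      (ENNReal.ofReal (∑ i : {i : Fin n // d ≤ i.1}, ‖ζ i‖ ^ 2)) ^ (-b) *
      (ENNReal.ofReal (∑ i, ‖ζ i‖ ^ 2)) ^ (-g)) 0 →
    ∀ ε : ℝ, 0 < ε → ε < 1 →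
      LInt (fun ζ => (ENNReal.ofReal (∑ j, ‖h j ζ‖ ^ 2)) ^ (-((1 - ε) * a)) *
        (ENNReal.ofReal (∑ i : {i : Fin n // d ≤ i.1}, ‖ζ i‖ ^ 2)) ^
          (-((1 - ε) * b + (g - d) - ε))) 0

section dom

variable {n : ℕ} {B : Type} [CommRing B] [Algebra ℂ B] {z : Fin n → B} {y : B →ₐ[ℂ] ℂ}

/-- `∑ᵢ |vᵢ|²` -/
def fam {κ : Type} [Fintype κ] (v : κ → B) (y' : B →ₐ[ℂ] ℂ) : ℝ := ∑ i, ‖y' (v i)‖ ^ 2

theorem fam_nonneg {κ : Type} [Fintype κ] (v : κ → B) (y' : B →ₐ[ℂ] ℂ) : 0 ≤ fam v y' :=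
  Finset.sum_nonneg fun _ _ => by positivity

/-- Cauchy-Schwarz -/
theorem sq_norm_sum_le {κ : Type} [Fintype κ] (p q : κ → ℂ) :
    ‖∑ i, p i * q i‖ ^ 2 ≤ (∑ i, ‖p i‖ ^ 2) * ∑ i, ‖q i‖ ^ 2 := by
  have h1 : ‖∑ i, p i * q i‖ ≤ ∑ i, ‖p i‖ * ‖q i‖ := by
    refine (norm_sum_le _ _).trans (Finset.sum_le_sum fun i _ => ?_)
    rw [norm_mul]
  calc ‖∑ i, p i * q i‖ ^ 2 ≤ (∑ i, ‖p i‖ * ‖q i‖) ^ 2 := by gcongr
    _ ≤ _ := Finset.sum_mul_sq_le_sq_mul_sq _ _ _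

theorem dom_fam_of_mem {κ : Type} [Fintype κ] (v : κ → B) (S : Finset B)
    (h : ∀ i, v i ∈ Ideal.span (S : Set B)) : Dom z y (fam v) (wt S) := by
  classical
  have h1 : Dom z y (fam v) (wt (Finset.univ.image v)) := by
    refine Dom.of_le (K := (Fintype.card κ : ℝ) + 1) (by positivity) fun y' => ?_
    have h2 : fam v y' ≤ ∑ _i : κ, wt (Finset.univ.image v) y' := by
      refine Finset.sum_le_sum fun i _ => ?_
      exact sq_norm_le_wt (Finset.mem_image_of_mem v (Finset.mem_univ i)) y'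
    rw [Finset.sum_const, Finset.card_univ, nsmul_eq_mul] at h2
    nlinarith [wt_nonneg (Finset.univ.image v) y']
  refine h1.trans (wt_le_of_subset_span y ?_)
  intro b hb
  simp only [Finset.coe_image, Finset.coe_univ, image_univ, mem_range] at hb
  obtain ⟨i, rfl⟩ := hb
  exact h i

theorem dom_wt_fam {κ : Type} [Fintype κ] (v : κ → B) (S : Finset B) (g : B) (hg : y g ≠ 0)
    (h : ∀ f ∈ S, g * f ∈ Ideal.span (range v)) : Dom z y (wt S) (fam v) := by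
  have h1 : ∀ f : B, ∃ c : κ → B, f ∈ S → ∑ i, c i * v i = g * f := by
    intro f
    by_cases hf : f ∈ S
    · obtain ⟨c, hc⟩ := Ideal.mem_span_range_iff_exists_fun.1 (h f hf)
      exact ⟨c, fun _ => hc⟩
    · exact ⟨0, fun h' => absurd h' hf⟩
  choose c hc using h1
  set δ : ℝ := ‖y g‖ ^ 2 / 2 with hδ
  have hδ0 : 0 < δ := by
    have := norm_pos_iff.2 hg
    positivity
  set M : B → ℝ := fun f => fam (c f) y + 1 with hM
  have hM0 : ∀ f, 0 ≤ M f := fun f => by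
    have := fam_nonneg (c f) y
    simp only [hM]; linarith
  refine ⟨(∑ f ∈ S, M f) / δ + 1, ?_, fun C => ?_⟩
  · have : 0 ≤ ∑ f ∈ S, M f := Finset.sum_nonneg fun f _ => hM0 f
    positivity
  have e1 : ∀ᶠ ζ in 𝓝 (0 : Cn n), δ < ‖C.s ζ g‖ ^ 2 := by
    have h2 := ((chart_tendsto C g).norm.pow 2)
    refine h2.eventually (lt_mem_nhds ?_)
    have := norm_pos_iff.2 hg
    rw [hδ]
    have : 0 < ‖y g‖ ^ 2 := by positivity
    linarith
  have e2 : ∀ᶠ ζ in 𝓝 (0 : Cn n), ∀ f ∈ S, fam (c f) (C.s ζ) < M f := by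
    rw [Filter.eventually_all_finset]
    intro f _
    have h2 : Tendsto (fun ζ => fam (c f) (C.s ζ)) (𝓝 0) (𝓝 (fam (c f) y)) :=
      tendsto_finsetSum _ fun i _ => (chart_tendsto C (c f i)).norm.pow 2
    exact h2.eventually (gt_mem_nhds (lt_add_one _))
  filter_upwards [e1, e2] with ζ h2 h3
  have h4 : ∀ f ∈ S, ‖C.s ζ f‖ ^ 2 ≤ M f / δ * fam v (C.s ζ) := by
    intro f hf
    have h5 : C.s ζ g * C.s ζ f = ∑ i, C.s ζ (c f i) * C.s ζ (v i) := by
      have := congrArg (C.s ζ) (hc f hf)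
      rw [map_sum, map_mul] at this
      rw [← this]
      simp only [map_mul]
    have h6 : ‖C.s ζ g‖ ^ 2 * ‖C.s ζ f‖ ^ 2 ≤ M f * fam v (C.s ζ) := by
      rw [← mul_pow, ← norm_mul, h5]
      refine (sq_norm_sum_le _ _).trans ?_
      exact mul_le_mul_of_nonneg_right (h3 f hf).le (fam_nonneg v _)
    have h7 : δ * ‖C.s ζ f‖ ^ 2 ≤ M f * fam v (C.s ζ) :=
      (mul_le_mul_of_nonneg_right h2.le (by positivity)).trans h6
    rw [div_mul_eq_mul_div, le_div_iff₀ hδ0]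
    linarith
  have h8 : wt S (C.s ζ) ≤ ∑ f ∈ S, M f / δ * fam v (C.s ζ) := Finset.sum_le_sum h4
  rw [← Finset.sum_mul, ← Finset.sum_div] at h8
  have := fam_nonneg v (C.s ζ)
  linarith

end dom

/-- (AF8) -/
theorem fubiniFact_of (h : ∀ n, AF8Germ n) {n : ℕ} (X : FCtx n) : FubiniFact X := by
  intro y d P I a b g hP hI hd hAd ha hb hg hint ε hε hε1
  obtain ⟨w, hw0, hwP, g0, hg0, hPg, hmg⟩ := hAd
  -- `d < n`
  have hdn : d < n := by
    rcases hd.lt_or_eq with h1 | h1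
    · exact h1
    exfalso
    apply hP
    rw [eq_bot_iff]
    intro f hf
    have h2 := hPg f hf
    have h3 : {i : Fin n | d ≤ i.1} = ∅ := by
      ext i
      simp only [Set.mem_ofPred_eq, mem_empty_iff_false, iff_false, not_le]
      rw [h1]; exact i.2
    rw [h3, image_empty, Ideal.span_empty, Ideal.mem_bot] at h2
    rcases mul_eq_zero.1 h2 with h4 | h4
    · exact absurd (by rw [h4, map_zero]) hg0
    · exact h4
  obtain ⟨C⟩ := Rd692.chartEx X y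
  obtain ⟨ψ, hψ, hψ0, hψ1, hψ2, hψ3, hψ4, hψ5⟩ := exists_coord C w hw0 g0 hg0 hmg
  have := noeth X
  obtain ⟨S, hS⟩ := exists_gens ![I, P, mI y]
  have hS0 : Ideal.span (S 0 : Set X.B) = I := hS 0
  have hS1 : Ideal.span (S 1 : Set X.B) = P := hS 1
  have hS2 : Ideal.span (S 2 : Set X.B) = mI y := hS 2
  have hint1 := (IInt_iff _ _ S hS).1 hint
  -- the families
  set vP : {i : Fin n // d ≤ i.1} → X.B := fun i => w i with hvP
  have dP1 : Dom X.z y (wt (S 1)) (fam vP) := by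
    refine dom_wt_fam vP (S 1) g0 hg0 fun f hf => ?_
    have h1 := hPg f (by rw [← hS1]; exact Ideal.subset_span hf)
    rw [image_eq_range] at h1
    exact h1
  have dP2 : Dom X.z y (fam vP) (wt (S 1)) := by
    refine dom_fam_of_mem vP (S 1) fun i => ?_
    rw [hS1]
    exact hwP i.1 i.2
  have dm1 : Dom X.z y (wt (S 2)) (fam w) := by
    refine dom_wt_fam w (S 2) g0 hg0 fun f hf => ?_
    have h1 : f ∈ mI y := by rw [← hS2]; exact Ideal.subset_span hf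
    exact hmg f h1
  have dm2 : Dom X.z y (fam w) (wt (S 2)) := by
    refine dom_fam_of_mem w (S 2) fun i => ?_
    rw [hS2]
    exact hw0 i
  obtain ⟨K1, hK1, hle1⟩ := Dom.rpow dP1 dP2 b
  obtain ⟨K2, hK2, hle2⟩ := Dom.rpow dm1 dm2 g
  have hint2 : LIntB X.z y (fun y' => (ENNReal.ofReal (wt (S 0) y')) ^ (-a) *
      (ENNReal.ofReal (fam vP y')) ^ (-b) * (ENNReal.ofReal (fam w y')) ^ (-g)) := by
    refine LIntB.mono_const hint1 (ENNReal.mul_ne_top hK1 hK2) fun C' => ?_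
    filter_upwards [hle1 C', hle2 C'] with ζ h1 h2
    unfold wB
    rw [Fin.prod_univ_three]
    simp only [Matrix.cons_val_zero, Matrix.cons_val_one, Matrix.cons_val]
    calc (ENNReal.ofReal (wt (S 0) (C'.s ζ))) ^ (-a) *
          (ENNReal.ofReal (fam vP (C'.s ζ))) ^ (-b) * (ENNReal.ofReal (fam w (C'.s ζ))) ^ (-g)
        ≤ (ENNReal.ofReal (wt (S 0) (C'.s ζ))) ^ (-a) *
          (K1 * (ENNReal.ofReal (wt (S 1) (C'.s ζ))) ^ (-b)) *
          (K2 * (ENNReal.ofReal (wt (S 2) (C'.s ζ))) ^ (-g)) := by gcongr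
      _ = _ := by ring
  have hint3 := (hψ5 _).1 hint2
  -- the germs
  set e := (S 0).equivFin with he
  set F : Fin (S 0).card → Cn n → ℂ := fun j u => C.s (ψ u) (e.symm j) with hF
  have hFan : ∀ j, AnalyticAt ℂ (F j) 0 := fun j => hψ3 _
  have hsum : ∀ u, ∑ j, ‖F j u‖ ^ 2 = wt (S 0) (C.s (ψ u)) := by
    intro u
    unfold wt
    rw [← Finset.sum_coe_sort (S 0)]
    exact Equiv.sum_comp e.symm (fun b : S 0 => ‖C.s (ψ u) b‖ ^ 2)
  have hint4 : LInt (fun ζ => (ENNReal.ofReal (∑ j, ‖F j ζ‖ ^ 2)) ^ (-a) *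
      (ENNReal.ofReal (∑ i : {i : Fin n // d ≤ i.1}, ‖ζ i‖ ^ 2)) ^ (-b) *
      (ENNReal.ofReal (∑ i, ‖ζ i‖ ^ 2)) ^ (-g)) 0 := by
    refine LInt.congr hint3 ?_
    filter_upwards [hψ2] with u hu
    simp only [hsum, fam, hvP, hu]
  have hint5 := h n d hdn _ F a b g hFan ha hb hg hint4 ε hε hε1
  have hint6 : LIntB X.z y (fun y' => (ENNReal.ofReal (wt (S 0) y')) ^ (-((1 - ε) * a)) *
      (ENNReal.ofReal (fam vP y')) ^ (-((1 - ε) * b + (g - d) - ε))) := by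
    refine (hψ5 _).2 (LInt.congr hint5 ?_)
    filter_upwards [hψ2] with u hu
    simp only [hsum, fam, hvP, hu]
  obtain ⟨K3, hK3, hle3⟩ := Dom.rpow dP2 dP1 ((1 - ε) * b + (g - d) - ε)
  refine ⟨![S 0, S 1], ?_, ?_⟩
  · intro i
    fin_cases i
    · exact hS0
    · exact hS1
  · refine LIntB.mono_const hint6 hK3 fun C' => ?_
    filter_upwards [hle3 C'] with ζ h1
    unfold wB
    rw [Fin.prod_univ_two]
    simp only [Matrix.cons_val_zero, Matrix.cons_val_one]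
    calc _ ≤ (ENNReal.ofReal (wt (S 0) (C'.s ζ))) ^ (-((1 - ε) * a)) *
          (K3 * (ENNReal.ofReal (fam vP (C'.s ζ))) ^ (-((1 - ε) * b + (g - d) - ε))) := by gcongr
      _ = _ := by ring

end Crest.Agent.R271.Fub103
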