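import Crest.Agent.R271.Defs_710
import Crest.Agent.R271.L0_934

/-!
# Row 271, sub-team L: local integrability on general finite dimensional spaces (helper934)

`LIntM μ g a`, linear changes of coordinates, Tonelli lemmas, the Sum Theorem on `Cn n × Cn k`.
-/

set_option autoImplicit false
open MeasureTheory Filter Topology Set Metric
open scoped ENNReal NNReal

namespace Crest.Agent.R271.L934

open Crest.Agent.R271.Defs710

/-- local integrability near `a` with respect to `μ` -/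
def LIntM {V : Type*} [TopologicalSpace V] [MeasurableSpace V] (μ : Measure V) (g : V → ℝ≥0∞)
    (a : V) : Prop := ∃ U ∈ 𝓝 a, ∫⁻ z in U, g z ∂μ < ∞

theorem LInt_iff {n : ℕ} (g : Cn n → ℝ≥0∞) (a : Cn n) : LInt g a ↔ LIntM volume g a := Iff.rfl

section general

variable {V : Type*} [TopologicalSpace V] [MeasurableSpace V] [OpensMeasurableSpace V]
  {μ : Measure V} {g g' : V → ℝ≥0∞} {a : V}

theorem LIntM.mono_const (h : LIntM μ g' a) {K : ℝ≥0∞} (hK : K ≠ ∞)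
    (hle : ∀ᶠ z in 𝓝 a, g z ≤ K * g' z) : LIntM μ g a := by
  obtain ⟨U, hU, hlt⟩ := h
  obtain ⟨V, hVs, hV, haV⟩ := _root_.eventually_nhds_iff.1 hle
  obtain ⟨U', hU'U, hU', haU'⟩ := _root_.mem_nhds_iff.1 hU
  refine ⟨U' ∩ V, (hU'.inter hV).mem_nhds ⟨haU', haV⟩, ?_⟩
  calc ∫⁻ z in U' ∩ V, g z ∂μ ≤ ∫⁻ z in U' ∩ V, K * g' z ∂μ := by
        refine setLIntegral_mono' (hU'.inter hV).measurableSet ?_
        intro z hz
        exact hVs z hz.2
    _ ≤ ∫⁻ z in U, K * g' z ∂μ := lintegral_mono_set (inter_subset_left.trans hU'U)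
    _ = K * ∫⁻ z in U, g' z ∂μ := lintegral_const_mul' _ _ hK
    _ < ∞ := ENNReal.mul_lt_top hK.lt_top hlt

theorem LIntM.mono (h : LIntM μ g' a) (hle : ∀ᶠ z in 𝓝 a, g z ≤ g' z) : LIntM μ g a :=
  h.mono_const (K := 1) (by simp) (by simpa using hle)

theorem LIntM.mono_const_ae (h : LIntM μ g' a) {K : ℝ≥0∞} (hK : K ≠ ∞) {W : Set V}
    (hW : W ∈ 𝓝 a) (hle : ∀ᵐ z ∂μ, z ∈ W → g z ≤ K * g' z) : LIntM μ g a := by
  obtain ⟨U, hU, hlt⟩ := h
  obtain ⟨V, hVs, hV, haV⟩ := _root_.mem_nhds_iff.1 hW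
  obtain ⟨U', hU'U, hU', haU'⟩ := _root_.mem_nhds_iff.1 hU
  refine ⟨U' ∩ V, (hU'.inter hV).mem_nhds ⟨haU', haV⟩, ?_⟩
  calc ∫⁻ z in U' ∩ V, g z ∂μ ≤ ∫⁻ z in U' ∩ V, K * g' z ∂μ := by
        refine lintegral_mono_ae ?_
        rw [ae_restrict_iff' (hU'.inter hV).measurableSet]
        filter_upwards [hle] with z hz hz2
        exact hz (hVs hz2.2)
    _ ≤ ∫⁻ z in U, K * g' z ∂μ := lintegral_mono_set (inter_subset_left.trans hU'U)
    _ = K * ∫⁻ z in U, g' z ∂μ := lintegral_const_mul' _ _ hK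
    _ < ∞ := ENNReal.mul_lt_top hK.lt_top hlt

theorem LIntM.congr (h : LIntM μ g' a) (hle : ∀ᶠ z in 𝓝 a, g z = g' z) : LIntM μ g a :=
  h.mono (hle.mono fun _ h => h.le)

end general

section linear

variable {V V' : Type*} [NormedAddCommGroup V] [NormedSpace ℝ V] [FiniteDimensional ℝ V]
  [MeasurableSpace V] [BorelSpace V] {μ : Measure V} [μ.IsAddHaarMeasure]
  [NormedAddCommGroup V'] [NormedSpace ℝ V'] [FiniteDimensional ℝ V']
  [MeasurableSpace V'] [BorelSpace V'] {μ' : Measure V'} [μ'.IsAddHaarMeasure]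

/-- linear change of coordinates -/
theorem LIntM.comp_linear (L : V ≃L[ℝ] V') {g : V' → ℝ≥0∞} {a : V} (h : LIntM μ' g (L a)) :
    LIntM μ (g ∘ L) a := by
  obtain ⟨U, hU, hlt⟩ := h
  obtain ⟨U', hU'U, hU', haU'⟩ := _root_.mem_nhds_iff.1 hU
  refine ⟨L ⁻¹' U', (hU'.preimage L.continuous).mem_nhds haU', ?_⟩
  have hmap : ∫⁻ z in L ⁻¹' U', (g ∘ L) z ∂μ = ∫⁻ z in U', g z ∂(μ.map L) := by
    have e := L.toHomeomorph.measurableEmbedding
    have h1 := (e.restrict_map μ U')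
    have h2 : Measure.map L μ = Measure.map (L.toHomeomorph) μ := rfl
    rw [h2, h1, e.lintegral_map]
    rfl
  rw [hmap]
  have h3 : (μ.map L).IsAddHaarMeasure := L.isAddHaarMeasure_map μ
  have h4 := Measure.isAddLeftInvariant_eq_smul (μ.map L) μ'
  rw [h4, Measure.restrict_smul, lintegral_smul_measure]
  refine ENNReal.mul_lt_top ENNReal.coe_lt_top ?_
  exact lt_of_le_of_lt (lintegral_mono_set hU'U) hlt

end linear

section prod

variable {V W : Type*} [TopologicalSpace V] [MeasurableSpace V] [OpensMeasurableSpace V]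
  [TopologicalSpace W] [MeasurableSpace W] [OpensMeasurableSpace W]
  {μ : Measure V} {ν : Measure W} [SFinite ν] [SFinite μ]

/-- Tonelli: if the inner integral is bounded by a locally integrable function -/
theorem LIntM.of_inner {g : V × W → ℝ≥0∞} {u : V → ℝ≥0∞} {a : V} {b : W} (h : LIntM μ u a)
    {K : ℝ≥0∞} (hK : K ≠ ∞) {W' : Set W} (hW' : W' ∈ 𝓝 b)
    (hle : ∀ᶠ z in 𝓝 a, ∫⁻ w in W', g (z, w) ∂ν ≤ K * u z) : LIntM (μ.prod ν) g (a, b) := by
  obtain ⟨U, hU, hlt⟩ := h.mono_const hK hle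
  obtain ⟨U', hU'U, hU', haU'⟩ := _root_.mem_nhds_iff.1 hU
  obtain ⟨W'', hW''W, hW''o, hbW''⟩ := _root_.mem_nhds_iff.1 hW'
  refine ⟨U' ×ˢ W'', prod_mem_nhds (hU'.mem_nhds haU') (hW''o.mem_nhds hbW''), ?_⟩
  rw [← Measure.prod_restrict]
  calc _ ≤ ∫⁻ x in U', ∫⁻ y in W'', g (x, y) ∂ν ∂μ := lintegral_prod_le _
    _ ≤ ∫⁻ x in U, ∫⁻ y in W', g (x, y) ∂ν ∂μ := by
        refine (lintegral_mono_set hU'U).trans ?_
        apply lintegral_mono
        intro x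
        exact lintegral_mono_set hW''W
    _ < ∞ := hlt

/-- Fubini: inner integrals of a locally integrable function -/
theorem LIntM.inner {g : V × W → ℝ≥0∞} {u : V → ℝ≥0∞} {a : V} {b : W}
    (h : LIntM (μ.prod ν) g (a, b)) {S : Set (V × W)} (hS : S ∈ 𝓝 (a, b))
    (hm : AEMeasurable g ((μ.prod ν).restrict S)) {K : ℝ≥0∞} (hK : K ≠ ∞)
    (hle : ∀ W' ∈ 𝓝 b, ∃ U ∈ 𝓝 a, ∀ᵐ z ∂μ, z ∈ U → u z ≤ K * ∫⁻ w in W', g (z, w) ∂ν) :
    LIntM μ u a := by
  obtain ⟨T, hT, hlt⟩ := h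
  obtain ⟨T1, hT1, hT1o, haT1⟩ := _root_.mem_nhds_iff.1 (Filter.inter_mem hT hS)
  obtain ⟨U, W', hU, hW', haU, hbW', hUW⟩ := isOpen_prod_iff.1 hT1o a b haT1
  obtain ⟨U2, hU2, hle2⟩ := hle W' (hW'.mem_nhds hbW')
  have hsub : U ×ˢ W' ⊆ S := hUW.trans (hT1.trans inter_subset_right)
  have hm' : AEMeasurable g ((μ.restrict U).prod (ν.restrict W')) := by
    rw [Measure.prod_restrict]
    exact hm.mono_measure (Measure.restrict_mono hsub le_rfl)
  have hfin : ∫⁻ x in U, ∫⁻ y in W', g (x, y) ∂ν ∂μ < ∞ := by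
    rw [← lintegral_prod _ hm', Measure.prod_restrict]
    exact lt_of_le_of_lt (lintegral_mono_set (hUW.trans (hT1.trans inter_subset_left))) hlt
  have h1 : LIntM μ (fun x => ∫⁻ y in W', g (x, y) ∂ν) a := ⟨U, hU.mem_nhds haU, hfin⟩
  exact h1.mono_const_ae hK hU2 hle2

end prod

end Crest.Agent.R271.L934
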