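import Crest.Agent.R271.G1_934

/-!
# Row 271, sub-team L: the Sum Theorem for two ideals on `Cn n × Cn k` (helper934)
-/

set_option autoImplicit false
open MeasureTheory Filter Topology Set Metric
open scoped ENNReal NNReal

namespace Crest.Agent.R271.L934

open Crest.Agent.R271.Defs710

/-- `∑ⱼ |hⱼ|²` on any space -/
noncomputable def sqV {V : Type*} {κ : Type} [Fintype κ] (h : κ → V → ℂ) (v : V) : ℝ := ∑ j, ‖h j v‖ ^ 2

theorem sqV_nonneg {V : Type*} {κ : Type} [Fintype κ] (h : κ → V → ℂ) (v : V) : 0 ≤ sqV h v :=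
  Finset.sum_nonneg fun _ _ => by positivity

/-- the integrand `∏ᵢ (∑ⱼ |hᵢⱼ|²)^{-cᵢ}` -/
noncomputable def wV {V : Type*} {ι : Type} [Fintype ι] {κ : ι → Type} [∀ i, Fintype (κ i)]
    (h : ∀ i, κ i → V → ℂ) (c : ι → ℝ) (v : V) : ℝ≥0∞ :=
  ∏ i, (ENNReal.ofReal (sqV (h i) v)) ^ (-(c i))

theorem sum_thm_V (hS : SumThm) {V : Type} [NormedAddCommGroup V] [NormedSpace ℂ V]
    [FiniteDimensional ℂ V] [MeasurableSpace V] [BorelSpace V] {μ : Measure V} [μ.IsAddHaarMeasure]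
    (ι ι' : Type) [Fintype ι] [Fintype ι'] [Nonempty ι']
    (κ : ι → Type) [∀ i, Fintype (κ i)] (κ' : ι' → Type) [∀ i, Fintype (κ' i)]
    (h : ∀ i, κ i → V → ℂ) (g : ∀ i, κ' i → V → ℂ) (c : ι → ℝ) (θ : ι' → ℝ)
    (hh : ∀ i j, AnalyticAt ℂ (h i j) 0) (hg : ∀ i j, AnalyticAt ℂ (g i j) 0)
    (hc : ∀ i, 0 ≤ c i) (hθ : ∀ i, 0 ≤ θ i)
    (H : LIntM μ (fun v => wV h c v * ⨅ i : ι', (ENNReal.ofReal (sqV (g i) v)) ^ (-(θ i))) 0)
    {ε : ℝ} (hε : 0 < ε) (hε1 : ε < 1) :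
      ∃ s : ι' → ℝ, (∀ i, 0 ≤ s i) ∧ ∑ i, s i = 1 ∧
        LIntM μ (fun v => wV h (fun i => (1 - ε) * c i) v *
          wV g (fun i => (1 - ε) * (s i * θ i)) v) 0 := by
  have : FiniteDimensional ℝ V := FiniteDimensional.trans ℝ ℂ V
  let N := Module.finrank ℂ V
  let L : Cn N ≃L[ℂ] V := ContinuousLinearEquiv.ofFinrankEq (by simp [N])
  let L' : Cn N ≃L[ℝ] V := ⟨L.toLinearEquiv.restrictScalars ℝ, L.continuous, L.symm.continuous⟩
  have e0 : L' 0 = 0 := map_zero L'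
  have hL : ∀ f : V → ℂ, AnalyticAt ℂ f 0 → AnalyticAt ℂ (fun ζ => f (L ζ)) 0 := by
    intro f hf
    have h1 : AnalyticAt ℂ (fun ζ => L ζ) 0 := L.analyticAt 0
    have h2 : AnalyticAt ℂ f (L 0) := by rwa [map_zero]
    exact AnalyticAt.fun_comp h2 h1
  have H' : LInt (fun ζ => wInt (fun i j (ζ : Cn N) => h i j (L ζ)) c ζ *
      ⨅ i : ι', (ENNReal.ofReal (Defs710.sq (fun j (ζ : Cn N) => g i j (L ζ)) ζ)) ^ (-(θ i))) 0 := by
    have h1 := LIntM.comp_linear (μ := (volume : Measure (Cn N))) (μ' := μ) L' (a := 0)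
      (g := fun v => wV h c v * ⨅ i : ι', (ENNReal.ofReal (sqV (g i) v)) ^ (-(θ i)))
      (by rw [e0]; exact H)
    exact h1
  obtain ⟨s, hs0, hs1, hs⟩ := hS N ι ι' κ κ' _ _ c θ (fun i j => hL _ (hh i j))
    (fun i j => hL _ (hg i j)) hc hθ H' ε hε hε1
  refine ⟨s, hs0, hs1, ?_⟩
  have h2 := LIntM.comp_linear (μ := μ) (μ' := (volume : Measure (Cn N))) L'.symm (a := 0)
      (g := fun ζ => wInt (fun i j (ζ : Cn N) => h i j (L ζ)) (fun i => (1 - ε) * c i) ζ *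
          wInt (fun i j (ζ : Cn N) => g i j (L ζ)) (fun i => (1 - ε) * (s i * θ i)) ζ)
      (by rw [map_zero]; exact hs)
  refine h2.congr (Filter.Eventually.of_forall fun v => ?_)
  have e1 : ∀ v, L (L'.symm v) = v := fun v => L'.apply_symm_apply v
  simp only [Function.comp_apply, wV, wInt, sqV, Defs710.sq, e1]

/-- two ideals, same exponent `θ` -/
theorem sum_thm_two (hS : SumThm) {V : Type} [NormedAddCommGroup V] [NormedSpace ℂ V]
    [FiniteDimensional ℂ V] [MeasurableSpace V] [BorelSpace V] {μ : Measure V} [μ.IsAddHaarMeasure]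
    (ι : Type) [Fintype ι] (κ : ι → Type) [∀ i, Fintype (κ i)] (κ₁ κ₂ : Type) [Fintype κ₁]
    [Fintype κ₂] (h : ∀ i, κ i → V → ℂ) (g₁ : κ₁ → V → ℂ) (g₂ : κ₂ → V → ℂ) (c : ι → ℝ) (θ : ℝ)
    (hh : ∀ i j, AnalyticAt ℂ (h i j) 0) (hg₁ : ∀ j, AnalyticAt ℂ (g₁ j) 0)
    (hg₂ : ∀ j, AnalyticAt ℂ (g₂ j) 0)
    (hc : ∀ i, 0 ≤ c i) (hθ : 0 ≤ θ)
    (H : LIntM μ (fun v => wV h c v * (ENNReal.ofReal (sqV g₁ v + sqV g₂ v)) ^ (-θ)) 0)
    {ε : ℝ} (hε : 0 < ε) (hε1 : ε < 1) :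
      ∃ s₁ s₂ : ℝ, 0 ≤ s₁ ∧ 0 ≤ s₂ ∧ s₁ + s₂ = (1 - ε) * θ ∧
        LIntM μ (fun v => wV h (fun i => (1 - ε) * c i) v *
          ((ENNReal.ofReal (sqV g₁ v)) ^ (-s₁) * (ENNReal.ofReal (sqV g₂ v)) ^ (-s₂))) 0 := by
  let κ' : Bool → Type := fun b => match b with
    | true => κ₁
    | false => κ₂
  letI : ∀ i, Fintype (κ' i) := fun b => match b with
    | true => (inferInstance : Fintype κ₁)
    | false => (inferInstance : Fintype κ₂)
  let g : ∀ i, κ' i → V → ℂ := fun b => match b with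
    | true => g₁
    | false => g₂
  have hg : ∀ i j, AnalyticAt ℂ (g i j) 0 := by
    intro i
    cases i
    · exact hg₂
    · exact hg₁
  have e0 : sqV (g true) = sqV g₁ := rfl
  have e1 : sqV (g false) = sqV g₂ := rfl
  have H' : LIntM μ (fun v => wV h c v *
      ⨅ i : Bool, (ENNReal.ofReal (sqV (g i) v)) ^ (-θ)) 0 := by
    refine H.mono_const (K := 2 ^ θ) (ENNReal.rpow_ne_top_of_nonneg hθ (by simp)) ?_
    refine Filter.Eventually.of_forall fun v => ?_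
    rw [← mul_assoc, mul_comm ((2:ℝ≥0∞) ^ θ), mul_assoc]
    gcongr
    -- `min (a^-θ) (b^-θ) ≤ 2^θ (a+b)^-θ`
    have key : ∀ a b : ℝ, 0 ≤ a → 0 ≤ b → b ≤ a →
        (ENNReal.ofReal a) ^ (-θ) ≤ 2 ^ θ * (ENNReal.ofReal (a + b)) ^ (-θ) := by
      intro a b ha hb hba
      have h1 : ENNReal.ofReal (a + b) ≤ 2 * ENNReal.ofReal a := by
        rw [show (2:ℝ≥0∞) = ENNReal.ofReal 2 by norm_num, ← ENNReal.ofReal_mul (by norm_num)]
        exact ENNReal.ofReal_le_ofReal (by linarith)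
      rw [ENNReal.rpow_neg, ENNReal.rpow_neg]
      have h2 : (ENNReal.ofReal (a + b)) ^ θ ≤ 2 ^ θ * (ENNReal.ofReal a) ^ θ := by
        rw [← ENNReal.mul_rpow_of_nonneg _ _ hθ]
        exact ENNReal.rpow_le_rpow h1 hθ
      have h20 : (2:ℝ≥0∞) ^ θ ≠ 0 := by
        intro h0
        rcases ENNReal.rpow_eq_zero_iff.1 h0 with ⟨h1, -⟩ | ⟨h1, -⟩
        · exact absurd h1 (by norm_num)
        · exact absurd h1 (by norm_num)
      have h2t : (2:ℝ≥0∞) ^ θ ≠ ∞ := ENNReal.rpow_ne_top_of_nonneg hθ (by simp)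
      calc ((ENNReal.ofReal a) ^ θ)⁻¹ = 2 ^ θ * (2 ^ θ * (ENNReal.ofReal a) ^ θ)⁻¹ := by
            rw [ENNReal.mul_inv (Or.inl h20) (Or.inl h2t), ← mul_assoc,
              ENNReal.mul_inv_cancel h20 h2t, one_mul]
        _ ≤ 2 ^ θ * ((ENNReal.ofReal (a + b)) ^ θ)⁻¹ := by gcongr
    rcases le_total (sqV g₂ v) (sqV g₁ v) with h | h
    · refine (iInf_le _ true).trans ?_
      rw [e0]
      exact key _ _ (sqV_nonneg _ _) (sqV_nonneg _ _) h
    · refine (iInf_le _ false).trans ?_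
      rw [e1, add_comm]
      exact key _ _ (sqV_nonneg _ _) (sqV_nonneg _ _) h
  obtain ⟨s, hs0, hs1, hs⟩ := sum_thm_V hS ι Bool κ κ' h g c (fun _ => θ) hh hg hc (fun _ => hθ)
    H' hε hε1
  have h1ε : 0 ≤ 1 - ε := by linarith
  refine ⟨(1 - ε) * (s true * θ), (1 - ε) * (s false * θ), ?_, ?_, ?_, ?_⟩
  · exact mul_nonneg h1ε (mul_nonneg (hs0 true) hθ)
  · exact mul_nonneg h1ε (mul_nonneg (hs0 false) hθ)
  · rw [Fintype.sum_bool] at hs1
    rw [← mul_add, ← add_mul, hs1, one_mul]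
  · refine hs.congr (Filter.Eventually.of_forall fun v => ?_)
    congr 1
    simp only [wV, Fintype.prod_bool]
    rw [e0, e1]

end Crest.Agent.R271.L934
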