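import Crest.Agent.R271.H2_51

/-!
# Row 271, analytic engine (H): measure, bump functions, integration by parts (helper51)
-/

set_option autoImplicit false
set_option linter.unusedSectionVars false

noncomputable section

open Set Filter Topology MeasureTheory ComplexConjugate

namespace Crest.Agent.R271.Ho51

variable {n : ℕ} {M : Type*} [TopologicalSpace M] [RDom n M]

section measure

variable [MeasurableSpace M] [BorelSpace M]

/-- `μ` is the pull back of Lebesgue measure by `p`. -/
def IsLeb (μ : Measure M) : Prop := ∀ e : OpenPartialHomeomorph M (Fin n → ℂ), IsCh e →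
  μ.restrict e.source = (volume.restrict e.target).map e.symm

/-- the measure in the chart `e` -/
def chm (e : OpenPartialHomeomorph M (Fin n → ℂ)) : Measure M :=
  (volume.restrict e.target).map e.symm

lemma aem_symm (e : OpenPartialHomeomorph M (Fin n → ℂ)) :
    AEMeasurable e.symm ((volume : Measure (Fin n → ℂ)).restrict e.target) :=
  (e.symm.continuousOn).aemeasurable e.open_target.measurableSet

lemma chm_apply (e : OpenPartialHomeomorph M (Fin n → ℂ)) {s : Set M} (hs : MeasurableSet s) :
    chm e s = volume (e.target ∩ e.symm ⁻¹' s) := by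
  rw [chm, Measure.map_apply_of_aemeasurable (aem_symm e) hs,
    Measure.restrict_apply' e.open_target.measurableSet, inter_comm]

lemma chm_apply_sub {e : OpenPartialHomeomorph M (Fin n → ℂ)} (he : IsCh e) {s : Set M}
    (hs : MeasurableSet s) (hse : s ⊆ e.source) : chm e s = volume (cp '' s) := by
  rw [chm_apply e hs, ← e.image_eq_target_inter_inv_preimage hse, he.image_eq]

lemma chm_inter (e : OpenPartialHomeomorph M (Fin n → ℂ)) {s : Set M} (hs : MeasurableSet s) :
    chm e s = chm e (s ∩ e.source) := by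
  rw [chm_apply e hs, chm_apply e (hs.inter e.open_source.measurableSet)]
  congr 1
  ext z
  simp only [mem_inter_iff, mem_preimage]
  constructor
  · rintro ⟨h1, h2⟩
    exact ⟨h1, h2, e.map_target h1⟩
  · rintro ⟨h1, h2, _⟩
    exact ⟨h1, h2⟩

theorem exists_leb [SecondCountableTopology M] : ∃ μ : Measure M, IsLeb μ := by
  classical
  rcases isEmpty_or_nonempty M with hM | hM
  · refine ⟨0, fun e _ => ?_⟩
    ext s _
    have : s = ∅ := Set.eq_empty_of_isEmpty s
    simp [this]
  obtain ⟨S, hSc, hSu⟩ := TopologicalSpace.countable_cover_nhds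
    (f := fun x : M => (ch x).source) (fun x => (ch x).open_source.mem_nhds (mem_ch x))
  have hSne : S.Nonempty := by
    by_contra hcon
    rw [Set.not_nonempty_iff_eq_empty] at hcon
    rw [hcon] at hSu
    simp at hSu
    exact (Set.univ_nonempty (α := M)).ne_empty hSu.symm
  obtain ⟨xs, hxs⟩ := hSc.exists_eq_range hSne
  let A : ℕ → Set M := disjointed (fun k => (ch (xs k)).source)
  have hAm : ∀ k, MeasurableSet (A k) := fun k =>
    MeasurableSet.disjointed (fun i => (ch (xs i)).open_source.measurableSet) k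
  have hAd : Pairwise (Function.onFun Disjoint A) := disjoint_disjointed _
  have hAu : ⋃ k, A k = univ := by
    show ⋃ k, disjointed _ k = univ
    rw [iUnion_disjointed]
    rw [hxs] at hSu
    simpa using hSu
  have hAs : ∀ k, A k ⊆ (ch (xs k)).source := fun k => disjointed_subset _ k
  refine ⟨Measure.sum fun k => (chm (ch (xs k))).restrict (A k), fun e he => ?_⟩
  ext s hs
  rw [Measure.restrict_apply hs,
    Measure.sum_apply _ (hs.inter e.open_source.measurableSet)]
  have h1 : ∀ k, ((chm (ch (xs k))).restrict (A k)) (s ∩ e.source) =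
      chm e ((s ∩ e.source) ∩ A k) := by
    intro k
    have hm : MeasurableSet ((s ∩ e.source) ∩ A k) :=
      (hs.inter e.open_source.measurableSet).inter (hAm k)
    rw [Measure.restrict_apply (hs.inter e.open_source.measurableSet),
      chm_apply_sub (isCh_ch _) hm (inter_subset_right.trans (hAs k)),
      chm_apply_sub he hm (inter_subset_left.trans inter_subset_right)]
  simp only [h1]
  rw [← measure_iUnion]
  · rw [← inter_iUnion, hAu, inter_univ, ← chm_inter e hs]
    rfl
  · intro i j hij
    exact (hAd hij).mono inter_subset_right inter_subset_right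
  · intro k
    exact (hs.inter e.open_source.measurableSet).inter (hAm k)

lemma lintegral_chart {μ : Measure M} (hμ : IsLeb μ) {e : OpenPartialHomeomorph M (Fin n → ℂ)}
    (he : IsCh e) {f : M → ENNReal} (hf : AEMeasurable f (μ.restrict e.source)) :
    ∫⁻ x in e.source, f x ∂μ = ∫⁻ z in e.target, f (e.symm z) := by
  rw [hμ e he] at hf ⊢
  rw [lintegral_map' hf (aem_symm e)]

lemma integral_chart {μ : Measure M} (hμ : IsLeb μ) {e : OpenPartialHomeomorph M (Fin n → ℂ)}
    (he : IsCh e) {G : Type*} [NormedAddCommGroup G] [NormedSpace ℝ G] {f : M → G}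
    (hf : AEStronglyMeasurable f (μ.restrict e.source)) :
    ∫ x in e.source, f x ∂μ = ∫ z in e.target, f (e.symm z) := by
  rw [hμ e he] at hf ⊢
  rw [integral_map (aem_symm e) hf]

/-- `μ` is finite on compact sets (locally finite). -/
lemma IsLeb.locallyFinite {μ : Measure M} (hμ : IsLeb μ) : IsLocallyFiniteMeasure μ := by
  refine ⟨fun x => ?_⟩
  -- a relatively compact neighbourhood inside the chart
  obtain ⟨U, hU, hUf⟩ := (volume : Measure (Fin n → ℂ)).finiteAt_nhds (cp x)
  refine ⟨(ch x).source ∩ cp ⁻¹' (interior U), ?_, ?_⟩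
  · exact inter_mem ((ch x).open_source.mem_nhds (mem_ch x))
      (cp_cont.continuousAt.preimage_mem_nhds (interior_mem_nhds.2 hU))
  · have hm : MeasurableSet ((ch x).source ∩ cp ⁻¹' (interior U)) :=
      (((ch x).open_source).inter (isOpen_interior.preimage cp_cont)).measurableSet
    have h1 : μ ((ch x).source ∩ cp ⁻¹' (interior U)) =
        chm (ch x) ((ch x).source ∩ cp ⁻¹' (interior U)) := by
      rw [chm, ← hμ (ch x) (isCh_ch x), Measure.restrict_apply hm]
      congr 1
      ext y; simp only [mem_inter_iff]; tauto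
    rw [h1, chm_apply_sub (isCh_ch x) hm inter_subset_left]
    refine lt_of_le_of_lt (measure_mono ?_) hUf
    rintro _ ⟨y, ⟨_, hy⟩, rfl⟩
    exact interior_subset hy

end measure

/-! ### extension by zero and pull back -/

section bump

variable {G : Type*} [NormedAddCommGroup G] [NormedSpace ℝ G]

/-- extension by zero of `f ∘ e.symm` -/
def ext0 (e : OpenPartialHomeomorph M (Fin n → ℂ)) (f : M → G) : (Fin n → ℂ) → G :=
  e.target.indicator (f ∘ e.symm)

/-- extension by zero of `g ∘ p` -/
def pull (e : OpenPartialHomeomorph M (Fin n → ℂ)) (g : (Fin n → ℂ) → G) : M → G :=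
  e.source.indicator (fun x => g (cp x))

lemma ext0_of_mem (e : OpenPartialHomeomorph M (Fin n → ℂ)) (f : M → G) {z : Fin n → ℂ}
    (hz : z ∈ e.target) : ext0 e f z = f (e.symm z) := by
  simp [ext0, indicator_of_mem hz]

lemma pull_of_mem (e : OpenPartialHomeomorph M (Fin n → ℂ)) (g : (Fin n → ℂ) → G) {x : M}
    (hx : x ∈ e.source) : pull e g x = g (cp x) := by
  simp [pull, indicator_of_mem hx]

/-- support of `f ∘ e.symm` -/
lemma ext0_support {e : OpenPartialHomeomorph M (Fin n → ℂ)} (he : IsCh e) {f : M → G}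
    (hfs : tsupport f ⊆ e.source) {z : Fin n → ℂ} (hz : z ∉ cp '' (tsupport f)) :
    ext0 e f z = 0 := by
  by_cases hzt : z ∈ e.target
  · rw [ext0_of_mem e f hzt]
    by_contra hne
    refine hz ⟨e.symm z, subset_tsupport _ (by simpa using hne), he.cp_symm hzt⟩
  · simp [ext0, indicator_of_notMem hzt]

lemma isCompact_cp_image {K : Set M} (hK : IsCompact K) : IsCompact (cp '' K) :=
  hK.image cp_cont

lemma ext0_eventually {e : OpenPartialHomeomorph M (Fin n → ℂ)} {f : M → G}
    {z : Fin n → ℂ} (hz : z ∈ e.target) : ext0 e f =ᶠ[𝓝 z] (f ∘ e.symm) := by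
  filter_upwards [e.open_target.mem_nhds hz] with w hw
  rw [ext0_of_mem e f hw]; rfl

lemma ext0_eventually_zero {e : OpenPartialHomeomorph M (Fin n → ℂ)} (he : IsCh e) {f : M → G}
    (hfs : tsupport f ⊆ e.source) (hfc : HasCompactSupport f)
    {z : Fin n → ℂ} (hz : z ∉ cp '' (tsupport f)) : ext0 e f =ᶠ[𝓝 z] fun _ => 0 := by
  have h1 : IsClosed (cp '' (tsupport f)) := (isCompact_cp_image hfc).isClosed
  filter_upwards [h1.isOpen_compl.mem_nhds hz] with w hw
  exact ext0_support he hfs hw

lemma ext0_hasCompactSupport {e : OpenPartialHomeomorph M (Fin n → ℂ)} (he : IsCh e) {f : M → G}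
    (hfs : tsupport f ⊆ e.source) (hfc : HasCompactSupport f) :
    HasCompactSupport (ext0 e f) :=
  HasCompactSupport.intro (isCompact_cp_image hfc) fun _ hz => ext0_support he hfs hz

lemma ext0_contDiff {e : OpenPartialHomeomorph M (Fin n → ℂ)} (he : IsCh e) {f : M → G}
    (hf : Sm f) (hfs : tsupport f ⊆ e.source) (hfc : HasCompactSupport f) :
    ContDiff ℝ (⊤ : ℕ∞) (ext0 e f) := by
  rw [contDiff_iff_contDiffAt]
  intro z
  by_cases hz : z ∈ cp '' (tsupport f)
  · obtain ⟨x, hx, rfl⟩ := hz
    have hxt : cp x ∈ e.target := he.cp_mem (hfs hx)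
    exact (hf.contDiffAt' he hxt).congr_of_eventuallyEq (ext0_eventually hxt)
  · exact contDiffAt_const.congr_of_eventuallyEq (ext0_eventually_zero he hfs hfc hz)

lemma ext0_fderiv {e : OpenPartialHomeomorph M (Fin n → ℂ)} (he : IsCh e) {f : M → G}
    (hfs : tsupport f ⊆ e.source) (hfc : HasCompactSupport f) (z : Fin n → ℂ) :
    fderiv ℝ (ext0 e f) z = ext0 e (D f) z := by
  by_cases hz : z ∈ e.target
  · rw [(ext0_eventually hz).fderiv_eq, ext0_of_mem e _ hz, D_symm he hz]
  · have hz' : z ∉ cp '' (tsupport f) := by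
      rintro ⟨x, hx, rfl⟩
      exact hz (he.cp_mem (hfs hx))
    rw [(ext0_eventually_zero he hfs hfc hz').fderiv_eq, ext0, indicator_of_notMem hz]
    simp

variable [T2Space M]

/-- the image of a compact subset of the target -/
lemma isCompact_symm_image {e : OpenPartialHomeomorph M (Fin n → ℂ)} {K : Set (Fin n → ℂ)}
    (hK : IsCompact K) (hKt : K ⊆ e.target) : IsCompact (e.symm '' K) :=
  hK.image_of_continuousOn (e.symm.continuousOn.mono hKt)

lemma pull_support {e : OpenPartialHomeomorph M (Fin n → ℂ)} (he : IsCh e)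
    {g : (Fin n → ℂ) → G} {x : M} (hx : x ∉ e.symm '' (tsupport g)) : pull e g x = 0 := by
  by_cases hxs : x ∈ e.source
  · rw [pull_of_mem e g hxs]
    by_contra hne
    exact hx ⟨cp x, subset_tsupport _ (by simpa using hne), he.symm_cp hxs⟩
  · simp [pull, indicator_of_notMem hxs]

lemma pull_eventually_zero {e : OpenPartialHomeomorph M (Fin n → ℂ)} (he : IsCh e)
    {g : (Fin n → ℂ) → G} (hgs : tsupport g ⊆ e.target) (hgc : HasCompactSupport g)
    {x : M} (hx : x ∉ e.symm '' (tsupport g)) : pull e g =ᶠ[𝓝 x] fun _ => 0 := by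
  have h1 : IsClosed (e.symm '' (tsupport g)) := (isCompact_symm_image hgc hgs).isClosed
  filter_upwards [h1.isOpen_compl.mem_nhds hx] with w hw
  exact pull_support he hw

lemma pull_eventually {e : OpenPartialHomeomorph M (Fin n → ℂ)}
    {g : (Fin n → ℂ) → G} {x : M} (hx : x ∈ e.source) :
    pull e g =ᶠ[𝓝 x] fun y => g (cp y) := by
  filter_upwards [e.open_source.mem_nhds hx] with w hw
  exact pull_of_mem e g hw

lemma pull_sm {e : OpenPartialHomeomorph M (Fin n → ℂ)} (he : IsCh e)
    {g : (Fin n → ℂ) → G} (hg : ContDiff ℝ (⊤ : ℕ∞) g) (hgs : tsupport g ⊆ e.target)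
    (hgc : HasCompactSupport g) : Sm (pull e g) := by
  refine Sm.of_locally fun x => ?_
  by_cases hx : x ∈ e.source
  · exact ⟨_, Sm.of_coord hg, pull_eventually hx⟩
  · have hx' : x ∉ e.symm '' (tsupport g) := by
      rintro ⟨z, hz, rfl⟩
      exact hx (e.map_target (hgs hz))
    exact ⟨_, Sm.const (0 : G), pull_eventually_zero he hgs hgc hx'⟩

lemma pull_tsupport {e : OpenPartialHomeomorph M (Fin n → ℂ)} (he : IsCh e)
    {g : (Fin n → ℂ) → G} (hgs : tsupport g ⊆ e.target)
    (hgc : HasCompactSupport g) : tsupport (pull e g) ⊆ e.symm '' (tsupport g) := by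
  refine closure_minimal ?_ (isCompact_symm_image hgc hgs).isClosed
  intro x hx
  by_contra hx'
  exact hx (pull_support he hx')

lemma pull_hasCompactSupport {e : OpenPartialHomeomorph M (Fin n → ℂ)} (he : IsCh e)
    {g : (Fin n → ℂ) → G} (hgs : tsupport g ⊆ e.target)
    (hgc : HasCompactSupport g) : HasCompactSupport (pull e g) :=
  HasCompactSupport.intro (isCompact_symm_image hgc hgs) fun _ hx => pull_support he hx

lemma D_of_coord {g : (Fin n → ℂ) → G} (x : M) : D (fun y : M => g (cp y)) x = fderiv ℝ g (cp x) := by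
  unfold D
  apply Filter.EventuallyEq.fderiv_eq
  filter_upwards [(ch x).open_target.mem_nhds ((isCh_ch x).cp_mem (mem_ch x))] with z hz
  simp [(isCh_ch x).cp_symm hz]

lemma D_pull {e : OpenPartialHomeomorph M (Fin n → ℂ)} (he : IsCh e)
    {g : (Fin n → ℂ) → G} (hgs : tsupport g ⊆ e.target) (hgc : HasCompactSupport g) (x : M) :
    D (pull e g) x = pull e (fderiv ℝ g) x := by
  by_cases hx : x ∈ e.source
  · rw [D_congr (pull_eventually hx), pull_of_mem e _ hx, D_of_coord]
  · have hx' : x ∉ e.symm '' (tsupport g) := by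
      rintro ⟨z, hz, rfl⟩
      exact hx (e.map_target (hgs hz))
    rw [D_congr (pull_eventually_zero he hgs hgc hx'), D_const, pull, indicator_of_notMem hx]

/-- bump functions -/
theorem exists_bump (x : M) {N : Set M} (hN : N ∈ 𝓝 x) : ∃ b : M → ℝ, Sm b ∧
    HasCompactSupport b ∧ tsupport b ⊆ (ch x).source ∩ N ∧ (∀ y, 0 ≤ b y) ∧ (∀ y, b y ≤ 1) ∧
    ∀ᶠ y in 𝓝 x, b y = 1 := by
  classical
  set e := ch x with he_def
  have he : IsCh e := isCh_ch x
  have hT : (e.symm ⁻¹' (interior N)) ∩ e.target ∈ 𝓝 (cp x) := by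
    have h0 : cp x ∈ e.target := he.cp_mem (mem_ch x)
    refine inter_mem ?_ (e.open_target.mem_nhds h0)
    have h1 : ContinuousAt e.symm (cp x) := e.symm.continuousAt (by simpa using h0)
    apply h1.preimage_mem_nhds
    rw [he.symm_cp (mem_ch x)]
    exact interior_mem_nhds.2 hN
  obtain ⟨r, hr, hball⟩ := Metric.nhds_basis_closedBall.mem_iff.1 hT
  let f : ContDiffBump (cp x) := ⟨r / 2, r, by positivity, by linarith⟩
  have hts : tsupport (f : (Fin n → ℂ) → ℝ) ⊆ e.target := by
    rw [f.tsupport_eq]; exact hball.trans inter_subset_right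
  have hcs : HasCompactSupport (f : (Fin n → ℂ) → ℝ) := f.hasCompactSupport
  have hcd : ContDiff ℝ (⊤ : ℕ∞) (f : (Fin n → ℂ) → ℝ) := f.contDiff
  refine ⟨pull e f, pull_sm he hcd hts hcs, pull_hasCompactSupport he hts hcs, ?_, ?_, ?_, ?_⟩
  · refine (pull_tsupport he hts hcs).trans ?_
    rintro _ ⟨z, hz, rfl⟩
    have hz' : z ∈ Metric.closedBall (cp x) r := by rwa [f.tsupport_eq] at hz
    exact ⟨e.map_target (hball hz').2, interior_subset (hball hz').1⟩
  · intro y
    unfold pull
    exact indicator_nonneg (fun y _ => f.nonneg) y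
  · intro y
    by_cases hy : y ∈ e.source
    · rw [pull_of_mem e _ hy]; exact f.le_one
    · simp [pull, indicator_of_notMem hy]
  · have h1 : ∀ᶠ y in 𝓝 x, f (cp y) = 1 := by
      have := f.eventuallyEq_one
      exact cp_cont.continuousAt.eventually this
    filter_upwards [h1, e.open_source.mem_nhds (mem_ch x)] with y hy hys
    rw [pull_of_mem e _ hys, hy]

/-- partition of unity -/
theorem exists_pou {K : Set M} (hK : IsCompact K) : ∃ (m : ℕ) (c : Fin m → M)
    (g : Fin m → M → ℝ), (∀ i, Sm (g i) ∧ HasCompactSupport (g i) ∧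
      tsupport (g i) ⊆ (ch (c i)).source ∧ (∀ x, 0 ≤ g i x)) ∧
      ∀ᶠ x in 𝓝ˢ K, ∑ i, g i x = 1 := by
  classical
  choose b hbs hbc hbt hb0 hb1 hbe using fun x : M => exists_bump x (N := univ) univ_mem
  have hU : ∀ x : M, ∃ U : Set M, IsOpen U ∧ x ∈ U ∧ ∀ y ∈ U, b x y = 1 := by
    intro x
    obtain ⟨U, hU1, hU2, hU3⟩ := eventually_nhds_iff.1 (hbe x)
    exact ⟨U, hU2, hU3, fun y hy => hU1 y hy⟩
  choose U hUo hUx hU1 using hU
  obtain ⟨t, ht⟩ := hK.elim_finite_subcover U hUo (fun x _ => mem_iUnion.2 ⟨x, hUx x⟩)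
  let m := t.card
  let c : Fin m → M := fun i => (t.equivFin.symm i : M)
  let g : Fin m → M → ℝ := fun i x => b (c i) x * ∏ j ∈ Finset.univ.filter (· < i), (1 - b (c j) x)
  have hprodSm : ∀ (s : Finset (Fin m)), Sm (fun x => ∏ j ∈ s, (1 - b (c j) x)) := by
    intro s
    induction s using Finset.induction_on with
    | empty => simpa using Sm.const (1 : ℝ)
    | insert a s ha ih =>
      simp only [Finset.prod_insert ha]
      exact ((Sm.const (1 : ℝ)).sub (hbs (c a))).mulR ih
  refine ⟨m, c, g, fun i => ⟨(hbs (c i)).mulR (hprodSm _), ?_, ?_, ?_⟩, ?_⟩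
  · exact (hbc (c i)).mul_right
  · refine (tsupport_mul_subset_left).trans ((hbt (c i)).trans inter_subset_left)
  · intro x
    exact mul_nonneg (hb0 _ _) (Finset.prod_nonneg fun j _ => sub_nonneg.2 (hb1 _ _))
  · have hopen : IsOpen (⋃ i ∈ t, U i) := isOpen_biUnion fun i _ => hUo i
    rw [eventually_nhdsSet_iff_exists]
    refine ⟨⋃ i ∈ t, U i, hopen, ht, fun x hx => ?_⟩
    have h1 := Finset.prod_one_sub_ordered (Finset.univ : Finset (Fin m)) (fun i => b (c i) x)
    have h2 : ∏ i : Fin m, (1 - b (c i) x) = 0 := by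
      obtain ⟨y, hy, hxy⟩ := mem_iUnion₂.1 hx
      refine Finset.prod_eq_zero (i := t.equivFin ⟨y, hy⟩) (Finset.mem_univ _) ?_
      have : c (t.equivFin ⟨y, hy⟩) = y := by simp [c]
      rw [this, hU1 y x hxy, sub_self]
    rw [h2] at h1
    have h3 : ∑ i, g i x = ∑ i, b (c i) x * ∏ j ∈ Finset.univ.filter (· < i), (1 - b (c j) x) := rfl
    rw [h3]
    linarith

end bump

/-! ### integration by parts -/

section ibp

variable [MeasurableSpace M] [BorelSpace M]

/-- a smooth compactly supported function is integrable -/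
lemma Sm.integrable {μ : Measure M} (hμ : IsLeb μ) {G : Type*} [NormedAddCommGroup G]
    [NormedSpace ℝ G] {f : M → G}
    (hf : Sm f) (hc : HasCompactSupport f) : Integrable f μ := by
  have := hμ.locallyFinite
  exact hf.continuous.integrable_of_hasCompactSupport hc

lemma tsupport_D {G : Type*} [NormedAddCommGroup G] [NormedSpace ℝ G] (f : M → G) :
    tsupport (D f) ⊆ tsupport f := by
  refine closure_minimal ?_ isClosed_closure
  intro x hx
  by_contra hx'
  have h1 : f =ᶠ[𝓝 x] fun _ => 0 := by
    have := notMem_tsupport_iff_eventuallyEq.1 hx'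
    exact this
  exact hx (by rw [D_congr h1, D_const])

lemma hasCompactSupport_D {G : Type*} [NormedAddCommGroup G] [NormedSpace ℝ G] {f : M → G}
    (hc : HasCompactSupport f) : HasCompactSupport (D f) :=
  hc.of_isClosed_subset isClosed_closure (tsupport_D f)

lemma flat_integral_fderiv {G : Type*} [NormedAddCommGroup G] [NormedSpace ℝ G]
    {g : (Fin n → ℂ) → G} (hg : ContDiff ℝ (⊤ : ℕ∞) g) (hc : HasCompactSupport g)
    (v : Fin n → ℂ) : ∫ z, fderiv ℝ g z v = 0 := by
  have hd : ∀ z, DifferentiableAt ℝ g z := fun z => hg.differentiable (by simp) z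
  have h1 : Continuous fun z => fderiv ℝ g z v :=
    (hg.continuous_fderiv (by simp)).clm_apply continuous_const
  have h2 : HasCompactSupport fun z => fderiv ℝ g z v := by
    have := hc.fderiv_apply (𝕜 := ℝ) v
    exact this
  have key := integral_smul_fderiv_eq_neg_fderiv_smul_of_integrable (𝕜 := ℝ)
    (μ := (volume : Measure (Fin n → ℂ))) (f := fun _ => (1 : ℝ)) (g := g) (v := v)
    (by simp) (by simpa using h1.integrable_of_hasCompactSupport h2)
    (by simpa using hg.continuous.integrable_of_hasCompactSupport hc)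
    (fun z _ => differentiableAt_const _) (fun z _ => hd z)
  simpa using key

variable [T2Space M]

lemma integral_D_chart {μ : Measure M} (hμ : IsLeb μ) {G : Type*} [NormedAddCommGroup G]
    [NormedSpace ℝ G] {f : M → G}
    {e : OpenPartialHomeomorph M (Fin n → ℂ)} (he : IsCh e)
    (hf : Sm f) (hfs : tsupport f ⊆ e.source) (hfc : HasCompactSupport f) (v : Fin n → ℂ) :
    ∫ x, D f x v ∂μ = 0 := by
  have h0 : ∀ x ∉ e.source, D f x v = 0 := by
    intro x hx
    have : x ∉ tsupport (D f) := fun h => hx (hfs (tsupport_D f h))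
    rw [image_eq_zero_of_notMem_tsupport this]; rfl
  rw [← setIntegral_eq_integral_of_forall_compl_eq_zero (s := e.source) (fun x hx => h0 x hx)]
  have hint : Integrable (fun x => D f x v) μ :=
    (hf.D.apply v).integrable hμ ((hasCompactSupport_D hfc).comp_left
      (g := fun A : (Fin n → ℂ) →L[ℝ] G => A v) (by simp))
  rw [integral_chart hμ he hint.aestronglyMeasurable.restrict]
  have h2 : ∫ z, fderiv ℝ (ext0 e f) z v = 0 :=
    flat_integral_fderiv (ext0_contDiff he hf hfs hfc) (ext0_hasCompactSupport he hfs hfc) v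
  have h3 : ∫ z in e.target, fderiv ℝ (ext0 e f) z v = ∫ z, fderiv ℝ (ext0 e f) z v := by
    refine setIntegral_eq_integral_of_forall_compl_eq_zero (s := e.target) fun z hz => ?_
    rw [ext0_fderiv he hfs hfc, ext0, indicator_of_notMem hz]; rfl
  rw [h2] at h3
  rw [← h3]
  refine setIntegral_congr_fun e.open_target.measurableSet fun z hz => ?_
  show D f (e.symm z) v = fderiv ℝ (ext0 e f) z v
  rw [ext0_fderiv he hfs hfc, ext0_of_mem e _ hz]

/-- **integration by parts** -/
theorem integral_D_eq_zero {μ : Measure M} (hμ : IsLeb μ) {G : Type*} [NormedAddCommGroup G]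
    [NormedSpace ℝ G] {f : M → G}
    (hf : Sm f) (hfc : HasCompactSupport f) (v : Fin n → ℂ) : ∫ x, D f x v ∂μ = 0 := by
  obtain ⟨m, c, g, hg, hsum⟩ := exists_pou (M := M) (K := tsupport f) hfc
  have h1 : f = fun x => ∑ i, g i x • f x := by
    funext x
    by_cases hx : x ∈ tsupport f
    · have := hsum.self_of_nhdsSet x hx
      rw [← Finset.sum_smul, this, one_smul]
    · simp [image_eq_zero_of_notMem_tsupport hx]
  have hS : ∀ i, Sm (fun x => g i x • f x) := fun i => (hg i).1.smul hf
  have hC : ∀ i, HasCompactSupport (fun x => g i x • f x) := fun i => hfc.smul_left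
  have h2 : ∀ x, D f x v = ∑ i, D (fun x => g i x • f x) x v := by
    intro x
    conv_lhs => rw [h1]
    have h3 : ∀ s : Finset (Fin m), D (fun x => ∑ i ∈ s, g i x • f x) x =
        ∑ i ∈ s, D (fun x => g i x • f x) x := by
      intro s
      induction s using Finset.induction_on with
      | empty => simp [D_const]
      | insert a s ha ih =>
        simp only [Finset.sum_insert ha]
        rw [D_add (hS a) (Sm.sum fun i _ => hS i), ih]
    rw [h3]
    simp
  simp only [h2]
  rw [integral_finsetSum]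
  · refine Finset.sum_eq_zero fun i _ => ?_
    refine integral_D_chart hμ (isCh_ch (c i)) (hS i) ?_ (hC i) v
    exact (tsupport_smul_subset_left _ _).trans (hg i).2.2.1
  · intro i _
    exact ((hS i).D.apply v).integrable hμ ((hasCompactSupport_D (hC i)).comp_left
      (g := fun A : (Fin n → ℂ) →L[ℝ] G => A v) (by simp))

theorem integral_dz_eq_zero {μ : Measure M} (hμ : IsLeb μ) {f : M → ℂ}
    (hf : Sm f) (hfc : HasCompactSupport f) (j : Fin n) : ∫ x, dz j f x ∂μ = 0 := by
  have hi : ∀ v : Fin n → ℂ, Integrable (fun x => D f x v) μ := fun v =>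
    (hf.D.apply v).integrable hμ ((hasCompactSupport_D hfc).comp_left
      (g := fun A : (Fin n → ℂ) →L[ℝ] ℂ => A v) (by simp))
  simp only [dz_eq]
  rw [integral_const_mul, integral_sub (hi _) ((hi _).const_mul _), integral_const_mul,
    integral_D_eq_zero hμ hf hfc, integral_D_eq_zero hμ hf hfc]
  simp

theorem integral_db_eq_zero {μ : Measure M} (hμ : IsLeb μ) {f : M → ℂ}
    (hf : Sm f) (hfc : HasCompactSupport f) (j : Fin n) : ∫ x, db j f x ∂μ = 0 := by
  have hi : ∀ v : Fin n → ℂ, Integrable (fun x => D f x v) μ := fun v =>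
    (hf.D.apply v).integrable hμ ((hasCompactSupport_D hfc).comp_left
      (g := fun A : (Fin n → ℂ) →L[ℝ] ℂ => A v) (by simp))
  simp only [db_eq]
  rw [integral_const_mul, integral_add (hi _) ((hi _).const_mul _), integral_const_mul,
    integral_D_eq_zero hμ hf hfc, integral_D_eq_zero hμ hf hfc]
  simp

end ibp

/-! ### weak equations, holomorphic functions -/

/-- weak equation `P v = w` for the first order operator `P = L ∘ D` -/
def WP [MeasurableSpace M] (μ : Measure M) {V W : Type*} [NormedAddCommGroup V] [NormedSpace ℝ V]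
    [NormedAddCommGroup W] [NormedSpace ℝ W] (L : ((Fin n → ℂ) →L[ℝ] V) →L[ℝ] W)
    (v : M → V) (w : M → W) : Prop :=
  ∀ θ : M → ℝ, Sm θ → HasCompactSupport θ →
    ∫ x, L ((D θ x).smulRight (v x)) ∂μ = - ∫ x, θ x • w x ∂μ

/-- holomorphic functions on `M` -/
def Hol (F : M → ℂ) : Prop := ∀ e : OpenPartialHomeomorph M (Fin n → ℂ), IsCh e →
  DifferentiableOn ℂ (F ∘ e.symm) e.target

end Crest.Agent.R271.Ho51
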