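import Crest.Agent.R271.H1_51

/-!
# Row 271, analytic engine (H): Wirtinger derivatives and the Levi form (helper51)
-/

set_option autoImplicit false
set_option linter.unusedSectionVars false

noncomputable section

open Set Filter Topology MeasureTheory ComplexConjugate

namespace Crest.Agent.R271.Ho51

variable {n : ℕ}

/-- `½ (A e_j - i A (i e_j))` -/
def wz (j : Fin n) (A : (Fin n → ℂ) →L[ℝ] ℂ) : ℂ :=
  (1 / 2 : ℂ) * (A (Pi.single j 1) - Complex.I * A (Pi.single j Complex.I))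

/-- `½ (A e_j + i A (i e_j))` -/
def wb (j : Fin n) (A : (Fin n → ℂ) →L[ℝ] ℂ) : ℂ :=
  (1 / 2 : ℂ) * (A (Pi.single j 1) + Complex.I * A (Pi.single j Complex.I))

variable {M : Type*} [TopologicalSpace M] [RDom n M]

/-- `∂ f / ∂ z_j` -/
def dz (j : Fin n) (f : M → ℂ) (x : M) : ℂ := wz j (D f x)

/-- `∂ f / ∂ \bar z_j` -/
def db (j : Fin n) (f : M → ℂ) (x : M) : ℂ := wb j (D f x)

lemma dz_eq (j : Fin n) (f : M → ℂ) (x : M) : dz j f x =
    (1 / 2 : ℂ) * (D f x (Pi.single j 1) - Complex.I * D f x (Pi.single j Complex.I)) := rfl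

lemma db_eq (j : Fin n) (f : M → ℂ) (x : M) : db j f x =
    (1 / 2 : ℂ) * (D f x (Pi.single j 1) + Complex.I * D f x (Pi.single j Complex.I)) := rfl

lemma Sm.dz {f : M → ℂ} (hf : Sm f) (j : Fin n) : Sm (Ho51.dz j f) :=
  (Sm.const _).mul ((hf.D.apply _).sub ((Sm.const _).mul (hf.D.apply _)))

lemma Sm.db {f : M → ℂ} (hf : Sm f) (j : Fin n) : Sm (Ho51.db j f) :=
  (Sm.const _).mul ((hf.D.apply _).add ((Sm.const _).mul (hf.D.apply _)))

lemma dz_congr {f g : M → ℂ} {x : M} (h : f =ᶠ[𝓝 x] g) (j : Fin n) : dz j f x = dz j g x := by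
  rw [dz, dz, D_congr h]

lemma db_congr {f g : M → ℂ} {x : M} (h : f =ᶠ[𝓝 x] g) (j : Fin n) : db j f x = db j g x := by
  rw [db, db, D_congr h]

lemma dz_add {f g : M → ℂ} (hf : Sm f) (hg : Sm g) (j : Fin n) (x : M) :
    dz j (fun x => f x + g x) x = dz j f x + dz j g x := by
  simp only [dz_eq, D_add hf hg, _root_.add_apply]; ring

lemma db_add {f g : M → ℂ} (hf : Sm f) (hg : Sm g) (j : Fin n) (x : M) :
    db j (fun x => f x + g x) x = db j f x + db j g x := by
  simp only [db_eq, D_add hf hg, _root_.add_apply]; ring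

lemma dz_sub {f g : M → ℂ} (hf : Sm f) (hg : Sm g) (j : Fin n) (x : M) :
    dz j (fun x => f x - g x) x = dz j f x - dz j g x := by
  simp only [dz_eq, D_sub hf hg, _root_.sub_apply]; ring

lemma db_sub {f g : M → ℂ} (hf : Sm f) (hg : Sm g) (j : Fin n) (x : M) :
    db j (fun x => f x - g x) x = db j f x - db j g x := by
  simp only [db_eq, D_sub hf hg, _root_.sub_apply]; ring

lemma dz_neg {f : M → ℂ} (j : Fin n) (x : M) :
    dz j (fun x => - f x) x = - dz j f x := by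
  simp only [dz_eq, D_neg, _root_.neg_apply]; ring

lemma db_neg {f : M → ℂ} (j : Fin n) (x : M) :
    db j (fun x => - f x) x = - db j f x := by
  simp only [db_eq, D_neg, _root_.neg_apply]; ring

lemma dz_const (c : ℂ) (j : Fin n) (x : M) : dz j (fun _ : M => c) x = 0 := by
  simp [dz_eq, D_const]

lemma db_const (c : ℂ) (j : Fin n) (x : M) : db j (fun _ : M => c) x = 0 := by
  simp [db_eq, D_const]

lemma dz_mul {f g : M → ℂ} (hf : Sm f) (hg : Sm g) (j : Fin n) (x : M) :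
    dz j (fun x => f x * g x) x = dz j f x * g x + f x * dz j g x := by
  simp only [dz_eq, D_mul hf hg]; ring

lemma db_mul {f g : M → ℂ} (hf : Sm f) (hg : Sm g) (j : Fin n) (x : M) :
    db j (fun x => f x * g x) x = db j f x * g x + f x * db j g x := by
  simp only [db_eq, D_mul hf hg]; ring

lemma dz_const_mul {f : M → ℂ} (hf : Sm f) (c : ℂ) (j : Fin n) (x : M) :
    dz j (fun x => c * f x) x = c * dz j f x := by
  rw [dz_mul (Sm.const c) hf, dz_const]; ring

lemma db_const_mul {f : M → ℂ} (hf : Sm f) (c : ℂ) (j : Fin n) (x : M) :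
    db j (fun x => c * f x) x = c * db j f x := by
  rw [db_mul (Sm.const c) hf, db_const]; ring

lemma dz_sum {ι : Type*} (s : Finset ι) {f : ι → M → ℂ} (hf : ∀ i ∈ s, Sm (f i)) (j : Fin n)
    (x : M) : dz j (fun x => ∑ i ∈ s, f i x) x = ∑ i ∈ s, dz j (f i) x := by
  classical
  induction s using Finset.induction_on with
  | empty => simp [dz_const]
  | insert a s ha ih =>
    simp only [Finset.sum_insert ha]
    rw [dz_add (hf a (by simp)) (Sm.sum fun i hi => hf i (by simp [hi])),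
      ih (fun i hi => hf i (by simp [hi]))]

lemma db_sum {ι : Type*} (s : Finset ι) {f : ι → M → ℂ} (hf : ∀ i ∈ s, Sm (f i)) (j : Fin n)
    (x : M) : db j (fun x => ∑ i ∈ s, f i x) x = ∑ i ∈ s, db j (f i) x := by
  classical
  induction s using Finset.induction_on with
  | empty => simp [db_const]
  | insert a s ha ih =>
    simp only [Finset.sum_insert ha]
    rw [db_add (hf a (by simp)) (Sm.sum fun i hi => hf i (by simp [hi])),
      ih (fun i hi => hf i (by simp [hi]))]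

lemma D_conj {f : M → ℂ} (hf : Sm f) (x : M) (v : Fin n → ℂ) :
    D (fun x => conj (f x)) x v = conj (D f x v) := by
  have := D_clm hf (Complex.conjCLE : ℂ →L[ℝ] ℂ) x
  have h2 : D (fun x => conj (f x)) x = D (fun x => (Complex.conjCLE : ℂ →L[ℝ] ℂ) (f x)) x := rfl
  rw [h2, this]; rfl

lemma conj_half : conj (1 / 2 : ℂ) = 1 / 2 := by
  have : (1 / 2 : ℂ) = ((1 / 2 : ℝ) : ℂ) := by push_cast; rfl
  rw [this, Complex.conj_ofReal]

lemma dz_conj {f : M → ℂ} (hf : Sm f) (j : Fin n) (x : M) :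
    dz j (fun x => conj (f x)) x = conj (db j f x) := by
  simp only [dz_eq, db_eq, D_conj hf, map_mul, map_add, Complex.conj_I]
  have : conj (1 / 2 : ℂ) = 1 / 2 := conj_half
  rw [this]; ring

lemma db_conj {f : M → ℂ} (hf : Sm f) (j : Fin n) (x : M) :
    db j (fun x => conj (f x)) x = conj (dz j f x) := by
  simp only [dz_eq, db_eq, D_conj hf, map_mul, map_sub, Complex.conj_I]
  have : conj (1 / 2 : ℂ) = 1 / 2 := conj_half
  rw [this]; ring

/-- for a real function, `∂̄ φ = conj (∂ φ)` -/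
lemma db_ofReal {φ : M → ℝ} (hφ : Sm φ) (j : Fin n) (x : M) :
    db j (fun y => (φ y : ℂ)) x = conj (dz j (fun y => (φ y : ℂ)) x) := by
  rw [← db_conj hφ.ofReal]
  simp

lemma D_wsum {f : M → ℂ} (hf : Sm f) (c : ℂ) (v w u : Fin n → ℂ) (x : M) :
    D (fun y => (1 / 2 : ℂ) * (D f y v + c * D f y w)) x u =
      (1 / 2 : ℂ) * (D (fun y => D f y v) x u + c * D (fun y => D f y w) x u) := by
  have h1 : Sm (fun y => D f y v) := hf.D.apply v
  have h2 : Sm (fun y => D f y w) := hf.D.apply w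
  rw [D_mul (Sm.const _) (h1.add ((Sm.const _).mul h2)), D_const,
    D_add h1 ((Sm.const _).mul h2), _root_.add_apply, D_mul (Sm.const _) h2, D_const]
  simp

/-- `∂_j ∂̄_k = ∂̄_k ∂_j` -/
lemma dz_db_comm {f : M → ℂ} (hf : Sm f) (j k : Fin n) (x : M) :
    dz j (db k f) x = db k (dz j f) x := by
  have h1 : (db k f) = fun y => (1 / 2 : ℂ) * (D f y (Pi.single k 1) +
      Complex.I * D f y (Pi.single k Complex.I)) := rfl
  have h2 : (dz j f) = fun y => (1 / 2 : ℂ) * (D f y (Pi.single j 1) +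
      (-Complex.I) * D f y (Pi.single j Complex.I)) := by
    funext y; rw [dz_eq]; ring
  rw [dz_eq j, db_eq k, h1, h2]
  simp only [D_wsum hf]
  rw [D_D_comm hf x (Pi.single k 1) (Pi.single j 1),
    D_D_comm hf x (Pi.single k Complex.I) (Pi.single j 1),
    D_D_comm hf x (Pi.single k 1) (Pi.single j Complex.I),
    D_D_comm hf x (Pi.single k Complex.I) (Pi.single j Complex.I)]
  ring

lemma db_db_comm {f : M → ℂ} (hf : Sm f) (j k : Fin n) (x : M) :
    db j (db k f) x = db k (db j f) x := by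
  have h1 : ∀ k, (db k f) = fun y => (1 / 2 : ℂ) * (D f y (Pi.single k 1) +
      Complex.I * D f y (Pi.single k Complex.I)) := fun k => rfl
  rw [db_eq j, db_eq k, h1 k, h1 j]
  simp only [D_wsum hf]
  rw [D_D_comm hf x (Pi.single k 1) (Pi.single j 1),
    D_D_comm hf x (Pi.single k Complex.I) (Pi.single j 1),
    D_D_comm hf x (Pi.single k 1) (Pi.single j Complex.I),
    D_D_comm hf x (Pi.single k Complex.I) (Pi.single j Complex.I)]
  ring

lemma dz_dz_comm {f : M → ℂ} (hf : Sm f) (j k : Fin n) (x : M) :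
    dz j (dz k f) x = dz k (dz j f) x := by
  have h1 : ∀ k, (dz k f) = fun y => (1 / 2 : ℂ) * (D f y (Pi.single k 1) +
      (-Complex.I) * D f y (Pi.single k Complex.I)) := by
    intro k; funext y; rw [dz_eq]; ring
  rw [dz_eq j, dz_eq k, h1 k, h1 j]
  simp only [D_wsum hf]
  rw [D_D_comm hf x (Pi.single k 1) (Pi.single j 1),
    D_D_comm hf x (Pi.single k Complex.I) (Pi.single j 1),
    D_D_comm hf x (Pi.single k 1) (Pi.single j Complex.I),
    D_D_comm hf x (Pi.single k Complex.I) (Pi.single j Complex.I)]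
  ring

lemma D_ofReal {f : M → ℝ} (hf : Sm f) (x : M) (v : Fin n → ℂ) :
    D (fun x => (f x : ℂ)) x v = (D f x v : ℂ) := by
  have := D_clm hf Complex.ofRealCLM x
  have h2 : D (fun x => (f x : ℂ)) x = D (fun x => Complex.ofRealCLM (f x)) x := rfl
  rw [h2, this]; rfl

/-- chain rule for a real function of a real function -/
lemma dz_comp_real {f : M → ℝ} {g : ℝ → ℝ} {g' : ℝ} (hf : Sm f)
    (hg : Sm (fun x => g (f x))) (x : M)
    (hg' : HasDerivAt g g' (f x)) (j : Fin n) :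
    dz j (fun x => (g (f x) : ℂ)) x = g' * dz j (fun x => (f x : ℂ)) x := by
  simp only [dz_eq, D_ofReal hf, D_ofReal hg, D_comp_real hf x hg']
  push_cast; ring

lemma db_comp_real {f : M → ℝ} {g : ℝ → ℝ} {g' : ℝ} (hf : Sm f)
    (hg : Sm (fun x => g (f x))) (x : M)
    (hg' : HasDerivAt g g' (f x)) (j : Fin n) :
    db j (fun x => (g (f x) : ℂ)) x = g' * db j (fun x => (f x : ℂ)) x := by
  simp only [db_eq, D_ofReal hf, D_ofReal hg, D_comp_real hf x hg']
  push_cast; ring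

/-- The Levi matrix `∂² φ / ∂z_j ∂\bar z_k` of a real function. -/
def Lv (φ : M → ℝ) (x : M) (j k : Fin n) : ℂ := dz j (db k (fun y => (φ y : ℂ))) x

/-- The Levi form `∑ φ_{j\bar k} w_j \bar w_k` of a real function. -/
def Levi (φ : M → ℝ) (x : M) (w : Fin n → ℂ) : ℝ :=
  (∑ j, ∑ k, Lv φ x j k * w j * conj (w k)).re

/-- `∑_j |w_j|²` -/
def nsq (w : Fin n → ℂ) : ℝ := ∑ j, ‖w j‖ ^ 2

lemma nsq_nonneg (w : Fin n → ℂ) : 0 ≤ nsq w := Finset.sum_nonneg fun _ _ => by positivity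

lemma Lv_conj {φ : M → ℝ} (hφ : Sm φ) (x : M) (j k : Fin n) :
    conj (Lv φ x j k) = Lv φ x k j := by
  unfold Lv
  rw [← db_conj (hφ.ofReal.db k), dz_db_comm hφ.ofReal]
  apply db_congr
  refine Eventually.of_forall fun y => ?_
  show conj (db k (fun x => (φ x : ℂ)) y) = dz k (fun x => (φ x : ℂ)) y
  rw [← dz_conj hφ.ofReal]
  simp

lemma Levi_eq {φ : M → ℝ} (hφ : Sm φ) (x : M) (w : Fin n → ℂ) :
    ((Levi φ x w : ℝ) : ℂ) = ∑ j, ∑ k, Lv φ x j k * w j * conj (w k) := by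
  unfold Levi
  rw [← Complex.conj_eq_iff_re]
  simp only [map_sum, map_mul, Complex.conj_conj, Lv_conj hφ]
  rw [Finset.sum_comm]
  refine Finset.sum_congr rfl fun k _ => Finset.sum_congr rfl fun j _ => by ring

lemma Levi_add {φ χ : M → ℝ} (hφ : Sm φ) (hχ : Sm χ) (x : M) (w : Fin n → ℂ) :
    Levi (fun y => φ y + χ y) x w = Levi φ x w + Levi χ x w := by
  have h : ∀ j k, Lv (fun y => φ y + χ y) x j k = Lv φ x j k + Lv χ x j k := by
    intro j k
    unfold Lv
    rw [← dz_add (hφ.ofReal.db k) (hχ.ofReal.db k)]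
    apply dz_congr
    refine Eventually.of_forall fun y => ?_
    have := db_add hφ.ofReal hχ.ofReal k y
    show db k (fun y => ((φ y + χ y : ℝ) : ℂ)) y =
      db k (fun x => (φ x : ℂ)) y + db k (fun x => (χ x : ℂ)) y
    rw [← this]
    apply db_congr
    refine Eventually.of_forall fun z => ?_
    simp
  unfold Levi
  rw [← Complex.add_re, ← Finset.sum_add_distrib]
  congr 1
  refine Finset.sum_congr rfl fun j _ => ?_
  rw [← Finset.sum_add_distrib]
  refine Finset.sum_congr rfl fun k _ => ?_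
  rw [h]; ring

/-- Levi form of `X ∘ ρ` -/
lemma Levi_comp {ρ : M → ℝ} (hρ : Sm ρ) {X : ℝ → ℝ} (hX : ContDiff ℝ (⊤ : ℕ∞) X) (x : M)
    (w : Fin n → ℂ) :
    Levi (fun y => X (ρ y)) x w = deriv X (ρ x) * Levi ρ x w +
      deriv (deriv X) (ρ x) * ‖∑ j, dz j (fun y => (ρ y : ℂ)) x * w j‖ ^ 2 := by
  have hX1 : ContDiff ℝ (⊤ : ℕ∞) (deriv X) := by
    exact (contDiff_infty_iff_deriv.1 hX).2
  have hXρ : Sm (fun y => X (ρ y)) := Sm.comp hX hρ
  have hX1ρ : Sm (fun y => deriv X (ρ y)) := Sm.comp hX1 hρ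
  have hd : ∀ y, HasDerivAt X (deriv X (ρ y)) (ρ y) := fun y =>
    (hX.differentiable (by simp) _).hasDerivAt
  have hd1 : ∀ y, HasDerivAt (deriv X) (deriv (deriv X) (ρ y)) (ρ y) := fun y =>
    (hX1.differentiable (by simp) _).hasDerivAt
  have h : ∀ j k, Lv (fun y => X (ρ y)) x j k = deriv X (ρ x) * Lv ρ x j k +
      deriv (deriv X) (ρ x) * (dz j (fun y => (ρ y : ℂ)) x * conj (dz k (fun y => (ρ y : ℂ)) x)) := by
    intro j k
    unfold Lv
    have e1 : db k (fun y => ((X (ρ y) : ℝ) : ℂ)) =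
        fun y => ((deriv X (ρ y) : ℝ) : ℂ) * db k (fun y => (ρ y : ℂ)) y := by
      funext y
      exact db_comp_real hρ hXρ y (hd y) k
    rw [e1, dz_mul hX1ρ.ofReal (hρ.ofReal.db k), dz_comp_real hρ hX1ρ x (hd1 x) j,
      db_ofReal hρ]
    ring
  have hS : ((‖∑ j, dz j (fun y => (ρ y : ℂ)) x * w j‖ ^ 2 : ℝ) : ℂ) =
      ∑ j, ∑ k, (dz j (fun y => (ρ y : ℂ)) x * conj (dz k (fun y => (ρ y : ℂ)) x)) *
        w j * conj (w k) := by
    rw [← Complex.normSq_eq_norm_sq, Complex.normSq_eq_conj_mul_self, map_sum,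
      Finset.sum_mul_sum, Finset.sum_comm]
    refine Finset.sum_congr rfl fun j _ => Finset.sum_congr rfl fun k _ => ?_
    rw [map_mul]; ring
  have hc : ((Levi (fun y => X (ρ y)) x w : ℝ) : ℂ) = ((deriv X (ρ x) * Levi ρ x w +
      deriv (deriv X) (ρ x) * ‖∑ j, dz j (fun y => (ρ y : ℂ)) x * w j‖ ^ 2 : ℝ) : ℂ) := by
    rw [Levi_eq hXρ]
    push_cast
    have hS' := hS
    push_cast at hS'
    rw [Levi_eq hρ, hS']
    rw [Finset.mul_sum, Finset.mul_sum, ← Finset.sum_add_distrib]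
    refine Finset.sum_congr rfl fun j _ => ?_
    rw [Finset.mul_sum, Finset.mul_sum, ← Finset.sum_add_distrib]
    refine Finset.sum_congr rfl fun k _ => ?_
    rw [h]; ring
  exact_mod_cast hc

end Crest.Agent.R271.Ho51
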