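import Mathlib
import Crest.Agent.R271.Defs_710
import Crest.Agent.R271.Rd4_692

/-!
Row 271 (0.2): the topological space `Pt B = Hom(B,ℂ)` (helper692).
-/

set_option autoImplicit false

open scoped Topology ENNReal
open Filter Set MeasureTheory

noncomputable section

namespace Crest.Agent.R271.Rd692

open Crest.Agent.R271.Defs710

variable {n : ℕ}

/-- The space of `ℂ`-points of `B`, with the topology of pointwise convergence. -/
abbrev Pt (B : Type) [CommRing B] [Algebra ℂ B] : Type := B →ₐ[ℂ] ℂ

section top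

variable {B : Type} [CommRing B] [Algebra ℂ B]

/-- all evaluations -/
def evs (y : Pt B) : B → ℂ := fun b => y b

instance : TopologicalSpace (Pt B) := TopologicalSpace.induced evs inferInstance

lemma evs_inducing : Topology.IsInducing (evs : Pt B → (B → ℂ)) := ⟨rfl⟩

lemma evs_injective : Function.Injective (evs : Pt B → (B → ℂ)) := by
  intro y y' h
  ext b
  exact congrFun h b

lemma evs_embedding : Topology.IsEmbedding (evs : Pt B → (B → ℂ)) := ⟨evs_inducing, evs_injective⟩

instance : T2Space (Pt B) := evs_embedding.t2Space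

@[fun_prop]
lemma continuous_ev (b : B) : Continuous fun y : Pt B => y b :=
  (continuous_apply b).comp evs_inducing.continuous

lemma continuous_iff_ev {T : Type*} [TopologicalSpace T] {f : T → Pt B} :
    Continuous f ↔ ∀ b : B, Continuous fun t => (f t) b := by
  rw [evs_inducing.continuous_iff, continuous_pi_iff]
  rfl

lemma continuousAt_iff_ev {T : Type*} [TopologicalSpace T] {f : T → Pt B} {t : T} :
    ContinuousAt f t ↔ ∀ b : B, ContinuousAt (fun t => (f t) b) t := by
  rw [evs_inducing.continuousAt_iff, continuousAt_pi]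
  rfl

lemma continuousOn_iff_ev {T : Type*} [TopologicalSpace T] {f : T → Pt B} {s : Set T} :
    ContinuousOn f s ↔ ∀ b : B, ContinuousOn (fun t => (f t) b) s := by
  rw [evs_inducing.continuousOn_iff, continuousOn_pi]
  rfl

/-- basic neighbourhoods -/
lemma mem_nhds_of_finset (y : Pt B) (T : Finset B) {ε : ℝ} (hε : 0 < ε) :
    ∀ᶠ y' : Pt B in 𝓝 y, ∀ b ∈ T, ‖y' b - y b‖ < ε := by
  rw [Filter.eventually_all_finset]
  intro b _
  have h1 : ContinuousAt (fun y' : Pt B => y' b) y := (continuous_ev b).continuousAt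
  have h := Metric.continuousAt_iff'.mp h1 ε hε
  simpa [dist_eq_norm] using h

variable {N : ℕ} (a : Fin N → B)

/-- evaluation at finitely many elements -/
def evN (y : Pt B) : Fin N → ℂ := fun i => y (a i)

@[fun_prop]
lemma continuous_evN : Continuous (evN a) := continuous_pi fun i => continuous_ev (a i)

variable (ha : Algebra.adjoin ℂ (Set.range a) = ⊤)

include ha in
lemma exists_poly (b : B) : ∃ p : MvPolynomial (Fin N) ℂ, MvPolynomial.aeval a p = b := by
  have h : b ∈ (MvPolynomial.aeval a : MvPolynomial (Fin N) ℂ →ₐ[ℂ] B).range := by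
    rw [← Algebra.adjoin_range_eq_range_aeval, ha]; trivial
  obtain ⟨p, hp⟩ := h
  exact ⟨p, hp⟩

lemma ev_aeval (y : Pt B) (p : MvPolynomial (Fin N) ℂ) :
    y (MvPolynomial.aeval a p) = MvPolynomial.eval (evN a y) p := by
  have h := MvPolynomial.comp_aeval_apply a y p
  rw [h]
  exact congrArg (fun φ : MvPolynomial (Fin N) ℂ →+* ℂ => φ p)
    (MvPolynomial.coe_aeval_eq_eval (fun i => y (a i)))

include ha in
lemma evN_inducing : Topology.IsInducing (evN a) := by
  choose p hp using exists_poly a ha
  have h1 : Continuous fun (v : Fin N → ℂ) (b : B) => MvPolynomial.eval v (p b) :=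
    continuous_pi fun b => MvPolynomial.continuous_eval (p b)
  have h2 : (evs : Pt B → (B → ℂ)) =
      (fun (v : Fin N → ℂ) (b : B) => MvPolynomial.eval v (p b)) ∘ evN a := by
    funext y b
    rw [Function.comp_apply, ← ev_aeval, hp]
    rfl
  have h3 := evs_inducing (B := B)
  rw [h2] at h3
  exact Topology.IsInducing.of_comp (continuous_evN a) h1 h3

include ha in
lemma evN_injective : Function.Injective (evN a) := by
  intro y y' h
  apply evs_injective
  funext b
  obtain ⟨p, hp⟩ := exists_poly a ha b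
  have h1 := ev_aeval a y p
  have h2 := ev_aeval a y' p
  rw [hp] at h1 h2
  rw [h] at h1
  exact h1.trans h2.symm

/-- a point from a zero of all relations -/
lemma exists_pt (hsurj : Function.Surjective (MvPolynomial.aeval a : MvPolynomial (Fin N) ℂ →ₐ[ℂ] B))
    (v : Fin N → ℂ) (hv : ∀ p : MvPolynomial (Fin N) ℂ, MvPolynomial.aeval a p = 0 →
      MvPolynomial.eval v p = 0) : ∃ y : Pt B, evN a y = v := by
  have hker : ∀ p ∈ RingHom.ker (MvPolynomial.aeval a : MvPolynomial (Fin N) ℂ →ₐ[ℂ] B),
      (MvPolynomial.aeval v : MvPolynomial (Fin N) ℂ →ₐ[ℂ] ℂ) p = 0 := by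
    intro p hp
    have h2 := hv p hp
    rw [← MvPolynomial.coe_aeval_eq_eval] at h2
    exact h2
  refine ⟨(Ideal.Quotient.liftₐ (RingHom.ker
    (MvPolynomial.aeval a : MvPolynomial (Fin N) ℂ →ₐ[ℂ] B)) (MvPolynomial.aeval v) hker).comp
    (Ideal.quotientKerAlgEquivOfSurjective hsurj).symm.toAlgHom, ?_⟩
  funext i
  have h1 : (Ideal.quotientKerAlgEquivOfSurjective hsurj).symm (a i) =
      Ideal.Quotient.mk _ (MvPolynomial.X i) := by
    rw [AlgEquiv.symm_apply_eq]
    simp
  change (Ideal.Quotient.liftₐ _ (MvPolynomial.aeval v) hker)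
    ((Ideal.quotientKerAlgEquivOfSurjective hsurj).symm (a i)) = v i
  rw [h1]
  simp

include ha in
lemma isClosed_range_evN : IsClosed (Set.range (evN a)) := by
  have h : Set.range (evN a) = ⋂ p ∈ {p : MvPolynomial (Fin N) ℂ | MvPolynomial.aeval a p = 0},
      {v | MvPolynomial.eval v p = 0} := by
    ext v
    simp only [Set.mem_range, Set.mem_iInter]
    constructor
    · rintro ⟨y, rfl⟩ p hp
      change MvPolynomial.eval (evN a y) p = 0
      rw [← ev_aeval]
      have hp' : MvPolynomial.aeval a p = 0 := hp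
      rw [hp', map_zero]
    · intro hv
      exact exists_pt a (fun b => exists_poly a ha b) v fun p hp => hv p hp
  rw [h]
  apply isClosed_biInter
  intro p _
  exact isClosed_eq (MvPolynomial.continuous_eval p) continuous_const

include ha in
lemma evN_closedEmbedding : Topology.IsClosedEmbedding (evN a) :=
  ⟨⟨evN_inducing a ha, evN_injective a ha⟩, isClosed_range_evN a ha⟩

include ha in
lemma isCompact_sublevel (R : ℝ) :
    IsCompact {y : Pt B | ∑ i, ‖y (a i)‖ ^ 2 ≤ R} := by
  have h1 : {y : Pt B | ∑ i, ‖y (a i)‖ ^ 2 ≤ R} =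
      evN a ⁻¹' {v | ∑ i, ‖v i‖ ^ 2 ≤ R} := rfl
  rw [h1]
  apply (evN_closedEmbedding a ha).isCompact_preimage
  apply Metric.isCompact_of_isClosed_isBounded
  · exact isClosed_le (by fun_prop) continuous_const
  · rw [Metric.isBounded_iff_subset_closedBall 0]
    refine ⟨Real.sqrt R, fun v hv => ?_⟩
    rw [mem_closedBall_zero_iff, pi_norm_le_iff_of_nonneg (Real.sqrt_nonneg R)]
    intro i
    apply Real.le_sqrt_of_sq_le
    exact le_trans (Finset.single_le_sum (f := fun i => ‖v i‖ ^ 2) (fun _ _ => by positivity)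
      (Finset.mem_univ i)) hv

lemma exists_gens (hft : Algebra.FiniteType ℂ B) :
    ∃ (N : ℕ) (a : Fin N → B), Algebra.adjoin ℂ (Set.range a) = ⊤ := by
  obtain ⟨s, hs⟩ := hft.out
  refine ⟨s.card, fun i => (s.equivFin.symm i : B), ?_⟩
  rw [← hs]
  congr 1
  ext b
  constructor
  · rintro ⟨i, rfl⟩
    exact (s.equivFin.symm i).2
  · intro hb
    exact ⟨s.equivFin ⟨b, hb⟩, by simp⟩

theorem secondCountable_of_ft (hft : Algebra.FiniteType ℂ B) : SecondCountableTopology (Pt B) := by
  obtain ⟨N, a, ha⟩ := exists_gens hft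
  exact (evN_inducing a ha).secondCountableTopology

end top

end Crest.Agent.R271.Rd692
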