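import Mathlib
import Crest.Agent.R271.Defs_710
import Crest.Agent.R271.Rd5_692
import Crest.Agent.R271.H2_51

/-!
Row 271 (0.2): `Pt B = Hom(B,ℂ)` is a Riemann domain over `ℂⁿ` (helper692).
-/

set_option autoImplicit false

open scoped Topology ENNReal
open Filter Set MeasureTheory

noncomputable section

namespace Crest.Agent.R271.Rd692

open Crest.Agent.R271.Defs710

variable {n : ℕ}

section charts

variable {B : Type} [CommRing B] [Algebra ℂ B]

/-- the projection to `ℂⁿ` -/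
def pr (z : Fin n → B) (y : Pt B) : Cn n := fun i => y (z i)

@[simp] lemma pr_apply (z : Fin n → B) (y : Pt B) (i : Fin n) : pr z y i = y (z i) := rfl

@[fun_prop]
lemma continuous_pr (z : Fin n → B) : Continuous (pr z) := continuous_pi fun i => continuous_ev (z i)

variable {z : Fin n → B} {y : Pt B}

lemma chart_pr (C : Chart z y) {ζ : Cn n} (hζ : ζ ∈ Metric.ball (0 : Cn n) C.r) :
    pr z (C.s ζ) = pr z y + ζ := by
  funext i
  simp only [pr_apply, Pi.add_apply]
  exact C.s_z ζ hζ i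

lemma chart_continuousAt (C : Chart z y) {ζ : Cn n} (hζ : ζ ∈ Metric.ball (0 : Cn n) C.r) :
    ContinuousAt (C.s : Cn n → Pt B) ζ := by
  rw [continuousAt_iff_ev]
  intro b
  exact (C.anal b ζ hζ).continuousAt

/-- the sheet of a chart -/
def sheet (C : Chart z y) : Set (Pt B) :=
  {y' | pr z y' - pr z y ∈ Metric.ball (0 : Cn n) C.r ∧ y' = C.s (pr z y' - pr z y)}

lemma s_mem_sheet (C : Chart z y) {ζ : Cn n} (hζ : ζ ∈ Metric.ball (0 : Cn n) C.r) :
    C.s ζ ∈ sheet C := by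
  have h : pr z (C.s ζ) - pr z y = ζ := by rw [chart_pr C hζ]; simp
  refine ⟨?_, ?_⟩
  · rw [h]; exact hζ
  · rw [h]

lemma self_mem_sheet (C : Chart z y) : y ∈ sheet C := by
  refine ⟨by simp [C.r_pos], ?_⟩
  rw [sub_self]; exact C.s_zero.symm

lemma isOpen_sheet (hch : ∀ y : Pt B, Nonempty (Chart z y)) (C : Chart z y) :
    IsOpen (sheet C) := by
  rw [isOpen_iff_mem_nhds]
  rintro y' ⟨hy1, hy2⟩
  set ζ := pr z y' - pr z y with hζ
  have key : ∀ (y₁ : Pt B), y₁ = C.s ζ → sheet C ∈ 𝓝 y₁ := by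
    rintro y₁ rfl
    obtain ⟨C'⟩ := hch (C.s ζ)
    obtain ⟨T, ε, hε, hT⟩ := C'.surj
    have h1 := mem_nhds_of_finset (C.s ζ) T hε
    have h2 := chart_ev_eq C hy1 C'
    have h3 : ContinuousAt (fun y'' : Pt B => pr z y'' - pr z (C.s ζ)) (C.s ζ) :=
      ((continuous_pr z).sub continuous_const).continuousAt
    have h4 : ∀ᶠ y'' : Pt B in 𝓝 (C.s ζ),
        C.s (ζ + (pr z y'' - pr z (C.s ζ))) = C'.s (pr z y'' - pr z (C.s ζ)) := by
      have h5 : Tendsto (fun y'' : Pt B => pr z y'' - pr z (C.s ζ)) (𝓝 (C.s ζ)) (𝓝 0) := by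
        have := h3.tendsto
        rwa [sub_self] at this
      exact h5.eventually h2
    have h6 : ∀ᶠ y'' : Pt B in 𝓝 (C.s ζ), pr z y'' - pr z y ∈ Metric.ball (0 : Cn n) C.r := by
      have h7 : ContinuousAt (fun y'' : Pt B => pr z y'' - pr z y) (C.s ζ) :=
        ((continuous_pr z).sub continuous_const).continuousAt
      apply h7.eventually_mem
      have h8 : pr z (C.s ζ) - pr z y = ζ := by rw [chart_pr C hy1]; simp
      rw [h8]
      exact Metric.isOpen_ball.mem_nhds hy1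
    filter_upwards [h1, h4, h6] with y'' g1 g2 g3
    refine ⟨g3, ?_⟩
    have g4 : y'' = C'.s (pr z y'' - pr z (C.s ζ)) := hT y'' g1
    have g5 : ζ + (pr z y'' - pr z (C.s ζ)) = pr z y'' - pr z y := by
      rw [chart_pr C hy1]; abel
    rw [g5] at g2
    rw [g2]; exact g4
  exact key y' hy2

/-- the chart as an open partial homeomorphism, given by the projection `pr z` -/
def chartHomeo (hch : ∀ y : Pt B, Nonempty (Chart z y)) (C : Chart z y) :
    OpenPartialHomeomorph (Pt B) (Cn n) where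
  toFun := pr z
  invFun w := C.s (w - pr z y)
  source := sheet C
  target := Metric.ball (pr z y) C.r
  map_source' := by
    rintro y' ⟨hy1, hy2⟩
    rw [mem_ball_zero_iff] at hy1
    rw [Metric.mem_ball, dist_eq_norm]
    exact hy1
  map_target' := by
    intro w hw
    apply s_mem_sheet
    rw [mem_ball_zero_iff, ← dist_eq_norm]
    exact hw
  left_inv' := by
    rintro y' ⟨hy1, hy2⟩
    exact hy2.symm
  right_inv' := by
    intro w hw
    have h : w - pr z y ∈ Metric.ball (0 : Cn n) C.r := by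
      rw [mem_ball_zero_iff, ← dist_eq_norm]; exact hw
    change pr z (C.s (w - pr z y)) = w
    rw [chart_pr C h]; abel
  open_source := isOpen_sheet hch C
  open_target := Metric.isOpen_ball
  continuousOn_toFun := (continuous_pr z).continuousOn
  continuousOn_invFun := by
    intro w hw
    have h : w - pr z y ∈ Metric.ball (0 : Cn n) C.r := by
      rw [mem_ball_zero_iff, ← dist_eq_norm]; exact hw
    have h1 := chart_continuousAt C h
    have h2 : ContinuousAt (fun w : Cn n => w - pr z y) w := by fun_prop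
    exact (ContinuousAt.comp (g := (C.s : Cn n → Pt B)) (f := fun w : Cn n => w - pr z y)
      h1 h2).continuousWithinAt

@[simp] lemma chartHomeo_coe (hch : ∀ y : Pt B, Nonempty (Chart z y)) (C : Chart z y) :
    (chartHomeo hch C : Pt B → Cn n) = pr z := rfl

lemma chartHomeo_symm (hch : ∀ y : Pt B, Nonempty (Chart z y)) (C : Chart z y) (w : Cn n) :
    (chartHomeo hch C).symm w = C.s (w - pr z y) := rfl

@[simp] lemma chartHomeo_source (hch : ∀ y : Pt B, Nonempty (Chart z y)) (C : Chart z y) :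
    (chartHomeo hch C).source = sheet C := rfl

@[simp] lemma chartHomeo_target (hch : ∀ y : Pt B, Nonempty (Chart z y)) (C : Chart z y) :
    (chartHomeo hch C).target = Metric.ball (pr z y) C.r := rfl

theorem isLocalHomeomorph_pr (hch : ∀ y : Pt B, Nonempty (Chart z y)) :
    IsLocalHomeomorph (pr z) := by
  apply IsLocalHomeomorph.mk
  intro y
  obtain ⟨C⟩ := hch y
  exact ⟨chartHomeo hch C, self_mem_sheet C, fun _ _ => rfl⟩

/-- the Riemann domain structure -/
abbrev rdom (hch : ∀ y : Pt B, Nonempty (Chart z y)) : Ho51.RDom n (Pt B) :=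
  ⟨pr z, isLocalHomeomorph_pr hch⟩

end charts

/-! ### the Riemann domain of a context -/

section ctx

open Ho51

variable (X : FCtx n)

/-- charts exist (same as `chartEx X`, in unfolded form) -/
lemma hchX (X : FCtx n) : ∀ y : Pt X.B, Nonempty (Chart X.z y) :=
  fun y => nonempty_chart X.z X.etale y

instance : RDom n (X.B →ₐ[ℂ] ℂ) := rdom (z := X.z) (hchX X)

instance : SecondCountableTopology (X.B →ₐ[ℂ] ℂ) := secondCountable_of_ft X.ft

example : T2Space (X.B →ₐ[ℂ] ℂ) := inferInstance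

variable {X}

lemma cp_eq (y : X.B →ₐ[ℂ] ℂ) : cp y = pr X.z y := rfl

lemma isCh_chartHomeo {y : X.B →ₐ[ℂ] ℂ} (C : Chart X.z y) : IsCh (chartHomeo (hchX X) C) := rfl

/-- germs in the engine's chart and in a `Chart`. -/
lemma ch_symm_eventuallyEq {y : X.B →ₐ[ℂ] ℂ} (C : Chart X.z y) :
    (fun w => (ch y).symm w) =ᶠ[𝓝 (cp y)] fun w => C.s (w - cp y) :=
  (isCh_ch y).germ (isCh_chartHomeo C) (mem_ch y) (self_mem_sheet C)

/-- a function on `M` is `C^∞` iff it is so in every `Chart` -/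
lemma sm_of_chart {G : Type*} [NormedAddCommGroup G] [NormedSpace ℝ G] {f : (X.B →ₐ[ℂ] ℂ) → G}
    (h : ∀ y : X.B →ₐ[ℂ] ℂ, ∃ C : Chart X.z y,
      ContDiffAt ℝ (⊤ : ℕ∞) (fun ζ => f (C.s ζ)) 0) : Sm f := by
  intro y
  obtain ⟨C, hC⟩ := h y
  have h1 : (f ∘ (ch y).symm) =ᶠ[𝓝 (cp y)] fun w => f (C.s (w - cp y)) := by
    filter_upwards [ch_symm_eventuallyEq C] with w hw
    simp only [Function.comp_apply]
    rw [hw]
  refine ContDiffAt.congr_of_eventuallyEq ?_ h1
  have h2 : ContDiffAt ℝ (⊤ : ℕ∞) (fun ζ => f (C.s ζ)) (cp y - cp y) := by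
    rw [sub_self]; exact hC
  exact ContDiffAt.comp (g := fun ζ => f (C.s ζ)) (f := fun w : Cn n => w - cp y) (cp y) h2
    (contDiffAt_id.sub contDiffAt_const)

lemma D_chart {G : Type*} [NormedAddCommGroup G] [NormedSpace ℝ G] (f : (X.B →ₐ[ℂ] ℂ) → G)
    {y : X.B →ₐ[ℂ] ℂ} (C : Chart X.z y) : D f y = fderiv ℝ (fun ζ => f (C.s ζ)) 0 := by
  rw [D_eq (isCh_chartHomeo C) (self_mem_sheet C)]
  have h1 : (f ∘ (chartHomeo (hchX X) C).symm) =
      fun w => (fun ζ => f (C.s ζ)) (w - cp y) := by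
    funext w; rfl
  rw [h1]
  have h2 := fderiv_comp_sub (𝕜 := ℝ) (f := fun ζ : Cn n => f (C.s ζ)) (x := cp y) (cp y)
  rw [h2, sub_self]

/-- evaluations are smooth -/
lemma sm_ev (b : X.B) : Sm fun y : X.B →ₐ[ℂ] ℂ => y b := by
  apply sm_of_chart
  intro y
  obtain ⟨C⟩ := chartEx X y
  refine ⟨C, ?_⟩
  have h := C.anal b 0 (Metric.mem_ball_self C.r_pos)
  exact (h.contDiffAt (n := ((⊤ : ℕ∞) : WithTop ℕ∞))).restrict_scalars ℝ

/-- holomorphic functions: analytic in the charts -/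
def Hol (f : (X.B →ₐ[ℂ] ℂ) → ℂ) : Prop :=
  ∀ y : X.B →ₐ[ℂ] ℂ, AnalyticAt ℂ (f ∘ (ch y).symm) (cp y)

lemma hol_iff_chart {f : (X.B →ₐ[ℂ] ℂ) → ℂ} :
    Hol f ↔ ∀ (y : X.B →ₐ[ℂ] ℂ) (C : Chart X.z y), AnalyticAt ℂ (fun ζ => f (C.s ζ)) 0 := by
  have key : ∀ (y : X.B →ₐ[ℂ] ℂ) (C : Chart X.z y),
      (AnalyticAt ℂ (f ∘ (ch y).symm) (cp y) ↔ AnalyticAt ℂ (fun ζ => f (C.s ζ)) 0) := by
    intro y C
    have h1 : (f ∘ (ch y).symm) =ᶠ[𝓝 (cp y)] fun w => f (C.s (w - cp y)) := by
      filter_upwards [ch_symm_eventuallyEq C] with w hw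
      simp only [Function.comp_apply]
      rw [hw]
    rw [analyticAt_congr h1]
    constructor
    · intro h
      have h2 : AnalyticAt ℂ (fun ζ : Cn n => ζ + cp y) 0 := analyticAt_id.add analyticAt_const
      have h3 : AnalyticAt ℂ (fun w => f (C.s (w - cp y))) ((fun ζ : Cn n => ζ + cp y) 0) := by
        simpa using h
      have h4 := AnalyticAt.comp (g := fun w => f (C.s (w - cp y)))
        (f := fun ζ : Cn n => ζ + cp y) h3 h2
      refine h4.congr (Eventually.of_forall fun ζ => ?_)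
      simp
    · intro h
      have h2 : AnalyticAt ℂ (fun w : Cn n => w - cp y) (cp y) := analyticAt_id.sub analyticAt_const
      have h3 : AnalyticAt ℂ (fun ζ => f (C.s ζ)) ((fun w : Cn n => w - cp y) (cp y)) := by
        simpa using h
      exact AnalyticAt.comp (g := fun ζ => f (C.s ζ)) (f := fun w : Cn n => w - cp y) h3 h2
  constructor
  · intro h y C
    exact (key y C).mp (h y)
  · intro h y
    obtain ⟨C⟩ := chartEx X y
    exact (key y C).mpr (h y C)

lemma hol_ev (b : X.B) : Hol fun y : X.B →ₐ[ℂ] ℂ => y b := by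
  rw [hol_iff_chart]
  intro y C
  exact C.anal b 0 (Metric.mem_ball_self C.r_pos)

/-- compact exhaustion by generators -/
theorem exists_exhaustion (X : FCtx n) : ∃ (N : ℕ) (a : Fin N → X.B),
    Algebra.adjoin ℂ (Set.range a) = ⊤ ∧
    ∀ R : ℝ, IsCompact {y : X.B →ₐ[ℂ] ℂ | ∑ i, ‖y (a i)‖ ^ 2 ≤ R} := by
  obtain ⟨N, a, ha⟩ := exists_gens X.ft
  exact ⟨N, a, ha, isCompact_sublevel a ha⟩

end ctx

end Crest.Agent.R271.Rd692
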