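import Crest.Agent.R271.G3b_792
import Crest.Agent.R271.Rd8_692
import Crest.Agent.R271.BallSolver_399

/-!
# Row 271 (G3): the global solver `SolverStmt X` from the engine (helper792)
-/

set_option autoImplicit false

noncomputable section

open Set Filter Topology Complex MeasureTheory Metric
open scoped ENNReal ComplexConjugate

namespace Crest.Agent.R271.G792

open Crest.Agent.R271.Defs710 Crest.Agent.R271.Rd692 Crest.Agent.R271.GSpec792
open Crest.Agent.R271.Ho51 (RDom IsLeb)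

/-- the form of the engine used in `G3a_792` from `Ball399.EngineP` -/
theorem engineFor_of (hE : Ball399.EngineP) {n : ℕ} (M : Type) [TopologicalSpace M] [T2Space M]
    [SecondCountableTopology M] [RDom n M] [MeasurableSpace M] [BorelSpace M] (μ : Measure M)
    (hμ : IsLeb μ) : EngineFor M μ := by
  intro ρ hρ hρc hρL φ hφ hφa hφL G hG kap hkap _ hk K _ hKb
  exact hE n M μ hμ ρ hρ hρc hρL φ hφ hφa hφL G hG kap hk K hKb

/-- (G3) -/
theorem solverStmt_of (hE : ∀ {n : ℕ} (X : FCtx n) (μ : Measure (X.B →ₐ[ℂ] ℂ)), IsLeb μ →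
    EngineFor (X.B →ₐ[ℂ] ℂ) μ) {n : ℕ} (X : FCtx n) : SolverStmt X := by
  obtain ⟨μ, hμ⟩ := Ho51.exists_leb (M := X.B →ₐ[ℂ] ℂ)
  exact solver_of μ hμ (hE X μ hμ) (fun g hg => (lintM_eq X hμ hg).le)
    (fun g hg => measurable_fsum X hg)

/-- (G3) -/
theorem solverStmt_of_engine (hE : Ball399.EngineP) {n : ℕ} (X : FCtx n) : SolverStmt X :=
  solverStmt_of (fun X μ hμ => engineFor_of hE (X.B →ₐ[ℂ] ℂ) μ hμ) X

end Crest.Agent.R271.G792
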