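import Crest.Agent.R271.G2_934

/-!
# Row 271, sub-team L: (AF9) for germs (helper934)
-/

set_option autoImplicit false
open MeasureTheory Filter Topology Set Metric
open scoped ENNReal NNReal

namespace Crest.Agent.R271.L934

open Crest.Agent.R271.Defs710

/-! ### powers -/

theorem rpow_neg_le {x m : ℝ≥0∞} (hxm : x ≤ m) (hm : m ≠ ∞) (hm0 : m ≠ 0) {p q : ℝ} (hp : 0 ≤ p)
    (hpq : p ≤ q) : x ^ (-p) ≤ m ^ (q - p) * x ^ (-q) := by
  rcases eq_or_ne x 0 with rfl | hx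
  · rcases (hp.trans hpq).eq_or_lt with hq | hq
    · have hp0 : p = 0 := le_antisymm (hq ▸ hpq) hp
      subst hp0
      rw [← hq]; simp
    · rw [ENNReal.zero_rpow_of_neg (by linarith : -q < 0), ENNReal.mul_top]
      · exact le_top
      · intro h0
        rcases ENNReal.rpow_eq_zero_iff.1 h0 with ⟨h1, -⟩ | ⟨h1, -⟩
        · exact hm0 h1
        · exact hm h1
  · have hxt : x ≠ ∞ := ne_top_of_le_ne_top hm hxm
    calc x ^ (-p) = x ^ ((q - p) + -q) := by congr 1; ring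
      _ = x ^ (q - p) * x ^ (-q) := ENNReal.rpow_add _ _ hx hxt
      _ ≤ m ^ (q - p) * x ^ (-q) :=
          mul_le_mul' (ENNReal.rpow_le_rpow hxm (by linarith)) le_rfl

theorem rpow_neg_anti {x y : ℝ≥0∞} (hxy : x ≤ y) {p : ℝ} (hp : 0 ≤ p) : y ^ (-p) ≤ x ^ (-p) := by
  rw [ENNReal.rpow_neg, ENNReal.rpow_neg]
  exact ENNReal.inv_le_inv.2 (ENNReal.rpow_le_rpow hxy hp)

/-- `x ≤ K y` gives `y^{-p} ≤ K^p x^{-p}` -/
theorem rpow_neg_le_mul {x y K : ℝ≥0∞} (hK0 : K ≠ 0) (hK : K ≠ ∞) (hxy : x ≤ K * y) {p : ℝ}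
    (hp : 0 ≤ p) : y ^ (-p) ≤ K ^ p * x ^ (-p) := by
  have h2 : x ^ p ≤ K ^ p * y ^ p := by
    rw [← ENNReal.mul_rpow_of_nonneg _ _ hp]
    exact ENNReal.rpow_le_rpow hxy hp
  have h20 : K ^ p ≠ 0 := by
    intro h0
    rcases ENNReal.rpow_eq_zero_iff.1 h0 with ⟨h1, -⟩ | ⟨h1, -⟩
    · exact hK0 h1
    · exact hK h1
  have h2t : K ^ p ≠ ∞ := ENNReal.rpow_ne_top_of_nonneg hp hK
  rw [ENNReal.rpow_neg, ENNReal.rpow_neg]
  calc (y ^ p)⁻¹ = K ^ p * (K ^ p * y ^ p)⁻¹ := by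
        rw [ENNReal.mul_inv (Or.inl h20) (Or.inl h2t), ← mul_assoc,
          ENNReal.mul_inv_cancel h20 h2t, one_mul]
    _ ≤ K ^ p * (x ^ p)⁻¹ := by gcongr

/-! ### coordinates on `Cn k` -/

theorem finrank_Cn (k : ℕ) : Module.finrank ℝ (Cn k) = 2 * k := by
  simp [Cn, Module.finrank_pi_fintype, mul_comm]

/-- the coordinate functions of the second factor -/
def tau {n k : ℕ} (i : Fin k) (p : Cn n × Cn k) : ℂ := p.2 i

theorem tau_analyticAt {n k : ℕ} (i : Fin k) (a : Cn n × Cn k) :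
    AnalyticAt ℂ (tau (n := n) i) a := by
  have h : tau (n := n) i = fun p : Cn n × Cn k =>
      ((ContinuousLinearMap.proj (R := ℂ) (φ := fun _ : Fin k => ℂ) i).comp
        (ContinuousLinearMap.snd ℂ (Cn n) (Cn k))) p := rfl
  rw [h]
  exact ContinuousLinearMap.analyticAt _ _

theorem norm_sq_le_sum {k : ℕ} (v : Cn k) : ‖v‖ ^ 2 ≤ ∑ i, ‖v i‖ ^ 2 := by
  have h0 : 0 ≤ ∑ i, ‖v i‖ ^ 2 := by positivity
  have h1 : ‖v‖ ≤ Real.sqrt (∑ i, ‖v i‖ ^ 2) := by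
    rw [pi_norm_le_iff_of_nonneg (Real.sqrt_nonneg _)]
    intro i
    apply Real.le_sqrt_of_sq_le
    exact Finset.single_le_sum (f := fun i => ‖v i‖ ^ 2) (fun _ _ => by positivity)
      (Finset.mem_univ i)
  calc ‖v‖ ^ 2 ≤ (Real.sqrt (∑ i, ‖v i‖ ^ 2)) ^ 2 := by gcongr
    _ = _ := Real.sq_sqrt h0

theorem sum_le_norm_sq {k : ℕ} (v : Cn k) : ∑ i, ‖v i‖ ^ 2 ≤ k * ‖v‖ ^ 2 := by
  calc ∑ i, ‖v i‖ ^ 2 ≤ ∑ _i : Fin k, ‖v‖ ^ 2 := by
        apply Finset.sum_le_sum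
        intro i _
        gcongr
        exact norm_le_pi_norm v i
    _ = k * ‖v‖ ^ 2 := by simp

instance instHaarProd (n k : ℕ) : (volume : Measure (Cn n × Cn k)).IsAddHaarMeasure :=
  Measure.prod.instIsAddHaarMeasure _ _

/-- if `F · |τ|^{-2b}` is locally integrable with `F` bounded below then `b < k` -/
theorem exponent_lt {n k : ℕ} (hk : 1 ≤ k) {F : Cn n × Cn k → ℝ≥0∞} {b : ℝ} (hb : 0 ≤ b)
    {κ : ℝ≥0∞} (hκ : κ ≠ 0) (hF : ∀ᶠ p in 𝓝 (0 : Cn n × Cn k), κ ≤ F p)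
    (H : LIntM volume (fun p => F p * (ENNReal.ofReal (∑ i, ‖p.2 i‖ ^ 2)) ^ (-b))
      (0 : Cn n × Cn k)) : b < k := by
  have hk' : (0:ℝ) < k := by exact_mod_cast hk
  -- comparison with the norm
  have h1 : LIntM volume (fun p : Cn n × Cn k => κ * ((ENNReal.ofReal ‖p.2‖) ^ (-(2 * b))))
      (0 : Cn n × Cn k) := by
    refine H.mono_const (K := (ENNReal.ofReal k) ^ b)
      (ENNReal.rpow_ne_top_of_nonneg hb ENNReal.ofReal_ne_top) ?_
    filter_upwards [hF] with p hp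
    have e1 : ENNReal.ofReal (∑ i, ‖p.2 i‖ ^ 2) ≤ ENNReal.ofReal k * (ENNReal.ofReal ‖p.2‖) ^ 2 := by
      rw [← ENNReal.ofReal_pow (norm_nonneg _), ← ENNReal.ofReal_mul hk'.le]
      exact ENNReal.ofReal_le_ofReal (sum_le_norm_sq _)
    have e2 := rpow_neg_le_mul (p := b) (x := ENNReal.ofReal (∑ i, ‖p.2 i‖ ^ 2))
      (y := (ENNReal.ofReal ‖p.2‖) ^ 2) (K := ENNReal.ofReal k) (by simp; omega)
      ENNReal.ofReal_ne_top e1 hb
    have e3 : ((ENNReal.ofReal ‖p.2‖) ^ 2) ^ (-b) = (ENNReal.ofReal ‖p.2‖) ^ (-(2 * b)) := by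
      rw [← ENNReal.rpow_natCast, ← ENNReal.rpow_mul]
      congr 1; push_cast; ring
    rw [e3] at e2
    calc κ * (ENNReal.ofReal ‖p.2‖) ^ (-(2 * b))
        ≤ F p * ((ENNReal.ofReal k) ^ b * (ENNReal.ofReal (∑ i, ‖p.2 i‖ ^ 2)) ^ (-b)) := by gcongr
      _ = _ := by ring
  obtain ⟨T, hT, hlt⟩ := h1
  obtain ⟨T1, hT1, hT1o, haT1⟩ := _root_.mem_nhds_iff.1 hT
  obtain ⟨U, W', hU, hW', haU, hbW', hUW⟩ := isOpen_prod_iff.1 hT1o 0 0 haT1
  have hm : Measurable (fun w : Cn k => (ENNReal.ofReal ‖w‖) ^ (-(2 * b))) :=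
    (ENNReal.measurable_ofReal.comp measurable_norm).pow_const _
  have h2 : ∫⁻ p in U ×ˢ W', κ * ((ENNReal.ofReal ‖p.2‖) ^ (-(2 * b))) =
      (∫⁻ _ in U, κ) * ∫⁻ w in W', (ENNReal.ofReal ‖w‖) ^ (-(2 * b)) := by
    rw [Measure.volume_eq_prod, ← Measure.prod_restrict]
    exact lintegral_prod_mul (f := fun _ : Cn n => κ) aemeasurable_const hm.aemeasurable
  have h3 : (∫⁻ _ in U, κ) * ∫⁻ w in W', (ENNReal.ofReal ‖w‖) ^ (-(2 * b)) < ∞ := by
    rw [← h2]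
    exact lt_of_le_of_lt (lintegral_mono_set (hUW.trans hT1)) hlt
  have h4 : (∫⁻ _ in U, κ : ℝ≥0∞) ≠ 0 := by
    rw [setLIntegral_const]
    exact mul_ne_zero hκ (hU.measure_pos volume ⟨0, haU⟩).ne'
  have h5 : ∫⁻ w in W', (ENNReal.ofReal ‖w‖) ^ (-(2 * b)) < ∞ := by
    by_contra hcon
    rw [not_lt, top_le_iff] at hcon
    rw [hcon, ENNReal.mul_top h4] at h3
    exact lt_irrefl _ h3
  have h6 := exponent_lt_of_integrable (volume : Measure (Cn k)) (by rw [finrank_Cn]; omega)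
    (hW'.mem_nhds hbW') h5
  rw [finrank_Cn] at h6
  push_cast at h6
  linarith

/-- continuity of `sqV` -/
theorem sqV_continuousAt {V : Type*} [NormedAddCommGroup V] [NormedSpace ℂ V] {κ : Type}
    [Fintype κ] {h : κ → V → ℂ} {a : V} (hh : ∀ j, AnalyticAt ℂ (h j) a) :
    ContinuousAt (sqV h) a := by
  unfold sqV
  exact tendsto_finsetSum _ fun j _ => ((hh j).continuousAt.norm.pow 2)

/-- (AF9) for germs, parameter in `ℂᵏ` -/
theorem af9 (hS : SumThm) {n k : ℕ} (hk : 1 ≤ k) {κ : Type} [Fintype κ]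
    (f : κ → Cn n × Cn k → ℂ) (hf : ∀ j, AnalyticAt ℂ (f j) 0) {c : ℝ} (hc : 0 ≤ c)
    (H : LInt (fun z => (ENNReal.ofReal (sqV f (z, 0))) ^ (-c)) 0) {ε : ℝ} (hε : 0 < ε)
    (hε1 : ε < 1) :
    LIntM volume (fun p => (ENNReal.ofReal (sqV f p)) ^ (-((1 - ε) * c))) (0 : Cn n × Cn k) := by
  have hk' : (1:ℝ) ≤ k := by exact_mod_cast hk
  rcases hc.eq_or_lt with rfl | hc
  · refine ⟨ball 0 1, ball_mem_nhds _ one_pos, ?_⟩
    simp only [mul_zero, neg_zero, ENNReal.rpow_zero]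
    rw [setLIntegral_one]
    exact measure_ball_lt_top
  -- constants
  set e : ℝ := ε * c / (2 * (c + k)) with he
  have hck : 0 < c + k := by linarith
  have he0 : 0 < e := by positivity
  have he1 : e < 1 := by
    rw [he, div_lt_one (by positivity)]
    nlinarith
  have heck : e * (c + k) = ε * c / 2 := by
    rw [he]; field_simp
  set c' : ℝ := (c + k) * (1 - e) with hc'
  have hc'k : (k:ℝ) < c' := by
    have : c' = c + k - ε * c / 2 := by rw [hc', ← heck]; ring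
    rw [this]; nlinarith
  have hc'0 : 0 < c' := by linarith
  -- bounds near 0
  set A : Cn n → ℝ := fun z => sqV f (z, 0) with hA
  have hAc : ContinuousAt A 0 := by
    have h1 : ContinuousAt (fun z : Cn n => ((z, 0) : Cn n × Cn k)) 0 := by fun_prop
    have h2 : ContinuousAt (sqV f) ((0 : Cn n), (0 : Cn k)) := sqV_continuousAt hf
    exact ContinuousAt.comp (f := fun z : Cn n => ((z, 0) : Cn n × Cn k)) h2 h1
  set M : ℝ := sqV f 0 + 1 with hM
  have hM0 : 0 < M := by have := sqV_nonneg f 0; linarith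
  have hAM : ∀ᶠ z in 𝓝 (0 : Cn n), A z < M := hAc.eventually_lt_const (by
    show sqV f (0, 0) < M
    have : ((0 : Cn n), (0 : Cn k)) = 0 := rfl
    rw [this]; linarith)
  have hWM : ∀ᶠ p in 𝓝 (0 : Cn n × Cn k), sqV f p < M :=
    (sqV_continuousAt hf).eventually_lt_const (by linarith)
  -- step 1
  obtain ⟨C, hC, hCle⟩ := lintegral_add_sq_le' (volume : Measure (Cn k)) (c := c') (by
    rw [finrank_Cn]; push_cast; linarith)
  have step1 : LIntM volume (fun p : Cn n × Cn k =>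
      (ENNReal.ofReal (A p.1 + ‖p.2‖ ^ 2)) ^ (-c')) (0 : Cn n × Cn k) := by
    rw [Measure.volume_eq_prod]
    refine LIntM.of_inner (μ := (volume : Measure (Cn n))) (ν := (volume : Measure (Cn k)))
      (a := 0) (b := 0) (u := fun z => (ENNReal.ofReal (A z)) ^ (-c)) H
      (K := C * (ENNReal.ofReal M) ^ (c - (c' - k))) ?_ (W' := univ) univ_mem ?_
    · refine ENNReal.mul_ne_top hC (ENNReal.rpow_ne_top_of_nonneg ?_ ENNReal.ofReal_ne_top)
      have : c' = c + k - ε * c / 2 := by rw [hc', ← heck]; ring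
      rw [this]; nlinarith
    · filter_upwards [hAM] with z hz
      rw [Measure.restrict_univ]
      refine (hCle (A z) (sqV_nonneg _ _)).trans ?_
      rw [mul_assoc, finrank_Cn]
      gcongr
      have e1 : c' - ((2 * k : ℕ) : ℝ) / 2 = c' - k := by push_cast; ring
      rw [e1]
      refine rpow_neg_le (ENNReal.ofReal_le_ofReal hz.le) ENNReal.ofReal_ne_top
        (by simpa using hM0) (by linarith) ?_
      have : c' = c + k - ε * c / 2 := by rw [hc', ← heck]; ring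
      rw [this]; nlinarith
  -- Lipschitz bound
  have hLip : ∃ K : ℝ, 0 < K ∧ ∀ᶠ p in 𝓝 (0 : Cn n × Cn k),
      A p.1 ≤ K * (sqV f p + ‖p.2‖ ^ 2) := by
    have h1 : ∀ j, ∃ K : ℝ≥0, ∃ s ∈ 𝓝 (0 : Cn n × Cn k), LipschitzOnWith K (f j) s := fun j =>
      (hf j).hasStrictFDerivAt.exists_lipschitzOnWith
    choose K s hs hL using h1
    have h2 : (⋂ j, s j) ∈ 𝓝 (0 : Cn n × Cn k) := by
      rw [Filter.iInter_mem]; exact hs
    obtain ⟨r, hr, hrs⟩ := Metric.mem_nhds_iff.1 h2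
    set K2 : ℝ := ∑ j, 2 * ((K j : ℝ)) ^ 2 with hK2
    have hK20 : 0 ≤ K2 := by positivity
    refine ⟨2 + K2, by linarith, ?_⟩
    filter_upwards [ball_mem_nhds (0 : Cn n × Cn k) hr] with p hp
    have hp0 : ((p.1, 0) : Cn n × Cn k) ∈ ball (0 : Cn n × Cn k) r := by
      rw [mem_ball_zero_iff] at hp ⊢
      refine lt_of_le_of_lt ?_ hp
      rw [Prod.norm_def, Prod.norm_def]
      simp
    calc A p.1 = ∑ j, ‖f j (p.1, 0)‖ ^ 2 := rfl
      _ ≤ ∑ j, (2 * ‖f j p‖ ^ 2 + 2 * ((K j : ℝ)) ^ 2 * ‖p.2‖ ^ 2) := by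
          apply Finset.sum_le_sum
          intro j _
          have h3 := (hL j).dist_le_mul _ (mem_iInter.1 (hrs hp0) j) _ (mem_iInter.1 (hrs hp) j)
          have h4 : dist ((p.1, 0) : Cn n × Cn k) p = ‖p.2‖ := by
            rw [dist_eq_norm, Prod.norm_def]
            simp
          rw [h4, dist_eq_norm] at h3
          have h5 : ‖f j (p.1, 0)‖ ≤ ‖f j p‖ + K j * ‖p.2‖ := by
            calc ‖f j (p.1, 0)‖ = ‖f j p + (f j (p.1, 0) - f j p)‖ := by congr 1; ring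
              _ ≤ ‖f j p‖ + ‖f j (p.1, 0) - f j p‖ := norm_add_le _ _
              _ ≤ _ := by gcongr
          have h6 : 0 ≤ ‖f j (p.1, 0)‖ := norm_nonneg _
          calc ‖f j (p.1, 0)‖ ^ 2 ≤ (‖f j p‖ + K j * ‖p.2‖) ^ 2 := by gcongr
            _ ≤ _ := by nlinarith [sq_nonneg (‖f j p‖ - K j * ‖p.2‖)]
      _ = 2 * sqV f p + K2 * ‖p.2‖ ^ 2 := by
          rw [Finset.sum_add_distrib, ← Finset.mul_sum, ← Finset.sum_mul]
          rfl
      _ ≤ (2 + K2) * (sqV f p + ‖p.2‖ ^ 2) := by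
          have h7 : 0 ≤ sqV f p := sqV_nonneg _ _
          have h8 : 0 ≤ ‖p.2‖ ^ 2 := by positivity
          nlinarith
  obtain ⟨K, hK, hKle⟩ := hLip
  -- step 2
  have step2 : LIntM volume (fun p : Cn n × Cn k => wV (fun (i : Empty) => (i.elim : Empty → _ → ℂ))
      (fun i : Empty => i.elim) p *
      (ENNReal.ofReal (sqV f p + sqV (fun i : Fin k => tau (n := n) i) p)) ^ (-c')) 0 := by
    refine step1.mono_const (K := (ENNReal.ofReal (K + 1)) ^ c')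
      (ENNReal.rpow_ne_top_of_nonneg hc'0.le ENNReal.ofReal_ne_top) ?_
    filter_upwards [hKle] with p hp
    have e1 : wV (fun (i : Empty) => (i.elim : Empty → Cn n × Cn k → ℂ))
      (fun i : Empty => i.elim) p = 1 := by simp [wV]
    rw [e1, one_mul]
    refine rpow_neg_le_mul (by simpa using by linarith) ENNReal.ofReal_ne_top ?_ hc'0.le
    rw [← ENNReal.ofReal_mul (by linarith)]
    apply ENNReal.ofReal_le_ofReal
    have h1 : ‖p.2‖ ^ 2 ≤ sqV (fun i : Fin k => tau (n := n) i) p := norm_sq_le_sum p.2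
    have h2 : 0 ≤ sqV f p := sqV_nonneg _ _
    have h3 : 0 ≤ ‖p.2‖ ^ 2 := by positivity
    nlinarith
  -- step 3
  obtain ⟨s₁, s₂, hs₁, hs₂, hsum, hI⟩ := sum_thm_two hS Empty (fun i => Empty) κ (Fin k) _ f
    (fun i : Fin k => tau (n := n) i) _ c' (fun i => i.elim) hf (fun i => tau_analyticAt i 0)
    (fun i => i.elim) hc'0.le step2 he0 he1
  have hI' : LIntM volume (fun p : Cn n × Cn k => (ENNReal.ofReal (sqV f p)) ^ (-s₁) *
      (ENNReal.ofReal (∑ i, ‖p.2 i‖ ^ 2)) ^ (-s₂)) 0 := by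
    refine hI.congr (Filter.Eventually.of_forall fun p => ?_)
    have e1 : ∀ (g : (i : Empty) → (fun i => Empty) i → Cn n × Cn k → ℂ) (c : Empty → ℝ),
      wV g c p = 1 := by intro g c; simp [wV]
    rw [e1, one_mul]
    rfl
  -- step 4
  have hs₂k : s₂ < k := by
    refine exponent_lt hk hs₂ (κ := (ENNReal.ofReal M) ^ (-s₁)) ?_ ?_ hI'
    · intro h0
      rcases ENNReal.rpow_eq_zero_iff.1 h0 with ⟨h1, -⟩ | ⟨h1, -⟩
      · simp at h1; linarith
      · exact ENNReal.ofReal_ne_top h1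
    · filter_upwards [hWM] with p hp
      exact rpow_neg_anti (ENNReal.ofReal_le_ofReal hp.le) hs₁
  -- step 5
  have hs₁c : (1 - ε) * c ≤ s₁ := by
    have h1 : s₁ = (1 - e) * c' - s₂ := by linarith
    have h2 : (1 - e) * c' = (c + k) - 2 * (e * (c + k)) + e * (e * (c + k)) := by rw [hc']; ring
    rw [heck] at h2
    have h3 : 0 ≤ e * (ε * c / 2) := by positivity
    nlinarith
  refine hI'.mono_const (K := (ENNReal.ofReal M) ^ (s₁ - (1 - ε) * c))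
    (ENNReal.rpow_ne_top_of_nonneg (by linarith) ENNReal.ofReal_ne_top) ?_
  have hτ1 : ∀ᶠ p in 𝓝 (0 : Cn n × Cn k), ∑ i, ‖p.2 i‖ ^ 2 < 1 := by
    have h1 : ContinuousAt (fun p : Cn n × Cn k => ∑ i, ‖p.2 i‖ ^ 2) 0 := by fun_prop
    exact h1.eventually_lt_const (by simp)
  filter_upwards [hWM, hτ1] with p hp hp1
  calc (ENNReal.ofReal (sqV f p)) ^ (-((1 - ε) * c))
      ≤ (ENNReal.ofReal M) ^ (s₁ - (1 - ε) * c) * (ENNReal.ofReal (sqV f p)) ^ (-s₁) :=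
        rpow_neg_le (ENNReal.ofReal_le_ofReal hp.le) ENNReal.ofReal_ne_top (by simpa using hM0)
          (by have : 0 ≤ 1 - ε := by linarith
              positivity) hs₁c
    _ ≤ (ENNReal.ofReal M) ^ (s₁ - (1 - ε) * c) * ((ENNReal.ofReal (sqV f p)) ^ (-s₁) *
        (ENNReal.ofReal (∑ i, ‖p.2 i‖ ^ 2)) ^ (-s₂)) := by
        gcongr
        have h1 : (1:ℝ≥0∞) ≤ (ENNReal.ofReal (∑ i, ‖p.2 i‖ ^ 2)) ^ (-s₂) := by
          calc (1:ℝ≥0∞) = 1 ^ (-s₂) := by simp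
            _ ≤ _ := rpow_neg_anti (by
              rw [← ENNReal.ofReal_one]; exact ENNReal.ofReal_le_ofReal hp1.le) hs₂
        calc (ENNReal.ofReal (sqV f p)) ^ (-s₁) = (ENNReal.ofReal (sqV f p)) ^ (-s₁) * 1 := by
              rw [mul_one]
          _ ≤ _ := by gcongr

end Crest.Agent.R271.L934

namespace Crest.Agent.R271.L934

open Crest.Agent.R271.Defs710

/-- (AF9) in the form used by helper103 -/
def AF9Germ (n k : ℕ) : Prop := ∀ (m : ℕ) (f : Fin m → Cn n × Cn k → ℂ) (c : ℝ),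
  (∀ j, AnalyticAt ℂ (f j) 0) → 0 ≤ c →
  LInt (fun ζ => (ENNReal.ofReal (∑ j, ‖f j (ζ, 0)‖ ^ 2)) ^ (-c)) 0 →
  ∀ ε : ℝ, 0 < ε → ε < 1 → ∃ U ∈ 𝓝 (0 : Cn n × Cn k),
    ∫⁻ p in U, (ENNReal.ofReal (∑ j, ‖f j p‖ ^ 2)) ^ (-((1 - ε) * c)) < ∞

theorem af9Germ (hS : SumThm) (n k : ℕ) (hk : 1 ≤ k) : AF9Germ n k := by
  intro m f c hf hc H ε hε hε1
  exact af9 hS hk f hf hc H hε hε1

end Crest.Agent.R271.L934
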