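import Crest.Agent.R271.W_792

/-!
# Row 271: solver on a Riemann domain with weights `∏ (∑ |f_ij|²)^{-c_i} (∑ |Y_j|²)^{-a}` (helper792)
-/

set_option autoImplicit false
set_option linter.unusedSectionVars false

noncomputable section

open Set Filter Topology Complex MeasureTheory
open scoped ENNReal ComplexConjugate

namespace Crest.Agent.R271.G792

open Crest.Agent.R271.Ho51 Crest.Agent.R271.W792

variable {n : ℕ} {M : Type*} [TopologicalSpace M] [RDom n M]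

/-- the statement of the engine used here -/
def EngineFor (M : Type*) [TopologicalSpace M] [RDom n M] [MeasurableSpace M] (μ : Measure M) :
    Prop :=
  ∀ ρ : M → ℝ, Sm ρ → (∀ c : ℝ, IsCompact {x | ρ x ≤ c}) → (∀ x w, nsq w ≤ Levi ρ x w) →
  ∀ φ : ℕ → M → ℝ, (∀ k, Sm (φ k)) → (∀ x, Antitone fun k => φ k x) →
    (∀ k x w, 0 ≤ Levi (φ k) x w) →
  ∀ G : M → ℂ, Sm G → ∀ kap : ℕ → M → ℝ, (∀ k x, 0 ≤ kap k x) → (∀ k, Continuous (kap k)) →
    (∀ k x w, ‖∑ j, db j G x * conj (w j)‖ ^ 2 ≤ kap k x * Levi (φ k) x w) →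
  ∀ K : ℝ≥0∞, K ≠ ∞ → (∀ k, ∫⁻ x, ENNReal.ofReal (kap k x * Real.exp (-φ k x)) ∂μ ≤ K) →
  ∃ F : M → ℂ, (∀ e : OpenPartialHomeomorph M (Fin n → ℂ), IsCh e →
      DifferentiableOn ℂ (F ∘ e.symm) e.target) ∧
    ∫⁻ x, ENNReal.ofReal (‖F x - G x‖ ^ 2) *
      ⨆ k, ENNReal.ofReal (Real.exp (-φ k x)) ∂μ ≤ 2 * K

/-- the coordinate functions are holomorphic -/
lemma D_cp (x : M) (w : Fin n → ℂ) : D (cp : M → Fin n → ℂ) x w = w := by
  have h1 : ((cp : M → Fin n → ℂ) ∘ (ch x).symm) =ᶠ[𝓝 (cp x)] id := by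
    filter_upwards [(ch x).open_target.mem_nhds ((isCh_ch x).cp_mem (mem_ch x))] with z hz
    simp [(isCh_ch x).cp_symm hz]
  unfold D
  rw [h1.fderiv_eq, fderiv_id]
  rfl

lemma sm_cp : Sm (cp : M → Fin n → ℂ) := Sm.of_coord (g := id) contDiff_id

lemma D_coord (i : Fin n) (x : M) (w : Fin n → ℂ) : D (fun y : M => cp y i) x w = w i := by
  have h := D_clm (sm_cp (M := M)) (ContinuousLinearMap.proj (R := ℝ) (φ := fun _ : Fin n => ℂ) i) x
  have h2 : D (fun y : M => cp y i) x w =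
      ((ContinuousLinearMap.proj (R := ℝ) (φ := fun _ : Fin n => ℂ) i).comp (D cp x)) w := by
    rw [← h]; rfl
  rw [h2]
  simp [D_cp]

lemma hol_coord (i : Fin n) : Hol (fun y : M => cp y i) where
  sm := (sm_cp (M := M)).clm (ContinuousLinearMap.proj (R := ℝ) (φ := fun _ : Fin n => ℂ) i)
  cl := by intro x w; rw [D_coord, D_coord]; rfl

lemma nS_unit {M : Type*} (u : M → ℂ) (x : M) : nS (fun _ : Unit => u) x = ‖u x‖ ^ 2 := by
  simp [nS]

/-- `log |u|²` is pluriharmonic for `u` holomorphic without zeros -/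
lemma lev_lg_unit {u : M → ℂ} (hu : Hol u) (h0 : ∀ x, u x ≠ 0) (x : M) (w : Fin n → ℂ) :
    lev (lg (fun _ : Unit => u) 0) x w = 0 := by
  have hp : ∀ x, 0 < nS (fun _ : Unit => u) x + 0 := by
    intro x
    have : 0 < ‖u x‖ := norm_pos_iff.mpr (h0 x)
    simp [nS]; positivity
  rw [lev_lg (fun _ => hu) hp]
  have h1 : ‖u x‖ ≠ 0 := (norm_pos_iff.mpr (h0 x)).ne'
  simp only [nS, nT, nA, Finset.univ_unique, Finset.sum_const, Finset.card_singleton, one_smul,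
    add_zero, norm_mul, RCLike.norm_conj]
  field_simp
  ring

variable (Y : Fin (n + 1) → M → ℂ)

/-- `log ∑ |Y_j|² = log |Y_0|² + log (1 + ∑ |z_i|²)` -/
lemma lg_Y (h0 : ∀ x, Y 0 x ≠ 0) (hz : ∀ x (i : Fin n), cp x i * Y 0 x = Y i.succ x) :
    lg Y 0 = fun x => lg (fun _ : Unit => Y 0) 0 x + lg (fun (i : Fin n) (x : M) => cp x i) 1 x := by
  funext x
  have h1 : 0 < ‖Y 0 x‖ := norm_pos_iff.mpr (h0 x)
  unfold lg
  rw [nS_unit, ← Real.log_mul]
  · congr 1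
    unfold nS
    rw [Fin.sum_univ_succ]
    have : ∀ i : Fin n, ‖Y i.succ x‖ ^ 2 = ‖Y 0 x‖ ^ 2 * ‖cp x i‖ ^ 2 := by
      intro i; rw [← hz x i, norm_mul]; ring
    simp only [this]
    rw [← Finset.mul_sum]; ring
  · positivity
  · have := nS_nonneg (fun (i : Fin n) (x : M) => cp x i) x
    positivity

/-- lower bound for the Levi form of `log ∑ |Y_j|²` -/
def qz (x : M) : ℝ := ((∑ i : Fin n, ‖cp x i‖ ^ 2) + 1)⁻¹ ^ 2

lemma qz_pos (x : M) : 0 < qz x := by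
  have : 0 ≤ ∑ i : Fin n, ‖cp x i‖ ^ 2 := Finset.sum_nonneg fun _ _ => by positivity
  unfold qz; positivity

lemma nS_Y_pos (h0 : ∀ x, Y 0 x ≠ 0) (x : M) : 0 < nS Y x := by
  have h1 : 0 < ‖Y 0 x‖ := norm_pos_iff.mpr (h0 x)
  unfold nS
  rw [Fin.sum_univ_succ]
  have : 0 ≤ ∑ i : Fin n, ‖Y i.succ x‖ ^ 2 := Finset.sum_nonneg fun _ _ => by positivity
  positivity

lemma sm_lgY (hY : ∀ j, Hol (Y j)) (h0 : ∀ x, Y 0 x ≠ 0) : Sm (lg Y 0) :=
  sm_lg (fun j => (hY j).sm) fun x => by simpa using nS_Y_pos Y h0 x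

lemma Levi_lgY (hY : ∀ j, Hol (Y j)) (h0 : ∀ x, Y 0 x ≠ 0)
    (hz : ∀ x (i : Fin n), cp x i * Y 0 x = Y i.succ x) (x : M) (w : Fin n → ℂ) :
    qz x * nsq w ≤ Levi (lg Y 0) x w := by
  have hp : ∀ x : M, 0 < nS (fun _ : Unit => Y 0) x + 0 := by
    intro x
    have : 0 < ‖Y 0 x‖ := norm_pos_iff.mpr (h0 x)
    simp [nS]; positivity
  have hp1 : ∀ x : M, 0 < nS (fun (i : Fin n) (x : M) => cp x i) x + 1 := by
    intro x
    have := nS_nonneg (fun (i : Fin n) (x : M) => cp x i) x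
    positivity
  rw [Levi_eq_lev (sm_lgY Y hY h0), lg_Y Y h0 hz,
    lev_add (sm_lg (fun _ => (hY 0).sm) hp) (sm_lg (fun i => (hol_coord i).sm) hp1),
    lev_lg_unit (hY 0) h0, zero_add]
  refine le_trans (le_of_eq ?_) (lev_lg_ge (fun i => hol_coord i) hp1 x w)
  have h1 : nT (fun (i : Fin n) (x : M) => cp x i) x w = nsq w := by
    unfold nT nsq
    exact Finset.sum_congr rfl fun i _ => by rw [D_coord]
  rw [h1]
  unfold qz nS
  rw [inv_pow]
  field_simp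

section weights

variable {ι : Type*} [Fintype ι] {κ : ι → Type*} [∀ i, Fintype (κ i)]
  (f : ∀ i, κ i → M → ℂ) (c : ι → ℝ) (a : ℝ)

/-- regularised weights -/
def phiK (k : ℕ) (x : M) : ℝ := (∑ i, c i * lg (f i) (1 / ((k : ℝ) + 1)) x) + a * lg Y 0 x

lemma del_pos (k : ℕ) : (0 : ℝ) < 1 / ((k : ℝ) + 1) := by positivity

lemma hpos_del (i : ι) (k : ℕ) (x : M) : 0 < nS (f i) x + 1 / ((k : ℝ) + 1) := by
  have := nS_nonneg (f i) x
  have := del_pos k
  positivity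

variable {f c a} {Y}

lemma sm_phiK (hf : ∀ i j, Hol (f i j)) (hY : ∀ j, Hol (Y j)) (h0 : ∀ x, Y 0 x ≠ 0) (k : ℕ) :
    Sm (phiK Y f c a k) := by
  unfold phiK
  refine Sm.add (Sm.sum fun i _ => ?_) ?_
  · exact (Sm.const _).mulR (sm_lg (fun j => (hf i j).sm) fun x => hpos_del f i k x)
  · exact (Sm.const _).mulR (sm_lgY Y hY h0)

lemma phiK_anti (hc : ∀ i, 0 ≤ c i) (x : M) : Antitone fun k => phiK Y f c a k x := by
  intro k l hkl
  unfold phiK
  have : ∀ i, lg (f i) (1 / ((l : ℝ) + 1)) x ≤ lg (f i) (1 / ((k : ℝ) + 1)) x := by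
    intro i
    apply lg_antitone _ _ x (hpos_del f i l x)
    apply one_div_le_one_div_of_le (by positivity)
    have : (k : ℝ) ≤ l := by exact_mod_cast hkl
    linarith
  have h2 := Finset.sum_le_sum fun i (_ : i ∈ Finset.univ) => mul_le_mul_of_nonneg_left (this i) (hc i)
  simp only
  linarith

lemma Levi_phiK (hf : ∀ i j, Hol (f i j)) (hc : ∀ i, 0 ≤ c i) (hY : ∀ j, Hol (Y j))
    (h0 : ∀ x, Y 0 x ≠ 0) (hz : ∀ x (i : Fin n), cp x i * Y 0 x = Y i.succ x) (ha : 0 ≤ a)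
    (k : ℕ) (x : M) (w : Fin n → ℂ) : a * (qz x * nsq w) ≤ Levi (phiK Y f c a k) x w := by
  rw [Levi_eq_lev (sm_phiK hf hY h0 k)]
  unfold phiK
  have hs1 : ∀ i ∈ Finset.univ, Sm (fun x => c i * lg (f i) (1 / ((k : ℝ) + 1)) x) := fun i _ =>
    (Sm.const _).mulR (sm_lg (fun j => (hf i j).sm) fun x => hpos_del f i k x)
  rw [lev_add (Sm.sum hs1) ((Sm.const _).mulR (sm_lgY Y hY h0)), lev_sum _ hs1,
    lev_const_mul (sm_lgY Y hY h0)]
  have h1 : 0 ≤ ∑ i, lev (fun x => c i * lg (f i) (1 / ((k : ℝ) + 1)) x) x w := by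
    refine Finset.sum_nonneg fun i _ => ?_
    rw [lev_const_mul (sm_lg (fun j => (hf i j).sm) fun x => hpos_del f i k x)]
    exact mul_nonneg (hc i)
      (lev_lg_nonneg (fun j => hf i j) (del_pos k).le (fun x => hpos_del f i k x) x w)
  have h2 := Levi_lgY Y hY h0 hz x w
  rw [Levi_eq_lev (sm_lgY Y hY h0)] at h2
  have h3 := mul_le_mul_of_nonneg_left h2 ha
  linarith

/-- the weight `∏ (∑ |f_ij|²)^{-c_i}` -/
def wF (f : ∀ i, κ i → M → ℂ) (c : ι → ℝ) (x : M) : ℝ≥0∞ :=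
  ∏ i, (ENNReal.ofReal (nS (f i) x)) ^ (-(c i))

/-- the weight `(∑ |Y_j|²)^{-a}` -/
def wY (Y : Fin (n + 1) → M → ℂ) (a : ℝ) (x : M) : ℝ≥0∞ := (ENNReal.ofReal (nS Y x)) ^ (-a)

lemma wY_eq (Y : Fin (n + 1) → M → ℂ) (h0 : ∀ x, Y 0 x ≠ 0) (a : ℝ) (x : M) :
    wY Y a x = ENNReal.ofReal (nS Y x ^ (-a)) := by
  unfold wY
  rw [ENNReal.ofReal_rpow_of_pos (nS_Y_pos Y h0 x)]

lemma exp_lg {κ' : Type*} [Fintype κ'] (g : κ' → M → ℂ) (δ b : ℝ) (x : M)
    (hp : 0 < nS g x + δ) :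
    ENNReal.ofReal (Real.exp (-(b * lg g δ x))) = (ENNReal.ofReal (nS g x + δ)) ^ (-b) := by
  rw [ENNReal.ofReal_rpow_of_pos hp]
  congr 1
  rw [Real.rpow_def_of_pos hp]
  congr 1
  unfold lg
  ring

lemma exp_phiK (h0 : ∀ x, Y 0 x ≠ 0) (k : ℕ) (x : M) :
    ENNReal.ofReal (Real.exp (-phiK Y f c a k x)) =
      (∏ i, (ENNReal.ofReal (nS (f i) x + 1 / ((k : ℝ) + 1))) ^ (-(c i))) * wY Y a x := by
  unfold phiK wY
  rw [neg_add, Real.exp_add, ENNReal.ofReal_mul (Real.exp_pos _).le]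
  congr 1
  · rw [← Finset.sum_neg_distrib, Real.exp_sum, ENNReal.ofReal_prod_of_nonneg]
    · exact Finset.prod_congr rfl fun i _ => exp_lg (f i) _ _ x (hpos_del f i k x)
    · intro i _; exact (Real.exp_pos _).le
  · have := exp_lg Y 0 a x (by simpa using nS_Y_pos Y h0 x)
    rw [this, add_zero]

lemma exp_phiK_le (h0 : ∀ x, Y 0 x ≠ 0) (hc : ∀ i, 0 ≤ c i) (k : ℕ) (x : M) :
    ENNReal.ofReal (Real.exp (-phiK Y f c a k x)) ≤ wF f c x * wY Y a x := by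
  rw [exp_phiK h0]
  gcongr
  unfold wF
  refine Finset.prod_le_prod' fun i _ => ?_
  rw [ENNReal.rpow_neg, ENNReal.rpow_neg]
  gcongr
  · exact hc i
  · have := del_pos k; linarith

lemma rpow_neg_ne_zero {t : ℝ} (b : ℝ) (hb : 0 ≤ b) : (ENNReal.ofReal t) ^ (-b) ≠ 0 := by
  rw [ENNReal.rpow_neg, ENNReal.inv_ne_zero]
  exact ENNReal.rpow_ne_top_of_nonneg hb ENNReal.ofReal_ne_top

lemma tendsto_prod_ne_zero {ι' : Type*} (s : Finset ι') (u : ι' → ℕ → ℝ≥0∞) (l : ι' → ℝ≥0∞)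
    (h : ∀ i ∈ s, Tendsto (u i) atTop (𝓝 (l i))) (h0 : ∀ i ∈ s, l i ≠ 0) :
    Tendsto (fun k => ∏ i ∈ s, u i k) atTop (𝓝 (∏ i ∈ s, l i)) := by
  classical
  induction s using Finset.induction_on with
  | empty => simp
  | insert b s hb ih =>
    simp only [Finset.prod_insert hb]
    have h1 := ih (fun i hi => h i (Finset.mem_insert_of_mem hi))
      (fun i hi => h0 i (Finset.mem_insert_of_mem hi))
    have h2 : ∏ i ∈ s, l i ≠ 0 :=
      Finset.prod_ne_zero_iff.mpr fun i hi => h0 i (Finset.mem_insert_of_mem hi)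
    exact ENNReal.Tendsto.mul (h b (Finset.mem_insert_self b s))
      (Or.inl (h0 b (Finset.mem_insert_self b s))) h1 (Or.inl h2)

lemma le_iSup_exp (h0 : ∀ x, Y 0 x ≠ 0) (hc : ∀ i, 0 ≤ c i) (x : M) :
    wF f c x * wY Y a x ≤ ⨆ k, ENNReal.ofReal (Real.exp (-phiK Y f c a k x)) := by
  have h1 : Tendsto (fun k : ℕ => ∏ i, (ENNReal.ofReal (nS (f i) x + 1 / ((k : ℝ) + 1))) ^ (-(c i)))
      atTop (𝓝 (wF f c x)) := by
    refine tendsto_prod_ne_zero _ _ _ (fun i _ => ?_) (fun i _ => rpow_neg_ne_zero _ (hc i))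
    have h2 : Tendsto (fun k : ℕ => nS (f i) x + 1 / ((k : ℝ) + 1)) atTop (𝓝 (nS (f i) x + 0)) :=
      tendsto_const_nhds.add tendsto_one_div_add_atTop_nhds_zero_nat
    rw [add_zero] at h2
    exact ((ENNReal.continuous_rpow_const (y := -(c i))).tendsto _).comp
      ((ENNReal.continuous_ofReal.tendsto _).comp h2)
  have hY1 : wY Y a x ≠ ∞ := by
    rw [wY_eq Y h0]
    exact ENNReal.ofReal_ne_top
  have h3 : Tendsto (fun k : ℕ => ENNReal.ofReal (Real.exp (-phiK Y f c a k x))) atTop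
      (𝓝 (wF f c x * wY Y a x)) := by
    simp only [exp_phiK h0]
    exact ENNReal.Tendsto.mul_const h1 (Or.inr hY1)
  exact le_of_tendsto' h3 fun k => le_iSup (fun k => ENNReal.ofReal (Real.exp (-phiK Y f c a k x))) k

end weights

lemma qz_cont : Continuous (qz : M → ℝ) := by
  unfold qz
  have h1 : Continuous fun x : M => (∑ i : Fin n, ‖cp x i‖ ^ 2) + 1 := by
    refine Continuous.add ?_ continuous_const
    exact continuous_finsetSum _ fun i _ =>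
      (((continuous_apply i).comp (cp_cont (M := M))).norm.pow 2)
  exact (h1.inv₀ fun x => by
    have : 0 ≤ ∑ i : Fin n, ‖cp x i‖ ^ 2 := Finset.sum_nonneg fun _ _ => by positivity
    positivity).pow 2

/-- SOLVER on a Riemann domain -/
theorem solverM [T2Space M] [MeasurableSpace M] [BorelSpace M] (μ : Measure M) (eng : EngineFor M μ)
    (ρ : M → ℝ) (hρ : Sm ρ) (hρc : ∀ c : ℝ, IsCompact {x | ρ x ≤ c})
    (hρL : ∀ x w, nsq w ≤ Levi ρ x w)
    {ι : Type*} [Fintype ι] {κ : ι → Type*} [∀ i, Fintype (κ i)]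
    (f : ∀ i, κ i → M → ℂ) (hf : ∀ i j, Hol (f i j)) (c : ι → ℝ) (hc : ∀ i, 0 ≤ c i)
    (Y : Fin (n + 1) → M → ℂ) (hY : ∀ j, Hol (Y j)) (h0 : ∀ x, Y 0 x ≠ 0)
    (hz : ∀ x (i : Fin n), cp x i * Y 0 x = Y i.succ x) (a : ℝ) (ha : 0 < a)
    (χ : M → ℝ) (hχ : Sm χ) (Kc : Set M) (hK : IsCompact Kc)
    (hD : ∀ x, x ∉ Kc → ∀ j, db j (fun y => (χ y : ℂ)) x = 0)
    (hint : ∫⁻ x in Kc, wF f c x ∂μ < ∞) :
    ∃ F : M → ℂ, (∀ e : OpenPartialHomeomorph M (Fin n → ℂ), IsCh e →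
        DifferentiableOn ℂ (F ∘ e.symm) e.target) ∧
      ∫⁻ x, ENNReal.ofReal (‖F x - χ x‖ ^ 2) * (wF f c x * wY Y a x) ∂μ < ∞ := by
  set G : M → ℂ := fun y => (χ y : ℂ) with hG
  have hGs : Sm G := hχ.ofReal
  set kap : M → ℝ := fun x => (∑ j, ‖db j G x‖ ^ 2) * (a * qz x)⁻¹ with hkap
  have hkap0 : ∀ x, 0 ≤ kap x := fun x => by
    have := qz_pos x
    have : 0 ≤ ∑ j, ‖db j G x‖ ^ 2 := Finset.sum_nonneg fun _ _ => by positivity
    positivity
  have hkapc : Continuous kap := by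
    refine Continuous.mul ?_ ?_
    · exact continuous_finsetSum _ fun j _ => ((hGs.db j).continuous.norm.pow 2)
    · exact (continuous_const.mul qz_cont).inv₀ fun x => (mul_pos ha (qz_pos x)).ne'
  have hYc : Continuous fun x => nS Y x ^ (-a) := by
    refine Continuous.rpow_const (sm_nS fun j => (hY j).sm).continuous fun x => ?_
    exact Or.inl (nS_Y_pos Y h0 x).ne'
  obtain ⟨C0, hC0⟩ := hK.exists_bound_of_continuousOn (hkapc.mul hYc).continuousOn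
  have hcs : ∀ x (w : Fin n → ℂ), ‖∑ j, db j G x * conj (w j)‖ ^ 2 ≤
      (∑ j, ‖db j G x‖ ^ 2) * nsq w := by
    intro x w
    have h1 : ‖∑ j, db j G x * conj (w j)‖ ≤ ∑ j, ‖db j G x‖ * ‖w j‖ := by
      refine (norm_sum_le _ _).trans (Finset.sum_le_sum fun j _ => ?_)
      rw [norm_mul, RCLike.norm_conj]
    calc ‖∑ j, db j G x * conj (w j)‖ ^ 2 ≤ (∑ j, ‖db j G x‖ * ‖w j‖) ^ 2 := by gcongr
      _ ≤ (∑ j, ‖db j G x‖ ^ 2) * ∑ j, ‖w j‖ ^ 2 := Finset.sum_mul_sq_le_sq_mul_sq _ _ _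
  obtain ⟨F, hF, hFi⟩ := eng ρ hρ hρc hρL (fun k => phiK Y f c a k)
    (fun k => sm_phiK hf hY h0 k) (fun x => phiK_anti hc x)
    (fun k x w => le_trans (by
      have := qz_pos x
      have := nsq_nonneg w
      positivity) (Levi_phiK hf hc hY h0 hz ha.le k x w))
    G hGs (fun _ => kap) (fun _ => hkap0) (fun _ => hkapc)
    (fun k x w => by
      refine (hcs x w).trans ?_
      have h1 := Levi_phiK hf hc hY h0 hz ha.le k x w
      have h2 := mul_le_mul_of_nonneg_left h1 (hkap0 x)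
      refine le_trans (le_of_eq ?_) h2
      have hq := qz_pos x
      simp only [hkap]
      field_simp)
    (ENNReal.ofReal C0 * ∫⁻ x in Kc, wF f c x ∂μ)
    (ENNReal.mul_lt_top ENNReal.ofReal_lt_top hint).ne
    (fun k => by
      rw [← lintegral_const_mul' _ _ ENNReal.ofReal_ne_top,
        ← lintegral_indicator hK.measurableSet]
      refine lintegral_mono fun x => ?_
      by_cases hx : x ∈ Kc
      · rw [Set.indicator_of_mem hx, ENNReal.ofReal_mul (hkap0 x)]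
        calc ENNReal.ofReal (kap x) * ENNReal.ofReal (Real.exp (-phiK Y f c a k x))
            ≤ ENNReal.ofReal (kap x) * (wF f c x * wY Y a x) := by
              gcongr; exact exp_phiK_le h0 hc k x
          _ = (ENNReal.ofReal (kap x) * ENNReal.ofReal (nS Y x ^ (-a))) * wF f c x := by
              rw [wY_eq Y h0]; ring
          _ ≤ ENNReal.ofReal C0 * wF f c x := by
              gcongr
              rw [← ENNReal.ofReal_mul (hkap0 x)]
              apply ENNReal.ofReal_le_ofReal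
              exact (le_abs_self _).trans (hC0 x hx)
      · have h1 : kap x = 0 := by
          simp only [hkap]
          have : ∀ j, db j G x = 0 := hD x hx
          simp [this]
        simp [h1])
  refine ⟨F, hF, lt_of_le_of_lt ?_ (lt_of_le_of_lt hFi ?_)⟩
  · refine lintegral_mono fun x => ?_
    gcongr
    exact le_iSup_exp h0 hc x
  · exact ENNReal.mul_lt_top (by simp) (ENNReal.mul_lt_top ENNReal.ofReal_lt_top hint)

end Crest.Agent.R271.G792
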