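import Crest.Agent.R271.G3a_792
import Crest.Agent.R271.H3_51
import Crest.Agent.R271.Rd6_692
import Crest.Agent.R271.GSpec_792
import Crest.Agent.R266.SCV

/-!
# Row 271 (G3): cutoff functions and the solver on a context (helper792)
-/

set_option autoImplicit false
set_option linter.unusedSectionVars false

noncomputable section

open Set Filter Topology Complex MeasureTheory Metric
open scoped ENNReal ComplexConjugate

namespace Crest.Agent.R271.G792

open Crest.Agent.R271.Ho51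

section cutoff

variable {n : ℕ} {M : Type*} [TopologicalSpace M] [RDom n M] [T2Space M]

/-- cutoff functions in a chart -/
theorem exists_cutoff {e : OpenPartialHomeomorph M (Fin n → ℂ)} (he : IsCh e) (p0 : Fin n → ℂ)
    {r₁ r₂ : ℝ} (h0 : 0 < r₁) (h12 : r₁ < r₂) (hB : closedBall p0 r₂ ⊆ e.target) :
    ∃ χ : M → ℝ, Sm χ ∧ (∀ x, 0 ≤ χ x ∧ χ x ≤ 1) ∧
      (∀ z ∈ ball p0 r₁, χ (e.symm z) = 1) ∧
      (∀ x, χ x ≠ 0 → x ∈ e.source ∧ cp x ∈ ball p0 r₂) ∧
      (∀ x, x ∉ e.symm '' {z | r₁ ≤ ‖z - p0‖ ∧ ‖z - p0‖ ≤ r₂} →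
        ∀ j, db j (fun y => (χ y : ℂ)) x = 0) := by
  let b : ContDiffBump p0 := ⟨r₁, r₂, h0, h12⟩
  have hbs : ContDiff ℝ (⊤ : ℕ∞) (b : (Fin n → ℂ) → ℝ) := b.contDiff
  have hts : tsupport (b : (Fin n → ℂ) → ℝ) = closedBall p0 r₂ := b.tsupport_eq
  have hgs : tsupport (b : (Fin n → ℂ) → ℝ) ⊆ e.target := by rw [hts]; exact hB
  have hgc : HasCompactSupport (b : (Fin n → ℂ) → ℝ) := b.hasCompactSupport
  refine ⟨pull e b, pull_sm he hbs hgs hgc, ?_, ?_, ?_, ?_⟩
  · intro x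
    by_cases hx : x ∈ e.source
    · rw [pull_of_mem e _ hx]; exact ⟨b.nonneg, b.le_one⟩
    · simp [pull, indicator_of_notMem hx]
  · intro z hz
    have hzt : z ∈ e.target := hB (ball_subset_closedBall (ball_subset_ball h12.le hz))
    rw [pull_of_mem e _ (e.map_target hzt), he.cp_symm hzt]
    exact b.one_of_mem_closedBall (ball_subset_closedBall hz)
  · intro x hx
    by_cases hxs : x ∈ e.source
    · refine ⟨hxs, ?_⟩
      rw [pull_of_mem e _ hxs] at hx
      have : cp x ∈ Function.support (b : (Fin n → ℂ) → ℝ) := hx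
      rwa [b.support_eq] at this
    · exact absurd (by simp [pull, indicator_of_notMem hxs]) hx
  · intro x hx
    have hD : D (pull e (b : (Fin n → ℂ) → ℝ)) x = 0 := by
      rw [D_pull he hgs hgc]
      by_cases hxs : x ∈ e.source
      · rw [pull_of_mem e _ hxs]
        have h1 : ¬ (r₁ ≤ ‖cp x - p0‖ ∧ ‖cp x - p0‖ ≤ r₂) := fun h =>
          hx ⟨cp x, h, he.symm_cp hxs⟩
        rw [not_and_or, not_le, not_le] at h1
        rcases h1 with h1 | h1
        · have h2 : (b : (Fin n → ℂ) → ℝ) =ᶠ[𝓝 (cp x)] fun _ => 1 := by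
            have h3 : ball p0 r₁ ∈ 𝓝 (cp x) := isOpen_ball.mem_nhds (by
              rw [mem_ball, dist_eq_norm]; exact h1)
            filter_upwards [h3] with z hz
            exact b.one_of_mem_closedBall (ball_subset_closedBall hz)
          rw [h2.fderiv_eq, fderiv_const_apply]
        · have h2 : (b : (Fin n → ℂ) → ℝ) =ᶠ[𝓝 (cp x)] fun _ => 0 := by
            have h3 : (closedBall p0 r₂)ᶜ ∈ 𝓝 (cp x) := isClosed_closedBall.isOpen_compl.mem_nhds
              (by rw [mem_compl_iff, mem_closedBall, dist_eq_norm, not_le]; exact h1)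
            filter_upwards [h3] with z hz
            exact b.zero_of_le_dist (by
              rw [mem_compl_iff, mem_closedBall, not_le] at hz; exact hz.le)
          rw [h2.fderiv_eq, fderiv_const_apply]
      · simp [pull, indicator_of_notMem hxs]
    intro j
    have h5 : D (fun y => ((pull e (b : (Fin n → ℂ) → ℝ) y : ℝ) : ℂ)) x = 0 := by
      have := D_clm (pull_sm he hbs hgs hgc) Complex.ofRealCLM x
      have h6 : D (fun y => ((pull e (b : (Fin n → ℂ) → ℝ) y : ℝ) : ℂ)) x =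
          Complex.ofRealCLM.comp (D (pull e (b : (Fin n → ℂ) → ℝ)) x) := by
        rw [← this]; rfl
      rw [h6, hD]; simp
    rw [db_eq, h5]
    simp

end cutoff

section ctx

open Crest.Agent.R271.Defs710 Crest.Agent.R271.Rd692 Crest.Agent.R271.GSpec792

variable {n : ℕ} {X : FCtx n}

/-- evaluations are holomorphic -/
lemma hol_eval (b : X.B) : W792.Hol fun y : X.B →ₐ[ℂ] ℂ => y b where
  sm := sm_ev b
  cl := by
    intro y w
    obtain ⟨C⟩ := chartEx X y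
    rw [D_chart _ C]
    have h := (C.anal b 0 (mem_ball_self C.r_pos)).differentiableAt
    exact R266.SCV.fderiv_real_smul_I h w

lemma nS_eval (S : Finset X.B) (y : X.B →ₐ[ℂ] ℂ) :
    W792.nS (fun (b : {b // b ∈ S}) (y : X.B →ₐ[ℂ] ℂ) => y b.1) y = wt S y := by
  unfold W792.nS wt
  exact Finset.sum_coe_sort S fun b => ‖y b‖ ^ 2

lemma wt_cont (S : Finset X.B) : Continuous fun y : X.B →ₐ[ℂ] ℂ => wt S y := by
  unfold wt
  exact continuous_finsetSum _ fun b _ => (continuous_ev b).norm.pow 2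

variable (X) in
/-- exhaustion function -/
theorem exists_rho : ∃ ρ : (X.B →ₐ[ℂ] ℂ) → ℝ, Sm ρ ∧ (∀ c : ℝ, IsCompact {x | ρ x ≤ c}) ∧
    (∀ x w, nsq w ≤ Levi ρ x w) := by
  obtain ⟨N, a, -, ha⟩ := exists_exhaustion X
  set f : Fin N ⊕ Fin n → (X.B →ₐ[ℂ] ℂ) → ℂ := Sum.elim (fun i y => y (a i)) (fun i y => y (X.z i))
    with hf
  have hH : ∀ i, W792.Hol (f i) := by
    rintro (i | i)
    · exact hol_eval (a i)
    · exact hol_eval (X.z i)
  have hs : Sm (W792.nS f) := W792.sm_nS fun i => (hH i).sm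
  have hsplit : ∀ y, W792.nS f y = (∑ i, ‖y (a i)‖ ^ 2) + ∑ i, ‖y (X.z i)‖ ^ 2 := by
    intro y
    unfold W792.nS
    rw [Fintype.sum_sum_type]
    rfl
  refine ⟨W792.nS f, hs, ?_, ?_⟩
  · intro c
    refine (ha c).of_isClosed_subset (isClosed_le hs.continuous continuous_const) ?_
    intro y hy
    have h1 : W792.nS f y ≤ c := hy
    rw [hsplit] at h1
    have h2 : 0 ≤ ∑ i, ‖y (X.z i)‖ ^ 2 := Finset.sum_nonneg fun _ _ => by positivity
    change W792.nS (fun i y => y (a i)) y ≤ c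
    unfold W792.nS
    linarith
  · intro y w
    rw [W792.Levi_eq_lev hs, W792.lev_nS hH]
    unfold W792.nT nsq
    rw [Fintype.sum_sum_type]
    have h1 : ∀ i : Fin n, D (f (Sum.inr i)) y w = w i := by
      intro i
      exact D_coord (M := X.B →ₐ[ℂ] ℂ) i y w
    simp only [h1]
    have h2 : 0 ≤ ∑ i : Fin N, ‖D (f (Sum.inl i)) y w‖ ^ 2 :=
      Finset.sum_nonneg fun _ _ => by positivity
    linarith

/-- the open homeomorphism of a chart -/
abbrev eC {y₀ : X.B →ₐ[ℂ] ℂ} (C : Chart X.z y₀) :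
    OpenPartialHomeomorph (X.B →ₐ[ℂ] ℂ) (Cn n) := chartHomeo (chartEx X) C

lemma eC_isCh {y₀ : X.B →ₐ[ℂ] ℂ} (C : Chart X.z y₀) : IsCh (eC C) := isCh_chartHomeo C

/-- compactness: finite integral over the shell -/
lemma shell_lt_top (g : Cn n → ℝ≥0∞) (K : Set (Cn n)) (hK : IsCompact K)
    (h : ∀ ζ ∈ K, LInt g ζ) : ∫⁻ ζ in K, g ζ < ∞ := by
  have h1 : (volume.withDensity g) K < ∞ := by
    refine hK.measure_lt_top_of_nhdsWithin fun _ hζ => ?_
    obtain ⟨U, hU, hU1⟩ := h _ hζ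
    refine ⟨U, mem_nhdsWithin_of_mem_nhds hU, ?_⟩
    rwa [withDensity_apply']
  rwa [withDensity_apply'] at h1

/-- holomorphic in charts implies `HolM` -/
lemma holM_of {F : (X.B →ₐ[ℂ] ℂ) → ℂ}
    (hF : ∀ e : OpenPartialHomeomorph (X.B →ₐ[ℂ] ℂ) (Fin n → ℂ), IsCh e →
      DifferentiableOn ℂ (F ∘ e.symm) e.target) : HolM X F := by
  intro y C
  have h1 := hF (eC C) (eC_isCh C)
  have h2 : AnalyticOnNhd ℂ (F ∘ (eC C).symm) (eC C).target :=
    R266.SCV.analyticOnNhd_of_differentiableOn (eC C).open_target h1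
  have h3 : AnalyticAt ℂ (F ∘ (eC C).symm) (pr X.z y) := h2 _ (mem_ball_self C.r_pos)
  have h4 : AnalyticAt ℂ (fun ζ : Cn n => ζ + pr X.z y) 0 := analyticAt_id.add analyticAt_const
  have h5 : AnalyticAt ℂ (F ∘ (eC C).symm) ((fun ζ : Cn n => ζ + pr X.z y) 0) := by
    simpa using h3
  have h6 := AnalyticAt.comp (g := F ∘ (eC C).symm) (f := fun ζ : Cn n => ζ + pr X.z y) h5 h4
  refine h6.congr (Eventually.of_forall fun ζ => ?_)
  change F (C.s (ζ + pr X.z y - pr X.z y)) = F (C.s ζ)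
  rw [add_sub_cancel_right]

/-- `HolM`-type functions are continuous -/
lemma cont_of_diff {F : (X.B →ₐ[ℂ] ℂ) → ℂ}
    (hF : ∀ e : OpenPartialHomeomorph (X.B →ₐ[ℂ] ℂ) (Fin n → ℂ), IsCh e →
      DifferentiableOn ℂ (F ∘ e.symm) e.target) : Continuous F := by
  rw [continuous_iff_continuousAt]
  intro y
  have h1 := (hF (ch y) (isCh_ch y)).continuousOn.continuousAt
    ((ch y).open_target.mem_nhds ((isCh_ch y).cp_mem (mem_ch y)))
  have h2 : F =ᶠ[𝓝 y] fun x => (F ∘ (ch y).symm) (cp x) := by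
    filter_upwards [(ch y).open_source.mem_nhds (mem_ch y)] with x hx
    simp only [Function.comp_apply]
    rw [(isCh_ch y).symm_cp hx]
  refine ContinuousAt.congr ?_ h2.symm
  exact ContinuousAt.comp (g := F ∘ (ch y).symm) (f := cp) h1 cp_cont.continuousAt

lemma wB_meas [MeasurableSpace (X.B →ₐ[ℂ] ℂ)] [BorelSpace (X.B →ₐ[ℂ] ℂ)]
    {ι : Type} [Fintype ι] (S : ι → Finset X.B) (c : ι → ℝ) :
    Measurable fun y : X.B →ₐ[ℂ] ℂ => wB S c y := by
  unfold wB
  refine Finset.measurable_prod _ fun i _ => ?_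
  exact (ENNReal.measurable_ofReal.comp (wt_cont (S i)).measurable).pow_const _

section lintM_calc

variable (z : Fin n → X.B)

lemma lintM_mono {g g' : (X.B →ₐ[ℂ] ℂ) → ℝ≥0∞} (h : ∀ y, g y ≤ g' y) :
    lintM z g ≤ lintM z g' :=
  lintegral_mono fun _ => ENNReal.tsum_le_tsum fun y => h y.1

lemma lintM_const_mul (k : ℝ≥0∞) (hk : k ≠ ∞) (g : (X.B →ₐ[ℂ] ℂ) → ℝ≥0∞) :
    lintM z (fun y => k * g y) = k * lintM z g := by
  unfold lintM
  rw [← lintegral_const_mul' _ _ hk]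
  exact lintegral_congr fun ζ => ENNReal.tsum_mul_left

end lintM_calc

/-- integral over a sheet  -/
lemma lintM_sheet_le {y₀ : X.B →ₐ[ℂ] ℂ} (C : Chart X.z y₀) {r₂ : ℝ} (hr : r₂ < C.r)
    (g : (X.B →ₐ[ℂ] ℂ) → ℝ≥0∞) :
    lintM X.z ({x | x ∈ (eC C).source ∧ cp x ∈ ball (pr X.z y₀) r₂}.indicator g) ≤
      ∫⁻ ζ in ball (0 : Cn n) r₂, g (C.s ζ) := by
  classical
  set E : Set (X.B →ₐ[ℂ] ℂ) := {x | x ∈ (eC C).source ∧ cp x ∈ ball (pr X.z y₀) r₂} with hE
  have h1 : ∀ ζ : Cn n, ∑' y : {y : X.B →ₐ[ℂ] ℂ // ∀ i, y (X.z i) = ζ i}, E.indicator g y.1 ≤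
      (ball (0 : Cn n) r₂).indicator (fun ζ => g (C.s ζ)) (ζ - pr X.z y₀) := by
    intro ζ
    by_cases hζ : ζ - pr X.z y₀ ∈ ball (0 : Cn n) r₂
    · rw [indicator_of_mem hζ]
      have hζ' : ζ - pr X.z y₀ ∈ ball (0 : Cn n) C.r := ball_subset_ball hr.le hζ
      have h2 : ∀ i, C.s (ζ - pr X.z y₀) (X.z i) = ζ i := by
        intro i
        rw [C.s_z _ hζ' i]; simp
      rw [tsum_eq_single (⟨C.s (ζ - pr X.z y₀), h2⟩ :
        {y : X.B →ₐ[ℂ] ℂ // ∀ i, y (X.z i) = ζ i})]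
      · exact indicator_le_self _ _ _
      · rintro ⟨y, hy⟩ hne
        by_cases hyE : y ∈ E
        · exfalso
          apply hne
          apply Subtype.ext
          have h3 : y = C.s (pr X.z y - pr X.z y₀) := hyE.1.2
          have h4 : pr X.z y = ζ := funext hy
          rw [h4] at h3
          exact h3
        · exact indicator_of_notMem hyE _
    · rw [indicator_of_notMem hζ, nonpos_iff_eq_zero, ENNReal.tsum_eq_zero]
      rintro ⟨y, hy⟩
      refine indicator_of_notMem ?_ _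
      rintro ⟨-, h5⟩
      have h4 : cp y = ζ := funext hy
      rw [h4, mem_ball, dist_eq_norm] at h5
      exact hζ (by rw [mem_ball_zero_iff]; exact h5)
  calc lintM X.z (E.indicator g) ≤ ∫⁻ ζ : Cn n,
        (ball (0 : Cn n) r₂).indicator (fun ζ => g (C.s ζ)) (ζ - pr X.z y₀) := lintegral_mono h1
    _ = ∫⁻ ζ : Cn n, (ball (0 : Cn n) r₂).indicator (fun ζ => g (C.s ζ)) ζ :=
        lintegral_sub_right_eq_self _ _
    _ = ∫⁻ ζ in ball (0 : Cn n) r₂, g (C.s ζ) := lintegral_indicator measurableSet_ball _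

/-- the shell integral on `M` -/
lemma shellM_lt_top [MeasurableSpace (X.B →ₐ[ℂ] ℂ)] [BorelSpace (X.B →ₐ[ℂ] ℂ)]
    {μ : Measure (X.B →ₐ[ℂ] ℂ)} (hμ : IsLeb μ) {y₀ : X.B →ₐ[ℂ] ℂ} (C : Chart X.z y₀)
    {ι : Type} [Fintype ι] (S : ι → Finset X.B) (c : ι → ℝ) {r₁ r₂ : ℝ} (h2 : r₂ < C.r)
    (hsh : ∀ ζ : Cn n, r₁ ≤ ‖ζ‖ → ‖ζ‖ ≤ r₂ → LInt (fun ζ => wB S c (C.s ζ)) ζ) :
    IsCompact ((eC C).symm '' {z | r₁ ≤ ‖z - pr X.z y₀‖ ∧ ‖z - pr X.z y₀‖ ≤ r₂}) ∧
    ∫⁻ x in (eC C).symm '' {z | r₁ ≤ ‖z - pr X.z y₀‖ ∧ ‖z - pr X.z y₀‖ ≤ r₂}, wB S c x ∂μ < ∞ := by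
  set e := eC C with he'
  have he : IsCh e := eC_isCh C
  set z₀ : Cn n := pr X.z y₀ with hz₀
  have hB : closedBall z₀ r₂ ⊆ e.target := closedBall_subset_ball h2
  set K' : Set (Cn n) := {z | r₁ ≤ ‖z - z₀‖ ∧ ‖z - z₀‖ ≤ r₂} with hK'def
  have hK'sub : K' ⊆ closedBall z₀ r₂ := fun z hz => by
    rw [mem_closedBall, dist_eq_norm]; exact hz.2
  have hK' : IsCompact K' := by
    refine (isCompact_closedBall z₀ r₂).of_isClosed_subset ?_ hK'sub
    have hcont : Continuous fun z : Cn n => ‖z - z₀‖ := by fun_prop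
    exact (isClosed_le continuous_const hcont).inter (isClosed_le hcont continuous_const)
  have hKt : K' ⊆ e.target := hK'sub.trans hB
  set K'' : Set (Cn n) := {ζ | r₁ ≤ ‖ζ‖ ∧ ‖ζ‖ ≤ r₂} with hK''def
  have hK'' : IsCompact K'' := by
    refine (isCompact_closedBall (0 : Cn n) r₂).of_isClosed_subset ?_ fun z hz => by
      rw [mem_closedBall_zero_iff]; exact hz.2
    have hcont : Continuous fun z : Cn n => ‖z‖ := by fun_prop
    exact (isClosed_le continuous_const hcont).inter (isClosed_le hcont continuous_const)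
  set Kc := e.symm '' K' with hKcdef
  have hKc : IsCompact Kc := isCompact_symm_image hK' hKt
  have hsource : Kc ⊆ e.source := by
    rintro _ ⟨z, hz, rfl⟩
    exact e.map_target (hKt hz)
  refine ⟨hKc, ?_⟩
  have h1 : ∫⁻ x in Kc, wB S c x ∂μ = ∫⁻ x in e.source, Kc.indicator (wB S c) x ∂μ := by
    rw [lintegral_indicator hKc.measurableSet, Measure.restrict_restrict hKc.measurableSet,
      inter_eq_left.mpr hsource]
  rw [h1, lintegral_chart hμ he ((wB_meas S c).indicator hKc.measurableSet).aemeasurable]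
  have h3 : ∀ z, z ∈ e.target → Kc.indicator (wB S c) (e.symm z) ≤
      K''.indicator (fun ζ => wB S c (C.s ζ)) (z - z₀) := by
    intro z hz
    by_cases hzK : e.symm z ∈ Kc
    · obtain ⟨z', hz', hzz⟩ := hzK
      have h4 : z' = z := by
        have := congrArg (cp (M := X.B →ₐ[ℂ] ℂ)) hzz
        rwa [he.cp_symm (hKt hz'), he.cp_symm hz] at this
      subst h4
      rw [indicator_of_mem (s := K'') (show z' - z₀ ∈ K'' from hz')]
      exact indicator_le_self _ _ _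
    · rw [indicator_of_notMem hzK]; exact zero_le
  calc ∫⁻ z in e.target, Kc.indicator (wB S c) (e.symm z)
      ≤ ∫⁻ z in e.target, K''.indicator (fun ζ => wB S c (C.s ζ)) (z - z₀) :=
        setLIntegral_mono' e.open_target.measurableSet h3
    _ ≤ ∫⁻ z, K''.indicator (fun ζ => wB S c (C.s ζ)) (z - z₀) := setLIntegral_le_lintegral _ _
    _ = ∫⁻ ζ, K''.indicator (fun ζ => wB S c (C.s ζ)) ζ := lintegral_sub_right_eq_self _ _
    _ = ∫⁻ ζ in K'', wB S c (C.s ζ) := lintegral_indicator hK''.measurableSet _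
    _ < ∞ := shell_lt_top _ K'' hK'' fun ζ hζ => hsh ζ hζ.1 hζ.2

lemma sumY_pos (Y : Fin (n + 1) → X.B) (hY0 : IsUnit (Y 0)) (y : X.B →ₐ[ℂ] ℂ) :
    0 < ∑ j, ‖y (Y j)‖ ^ 2 := by
  have h1 : y (Y 0) ≠ 0 := (hY0.map y).ne_zero
  have h2 : 0 < ‖y (Y 0)‖ := norm_pos_iff.mpr h1
  rw [Fin.sum_univ_succ]
  have : 0 ≤ ∑ i : Fin n, ‖y (Y i.succ)‖ ^ 2 := Finset.sum_nonneg fun _ _ => by positivity
  positivity

lemma sumY_cont (Y : Fin (n + 1) → X.B) : Continuous fun y : X.B →ₐ[ℂ] ℂ => ∑ j, ‖y (Y j)‖ ^ 2 :=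
  continuous_finsetSum _ fun j _ => (continuous_ev (Y j)).norm.pow 2

/-- `F(y₀) = 1` if the weight is not integrable at `y₀` -/
lemma lint_of_ne [MeasurableSpace (X.B →ₐ[ℂ] ℂ)] [BorelSpace (X.B →ₐ[ℂ] ℂ)]
    {μ : Measure (X.B →ₐ[ℂ] ℂ)} (hμ : IsLeb μ) {y₀ : X.B →ₐ[ℂ] ℂ} (C : Chart X.z y₀)
    {ι : Type} [Fintype ι] (S : ι → Finset X.B) (c : ι → ℝ) (Y : Fin (n + 1) → X.B)
    (hY0 : IsUnit (Y 0)) (a : ℝ) {r₁ : ℝ} (h0 : 0 < r₁) (hr : r₁ < C.r)
    (F : (X.B →ₐ[ℂ] ℂ) → ℂ) (hF : Continuous F) (χ : (X.B →ₐ[ℂ] ℂ) → ℝ) (hχ : Continuous χ)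
    (hχ1 : ∀ z ∈ ball (pr X.z y₀) r₁, χ ((eC C).symm z) = 1)
    (hint : ∫⁻ x, ENNReal.ofReal (‖F x - χ x‖ ^ 2) *
      (wB S c x * (ENNReal.ofReal (∑ j, ‖x (Y j)‖ ^ 2)) ^ (-a)) ∂μ < ∞)
    (hne : F y₀ ≠ 1) : LInt (fun ζ => wB S c (C.s ζ)) 0 := by
  have hsY : Continuous fun x : X.B →ₐ[ℂ] ℂ => (∑ j, ‖x (Y j)‖ ^ 2) ^ (-a) :=
    (sumY_cont Y).rpow_const fun x => Or.inl (sumY_pos Y hY0 x).ne'
  set q : (X.B →ₐ[ℂ] ℂ) → ℝ := fun x => ‖F x - 1‖ ^ 2 * (∑ j, ‖x (Y j)‖ ^ 2) ^ (-a) with hq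
  have hqc : Continuous q := ((hF.sub continuous_const).norm.pow 2).mul hsY
  have hq0 : 0 < q y₀ := by
    have h1 : 0 < ‖F y₀ - 1‖ := norm_pos_iff.mpr (sub_ne_zero.mpr hne)
    have h2 := sumY_pos Y hY0 y₀
    simp only [hq]
    positivity
  set δ := q y₀ / 2 with hδ
  have hδ0 : 0 < δ := by positivity
  have hW : ∀ᶠ x in 𝓝 y₀, δ < q x := hqc.continuousAt.eventually (lt_mem_nhds (by
    rw [hδ]; linarith))
  have hCs : ContinuousAt (C.s : Cn n → Pt X.B) 0 := chart_continuousAt C (mem_ball_self C.r_pos)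
  have hCs' : Tendsto (C.s : Cn n → Pt X.B) (𝓝 0) (𝓝 y₀) := by
    have := hCs.tendsto
    rwa [C.s_zero] at this
  have hW' : ∀ᶠ ζ in 𝓝 (0 : Cn n), δ < q (C.s ζ) := hCs'.eventually hW
  have hball : ∀ᶠ ζ in 𝓝 (0 : Cn n), ζ ∈ ball (0 : Cn n) r₁ := isOpen_ball.mem_nhds (mem_ball_self h0)
  set h : (X.B →ₐ[ℂ] ℂ) → ℝ≥0∞ := fun x => ENNReal.ofReal (‖F x - χ x‖ ^ 2) *
      (wB S c x * (ENNReal.ofReal (∑ j, ‖x (Y j)‖ ^ 2)) ^ (-a)) with hh
  have hχc : Continuous fun x => ((χ x : ℝ) : ℂ) := Complex.continuous_ofReal.comp hχ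
  have hmeas : Measurable h := by
    refine Measurable.mul ?_ ((wB_meas S c).mul ?_)
    · exact ENNReal.measurable_ofReal.comp ((hF.sub hχc).norm.pow 2).measurable
    · exact (ENNReal.measurable_ofReal.comp (sumY_cont Y).measurable).pow_const _
  have hpt : ∀ ζ, δ < q (C.s ζ) → ζ ∈ ball (0 : Cn n) r₁ →
      ENNReal.ofReal δ * wB S c (C.s ζ) ≤ h (C.s ζ) := by
    intro ζ h1 h2
    have h3 : χ (C.s ζ) = 1 := by
      have := hχ1 (ζ + pr X.z y₀) (by rw [mem_ball, dist_eq_norm]; simpa using h2)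
      change χ (C.s (ζ + pr X.z y₀ - pr X.z y₀)) = 1 at this
      rwa [add_sub_cancel_right] at this
    simp only [hh, h3]
    rw [ENNReal.ofReal_rpow_of_pos (sumY_pos Y hY0 _)]
    calc ENNReal.ofReal δ * wB S c (C.s ζ) ≤ ENNReal.ofReal (q (C.s ζ)) * wB S c (C.s ζ) := by
          gcongr
      _ = _ := by
          simp only [hq]
          rw [ENNReal.ofReal_mul (by positivity), Complex.ofReal_one]
          ring
  obtain ⟨ρ, hρ, hρ1⟩ := Metric.eventually_nhds_iff_ball.mp (hW'.and hball)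
  refine ⟨ball 0 ρ, ball_mem_nhds _ hρ, ?_⟩
  have hsub : ball (0 : Cn n) ρ ⊆ ball 0 r₁ := fun ζ hζ => (hρ1 ζ hζ).2
  have hle : ENNReal.ofReal δ * ∫⁻ ζ in ball (0 : Cn n) ρ, wB S c (C.s ζ) ≤
      ∫⁻ x, h x ∂μ := by
    rw [← lintegral_const_mul' _ _ ENNReal.ofReal_ne_top]
    calc ∫⁻ ζ in ball (0 : Cn n) ρ, ENNReal.ofReal δ * wB S c (C.s ζ)
        ≤ ∫⁻ ζ in ball (0 : Cn n) ρ, h (C.s ζ) :=
          setLIntegral_mono' measurableSet_ball fun ζ hζ => hpt ζ (hρ1 ζ hζ).1 (hρ1 ζ hζ).2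
      _ = ∫⁻ ζ, (ball (0 : Cn n) ρ).indicator (fun ζ => h (C.s ζ)) ζ :=
          (lintegral_indicator measurableSet_ball _).symm
      _ = ∫⁻ z, (ball (0 : Cn n) ρ).indicator (fun ζ => h (C.s ζ)) (z - pr X.z y₀) :=
          (lintegral_sub_right_eq_self _ _).symm
      _ ≤ ∫⁻ z, (eC C).target.indicator (fun z => h ((eC C).symm z)) z := by
          refine lintegral_mono fun z => ?_
          by_cases hz : z - pr X.z y₀ ∈ ball (0 : Cn n) ρ
          · have hz' : z ∈ (eC C).target := by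
              have := ball_subset_ball hr.le (hsub hz)
              rw [mem_ball_zero_iff] at this
              change z ∈ ball _ _
              rwa [mem_ball, dist_eq_norm]
            rw [indicator_of_mem hz, indicator_of_mem hz']
            rfl
          · rw [indicator_of_notMem hz]; exact zero_le
      _ = ∫⁻ z in (eC C).target, h ((eC C).symm z) :=
          lintegral_indicator (eC C).open_target.measurableSet _
      _ = ∫⁻ x in (eC C).source, h x ∂μ :=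
          (lintegral_chart hμ (eC_isCh C) hmeas.aemeasurable).symm
      _ ≤ ∫⁻ x, h x ∂μ := setLIntegral_le_lintegral _ _
  by_contra hcon
  rw [not_lt, top_le_iff] at hcon
  rw [hcon, ENNReal.mul_top (by simpa using hδ0)] at hle
  exact absurd hint (by simpa using hle)

/-- (G3) the global solver from the engine -/
theorem solver_of [MeasurableSpace (X.B →ₐ[ℂ] ℂ)] [BorelSpace (X.B →ₐ[ℂ] ℂ)]
    (μ : Measure (X.B →ₐ[ℂ] ℂ)) (hμ : IsLeb μ) (eng : EngineFor (X.B →ₐ[ℂ] ℂ) μ)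
    (hT1 : ∀ g : (X.B →ₐ[ℂ] ℂ) → ℝ≥0∞, Measurable g → lintM X.z g ≤ ∫⁻ y, g y ∂μ)
    (hT2 : ∀ g : (X.B →ₐ[ℂ] ℂ) → ℝ≥0∞, Measurable g →
      Measurable fun ζ : Cn n => ∑' y : {y : X.B →ₐ[ℂ] ℂ // ∀ i, y (X.z i) = ζ i}, g y.1) :
    SolverStmt X := by
  intro y₀ C ι _ S c Y a r₁ r₂ hc hS hY0 hYz ha h0 h12 h2 hsh
  have he : IsCh (eC C) := eC_isCh C
  have hB : closedBall (pr X.z y₀) r₂ ⊆ (eC C).target := closedBall_subset_ball h2
  obtain ⟨χ, hχs, hχ01, hχ1, hχsupp, hχD⟩ := exists_cutoff he (pr X.z y₀) h0 h12 hB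
  obtain ⟨hKc, hKint⟩ := shellM_lt_top hμ C S c h2 hsh
  obtain ⟨ρ, hρs, hρc, hρL⟩ := exists_rho X
  set f : ∀ i, {b // b ∈ S i} → (X.B →ₐ[ℂ] ℂ) → ℂ := fun i b y => y b.1 with hf
  have hwF : ∀ y, wF f c y = wB S c y := by
    intro y
    unfold wF wB
    exact Finset.prod_congr rfl fun i _ => by rw [nS_eval]
  obtain ⟨F, hFd, hFi⟩ := solverM μ eng ρ hρs hρc hρL f (fun i b => hol_eval b.1) c hc
    (fun j y => y (Y j)) (fun j => hol_eval (Y j)) (fun y => (hY0.map y).ne_zero)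
    (fun y i => by
      have h3 := congrArg y (hYz i)
      rw [map_mul] at h3
      exact h3) a ha χ hχs _ hKc hχD (by simpa only [hwF] using hKint)
  have hFc : Continuous F := cont_of_diff hFd
  have hFi' : ∫⁻ x, ENNReal.ofReal (‖F x - χ x‖ ^ 2) *
      (wB S c x * (ENNReal.ofReal (∑ j, ‖x (Y j)‖ ^ 2)) ^ (-a)) ∂μ < ∞ := by
    simp only [hwF] at hFi
    exact hFi
  refine ⟨F, holM_of hFd, ?_, ?_⟩
  · intro hnot
    by_contra hne
    exact hnot (lint_of_ne hμ C S c Y hY0 a h0 (h12.trans h2) F hFc χ hχs.continuous hχ1 hFi' hne)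
  · intro g K hK hg hgint
    set h : (X.B →ₐ[ℂ] ℂ) → ℝ≥0∞ := fun x => ENNReal.ofReal (‖F x - χ x‖ ^ 2) *
      (wB S c x * (ENNReal.ofReal (∑ j, ‖x (Y j)‖ ^ 2)) ^ (-a)) with hh
    have hχc : Continuous fun x => ((χ x : ℝ) : ℂ) := Complex.continuous_ofReal.comp hχs.continuous
    have hmeas : Measurable h := by
      refine Measurable.mul ?_ ((wB_meas S c).mul ?_)
      · exact ENNReal.measurable_ofReal.comp ((hFc.sub hχc).norm.pow 2).measurable
      · exact (ENNReal.measurable_ofReal.comp (sumY_cont Y).measurable).pow_const _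
    set E : Set (X.B →ₐ[ℂ] ℂ) := {x | x ∈ (eC C).source ∧ cp x ∈ ball (pr X.z y₀) r₂} with hE
    have hpt : ∀ y, ENNReal.ofReal (‖F y‖ ^ 2) * g y ≤
        (2 * K) * h y + 2 * E.indicator g y := by
      intro y
      have h3 : ‖F y‖ ^ 2 ≤ 2 * ‖F y - χ y‖ ^ 2 + 2 * (χ y) ^ 2 := by
        have h4 : ‖F y‖ ≤ ‖F y - χ y‖ + |χ y| := by
          have := norm_add_le (F y - χ y) (χ y : ℂ)
          rw [sub_add_cancel, Complex.norm_real, Real.norm_eq_abs] at this
          exact this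
        have h5 : |χ y| ^ 2 = χ y ^ 2 := sq_abs _
        nlinarith [sq_nonneg (‖F y - χ y‖ - |χ y|), norm_nonneg (F y), norm_nonneg (F y - χ y),
          abs_nonneg (χ y)]
      calc ENNReal.ofReal (‖F y‖ ^ 2) * g y
          ≤ ENNReal.ofReal (2 * ‖F y - χ y‖ ^ 2 + 2 * (χ y) ^ 2) * g y := by gcongr
        _ = 2 * (ENNReal.ofReal (‖F y - χ y‖ ^ 2) * g y) + 2 * (ENNReal.ofReal (χ y ^ 2) * g y) := by
            rw [ENNReal.ofReal_add (by positivity) (by positivity),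
              ENNReal.ofReal_mul (by norm_num), ENNReal.ofReal_mul (by norm_num)]
            simp only [ENNReal.ofReal_ofNat]
            ring
        _ ≤ (2 * K) * h y + 2 * E.indicator g y := by
            refine add_le_add ?_ ?_
            · calc 2 * (ENNReal.ofReal (‖F y - χ y‖ ^ 2) * g y)
                  ≤ 2 * (ENNReal.ofReal (‖F y - χ y‖ ^ 2) *
                    (K * (wB S c y * (ENNReal.ofReal (∑ j, ‖y (Y j)‖ ^ 2)) ^ (-a)))) := by
                    gcongr; exact hg y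
                _ = (2 * K) * h y := by simp only [hh]; ring
            · gcongr
              by_cases hy : χ y = 0
              · simp [hy]
              · rw [indicator_of_mem (show y ∈ E from hχsupp y hy)]
                calc ENNReal.ofReal (χ y ^ 2) * g y ≤ 1 * g y := by
                      gcongr
                      rw [← ENNReal.ofReal_one]
                      apply ENNReal.ofReal_le_ofReal
                      have := hχ01 y
                      nlinarith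
                  _ = g y := one_mul _
    have hh1 : lintM X.z h ≤ ∫⁻ y, h y ∂μ := hT1 h hmeas
    calc lintM X.z (fun y => ENNReal.ofReal (‖F y‖ ^ 2) * g y)
        ≤ lintM X.z (fun y => (2 * K) * h y + 2 * E.indicator g y) := lintM_mono X.z hpt
      _ = lintM X.z (fun y => (2 * K) * h y) + lintM X.z (fun y => 2 * E.indicator g y) := by
          unfold lintM
          rw [← lintegral_add_left (hT2 _ (hmeas.const_mul _))]
          exact lintegral_congr fun ζ => ENNReal.tsum_add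
      _ = (2 * K) * lintM X.z h + 2 * lintM X.z (E.indicator g) := by
          rw [lintM_const_mul X.z _ (by finiteness), lintM_const_mul X.z _ (by finiteness)]
      _ < ∞ := by
          refine ENNReal.add_lt_top.mpr ⟨?_, ?_⟩
          · exact ENNReal.mul_lt_top (by finiteness) (lt_of_le_of_lt hh1 hFi')
          · exact ENNReal.mul_lt_top (by finiteness) (lt_of_le_of_lt (lintM_sheet_le C h2 g) hgint)

end ctx

end Crest.Agent.R271.G792
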