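import Mathlib
import Crest.Agent.R271.Defs_710
import Crest.Agent.R271.Rd4_692
import Crest.Agent.R271.Ord_969

/-!
Row 271, G4: growth of the elements of `B` (BB4) and local facts for `MultIdeal` (AF7). helper131.
-/

set_option autoImplicit false

open scoped Topology ENNReal NNReal BigOperators
open Filter Set MeasureTheory

noncomputable section

namespace Crest.Agent.R271.G4x131

open Crest.Agent.R271.Defs710 Crest.Agent.R271.Rd692

variable {n : ℕ}

/-! ### growth -/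

section growth

variable (X : FCtx n)

/-- `1 + |z|²` -/
def W (y : X.B →ₐ[ℂ] ℂ) : ℝ := 1 + ∑ i, ‖y (X.z i)‖ ^ 2

lemma one_le_W (y : X.B →ₐ[ℂ] ℂ) : 1 ≤ W X y := by
  unfold W
  have : 0 ≤ ∑ i, ‖y (X.z i)‖ ^ 2 := Finset.sum_nonneg fun i _ => by positivity
  linarith

lemma W_pos (y : X.B →ₐ[ℂ] ℂ) : 0 < W X y := lt_of_lt_of_le one_pos (one_le_W X y)

/-- polynomial growth in `z` -/
def PG (b : X.B) : Prop := ∃ (C : ℝ) (K : ℕ), 1 ≤ C ∧ ∀ y : X.B →ₐ[ℂ] ℂ, ‖y b‖ ≤ C * W X y ^ K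

lemma PG.add {a b : X.B} (ha : PG X a) (hb : PG X b) : PG X (a + b) := by
  obtain ⟨C, K, hC, h⟩ := ha
  obtain ⟨C', K', hC', h'⟩ := hb
  refine ⟨C + C', K + K', by linarith, fun y => ?_⟩
  have h1 := one_le_W X y
  have hK : W X y ^ K ≤ W X y ^ (K + K') := pow_le_pow_right₀ h1 (by omega)
  have hK' : W X y ^ K' ≤ W X y ^ (K + K') := pow_le_pow_right₀ h1 (by omega)
  rw [map_add]
  calc ‖y a + y b‖ ≤ ‖y a‖ + ‖y b‖ := norm_add_le _ _
    _ ≤ C * W X y ^ K + C' * W X y ^ K' := add_le_add (h y) (h' y)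
    _ ≤ C * W X y ^ (K + K') + C' * W X y ^ (K + K') := by gcongr
    _ = _ := by ring

lemma PG.mul {a b : X.B} (ha : PG X a) (hb : PG X b) : PG X (a * b) := by
  obtain ⟨C, K, hC, h⟩ := ha
  obtain ⟨C', K', hC', h'⟩ := hb
  refine ⟨C * C', K + K', by nlinarith, fun y => ?_⟩
  rw [map_mul, norm_mul]
  calc ‖y a‖ * ‖y b‖ ≤ (C * W X y ^ K) * (C' * W X y ^ K') :=
        mul_le_mul (h y) (h' y) (norm_nonneg _) (by have := W_pos X y; positivity)
    _ = _ := by ring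

lemma PG.const (c : ℂ) : PG X (algebraMap ℂ X.B c) := by
  refine ⟨1 + ‖c‖, 0, by have := norm_nonneg c; linarith, fun y => ?_⟩
  simp

lemma PG.z (i : Fin n) : PG X (X.z i) := by
  refine ⟨1, 1, le_refl _, fun y => ?_⟩
  have h1 : ‖y (X.z i)‖ ^ 2 ≤ ∑ i, ‖y (X.z i)‖ ^ 2 :=
    Finset.single_le_sum (f := fun i => ‖y (X.z i)‖ ^ 2) (fun i _ => by positivity) (Finset.mem_univ i)
  unfold W
  nlinarith [norm_nonneg (y (X.z i)), sq_nonneg (‖y (X.z i)‖ - 1)]

/-- the subalgebra of elements of polynomial growth -/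
def PGalg : Subalgebra ℂ X.B where
  carrier := {b | PG X b}
  mul_mem' := fun ha hb => PG.mul X ha hb
  add_mem' := fun ha hb => PG.add X ha hb
  algebraMap_mem' := PG.const X

lemma adjoin_le : Algebra.adjoin ℂ (Set.range X.z) ≤ PGalg X := by
  apply Algebra.adjoin_le
  rintro _ ⟨i, rfl⟩
  exact PG.z X i

/-- root bound: `a` integral over functions of polynomial growth -/
lemma root_bound {r : ℕ} (a : ℂ) (p : ℕ → ℂ) (h : a ^ r = - ∑ i ∈ Finset.range r, p i * a ^ i)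
    : ‖a‖ ≤ 1 + ∑ i ∈ Finset.range r, ‖p i‖ := by
  have hS : 0 ≤ ∑ i ∈ Finset.range r, ‖p i‖ := Finset.sum_nonneg fun i _ => norm_nonneg _
  by_cases ha : ‖a‖ ≤ 1
  · linarith
  push Not at ha
  rcases Nat.eq_zero_or_pos r with hr | hr
  · subst hr
    simp at h
  have h1 : ‖a‖ ^ r ≤ ∑ i ∈ Finset.range r, ‖p i‖ * ‖a‖ ^ (r - 1) := by
    rw [← norm_pow, h, norm_neg]
    refine (norm_sum_le _ _).trans (Finset.sum_le_sum fun i hi => ?_)
    rw [norm_mul, norm_pow]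
    have : i ≤ r - 1 := by have := Finset.mem_range.mp hi; omega
    gcongr
    exact ha.le
  rw [← Finset.sum_mul] at h1
  have h2 : ‖a‖ ^ r = ‖a‖ * ‖a‖ ^ (r - 1) := by
    rw [← pow_succ']; congr 1; omega
  rw [h2] at h1
  have h3 : 0 < ‖a‖ ^ (r - 1) := by positivity
  have h4 := le_of_mul_le_mul_right h1 h3
  linarith

lemma PG_of_mem_A {a : X.B} (ha : a ∈ X.A) : PG X a := by
  obtain ⟨p, hp, hpa⟩ := X.A_int a ha
  have hcoef : ∀ i, PG X (p.coeff i : X.B) := fun i => adjoin_le X (p.coeff i).2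
  -- finite sum of the coefficients
  choose C K hC hCK using hcoef
  set r := p.natDegree with hr
  set Kt := ∑ i ∈ Finset.range r, K i with hKt
  refine ⟨1 + ∑ i ∈ Finset.range r, C i, Kt, ?_, fun y => ?_⟩
  · have : 0 ≤ ∑ i ∈ Finset.range r, C i := Finset.sum_nonneg fun i _ => by linarith [hC i]
    linarith
  have h1 : (y a) ^ r = - ∑ i ∈ Finset.range r, y (p.coeff i : X.B) * (y a) ^ i := by
    have h2 : ∑ i ∈ Finset.range (r + 1), (p.coeff i : X.B) * a ^ i = 0 := by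
      rw [Polynomial.eval₂_eq_sum_range] at hpa
      exact hpa
    rw [Finset.sum_range_succ] at h2
    have h3 : (p.coeff r : X.B) = 1 := by
      rw [hr, show p.coeff p.natDegree = 1 from hp]; rfl
    rw [h3, one_mul] at h2
    have h4 := congrArg y h2
    simp only [map_add, map_sum, map_mul, map_pow, map_zero] at h4
    linear_combination h4
  have h5 := root_bound (y a) (fun i => y (p.coeff i : X.B)) h1
  have h6 := one_le_W X y
  have h7 : ∀ i ∈ Finset.range r, ‖y (p.coeff i : X.B)‖ ≤ C i * W X y ^ Kt := by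
    intro i hi
    refine (hCK i y).trans ?_
    have : K i ≤ Kt := Finset.single_le_sum (f := K) (fun _ _ => Nat.zero_le _) hi
    have hp : W X y ^ K i ≤ W X y ^ Kt := pow_le_pow_right₀ h6 this
    exact mul_le_mul_of_nonneg_left hp (by linarith [hC i])
  calc ‖y a‖ ≤ 1 + ∑ i ∈ Finset.range r, ‖y (p.coeff i : X.B)‖ := h5
    _ ≤ 1 * W X y ^ Kt + ∑ i ∈ Finset.range r, C i * W X y ^ Kt := by
        refine add_le_add ?_ (Finset.sum_le_sum h7)
        rw [one_mul]; exact one_le_pow₀ h6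
    _ = _ := by rw [← Finset.sum_mul]; ring

/-- BB4: growth of an arbitrary element of `B` -/
theorem growthB (b : X.B) : ∃ (C : ℝ) (N K : ℕ), 1 ≤ C ∧
    ∀ y : X.B →ₐ[ℂ] ℂ, ‖y b‖ * ‖y X.h‖ ^ N ≤ C * W X y ^ K := by
  obtain ⟨N, hN⟩ := X.h_loc b
  obtain ⟨C, K, hC, h⟩ := PG_of_mem_A X hN
  refine ⟨C, N, K, hC, fun y => ?_⟩
  have := h y
  rw [map_mul, map_pow, norm_mul, norm_pow] at this
  rwa [mul_comm]

theorem growth_h : ∃ (C : ℝ) (K : ℕ), 1 ≤ C ∧ ∀ y : X.B →ₐ[ℂ] ℂ, ‖y X.h‖ ≤ C * W X y ^ K :=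
  PG_of_mem_A X X.h_mem

end growth

end Crest.Agent.R271.G4x131
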