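import Crest.Agent.R271.Defs_710
import Crest.Agent.R271.L0_934
import Crest.Agent.R271.G4a_131
import Crest.Agent.R271.GSpec_792

/-!
# Row 271, G4 (helper747): multiplier ideals (AF7), `MultIdeal X`, from the global solver (G3) and
algebraicity (G2).
-/

set_option autoImplicit false

open scoped ENNReal NNReal Topology BigOperators
open MeasureTheory Filter Set Metric

noncomputable section

namespace Crest.Agent.R271.G4_747

open Crest.Agent.R271.Defs710 Crest.Agent.R271.GSpec792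

/-! ### `LInt` calculus -/

variable {n : ℕ}

theorem LInt.mono_near {f g : Cn n → ℝ≥0∞} {a : Cn n} (hg : LInt g a) {K : ℝ≥0∞} (hK : K ≠ ∞)
    (h : ∀ᶠ ζ in 𝓝 a, f ζ ≤ K * g ζ) : LInt f a := by
  obtain ⟨U, hU, hfin⟩ := hg
  obtain ⟨W, hWsub, hWo, haW⟩ := _root_.mem_nhds_iff.1 (inter_mem hU h)
  refine ⟨W, hWo.mem_nhds haW, ?_⟩
  calc ∫⁻ ζ in W, f ζ ≤ ∫⁻ ζ in W, K * g ζ :=
        setLIntegral_mono' hWo.measurableSet fun ζ hζ => (hWsub hζ).2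
    _ = K * ∫⁻ ζ in W, g ζ := lintegral_const_mul' _ _ hK
    _ ≤ K * ∫⁻ ζ in U, g ζ := by gcongr; exact fun ζ hζ => (hWsub hζ).1
    _ < ∞ := ENNReal.mul_lt_top hK.lt_top hfin

theorem LInt.of_ball {g : Cn n → ℝ≥0∞} {ρ : ℝ} (h : ∫⁻ ζ in ball (0 : Cn n) ρ, g ζ < ∞) {a : Cn n}
    (ha : a ∈ ball (0 : Cn n) ρ) : LInt g a :=
  ⟨ball 0 ρ, isOpen_ball.mem_nhds ha, h⟩

theorem LInt.add {f g : Cn n → ℝ≥0∞} {a : Cn n} (hf : LInt f a) (hg : LInt g a)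
    {W : Set (Cn n)} (hW : W ∈ 𝓝 a) (hm : AEMeasurable f (volume.restrict W)) :
    LInt (fun ζ => f ζ + g ζ) a := by
  obtain ⟨U, hU, hfin⟩ := hf
  obtain ⟨U', hU', hfin'⟩ := hg
  refine ⟨U ∩ U' ∩ W, inter_mem (inter_mem hU hU') hW, ?_⟩
  have hm' : AEMeasurable f (volume.restrict (U ∩ U' ∩ W)) :=
    hm.mono_measure (Measure.restrict_mono_set _ inter_subset_right)
  rw [lintegral_add_left' hm']
  refine ENNReal.add_lt_top.2 ⟨?_, ?_⟩
  · exact (lintegral_mono_set (inter_subset_left.trans inter_subset_left)).trans_lt hfin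
  · exact (lintegral_mono_set (inter_subset_left.trans inter_subset_right)).trans_lt hfin'

theorem LInt.finset_sum {α : Type*} {T : Finset α} {f : α → Cn n → ℝ≥0∞} {a : Cn n}
    {W : Set (Cn n)} (hW : W ∈ 𝓝 a) (hf : ∀ t ∈ T, LInt (f t) a)
    (hm : ∀ t ∈ T, AEMeasurable (f t) (volume.restrict W)) :
    LInt (fun ζ => ∑ t ∈ T, f t ζ) a := by
  classical
  induction T using Finset.induction_on with
  | empty => exact ⟨univ, univ_mem, by simp⟩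
  | insert t T ht ih =>
    simp only [Finset.sum_insert ht]
    exact LInt.add (hf t (Finset.mem_insert_self _ _))
      (ih (fun s hs => hf s (Finset.mem_insert_of_mem hs))
        (fun s hs => hm s (Finset.mem_insert_of_mem hs))) hW (hm t (Finset.mem_insert_self _ _))

/-! ### Charts -/

section chart

variable {B : Type} [CommRing B] [Algebra ℂ B] {z : Fin n → B} {y : B →ₐ[ℂ] ℂ}

theorem contOn (C : Chart z y) (b : B) : ContinuousOn (fun ζ => C.s ζ b) (ball 0 C.r) :=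
  (C.anal b).continuousOn

theorem ball_mem (C : Chart z y) : ball (0 : Cn n) C.r ∈ 𝓝 (0 : Cn n) :=
  ball_mem_nhds _ C.r_pos

theorem contAt (C : Chart z y) (b : B) : ContinuousAt (fun ζ => C.s ζ b) 0 :=
  (contOn C b).continuousAt (ball_mem C)

theorem wt_contOn (C : Chart z y) (S : Finset B) :
    ContinuousOn (fun ζ => wt S (C.s ζ)) (ball 0 C.r) := by
  unfold wt
  exact continuousOn_finsetSum _ fun b _ => ((contOn C b).norm).pow 2

theorem wt_contAt (C : Chart z y) (S : Finset B) : ContinuousAt (fun ζ => wt S (C.s ζ)) 0 :=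
  (wt_contOn C S).continuousAt (ball_mem C)

theorem wt_nonneg (S : Finset B) (y : B →ₐ[ℂ] ℂ) : 0 ≤ wt S y :=
  Finset.sum_nonneg fun _ _ => by positivity

theorem wB_aem (C : Chart z y) {ι : Type} [Fintype ι] (S : ι → Finset B) (c : ι → ℝ) :
    AEMeasurable (fun ζ => wB S c (C.s ζ)) (volume.restrict (ball (0 : Cn n) C.r)) := by
  unfold wB
  have h : ∀ i ∈ (Finset.univ : Finset ι), AEMeasurable
      (fun ζ => (ENNReal.ofReal (wt (S i) (C.s ζ))) ^ (-(c i)))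
      (volume.restrict (ball (0 : Cn n) C.r)) := fun i _ =>
    (((wt_contOn C (S i)).aemeasurable measurableSet_ball).ennreal_ofReal).pow_const _
  exact Finset.aemeasurable_fun_prod _ h

theorem ns_aem (C : Chart z y) (b : B) :
    AEMeasurable (fun ζ => ENNReal.ofReal (‖C.s ζ b‖ ^ 2))
      (volume.restrict (ball (0 : Cn n) C.r)) :=
  ((((contOn C b).norm).pow 2).aemeasurable measurableSet_ball).ennreal_ofReal

/-- `‖b‖²` is bounded above near `y` -/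
theorem ns_bdd (C : Chart z y) (b : B) :
    ∃ K : ℝ, 0 < K ∧ ∀ᶠ ζ in 𝓝 (0 : Cn n), ‖C.s ζ b‖ ^ 2 ≤ K := by
  refine ⟨‖y b‖ ^ 2 + 1, by positivity, ?_⟩
  have h : Tendsto (fun ζ => ‖C.s ζ b‖ ^ 2) (𝓝 0) (𝓝 (‖C.s 0 b‖ ^ 2)) :=
    ((contAt C b).norm.pow 2)
  rw [C.s_zero] at h
  exact h.eventually_le_const (by linarith)

theorem wt_bdd (C : Chart z y) (S : Finset B) :
    ∃ K : ℝ, 1 ≤ K ∧ ∀ᶠ ζ in 𝓝 (0 : Cn n), wt S (C.s ζ) ≤ K := by
  have h0 := wt_nonneg S y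
  refine ⟨wt S y + 1, by linarith, ?_⟩
  have h : Tendsto (fun ζ => wt S (C.s ζ)) (𝓝 0) (𝓝 (wt S (C.s 0))) := wt_contAt C S
  rw [C.s_zero] at h
  exact h.eventually_le_const (by linarith)

/-- `‖b‖²` is bounded below near `y` if `b(y) ≠ 0` -/
theorem ns_pos (C : Chart z y) (b : B) (hb : y b ≠ 0) :
    ∃ δ : ℝ, 0 < δ ∧ ∀ᶠ ζ in 𝓝 (0 : Cn n), δ ≤ ‖C.s ζ b‖ ^ 2 := by
  have hpos : 0 < ‖y b‖ ^ 2 := by positivity
  refine ⟨‖y b‖ ^ 2 / 2, by positivity, ?_⟩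
  have h : Tendsto (fun ζ => ‖C.s ζ b‖ ^ 2) (𝓝 0) (𝓝 (‖C.s 0 b‖ ^ 2)) :=
    ((contAt C b).norm.pow 2)
  rw [C.s_zero] at h
  exact h.eventually_const_le (by linarith)

theorem wB_sum {ι κ : Type} [Fintype ι] [Fintype κ] (S : ι → Finset B) (T : κ → Finset B)
    (c : ι → ℝ) (d : κ → ℝ) (y : B →ₐ[ℂ] ℂ) :
    wB (Sum.elim S T) (Sum.elim c d) y = wB S c y * wB T d y := by
  simp [wB, Fintype.prod_sum_type]

theorem wB_unit (T : Finset B) (d : ℝ) (y : B →ₐ[ℂ] ℂ) :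
    wB (fun _ : Unit => T) (fun _ => d) y = (ENNReal.ofReal (wt T y)) ^ (-d) := by
  simp [wB]

/-- the chart integral is bounded by the integral over `M` -/
theorem lint_chart_le (C : Chart z y) (g : (B →ₐ[ℂ] ℂ) → ℝ≥0∞) :
    ∫⁻ ζ in ball (0 : Cn n) C.r, g (C.s ζ) ≤ lintM z g := by
  unfold lintM
  set G : Cn n → ℝ≥0∞ := fun ζ => ∑' y : {y : B →ₐ[ℂ] ℂ // ∀ i, y (z i) = ζ i}, g y.1 with hG
  have h1 : ∫⁻ ζ in ball (0 : Cn n) C.r, g (C.s ζ) ≤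
      ∫⁻ ζ in ball (0 : Cn n) C.r, G ((fun i => y (z i)) + ζ) := by
    refine setLIntegral_mono' measurableSet_ball fun ζ hζ => ?_
    have h2 : ∀ i, (C.s ζ) (z i) = ((fun i => y (z i)) + ζ) i := fun i => C.s_z ζ hζ i
    exact ENNReal.le_tsum (f := fun y' : {y' : B →ₐ[ℂ] ℂ //
      ∀ i, y' (z i) = ((fun i => y (z i)) + ζ) i} => g y'.1) ⟨C.s ζ, h2⟩
  calc _ ≤ _ := h1
    _ ≤ ∫⁻ ζ, G ((fun i => y (z i)) + ζ) := setLIntegral_le_lintegral _ _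
    _ = ∫⁻ ζ, G ζ := lintegral_add_left_eq_self _ _

end chart

/-! ### The multiplier ideal -/

section ideal

variable (X : FCtx n) {ι : Type} [Fintype ι] (S : ι → Finset X.B) (c : ι → ℝ)

/-- the multiplier ideal of the weight `∏ |Sᵢ|^{-2cᵢ}` -/
def JM : Ideal X.B where
  carrier := {f | ∀ (y : X.B →ₐ[ℂ] ℂ) (C : Chart X.z y),
    LInt (fun ζ => ENNReal.ofReal (‖C.s ζ f‖ ^ 2) * wB S c (C.s ζ)) 0}
  zero_mem' := by
    intro y C
    simp only [map_zero, norm_zero]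
    exact ⟨univ, univ_mem, by simp⟩
  add_mem' := by
    intro f g hf hg y C
    have hm : AEMeasurable (fun ζ => ENNReal.ofReal (‖C.s ζ f‖ ^ 2) * wB S c (C.s ζ))
        (volume.restrict (ball (0 : Cn n) C.r)) := (ns_aem C f).mul (wB_aem C S c)
    refine LInt.mono_near (LInt.add (hf y C) (hg y C) (ball_mem C) hm) (K := 2) (by simp)
      (Eventually.of_forall fun ζ => ?_)
    rw [← add_mul, ← mul_assoc]
    gcongr
    rw [← ENNReal.ofReal_add (by positivity) (by positivity),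
      show (2 : ℝ≥0∞) = ENNReal.ofReal 2 by simp, ← ENNReal.ofReal_mul (by norm_num)]
    apply ENNReal.ofReal_le_ofReal
    rw [map_add]
    have h1 := norm_add_le (C.s ζ f) (C.s ζ g)
    nlinarith [sq_nonneg (‖C.s ζ f‖ - ‖C.s ζ g‖), norm_nonneg (C.s ζ f + C.s ζ g),
      norm_nonneg (C.s ζ f), norm_nonneg (C.s ζ g)]
  smul_mem' := by
    intro b f hf y C
    obtain ⟨K, hK, hb⟩ := ns_bdd C b
    refine LInt.mono_near (hf y C) (K := ENNReal.ofReal K) ENNReal.ofReal_ne_top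
      (hb.mono fun ζ hζ => ?_)
    rw [← mul_assoc]
    gcongr
    rw [← ENNReal.ofReal_mul hK.le]
    apply ENNReal.ofReal_le_ofReal
    rw [smul_eq_mul, map_mul, norm_mul, mul_pow]
    gcongr

theorem mem_JM {f : X.B} : f ∈ JM X S c ↔ ∀ (y : X.B →ₐ[ℂ] ℂ) (C : Chart X.z y),
    LInt (fun ζ => ENNReal.ofReal (‖C.s ζ f‖ ^ 2) * wB S c (C.s ζ)) 0 := Iff.rfl

variable {X S c}

/-- divide by a function which does not vanish at the point -/
theorem lint_div {y : X.B →ₐ[ℂ] ℂ} (C : Chart X.z y) {g : X.B} (hg : y g ≠ 0)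
    {w : Cn n → ℝ≥0∞} (h : LInt (fun ζ => ENNReal.ofReal (‖C.s ζ g‖ ^ 2) * w ζ) 0) :
    LInt w 0 := by
  obtain ⟨δ, hδ, hb⟩ := ns_pos C g hg
  refine LInt.mono_near h (K := (ENNReal.ofReal δ)⁻¹)
    (ENNReal.inv_ne_top.2 (ENNReal.ofReal_pos.2 hδ).ne') (hb.mono fun ζ hζ => ?_)
  rw [← mul_assoc]
  have h1 : (1 : ℝ≥0∞) ≤ (ENNReal.ofReal δ)⁻¹ * ENNReal.ofReal (‖C.s ζ g‖ ^ 2) := by
    calc (1 : ℝ≥0∞) = (ENNReal.ofReal δ)⁻¹ * ENNReal.ofReal δ :=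
          (ENNReal.inv_mul_cancel (ENNReal.ofReal_pos.2 hδ).ne' ENNReal.ofReal_ne_top).symm
      _ ≤ _ := by gcongr
  calc w ζ = 1 * w ζ := (one_mul _).symm
    _ ≤ _ := by gcongr

/-- first half of `MultIdeal`, easy direction -/
theorem lint_of_mem_JM {f : X.B} (hf : f ∈ JM X S c) {y : X.B →ₐ[ℂ] ℂ} (hy : y f ≠ 0)
    (C : Chart X.z y) : LInt (fun ζ => wB S c (C.s ζ)) 0 :=
  lint_div C hy (hf y C)

/-- second half of `MultIdeal` -/
theorem lint_of_le_JM {y : X.B →ₐ[ℂ] ℂ} (C : Chart X.z y) {g : X.B} (hg : y g ≠ 0)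
    (T : Finset X.B) (hT : ∀ t ∈ T, g * t ∈ JM X S c) :
    LInt (fun ζ => wB (Sum.elim S fun _ : Unit => T) (Sum.elim c fun _ : Unit => -1) (C.s ζ)) 0 := by
  have h1 : ∀ t ∈ T, LInt (fun ζ => ENNReal.ofReal (‖C.s ζ t‖ ^ 2) * wB S c (C.s ζ)) 0 := by
    intro t ht
    refine lint_div C hg ?_
    have h2 := hT t ht y C
    refine LInt.mono_near h2 (K := 1) (by simp) (Eventually.of_forall fun ζ => ?_)
    rw [one_mul, ← mul_assoc, ← ENNReal.ofReal_mul (by positivity), map_mul, norm_mul, mul_pow]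
  have h3 := LInt.finset_sum (ball_mem C) h1 fun t _ => (ns_aem C t).mul (wB_aem C S c)
  refine LInt.mono_near h3 (K := 1) (by simp) (Eventually.of_forall fun ζ => ?_)
  rw [one_mul, wB_sum, wB_unit, neg_neg, ENNReal.rpow_one, ← Finset.sum_mul, mul_comm]
  gcongr
  unfold wt
  rw [ENNReal.ofReal_sum_of_nonneg fun _ _ => by positivity]

end ideal

/-! ### Auxiliary inequalities in `[0,∞]` -/

theorem rpow_neg_anti {a b : ℝ≥0∞} (h : a ≤ b) {t : ℝ} (ht : 0 ≤ t) : b ^ (-t) ≤ a ^ (-t) := by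
  rw [ENNReal.rpow_neg, ENNReal.rpow_neg]
  exact ENNReal.inv_le_inv.2 (ENNReal.rpow_le_rpow h ht)

theorem inv_le_mul_inv {A B k : ℝ≥0∞} (hk : k ≠ 0) (hk' : k ≠ ∞) (h : A ≤ k * B) :
    B⁻¹ ≤ k * A⁻¹ := by
  have h1 : (k * B)⁻¹ ≤ A⁻¹ := ENNReal.inv_le_inv.2 h
  rw [ENNReal.mul_inv (Or.inl hk) (Or.inl hk')] at h1
  calc B⁻¹ = k * (k⁻¹ * B⁻¹) := by rw [← mul_assoc, ENNReal.mul_inv_cancel hk hk', one_mul]
    _ ≤ k * A⁻¹ := by gcongr

/-! ### The test functions `z - z(y₀)` -/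

section solve

variable (X : FCtx n) (y₀ : X.B →ₐ[ℂ] ℂ)

open Classical in
/-- the functions `zᵢ - zᵢ(y₀)` -/
def Tz : Finset X.B := Finset.univ.image fun i => X.z i - algebraMap ℂ X.B (y₀ (X.z i))

variable {X y₀}

theorem chart_Tz (C : Chart X.z y₀) {ζ : Cn n} (hζ : ζ ∈ ball (0 : Cn n) C.r) (i : Fin n) :
    C.s ζ (X.z i - algebraMap ℂ X.B (y₀ (X.z i))) = ζ i := by
  rw [map_sub, AlgHom.commutes, C.s_z ζ hζ i]
  simp

theorem wt_Tz_le (C : Chart X.z y₀) {ζ : Cn n} (hζ : ζ ∈ ball (0 : Cn n) C.r) :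
    wt (Tz X y₀) (C.s ζ) ≤ n * ‖ζ‖ ^ 2 := by
  classical
  have h1 : ∀ b ∈ Tz X y₀, ‖C.s ζ b‖ ^ 2 ≤ ‖ζ‖ ^ 2 := by
    intro b hb
    unfold Tz at hb
    obtain ⟨i, -, rfl⟩ := Finset.mem_image.1 hb
    rw [chart_Tz C hζ i]
    have := norm_le_pi_norm ζ i
    gcongr
  have h2 : (Tz X y₀).card ≤ n := by
    unfold Tz
    exact Finset.card_image_le.trans (by simp)
  calc wt (Tz X y₀) (C.s ζ) ≤ (Tz X y₀).card • ‖ζ‖ ^ 2 := Finset.sum_le_card_nsmul _ _ _ h1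
    _ ≤ n * ‖ζ‖ ^ 2 := by
      rw [nsmul_eq_mul]
      gcongr

theorem le_wt_Tz (C : Chart X.z y₀) {ζ : Cn n} (hζ : ζ ∈ ball (0 : Cn n) C.r) :
    ‖ζ‖ ^ 2 ≤ wt (Tz X y₀) (C.s ζ) := by
  classical
  have h0 := wt_nonneg (Tz X y₀) (C.s ζ)
  have h1 : ∀ i, ‖ζ i‖ ^ 2 ≤ wt (Tz X y₀) (C.s ζ) := by
    intro i
    rw [← chart_Tz C hζ i]
    refine Finset.single_le_sum (f := fun b => ‖C.s ζ b‖ ^ 2) (fun _ _ => by positivity) ?_
    unfold Tz
    exact Finset.mem_image_of_mem _ (Finset.mem_univ i)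
  have h2 : ‖ζ‖ ≤ Real.sqrt (wt (Tz X y₀) (C.s ζ)) := by
    rw [pi_norm_le_iff_of_nonneg (Real.sqrt_nonneg _)]
    intro i
    exact Real.le_sqrt_of_sq_le (h1 i)
  calc ‖ζ‖ ^ 2 ≤ Real.sqrt (wt (Tz X y₀) (C.s ζ)) ^ 2 := by gcongr
    _ = _ := Real.sq_sqrt h0

theorem exists_Tz_ne (hn : 1 ≤ n) (C : Chart X.z y₀) : ∃ b ∈ Tz X y₀, b ≠ 0 := by
  classical
  refine ⟨X.z ⟨0, hn⟩ - algebraMap ℂ X.B (y₀ (X.z ⟨0, hn⟩)), ?_, ?_⟩
  · unfold Tz
    exact Finset.mem_image_of_mem _ (Finset.mem_univ _)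
  · intro h0
    have hr := C.r_pos
    have hmem : (fun _ => ((C.r / 2 : ℝ) : ℂ) : Cn n) ∈ ball (0 : Cn n) C.r := by
      rw [mem_ball_zero_iff, pi_norm_lt_iff hr]
      intro i
      rw [Complex.norm_real, Real.norm_eq_abs, abs_of_pos (by linarith)]
      linarith
    have h1 := chart_Tz C hmem ⟨0, hn⟩
    rw [h0, map_zero] at h1
    have h2 : (C.r / 2 : ℝ) = 0 := by exact_mod_cast h1.symm
    linarith

theorem finrank_Cn : Module.finrank ℝ (Cn n) = 2 * n := by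
  rw [Module.finrank_pi_fintype]
  simp [Complex.finrank_real_complex, mul_comm]

/-- the weight with the extra factor `|z - z(y₀)|^{-2n}` is not integrable at `y₀` -/
theorem not_lint (hn : 1 ≤ n) (C : Chart X.z y₀) {ι : Type} [Fintype ι] (S : ι → Finset X.B)
    (c : ι → ℝ) (hc : ∀ i, 0 ≤ c i) :
    ¬ LInt (fun ζ => wB (Sum.elim S fun _ : Unit => Tz X y₀) (Sum.elim c fun _ : Unit => (n : ℝ))
      (C.s ζ)) 0 := by
  intro hcon
  have h1 := fun i => wt_bdd C (S i)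
  choose K hK hKb using h1
  set δ : ℝ≥0∞ := ∏ i, (ENNReal.ofReal (K i)) ^ (-(c i)) with hδ
  have hpos : ∀ i, 0 < K i := fun i => by linarith [hK i]
  have hδ0 : δ ≠ 0 := by
    rw [hδ]
    refine Finset.prod_ne_zero_iff.2 fun i _ => ?_
    exact (ENNReal.rpow_pos (ENNReal.ofReal_pos.2 (hpos i)) ENNReal.ofReal_ne_top).ne'
  have hδt : δ ≠ ∞ := by
    rw [hδ]
    refine ENNReal.prod_ne_top fun i _ => ?_
    exact ENNReal.rpow_ne_top_of_ne_zero (ENNReal.ofReal_pos.2 (hpos i)).ne' ENNReal.ofReal_ne_top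
  have hn0 : (0 : ℝ) < n := by exact_mod_cast hn
  have hnn : (ENNReal.ofReal (n : ℝ)) ^ (n : ℝ) ≠ 0 :=
    (ENNReal.rpow_pos (ENNReal.ofReal_pos.2 hn0) ENNReal.ofReal_ne_top).ne'
  have hnt : (ENNReal.ofReal (n : ℝ)) ^ (n : ℝ) ≠ ∞ :=
    ENNReal.rpow_ne_top_of_nonneg hn0.le ENNReal.ofReal_ne_top
  have h2 : LInt (fun ζ : Cn n => (ENNReal.ofReal ‖ζ‖) ^ (-(2 * n : ℝ))) 0 := by
    refine LInt.mono_near hcon (K := δ⁻¹ * (ENNReal.ofReal (n : ℝ)) ^ (n : ℝ))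
      (ENNReal.mul_ne_top (ENNReal.inv_ne_top.2 hδ0) hnt) ?_
    filter_upwards [eventually_all.2 hKb, ball_mem C] with ζ h3 h4
    rw [wB_sum, wB_unit]
    have h5 : δ ≤ wB S c (C.s ζ) := by
      rw [hδ]
      unfold wB
      refine Finset.prod_le_prod' fun i _ => ?_
      exact rpow_neg_anti (ENNReal.ofReal_le_ofReal (h3 i)) (hc i)
    have h6 : (ENNReal.ofReal ‖ζ‖) ^ (-(2 * n : ℝ)) ≤
        (ENNReal.ofReal (n : ℝ)) ^ (n : ℝ) * (ENNReal.ofReal (wt (Tz X y₀) (C.s ζ))) ^ (-(n : ℝ)) := by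
      rw [ENNReal.rpow_neg, ENNReal.rpow_neg]
      apply inv_le_mul_inv hnn hnt
      calc (ENNReal.ofReal (wt (Tz X y₀) (C.s ζ))) ^ (n : ℝ)
          ≤ (ENNReal.ofReal (n * ‖ζ‖ ^ 2)) ^ (n : ℝ) :=
            ENNReal.rpow_le_rpow (ENNReal.ofReal_le_ofReal (wt_Tz_le C h4)) hn0.le
        _ = _ := by
            rw [ENNReal.ofReal_mul hn0.le, ENNReal.mul_rpow_of_nonneg _ _ hn0.le,
              ENNReal.ofReal_pow (norm_nonneg _), ← ENNReal.rpow_natCast, ← ENNReal.rpow_mul]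
            norm_num
    calc (ENNReal.ofReal ‖ζ‖) ^ (-(2 * n : ℝ))
        ≤ (ENNReal.ofReal (n : ℝ)) ^ (n : ℝ) *
          (ENNReal.ofReal (wt (Tz X y₀) (C.s ζ))) ^ (-(n : ℝ)) := h6
      _ = (δ⁻¹ * δ) * ((ENNReal.ofReal (n : ℝ)) ^ (n : ℝ) *
          (ENNReal.ofReal (wt (Tz X y₀) (C.s ζ))) ^ (-(n : ℝ))) := by
          rw [ENNReal.inv_mul_cancel hδ0 hδt, one_mul]
      _ ≤ (δ⁻¹ * wB S c (C.s ζ)) * ((ENNReal.ofReal (n : ℝ)) ^ (n : ℝ) *
          (ENNReal.ofReal (wt (Tz X y₀) (C.s ζ))) ^ (-(n : ℝ))) := by gcongr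
      _ = _ := by ring
  obtain ⟨U, hU, hfin⟩ := h2
  have h3 : 0 < Module.finrank ℝ (Cn n) := by rw [finrank_Cn]; omega
  have h4 := L934.exponent_lt_of_integrable (volume : Measure (Cn n)) h3 hU hfin
  rw [finrank_Cn] at h4
  push_cast at h4
  exact lt_irrefl _ h4

/-- the weight with the extra factor is integrable at the points of a shell -/
theorem lint_shell (C : Chart X.z y₀) {ι : Type} [Fintype ι] (S : ι → Finset X.B)
    (c : ι → ℝ) {ρ : ℝ} (hρ : ρ ≤ C.r)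
    (h : ∫⁻ ζ in ball (0 : Cn n) ρ, wB S c (C.s ζ) < ∞) {ζ : Cn n} (h0 : 0 < ‖ζ‖) (h1 : ‖ζ‖ < ρ) :
    LInt (fun ζ => wB (Sum.elim S fun _ : Unit => Tz X y₀) (Sum.elim c fun _ : Unit => (n : ℝ))
      (C.s ζ)) ζ := by
  have hmem : ζ ∈ ball (0 : Cn n) ρ := mem_ball_zero_iff.2 h1
  have hpos : 0 < (‖ζ‖ / 2) ^ 2 := by positivity
  refine LInt.mono_near (LInt.of_ball h hmem) (K := (ENNReal.ofReal ((‖ζ‖ / 2) ^ 2)) ^ (-(n : ℝ)))
    (ENNReal.rpow_ne_top_of_ne_zero (ENNReal.ofReal_pos.2 hpos).ne' ENNReal.ofReal_ne_top) ?_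
  have h2 : ∀ᶠ ζ' in 𝓝 ζ, ‖ζ‖ / 2 < ‖ζ'‖ :=
    continuous_norm.continuousAt.eventually_const_lt (by linarith)
  filter_upwards [isOpen_ball.mem_nhds hmem, h2] with ζ' h3 h4
  rw [wB_sum, wB_unit, mul_comm]
  refine mul_le_mul' (rpow_neg_anti ?_ (Nat.cast_nonneg n)) le_rfl
  apply ENNReal.ofReal_le_ofReal
  refine le_trans ?_ (le_wt_Tz C (ball_subset_ball hρ h3))
  gcongr

end solve

/-! ### Growth of the weight -/

section growth

open Crest.Agent.R271.G4x131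

variable (X : FCtx n)

/-- the inverse of `h` -/
def hinv : X.B := ↑(X.h_unit.unit⁻¹)

theorem h_mul_hinv : X.h * hinv X = 1 := X.h_unit.mul_val_inv

theorem norm_h_mul (y : X.B →ₐ[ℂ] ℂ) : ‖y X.h‖ * ‖y (hinv X)‖ = 1 := by
  rw [← norm_mul, ← map_mul, h_mul_hinv, map_one, norm_one]

/-- `(1 + |z|²)(1 + |1/h|²)` -/
def Q (y : X.B →ₐ[ℂ] ℂ) : ℝ := W X y * (1 + ‖y (hinv X)‖ ^ 2)

theorem W_le_Q (y : X.B →ₐ[ℂ] ℂ) : W X y ≤ Q X y := by
  unfold Q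
  have := W_pos X y
  nlinarith [sq_nonneg ‖y (hinv X)‖]

theorem one_le_Q (y : X.B →ₐ[ℂ] ℂ) : 1 ≤ Q X y := (one_le_W X y).trans (W_le_Q X y)

theorem hinv_le_Q (y : X.B →ₐ[ℂ] ℂ) : ‖y (hinv X)‖ ^ 2 ≤ Q X y := by
  unfold Q
  have := one_le_W X y
  nlinarith [sq_nonneg ‖y (hinv X)‖]

theorem ns_growth (b : X.B) : ∃ (C : ℝ) (K : ℕ), 1 ≤ C ∧
    ∀ y : X.B →ₐ[ℂ] ℂ, ‖y b‖ ^ 2 ≤ C * Q X y ^ K := by
  obtain ⟨C, N, K, hC, h⟩ := growthB X b
  refine ⟨C ^ 2, 2 * K + N, one_le_pow₀ hC, fun y => ?_⟩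
  have hW := W_pos X y
  have h1 : ‖y b‖ ≤ C * W X y ^ K * ‖y (hinv X)‖ ^ N := by
    calc ‖y b‖ = ‖y b‖ * (‖y X.h‖ * ‖y (hinv X)‖) ^ N := by rw [norm_h_mul, one_pow, mul_one]
      _ = (‖y b‖ * ‖y X.h‖ ^ N) * ‖y (hinv X)‖ ^ N := by rw [mul_pow]; ring
      _ ≤ _ := mul_le_mul_of_nonneg_right (h y) (by positivity)
  have hC0 : 0 ≤ C := by linarith
  calc ‖y b‖ ^ 2 ≤ (C * W X y ^ K * ‖y (hinv X)‖ ^ N) ^ 2 := by gcongr
    _ = C ^ 2 * (W X y ^ (2 * K) * (‖y (hinv X)‖ ^ 2) ^ N) := by ring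
    _ ≤ C ^ 2 * (Q X y ^ (2 * K) * (Q X y) ^ N) := by
        have h2 := W_le_Q X y
        have h3 := hinv_le_Q X y
        have h4 := one_le_Q X y
        have h5 : 0 ≤ Q X y := by linarith
        have h6 : 0 ≤ Q X y ^ (2 * K) := by positivity
        gcongr
    _ = _ := by rw [pow_add]

theorem wt_growth (T : Finset X.B) : ∃ (C : ℝ) (K : ℕ), 1 ≤ C ∧
    ∀ y : X.B →ₐ[ℂ] ℂ, wt T y ≤ C * Q X y ^ K := by
  classical
  induction T using Finset.induction_on with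
  | empty => exact ⟨1, 0, le_refl _, fun y => by simp [wt]⟩
  | insert b T hb ih =>
    obtain ⟨C, K, hC, h⟩ := ih
    obtain ⟨C', K', hC', h'⟩ := ns_growth X b
    refine ⟨C' + C, K' + K, by linarith, fun y => ?_⟩
    have h1 := one_le_Q X y
    have e : wt (insert b T) y = ‖y b‖ ^ 2 + wt T y := by
      unfold wt
      rw [Finset.sum_insert hb]
    rw [e, add_mul]
    refine add_le_add ((h' y).trans ?_) ((h y).trans ?_)
    · exact mul_le_mul_of_nonneg_left (pow_le_pow_right₀ h1 (by omega)) (by linarith)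
    · exact mul_le_mul_of_nonneg_left (pow_le_pow_right₀ h1 (by omega)) (by linarith)

theorem wB_growth {ι : Type} [Fintype ι] (S : ι → Finset X.B) (c : ι → ℝ) (hc : ∀ i, 0 ≤ c i) :
    ∃ (C : ℝ) (K : ℕ), 0 < C ∧
      ∀ y : X.B →ₐ[ℂ] ℂ, ENNReal.ofReal (C * (Q X y ^ K)⁻¹) ≤ wB S c y := by
  choose C K hC h using fun i => wt_growth X (S i)
  refine ⟨∏ i, (C i) ^ (-(c i)), ∑ i, K i * ⌈c i⌉₊, ?_, fun y => ?_⟩
  · exact Finset.prod_pos fun i _ => Real.rpow_pos_of_pos (by linarith [hC i]) _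
  have hQ := one_le_Q X y
  have hQ0 : 0 < Q X y := by linarith
  rw [← Finset.prod_pow_eq_pow_sum, ← Finset.prod_inv_distrib, ← Finset.prod_mul_distrib,
    ENNReal.ofReal_prod_of_nonneg fun i _ => by
      have := hC i
      positivity]
  unfold wB
  refine Finset.prod_le_prod' fun i _ => ?_
  have hCi : 0 < C i := by linarith [hC i]
  calc ENNReal.ofReal (C i ^ (-(c i)) * (Q X y ^ (K i * ⌈c i⌉₊))⁻¹)
      ≤ ENNReal.ofReal ((C i * Q X y ^ K i) ^ (-(c i))) := by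
        apply ENNReal.ofReal_le_ofReal
        rw [Real.mul_rpow hCi.le (by positivity)]
        refine mul_le_mul_of_nonneg_left ?_ (by positivity)
        rw [Real.rpow_neg (by positivity)]
        apply inv_anti₀ (by positivity)
        calc (Q X y ^ K i) ^ c i ≤ (Q X y ^ K i) ^ ((⌈c i⌉₊ : ℕ) : ℝ) :=
              Real.rpow_le_rpow_of_exponent_le (one_le_pow₀ hQ) (Nat.le_ceil _)
          _ = Q X y ^ (K i * ⌈c i⌉₊) := by rw [Real.rpow_natCast, ← pow_mul]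
    _ = (ENNReal.ofReal (C i * Q X y ^ K i)) ^ (-(c i)) := by
        rw [ENNReal.ofReal_rpow_of_pos (by positivity)]
    _ ≤ _ := rpow_neg_anti (ENNReal.ofReal_le_ofReal (h i y)) (hc i)

/-- the weight of `AlgStmt` is dominated by the weight of the solver -/
theorem alg_weight {ι : Type} [Fintype ι] (S : ι → Finset X.B) (c : ι → ℝ) (hc : ∀ i, 0 ≤ c i) :
    ∃ (K : ℝ≥0∞) (N M : ℕ), K ≠ ∞ ∧ ∀ y : X.B →ₐ[ℂ] ℂ,
      ENNReal.ofReal (‖y X.h‖ ^ (2 * N) / W X y ^ M) ≤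
        K * (wB S c y * (ENNReal.ofReal (W X y)) ^ (-(1 : ℝ))) := by
  obtain ⟨C, P, hC, h⟩ := wB_growth X S c hc
  obtain ⟨D, L, hD, hh⟩ := growth_h X
  refine ⟨ENNReal.ofReal (C⁻¹ * (D ^ 2 + 1) ^ (P + 1)), P + 1, (P + 1) + 2 * L * (P + 1),
    ENNReal.ofReal_ne_top, fun y => ?_⟩
  have hW := W_pos X y
  have hW1 := one_le_W X y
  have hQ := one_le_Q X y
  have hQ0 : 0 < Q X y := by linarith
  have e1 : (ENNReal.ofReal (W X y)) ^ (-(1 : ℝ)) = ENNReal.ofReal ((W X y)⁻¹) := by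
    rw [ENNReal.ofReal_rpow_of_pos hW, Real.rpow_neg_one]
  have h1 : ‖y X.h‖ ^ 2 * Q X y ≤ (D ^ 2 + 1) * W X y ^ (1 + 2 * L) := by
    have h2 : ‖y X.h‖ ^ 2 * ‖y (hinv X)‖ ^ 2 = 1 := by
      rw [← mul_pow, norm_h_mul, one_pow]
    have h3 : ‖y X.h‖ ^ 2 ≤ D ^ 2 * W X y ^ (2 * L) := by
      calc ‖y X.h‖ ^ 2 ≤ (D * W X y ^ L) ^ 2 := by gcongr; exact hh y
        _ = _ := by ring
    have h4 : 1 ≤ W X y ^ (2 * L) := one_le_pow₀ hW1
    calc ‖y X.h‖ ^ 2 * Q X y = W X y * (‖y X.h‖ ^ 2 + ‖y X.h‖ ^ 2 * ‖y (hinv X)‖ ^ 2) := by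
          unfold Q; ring
      _ = W X y * (‖y X.h‖ ^ 2 + 1) := by rw [h2]
      _ ≤ W X y * (D ^ 2 * W X y ^ (2 * L) + W X y ^ (2 * L)) := by gcongr
      _ = _ := by ring
  have h5 : ‖y X.h‖ ^ (2 * (P + 1)) * Q X y ^ (P + 1) ≤
      (D ^ 2 + 1) ^ (P + 1) * W X y ^ ((P + 1) + 2 * L * (P + 1)) := by
    calc ‖y X.h‖ ^ (2 * (P + 1)) * Q X y ^ (P + 1) = (‖y X.h‖ ^ 2 * Q X y) ^ (P + 1) := by
          rw [mul_pow, ← pow_mul]
      _ ≤ ((D ^ 2 + 1) * W X y ^ (1 + 2 * L)) ^ (P + 1) := by gcongr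
      _ = _ := by rw [mul_pow, ← pow_mul]; congr 2; ring
  calc ENNReal.ofReal (‖y X.h‖ ^ (2 * (P + 1)) / W X y ^ ((P + 1) + 2 * L * (P + 1)))
      ≤ ENNReal.ofReal ((C⁻¹ * (D ^ 2 + 1) ^ (P + 1)) * ((C * (Q X y ^ P)⁻¹) * (W X y)⁻¹)) := by
        apply ENNReal.ofReal_le_ofReal
        rw [div_le_iff₀ (by positivity)]
        have h6 : (Q X y ^ (P + 1))⁻¹ ≤ (Q X y ^ P)⁻¹ * (W X y)⁻¹ := by
          rw [pow_succ, mul_inv]
          have := inv_anti₀ hW (W_le_Q X y)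
          gcongr
        calc ‖y X.h‖ ^ (2 * (P + 1))
            = ‖y X.h‖ ^ (2 * (P + 1)) * Q X y ^ (P + 1) * (Q X y ^ (P + 1))⁻¹ := by
              field_simp
          _ ≤ ((D ^ 2 + 1) ^ (P + 1) * W X y ^ ((P + 1) + 2 * L * (P + 1))) *
              ((Q X y ^ P)⁻¹ * (W X y)⁻¹) := by gcongr
          _ = _ := by field_simp
    _ = ENNReal.ofReal (C⁻¹ * (D ^ 2 + 1) ^ (P + 1)) *
        (ENNReal.ofReal (C * (Q X y ^ P)⁻¹) * ENNReal.ofReal ((W X y)⁻¹)) := by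
        rw [ENNReal.ofReal_mul (p := C⁻¹ * (D ^ 2 + 1) ^ (P + 1)) (by positivity),
          ENNReal.ofReal_mul (p := C * (Q X y ^ P)⁻¹) (by positivity)]
    _ ≤ _ := by
        rw [e1]
        gcongr
        exact h y

end growth

/-! ### The main theorem -/

section main

open Crest.Agent.R271.G4x131

variable (X : FCtx n)

/-- the functions `(1, z₁, …, zₙ)` -/
def Y1 : Fin (n + 1) → X.B := Fin.cons 1 X.z

theorem sum_Y1 (y : X.B →ₐ[ℂ] ℂ) : ∑ j, ‖y (Y1 X j)‖ ^ 2 = W X y := by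
  rw [Fin.sum_univ_succ]
  simp [Y1, W]

theorem W_contAt {y : X.B →ₐ[ℂ] ℂ} (C : Chart X.z y) : ContinuousAt (fun ζ => W X (C.s ζ)) 0 := by
  unfold W
  have h : ContinuousOn (fun ζ : Cn n => (1 : ℝ) + ∑ i, ‖C.s ζ (X.z i)‖ ^ 2) (ball 0 C.r) :=
    continuousOn_const.add (continuousOn_finsetSum _ fun i _ => ((contOn C (X.z i)).norm).pow 2)
  exact h.continuousAt (ball_mem C)

/-- if the weight is integrable at `y₀` then some element of the multiplier ideal does not vanish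
at `y₀` -/
theorem exists_JM (hn : 1 ≤ n) (hS : SolverStmt X) (hA : AlgStmt X) {ι : Type} [Fintype ι]
    (S : ι → Finset X.B) (c : ι → ℝ) (hc : ∀ i, 0 ≤ c i) (hS0 : ∀ i, ∃ b ∈ S i, b ≠ 0)
    {y₀ : X.B →ₐ[ℂ] ℂ} (C : Chart X.z y₀) (h : LInt (fun ζ => wB S c (C.s ζ)) 0) :
    ∃ f ∈ JM X S c, y₀ f ≠ 0 := by
  obtain ⟨U, hU, hfin⟩ := h
  obtain ⟨ρ₀, hρ₀, hsub⟩ := Metric.mem_nhds_iff.1 hU
  set ρ : ℝ := min ρ₀ C.r with hρdef
  have hρ : 0 < ρ := lt_min hρ₀ C.r_pos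
  have hρr : ρ ≤ C.r := min_le_right _ _
  have hfin' : ∫⁻ ζ in ball (0 : Cn n) ρ, wB S c (C.s ζ) < ∞ :=
    (lintegral_mono_set ((ball_subset_ball (min_le_left _ _)).trans hsub)).trans_lt hfin
  set S' : ι ⊕ Unit → Finset X.B := Sum.elim S fun _ : Unit => Tz X y₀ with hS'
  set c' : ι ⊕ Unit → ℝ := Sum.elim c fun _ : Unit => (n : ℝ) with hc'
  have hc'0 : ∀ i, 0 ≤ c' i := by
    rintro (i | i)
    · exact hc i
    · exact Nat.cast_nonneg n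
  obtain ⟨F, hF, hF1, hFg⟩ := hS y₀ C (ι ⊕ Unit) S' c' (Y1 X) 1 (ρ / 4) (ρ / 2) hc'0
    (by
      rintro (i | i)
      · exact hS0 i
      · exact exists_Tz_ne hn C)
    (by simp [Y1]) (by intro i; simp [Y1]) one_pos (by linarith) (by linarith) (by linarith)
    (fun ζ h1 h2 => lint_shell C S c hρr hfin' (by linarith) (by linarith))
  have hFy : F y₀ = 1 := hF1 (not_lint hn C S c hc)
  simp only [sum_Y1] at hFg
  -- algebraicity
  obtain ⟨K, N, M, hK, hKb⟩ := alg_weight X S' c' hc'0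
  obtain ⟨b, hb⟩ := hA F N M hF (by
    have h1 := hFg (fun y => ENNReal.ofReal (‖y X.h‖ ^ (2 * N) / W X y ^ M)) K hK hKb (by
      have hcomp : IsCompact (closedBall (0 : Cn n) (ρ / 2)) := isCompact_closedBall _ _
      have hcont : ContinuousOn (fun ζ => ‖C.s ζ X.h‖ ^ (2 * N)) (closedBall (0 : Cn n) (ρ / 2)) :=
        (((contOn C X.h).norm).pow _).mono
          (closedBall_subset_ball (by linarith))
      obtain ⟨D, hD⟩ := hcomp.bddAbove_image hcont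
      calc ∫⁻ ζ in ball (0 : Cn n) (ρ / 2),
            ENNReal.ofReal (‖C.s ζ X.h‖ ^ (2 * N) / W X (C.s ζ) ^ M)
          ≤ ∫⁻ _ in ball (0 : Cn n) (ρ / 2), ENNReal.ofReal D := by
            refine setLIntegral_mono' measurableSet_ball fun ζ hζ => ?_
            apply ENNReal.ofReal_le_ofReal
            have h2 : ‖C.s ζ X.h‖ ^ (2 * N) ≤ D :=
              hD (mem_image_of_mem _ (ball_subset_closedBall hζ))
            refine le_trans ?_ h2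
            exact div_le_self (by positivity) (one_le_pow₀ (one_le_W X _))
        _ < ∞ := by
            rw [setLIntegral_const]
            exact ENNReal.mul_lt_top ENNReal.ofReal_lt_top measure_ball_lt_top)
    convert h1 using 3 with y
    rw [← ENNReal.ofReal_mul (by positivity), mul_div_assoc]
    rfl)
  refine ⟨b, ?_, ?_⟩
  swap
  · rw [← hb y₀, hFy]
    exact one_ne_zero
  -- `b` belongs to the multiplier ideal
  set g : (X.B →ₐ[ℂ] ℂ) → ℝ≥0∞ := fun y => wB S c y *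
    ((ENNReal.ofReal (1 + wt (Tz X y₀) y)) ^ (-(n : ℝ)) * (ENNReal.ofReal (W X y)) ^ (-(1 : ℝ)))
    with hg
  have hg1 : ∀ y, g y ≤ 1 * (wB S' c' y * (ENNReal.ofReal (W X y)) ^ (-(1 : ℝ))) := by
    intro y
    rw [one_mul, hS', hc', wB_sum, wB_unit, mul_assoc]
    refine mul_le_mul' le_rfl (mul_le_mul' (rpow_neg_anti ?_ (Nat.cast_nonneg n)) le_rfl)
    exact ENNReal.ofReal_le_ofReal (by linarith)
  have hg2 : ∫⁻ ζ in ball (0 : Cn n) (ρ / 2), g (C.s ζ) < ∞ := by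
    refine lt_of_le_of_lt ?_ hfin'
    calc ∫⁻ ζ in ball (0 : Cn n) (ρ / 2), g (C.s ζ)
        ≤ ∫⁻ ζ in ball (0 : Cn n) (ρ / 2), wB S c (C.s ζ) := by
          refine lintegral_mono fun ζ => ?_
          have h1 : (ENNReal.ofReal (1 + wt (Tz X y₀) (C.s ζ))) ^ (-(n : ℝ)) ≤ 1 := by
            have := rpow_neg_anti (a := 1) (b := ENNReal.ofReal (1 + wt (Tz X y₀) (C.s ζ)))
              (by
                rw [← ENNReal.ofReal_one]
                exact ENNReal.ofReal_le_ofReal (by linarith [wt_nonneg (Tz X y₀) (C.s ζ)]))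
              (Nat.cast_nonneg (α := ℝ) n)
            rwa [ENNReal.one_rpow] at this
          have h2 : (ENNReal.ofReal (W X (C.s ζ))) ^ (-(1 : ℝ)) ≤ 1 := by
            have := rpow_neg_anti (a := 1) (b := ENNReal.ofReal (W X (C.s ζ)))
              (by
                rw [← ENNReal.ofReal_one]
                exact ENNReal.ofReal_le_ofReal (one_le_W X _))
              (zero_le_one (α := ℝ))
            rwa [ENNReal.one_rpow] at this
          calc g (C.s ζ) ≤ wB S c (C.s ζ) * (1 * 1) :=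
                mul_le_mul' le_rfl (mul_le_mul' h1 h2)
            _ = _ := by rw [one_mul, mul_one]
      _ ≤ _ := lintegral_mono_set (ball_subset_ball (by linarith))
  have hg3 := hFg g 1 ENNReal.one_ne_top hg1 hg2
  intro y C'
  have hg4 : ∫⁻ ζ in ball (0 : Cn n) C'.r, ENNReal.ofReal (‖F (C'.s ζ)‖ ^ 2) * g (C'.s ζ) < ∞ :=
    (lint_chart_le C' _).trans_lt hg3
  have hg5 : LInt (fun ζ => ENNReal.ofReal (‖F (C'.s ζ)‖ ^ 2) * g (C'.s ζ)) 0 :=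
    LInt.of_ball hg4 (mem_ball_self C'.r_pos)
  obtain ⟨K₁, hK₁, hb₁⟩ := wt_bdd C' (Tz X y₀)
  have hK₁0 : 0 < ENNReal.ofReal (1 + K₁) := ENNReal.ofReal_pos.2 (by linarith)
  set K₂ : ℝ := W X y + 1 with hK₂
  have hW := W_pos X y
  have hK₂0 : 0 < ENNReal.ofReal K₂ := ENNReal.ofReal_pos.2 (by linarith)
  have hb₂ : ∀ᶠ ζ in 𝓝 (0 : Cn n), W X (C'.s ζ) ≤ K₂ := by
    have h1 : Tendsto (fun ζ => W X (C'.s ζ)) (𝓝 0) (𝓝 (W X (C'.s 0))) := W_contAt X C'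
    rw [C'.s_zero] at h1
    exact h1.eventually_le_const (by linarith)
  set κ : ℝ≥0∞ := (ENNReal.ofReal (1 + K₁)) ^ (-(n : ℝ)) * (ENNReal.ofReal K₂) ^ (-(1 : ℝ)) with hκ
  have hκ0 : κ ≠ 0 := by
    rw [hκ]
    exact mul_ne_zero (ENNReal.rpow_pos hK₁0 ENNReal.ofReal_ne_top).ne'
      (ENNReal.rpow_pos hK₂0 ENNReal.ofReal_ne_top).ne'
  have hκt : κ ≠ ∞ := by
    rw [hκ]
    exact ENNReal.mul_ne_top (ENNReal.rpow_ne_top_of_ne_zero hK₁0.ne' ENNReal.ofReal_ne_top)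
      (ENNReal.rpow_ne_top_of_ne_zero hK₂0.ne' ENNReal.ofReal_ne_top)
  refine LInt.mono_near hg5 (K := κ⁻¹) (ENNReal.inv_ne_top.2 hκ0) ?_
  filter_upwards [hb₁, hb₂] with ζ h1 h2
  rw [← hb (C'.s ζ)]
  have h3 : κ ≤ (ENNReal.ofReal (1 + wt (Tz X y₀) (C'.s ζ))) ^ (-(n : ℝ)) *
      (ENNReal.ofReal (W X (C'.s ζ))) ^ (-(1 : ℝ)) := by
    rw [hκ]
    refine mul_le_mul' (rpow_neg_anti ?_ (Nat.cast_nonneg n)) (rpow_neg_anti ?_ zero_le_one)
    · exact ENNReal.ofReal_le_ofReal (by linarith)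
    · exact ENNReal.ofReal_le_ofReal h2
  calc ENNReal.ofReal (‖F (C'.s ζ)‖ ^ 2) * wB S c (C'.s ζ)
      = (κ⁻¹ * κ) * (ENNReal.ofReal (‖F (C'.s ζ)‖ ^ 2) * wB S c (C'.s ζ)) := by
        rw [ENNReal.inv_mul_cancel hκ0 hκt, one_mul]
    _ ≤ (κ⁻¹ * ((ENNReal.ofReal (1 + wt (Tz X y₀) (C'.s ζ))) ^ (-(n : ℝ)) *
      (ENNReal.ofReal (W X (C'.s ζ))) ^ (-(1 : ℝ)))) *
        (ENNReal.ofReal (‖F (C'.s ζ)‖ ^ 2) * wB S c (C'.s ζ)) := by gcongr
    _ = _ := by rw [hg]; ring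

/-- **(AF7)** multiplier ideals -/
theorem multIdeal (hn : 1 ≤ n) (hS : SolverStmt X) (hA : AlgStmt X) (hch : ChartEx X)
    (hgen : GensFact X) : MultIdeal X := by
  intro ι _ I c hI hc
  have hNoeth : IsNoetherianRing X.B := by
    have := X.ft
    exact Algebra.FiniteType.isNoetherianRing ℂ X.B
  have hfg : ∀ i, ∃ S : Finset X.B, Ideal.span (S : Set X.B) = I i := fun i =>
    (isNoetherianRing_iff_ideal_fg X.B).1 hNoeth (I i)
  choose S hSI using hfg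
  have hne : ∀ (T : Finset X.B) (J : Ideal X.B), Ideal.span (T : Set X.B) = J → J ≠ ⊥ →
      ∃ b ∈ T, b ≠ 0 := by
    intro T J hT hJ
    by_contra hcon
    push Not at hcon
    apply hJ
    rw [← hT, Ideal.span_eq_bot]
    exact fun x hx => hcon x hx
  refine ⟨JM X S c, fun y => ⟨?_, ?_⟩, ?_⟩
  · rintro ⟨f, hf, hy⟩
    obtain ⟨C⟩ := hch y
    exact ⟨S, hSI, C, lint_of_mem_JM hf hy C⟩
  · intro h
    obtain ⟨C, hC⟩ := (hgen y ι I c S hSI).1 h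
    exact exists_JM X hn hS hA S c hc (fun i => hne (S i) (I i) (hSI i) (hI i)) C hC
  · rintro y Q - ⟨g, hg, hQ⟩
    obtain ⟨T, hT⟩ := (isNoetherianRing_iff_ideal_fg X.B).1 hNoeth Q
    obtain ⟨C⟩ := hch y
    refine ⟨Sum.elim S fun _ => T, ?_, C, lint_of_le_JM C hg T fun t ht => hQ t ?_⟩
    · rintro (i | i)
      · exact hSI i
      · exact hT
    · rw [← hT]
      exact Ideal.subset_span ht

end main

end Crest.Agent.R271.G4_747
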