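import Crest.Agent.R271.G3_934

/-!
# Row 271, sub-team L: (AF8) for germs (helper934)
-/

set_option autoImplicit false
open MeasureTheory Filter Topology Set Metric
open scoped ENNReal NNReal

namespace Crest.Agent.R271.L934

open Crest.Agent.R271.Defs710

/-- (AF8) for germs in adapted coordinates, the form used by helper103 -/
def AF8Germ (n : ℕ) : Prop := ∀ (d : ℕ), d < n → ∀ (m : ℕ) (h : Fin m → Cn n → ℂ) (a b g : ℝ),
  (∀ j, AnalyticAt ℂ (h j) 0) → 0 ≤ a → 0 ≤ b → (d : ℝ) < g →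
  LInt (fun ζ => (ENNReal.ofReal (∑ j, ‖h j ζ‖ ^ 2)) ^ (-a) *
    (ENNReal.ofReal (∑ i : {i : Fin n // d ≤ i.1}, ‖ζ i‖ ^ 2)) ^ (-b) *
    (ENNReal.ofReal (∑ i, ‖ζ i‖ ^ 2)) ^ (-g)) 0 →
  ∀ ε : ℝ, 0 < ε → ε < 1 → LInt (fun ζ => (ENNReal.ofReal (∑ j, ‖h j ζ‖ ^ 2)) ^ (-((1 - ε) * a)) *
    (ENNReal.ofReal (∑ i : {i : Fin n // d ≤ i.1}, ‖ζ i‖ ^ 2)) ^
      (-((1 - ε) * b + (g - d) - ε))) 0

section

variable {n d : ℕ}

/-- `Q = ∑_{i ≥ d} |wᵢ|²` -/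
noncomputable def QQ (d : ℕ) (w : Cn n) : ℝ := ∑ i : {i : Fin n // d ≤ i.1}, ‖w i‖ ^ 2

/-- `S = ∑ |wᵢ|²` -/
noncomputable def SS (w : Cn n) : ℝ := ∑ i, ‖w i‖ ^ 2

theorem QQ_nonneg (w : Cn n) : 0 ≤ QQ d w := Finset.sum_nonneg fun _ _ => by positivity

theorem SS_nonneg (w : Cn n) : 0 ≤ SS w := Finset.sum_nonneg fun _ _ => by positivity

theorem QQ_le_SS (w : Cn n) : QQ d w ≤ SS w := by
  unfold QQ SS
  have h := Finset.sum_map (Finset.univ : Finset {i : Fin n // d ≤ i.1})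
    (Function.Embedding.subtype _) (fun i : Fin n => ‖w i‖ ^ 2)
  have h2 : ∑ i : {i : Fin n // d ≤ i.1}, ‖w i‖ ^ 2 =
      ∑ i ∈ Finset.map (Function.Embedding.subtype _) (Finset.univ : Finset {i : Fin n // d ≤ i.1}),
        ‖w i‖ ^ 2 := h.symm
  rw [h2]
  exact Finset.sum_le_sum_of_subset_of_nonneg (Finset.subset_univ _) fun _ _ _ => by positivity

theorem QQ_cont : Continuous (QQ (n := n) d) := by unfold QQ; fun_prop

theorem SS_cont : Continuous (SS (n := n)) := by unfold SS; fun_prop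

theorem le_QQ (w : Cn n) (i : Fin n) (hi : d ≤ i.1) : ‖w i‖ ^ 2 ≤ QQ d w :=
  Finset.single_le_sum (f := fun i : {i : Fin n // d ≤ i.1} => ‖w i‖ ^ 2)
    (fun _ _ => by positivity) (Finset.mem_univ (⟨i, hi⟩ : {i : Fin n // d ≤ i.1}))

theorem ae_QQ_pos (hd : d < n) : ∀ᵐ w : Cn n, 0 < QQ d w := by
  have h : ∀ᵐ w : Cn n, w ⟨d, hd⟩ ≠ 0 := Measure.ae_eval_ne (μ := fun _ : Fin n => (volume : Measure ℂ)) _ _
  filter_upwards [h] with w hw
  have h1 := le_QQ w ⟨d, hd⟩ le_rfl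
  have h2 : 0 < ‖w ⟨d, hd⟩‖ ^ 2 := by positivity
  linarith

/-- the coordinates `wᵢ - τᵢ` (`i < d`), `wᵢ` (`i ≥ d`) -/
noncomputable def g1 (d : ℕ) (i : Fin n) (p : Cn n × Cn d) : ℂ :=
  p.1 i - (if hi : i.1 < d then p.2 ⟨i.1, hi⟩ else 0)

theorem g1_analyticAt (i : Fin n) (q : Cn n × Cn d) : AnalyticAt ℂ (g1 (n := n) d i) q := by
  have h1 : AnalyticAt ℂ (fun p : Cn n × Cn d => p.1 i) q := by
    have h : (fun p : Cn n × Cn d => p.1 i) = fun p : Cn n × Cn d =>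
      ((ContinuousLinearMap.proj (R := ℂ) (φ := fun _ : Fin n => ℂ) i).comp
        (ContinuousLinearMap.fst ℂ (Cn n) (Cn d))) p := rfl
    rw [h]
    exact ContinuousLinearMap.analyticAt _ _
  by_cases hi : i.1 < d
  · have : g1 (n := n) d i = fun p => p.1 i - tau (n := n) ⟨i.1, hi⟩ p := by
      funext p; simp [g1, hi, tau]
    rw [this]
    exact h1.sub (tau_analyticAt _ _)
  · have : g1 (n := n) d i = fun p => p.1 i := by
      funext p; simp [g1, hi]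
    rw [this]
    exact h1

/-- the exact comparison of step 5: the inner integral -/
theorem inner_bound (hd : d < n) (hd1 : 1 ≤ d) {s₁ s₂ : ℝ} (hs₁ : 0 ≤ s₁) (hs₂ : 0 ≤ s₂)
    {W' : Set (Cn d)} (hW' : W' ∈ 𝓝 (0 : Cn d)) :
    ∀ᶠ w in 𝓝 (0 : Cn n), 0 < QQ d w →
      (ENNReal.ofReal (QQ d w)) ^ (-(s₁ - d)) ≤
        ((n : ℝ≥0∞) ^ s₁ * (volume (ball (0 : Cn d) 1))⁻¹) *
        ∫⁻ τ in W', (ENNReal.ofReal (sqV (g1 (n := n) d) (w, τ))) ^ (-s₁) *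
          (ENNReal.ofReal (∑ i, ‖τ i‖ ^ 2)) ^ (-s₂) := by
  have hd' : (1:ℝ) ≤ d := by exact_mod_cast hd1
  obtain ⟨r, hr, hrW⟩ := Metric.mem_nhds_iff.1 hW'
  set r' : ℝ := min r (1 / d) with hr'
  have hr'0 : 0 < r' := lt_min hr (by positivity)
  have hev : ∀ᶠ w in 𝓝 (0 : Cn n), ‖w‖ + Real.sqrt (QQ d w) < r' := by
    have h1 : Continuous fun w : Cn n => ‖w‖ + Real.sqrt (QQ d w) :=
      continuous_norm.add (QQ_cont.sqrt)
    have h2 : (fun w : Cn n => ‖w‖ + Real.sqrt (QQ d w)) 0 < r' := by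
      simp [QQ, hr'0]
    exact h1.continuousAt.eventually_lt_const h2
  filter_upwards [hev] with w hw hQ
  set Q := QQ d w with hQdef
  set wp : Cn d := fun i => w ⟨i.1, i.2.trans hd⟩ with hwp
  have hwp_norm : ‖wp‖ ≤ ‖w‖ := by
    rw [pi_norm_le_iff_of_nonneg (norm_nonneg _)]
    intro i; exact norm_le_pi_norm w _
  -- on the ball
  have hball : ∀ τ ∈ ball wp (Real.sqrt Q), τ ∈ W' ∧
      sqV (g1 (n := n) d) (w, τ) ≤ n * Q ∧ ∑ i, ‖τ i‖ ^ 2 ≤ 1 := by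
    intro τ hτ
    rw [mem_ball, dist_eq_norm] at hτ
    have hτn : ‖τ‖ < r' := by
      calc ‖τ‖ = ‖(τ - wp) + wp‖ := by congr 1; abel
        _ ≤ ‖τ - wp‖ + ‖wp‖ := norm_add_le _ _
        _ < Real.sqrt Q + ‖w‖ := by linarith
        _ < r' := by linarith
    refine ⟨hrW (mem_ball_zero_iff.2 (hτn.trans_le (min_le_left _ _))), ?_, ?_⟩
    · calc sqV (g1 (n := n) d) (w, τ) ≤ ∑ _i : Fin n, Q := by
            unfold sqV
            apply Finset.sum_le_sum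
            intro i _
            by_cases hi : i.1 < d
            · have h1 : g1 (n := n) d i (w, τ) = -(τ - wp) ⟨i.1, hi⟩ := by
                simp [g1, hi, hwp]
              rw [h1, norm_neg]
              have h2 : ‖(τ - wp) ⟨i.1, hi⟩‖ ≤ Real.sqrt Q := (norm_le_pi_norm _ _).trans hτ.le
              calc ‖(τ - wp) ⟨i.1, hi⟩‖ ^ 2 ≤ (Real.sqrt Q) ^ 2 := by gcongr
                _ = Q := Real.sq_sqrt hQ.le
            · have h1 : g1 (n := n) d i (w, τ) = w i := by simp [g1, hi]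
              rw [h1]
              exact le_QQ w i (not_lt.1 hi)
        _ = n * Q := by simp
    · calc ∑ i, ‖τ i‖ ^ 2 ≤ d * ‖τ‖ ^ 2 := sum_le_norm_sq τ
        _ ≤ d * (1 / d) ^ 2 := by
            have : ‖τ‖ ≤ 1 / d := (hτn.trans_le (min_le_right _ _)).le
            gcongr
        _ = 1 / d := by field_simp
        _ ≤ 1 := by rw [div_le_one (by linarith)]; exact hd'
  have hn0 : (n:ℝ≥0∞) ≠ 0 := by simp; omega
  have hnt : (n:ℝ≥0∞) ≠ ∞ := ENNReal.natCast_ne_top n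
  -- the volume of the ball
  have : Nonempty (Fin d) := ⟨⟨0, hd1⟩⟩
  have hvol : volume (ball wp (Real.sqrt Q)) =
      (ENNReal.ofReal Q) ^ (d : ℝ) * volume (ball (0 : Cn d) 1) := by
    rw [Measure.addHaar_ball _ _ (Real.sqrt_nonneg _), finrank_Cn, pow_mul, Real.sq_sqrt hQ.le,
      ENNReal.ofReal_pow hQ.le, ENNReal.rpow_natCast]
  have hV0 : volume (ball (0 : Cn d) 1) ≠ 0 := (measure_ball_pos _ _ one_pos).ne'
  have hVt : volume (ball (0 : Cn d) 1) ≠ ∞ := measure_ball_lt_top.ne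
  have hQ0 : ENNReal.ofReal Q ≠ 0 := by simpa using hQ
  have hQt : ENNReal.ofReal Q ≠ ∞ := ENNReal.ofReal_ne_top
  have hlow : ((n : ℝ≥0∞) * ENNReal.ofReal Q) ^ (-s₁) * volume (ball wp (Real.sqrt Q)) ≤
      ∫⁻ τ in W', (ENNReal.ofReal (sqV (g1 (n := n) d) (w, τ))) ^ (-s₁) *
          (ENNReal.ofReal (∑ i, ‖τ i‖ ^ 2)) ^ (-s₂) := by
    calc _ = ∫⁻ _ in ball wp (Real.sqrt Q), ((n : ℝ≥0∞) * ENNReal.ofReal Q) ^ (-s₁) := by
          rw [setLIntegral_const]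
      _ ≤ ∫⁻ τ in ball wp (Real.sqrt Q), (ENNReal.ofReal (sqV (g1 (n := n) d) (w, τ))) ^ (-s₁) *
          (ENNReal.ofReal (∑ i, ‖τ i‖ ^ 2)) ^ (-s₂) := by
          refine setLIntegral_mono' measurableSet_ball ?_
          intro τ hτ
          obtain ⟨-, h1, h2⟩ := hball τ hτ
          have h3 : ENNReal.ofReal (sqV (g1 (n := n) d) (w, τ)) ≤ (n : ℝ≥0∞) * ENNReal.ofReal Q := by
            rw [← ENNReal.ofReal_natCast, ← ENNReal.ofReal_mul (by positivity)]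
            exact ENNReal.ofReal_le_ofReal h1
          have h4 : (1:ℝ≥0∞) ≤ (ENNReal.ofReal (∑ i, ‖τ i‖ ^ 2)) ^ (-s₂) := by
            calc (1:ℝ≥0∞) = 1 ^ (-s₂) := by simp
              _ ≤ _ := rpow_neg_anti (by
                rw [← ENNReal.ofReal_one]; exact ENNReal.ofReal_le_ofReal h2) hs₂
          calc ((n : ℝ≥0∞) * ENNReal.ofReal Q) ^ (-s₁)
              = ((n : ℝ≥0∞) * ENNReal.ofReal Q) ^ (-s₁) * 1 := by rw [mul_one]
            _ ≤ _ := mul_le_mul' (rpow_neg_anti h3 hs₁) h4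
      _ ≤ _ := lintegral_mono_set fun τ hτ => (hball τ hτ).1
  calc (ENNReal.ofReal Q) ^ (-(s₁ - d))
      = ((n : ℝ≥0∞) ^ s₁ * (volume (ball (0 : Cn d) 1))⁻¹) *
        (((n : ℝ≥0∞) * ENNReal.ofReal Q) ^ (-s₁) * volume (ball wp (Real.sqrt Q))) := by
        rw [hvol, ENNReal.mul_rpow_of_ne_top hnt hQt, neg_sub, sub_eq_add_neg,
          ENNReal.rpow_add _ _ hQ0 hQt]
        have e1 : (n : ℝ≥0∞) ^ s₁ * (n : ℝ≥0∞) ^ (-s₁) = 1 := by
          rw [← ENNReal.rpow_add _ _ hn0 hnt]; simp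
        have e2 : (volume (ball (0 : Cn d) 1))⁻¹ * volume (ball (0 : Cn d) 1) = 1 :=
          ENNReal.inv_mul_cancel hV0 hVt
        calc (ENNReal.ofReal Q) ^ (d:ℝ) * (ENNReal.ofReal Q) ^ (-s₁)
            = 1 * 1 * ((ENNReal.ofReal Q) ^ (d:ℝ) * (ENNReal.ofReal Q) ^ (-s₁)) := by simp
          _ = ((n : ℝ≥0∞) ^ s₁ * (n : ℝ≥0∞) ^ (-s₁)) *
              ((volume (ball (0 : Cn d) 1))⁻¹ * volume (ball (0 : Cn d) 1)) *
              ((ENNReal.ofReal Q) ^ (d:ℝ) * (ENNReal.ofReal Q) ^ (-s₁)) := by rw [e1, e2]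
          _ = _ := by ring
    _ ≤ _ := by gcongr

end

end Crest.Agent.R271.L934
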