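import Mathlib
import Crest.Agent.R271.G4a_131

/-!
Row 271, G4: local half of `MultIdeal` (AF7). helper131.
-/

set_option autoImplicit false

open scoped Topology ENNReal NNReal BigOperators
open Filter Set MeasureTheory

noncomputable section

namespace Crest.Agent.R271.G4x131

open Crest.Agent.R271.Defs710 Crest.Agent.R271.Rd692

variable {n : ℕ}

section

variable (X : FCtx n)

/-- the integral over a piece of a chart is at most the global integral -/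
theorem lint_le_lintM {y : X.B →ₐ[ℂ] ℂ} (C : Chart X.z y) (g : (X.B →ₐ[ℂ] ℂ) → ℝ≥0∞)
    {U : Set (Cn n)} (hU : U ⊆ Metric.ball (0 : Cn n) C.r) (hm : MeasurableSet U) :
    ∫⁻ ζ in U, g (C.s ζ) ≤ lintM X.z g := by
  classical
  unfold lintM
  set a : Cn n := fun i => y (X.z i) with ha
  rw [← lintegral_indicator hm, ← lintegral_sub_right_eq_self (μ := (volume : Measure (Cn n))) _ a]
  refine lintegral_mono fun ζ => ?_
  by_cases h : ζ - a ∈ U
  · rw [Set.indicator_of_mem h]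
    have hb := hU h
    have hz : ∀ i, C.s (ζ - a) (X.z i) = ζ i := by
      intro i
      rw [C.s_z _ hb]
      simp [ha]
    exact ENNReal.le_tsum (f := fun y : {y : X.B →ₐ[ℂ] ℂ // ∀ i, y (X.z i) = ζ i} => g y.1)
      ⟨C.s (ζ - a), hz⟩
  · rw [Set.indicator_of_notMem h]
    exact bot_le

variable {X}

lemma ball_mem {y : X.B →ₐ[ℂ] ℂ} (C : Chart X.z y) : Metric.ball (0 : Cn n) C.r ∈ 𝓝 (0 : Cn n) :=
  Metric.ball_mem_nhds _ C.r_pos

lemma contAt {y : X.B →ₐ[ℂ] ℂ} (C : Chart X.z y) (b : X.B) {ζ : Cn n}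
    (h : ζ ∈ Metric.ball (0 : Cn n) C.r) : ContinuousAt (fun ζ => C.s ζ b) ζ :=
  (C.anal b ζ h).continuousAt

lemma contAt0 {y : X.B →ₐ[ℂ] ℂ} (C : Chart X.z y) (b : X.B) :
    ContinuousAt (fun ζ => C.s ζ b) 0 := contAt C b (Metric.mem_ball_self C.r_pos)

lemma LInt_mono {g g' : Cn n → ℝ≥0∞} {a : Cn n} {K : ℝ≥0∞} (hK : K ≠ ∞)
    (h : ∀ᶠ ζ in 𝓝 a, g ζ ≤ K * g' ζ) (hg : LInt g' a) : LInt g a := by
  obtain ⟨U, hU, hint⟩ := hg
  obtain ⟨V, hV, hVo, haV⟩ := mem_nhds_iff.mp (inter_mem hU h)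
  refine ⟨V, hVo.mem_nhds haV, ?_⟩
  calc ∫⁻ ζ in V, g ζ ≤ ∫⁻ ζ in V, K * g' ζ :=
        setLIntegral_mono' hVo.measurableSet fun ζ hζ => (hV hζ).2
    _ = K * ∫⁻ ζ in V, g' ζ := lintegral_const_mul' _ _ hK
    _ ≤ K * ∫⁻ ζ in U, g' ζ := mul_le_mul_right (lintegral_mono_set fun ζ hζ => (hV hζ).1) K
    _ < ∞ := ENNReal.mul_lt_top hK.lt_top hint

/-- the weight `wB` is a.e. measurable near the points of a chart -/
lemma aemeas_wB {ι : Type} [Fintype ι] (S : ι → Finset X.B) (c : ι → ℝ)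
    {y : X.B →ₐ[ℂ] ℂ} (C : Chart X.z y) {V : Set (Cn n)} (hVo : MeasurableSet V)
    (hV : V ⊆ Metric.ball (0 : Cn n) C.r) :
    AEMeasurable (fun ζ => wB S c (C.s ζ)) (volume.restrict V) := by
  have hc : ∀ b : X.B, AEMeasurable (fun ζ => C.s ζ b) (volume.restrict V) := by
    intro b
    have : ContinuousOn (fun ζ => C.s ζ b) V := fun ζ hζ =>
      (contAt C b (hV hζ)).continuousWithinAt
    exact this.aemeasurable hVo
  unfold wB
  refine Finset.aemeasurable_fun_prod _ fun i _ => ?_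
  refine AEMeasurable.pow_const ?_ _
  refine AEMeasurable.ennreal_ofReal ?_
  unfold wt
  refine Finset.aemeasurable_fun_sum _ fun b _ => ?_
  exact ((hc b).norm).pow_const 2

lemma aemeas_sq (b : X.B)
    {y : X.B →ₐ[ℂ] ℂ} (C : Chart X.z y) {V : Set (Cn n)} (hVo : MeasurableSet V)
    (hV : V ⊆ Metric.ball (0 : Cn n) C.r) :
    AEMeasurable (fun ζ => ENNReal.ofReal (‖C.s ζ b‖ ^ 2)) (volume.restrict V) := by
  have : ContinuousOn (fun ζ => C.s ζ b) V := fun ζ hζ =>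
      (contAt C b (hV hζ)).continuousWithinAt
  exact (((this.aemeasurable hVo).norm).pow_const 2).ennreal_ofReal

/-- sum of two integrable functions, one of them measurable on the ball of a chart -/
lemma LInt_add {y : X.B →ₐ[ℂ] ℂ} (C : Chart X.z y) {g g' : Cn n → ℝ≥0∞}
    (hm : ∀ V : Set (Cn n), MeasurableSet V → V ⊆ Metric.ball (0 : Cn n) C.r →
      AEMeasurable g (volume.restrict V))
    (hg : LInt g 0) (hg' : LInt g' 0) : LInt (fun ζ => g ζ + g' ζ) 0 := by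
  obtain ⟨U, hU, hint⟩ := hg
  obtain ⟨U', hU', hint'⟩ := hg'
  obtain ⟨V, hV, hVo, haV⟩ := mem_nhds_iff.mp (inter_mem (inter_mem hU hU') (ball_mem C))
  refine ⟨V, hVo.mem_nhds haV, ?_⟩
  rw [lintegral_add_left' (hm V hVo.measurableSet fun ζ hζ => (hV hζ).2)]
  refine ENNReal.add_lt_top.mpr ⟨?_, ?_⟩
  · exact lt_of_le_of_lt (lintegral_mono_set fun ζ hζ => (hV hζ).1.1) hint
  · exact lt_of_le_of_lt (lintegral_mono_set fun ζ hζ => (hV hζ).1.2) hint'

variable (X)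

/-- the multiplier ideal of the weight `wB S c` -/
def JM {ι : Type} [Fintype ι] (S : ι → Finset X.B) (c : ι → ℝ) : Ideal X.B where
  carrier := {f | ∀ y : X.B →ₐ[ℂ] ℂ,
    LIntB X.z y (fun y' => ENNReal.ofReal (‖y' f‖ ^ 2) * wB S c y')}
  add_mem' := by
    intro f g hf hg y
    obtain ⟨C⟩ := chartEx X y
    have hf' := (lintB_iff_chart C _).mp (hf y)
    have hg' := (lintB_iff_chart C _).mp (hg y)
    rw [lintB_iff_chart C]
    have hsum := LInt_add C (fun V hVm hV => (aemeas_sq f C hVm hV).mul (aemeas_wB S c C hVm hV))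
      hf' hg'
    refine LInt_mono (K := ENNReal.ofReal 2) ENNReal.ofReal_ne_top (Eventually.of_forall fun ζ => ?_) hsum
    simp only [Pi.mul_apply]
    rw [← add_mul, ← mul_assoc]
    gcongr
    rw [← ENNReal.ofReal_add (by positivity) (by positivity), ← ENNReal.ofReal_mul (by norm_num)]
    apply ENNReal.ofReal_le_ofReal
    rw [map_add]
    have h1 := norm_add_le (C.s ζ f) (C.s ζ g)
    have h0 := norm_nonneg (C.s ζ f + C.s ζ g)
    nlinarith [sq_nonneg (‖C.s ζ f‖ - ‖C.s ζ g‖), norm_nonneg (C.s ζ f), norm_nonneg (C.s ζ g)]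
  zero_mem' := by
    intro y
    obtain ⟨C⟩ := chartEx X y
    rw [lintB_iff_chart C]
    refine ⟨Set.univ, Filter.univ_mem, ?_⟩
    simp
  smul_mem' := by
    intro a f hf y
    obtain ⟨C⟩ := chartEx X y
    have hf' := (lintB_iff_chart C _).mp (hf y)
    rw [lintB_iff_chart C]
    have hb : ∀ᶠ ζ in 𝓝 (0 : Cn n), ‖C.s ζ a‖ < ‖C.s 0 a‖ + 1 :=
      ((contAt0 C a).norm).eventually_lt_const (by linarith)
    refine LInt_mono (K := ENNReal.ofReal ((‖C.s 0 a‖ + 1) ^ 2)) ENNReal.ofReal_ne_top ?_ hf'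
    filter_upwards [hb] with ζ hζ
    rw [← mul_assoc]
    gcongr
    rw [← ENNReal.ofReal_mul (by positivity)]
    apply ENNReal.ofReal_le_ofReal
    rw [smul_eq_mul, map_mul, norm_mul, mul_pow]
    gcongr

lemma mem_JM {ι : Type} [Fintype ι] (S : ι → Finset X.B) (c : ι → ℝ) (f : X.B) :
    f ∈ JM X S c ↔ ∀ y : X.B →ₐ[ℂ] ℂ,
      LIntB X.z y (fun y' => ENNReal.ofReal (‖y' f‖ ^ 2) * wB S c y') := Iff.rfl

/-- (a) -/
theorem lint_of_mem_JM {ι : Type} [Fintype ι] (S : ι → Finset X.B) (c : ι → ℝ) {f : X.B}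
    {y : X.B →ₐ[ℂ] ℂ} (hf : LIntB X.z y (fun y' => ENNReal.ofReal (‖y' f‖ ^ 2) * wB S c y'))
    (hy : y f ≠ 0) : LIntB X.z y (wB S c) := by
  obtain ⟨C⟩ := chartEx X y
  have hf' := (lintB_iff_chart C _).mp hf
  rw [lintB_iff_chart C]
  have h0 : 0 < ‖C.s 0 f‖ := by rw [C.s_zero]; exact norm_pos_iff.mpr hy
  have hb : ∀ᶠ ζ in 𝓝 (0 : Cn n), ‖C.s 0 f‖ / 2 < ‖C.s ζ f‖ :=
    ((contAt0 C f).norm).eventually_const_lt (by linarith)
  refine LInt_mono (K := ENNReal.ofReal ((‖C.s 0 f‖ / 2) ^ 2)⁻¹) ENNReal.ofReal_ne_top ?_ hf'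
  filter_upwards [hb] with ζ hζ
  rw [← mul_assoc]
  have h1 : 1 ≤ ENNReal.ofReal ((‖C.s 0 f‖ / 2) ^ 2)⁻¹ * ENNReal.ofReal (‖C.s ζ f‖ ^ 2) := by
    rw [← ENNReal.ofReal_mul (by positivity), ENNReal.one_le_ofReal, ← div_eq_inv_mul,
      one_le_div (by positivity)]
    gcongr
  exact le_mul_of_one_le_left bot_le h1

/-- (c): second half of `MultIdeal` -/
theorem second_half {ι : Type} [Fintype ι] (I : ι → Ideal X.B) (S : ι → Finset X.B)
    (hS : ∀ i, Ideal.span (S i : Set X.B) = I i) (c : ι → ℝ)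
    (y : X.B →ₐ[ℂ] ℂ) (Q : Ideal X.B) (hQ : ∃ g : X.B, y g ≠ 0 ∧ ∀ f ∈ Q, g * f ∈ JM X S c) :
    IInt X.z y (Sum.elim I (fun _ : Unit => Q)) (Sum.elim c (fun _ : Unit => (-1 : ℝ))) := by
  classical
  obtain ⟨g, hg, hgQ⟩ := hQ
  haveI : IsNoetherianRing X.B := Ord969.isNoetherianRing X
  obtain ⟨T, hT⟩ := (isNoetherianRing_iff_ideal_fg X.B).mp inferInstance Q
  refine ⟨Sum.elim S (fun _ => T), ?_, ?_⟩
  · rintro (i | i)
    · exact hS i
    · exact hT
  obtain ⟨C⟩ := chartEx X y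
  rw [lintB_iff_chart C]
  have hw : ∀ y', wB (Sum.elim S (fun _ : Unit => T)) (Sum.elim c (fun _ : Unit => (-1 : ℝ))) y' =
      wB S c y' * ENNReal.ofReal (wt T y') := by
    intro y'
    unfold wB
    rw [Fintype.prod_sum_type]
    simp
  have h0 : 0 < ‖C.s 0 g‖ := by rw [C.s_zero]; exact norm_pos_iff.mpr hg
  have hb : ∀ᶠ ζ in 𝓝 (0 : Cn n), ‖C.s 0 g‖ / 2 < ‖C.s ζ g‖ :=
    ((contAt0 C g).norm).eventually_const_lt (by linarith)
  -- integrability of `∑ |g b|^2 wB`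
  have hsum : ∀ T' : Finset X.B, (∀ b ∈ T', b ∈ Q) →
      LInt (fun ζ => (∑ b ∈ T', ENNReal.ofReal (‖C.s ζ (g * b)‖ ^ 2)) * wB S c (C.s ζ)) 0 := by
    intro T'
    induction T' using Finset.induction_on with
    | empty => intro _; refine ⟨Set.univ, Filter.univ_mem, ?_⟩; simp
    | insert b T' hb ih =>
      intro hT'
      have h1 := ih fun b' hb' => hT' b' (Finset.mem_insert_of_mem hb')
      have h2 := (lintB_iff_chart C _).mp (hgQ b (hT' b (Finset.mem_insert_self _ _)) y)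
      have h3 := LInt_add C
        (fun V hVm hV => (aemeas_sq (g * b) C hVm hV).mul (aemeas_wB S c C hVm hV)) h2 h1
      refine LInt_mono (K := 1) ENNReal.one_ne_top (Eventually.of_forall fun ζ => ?_) h3
      rw [Finset.sum_insert hb, one_mul, add_mul]
      rfl
  have hTQ : ∀ b ∈ T, b ∈ Q := fun b hb => hT ▸ Ideal.subset_span hb
  refine LInt_mono (K := ENNReal.ofReal ((‖C.s 0 g‖ / 2) ^ 2)⁻¹) ENNReal.ofReal_ne_top ?_ (hsum T hTQ)
  filter_upwards [hb] with ζ hζ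
  rw [hw, mul_comm (wB S c (C.s ζ)), ← mul_assoc]
  gcongr
  rw [← ENNReal.ofReal_sum_of_nonneg (fun b _ => by positivity), ← ENNReal.ofReal_mul (by positivity)]
  apply ENNReal.ofReal_le_ofReal
  unfold wt
  rw [Finset.mul_sum]
  refine Finset.sum_le_sum fun b _ => ?_
  rw [map_mul, norm_mul, mul_pow, ← mul_assoc]
  have h1 : 1 ≤ ((‖C.s 0 g‖ / 2) ^ 2)⁻¹ * ‖C.s ζ g‖ ^ 2 := by
    rw [← div_eq_inv_mul, one_le_div (by positivity)]
    gcongr
  exact le_mul_of_one_le_left (by positivity) h1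

end

end Crest.Agent.R271.G4x131
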