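import Mathlib
import Crest.Agent.R271.GSpec_792
import Crest.Agent.R271.G4a_131

/-!
Row 271, G5: the endgame (10.6), `GlobalMain` from the solver (G3) and algebraicity (G2). helper131.
-/

set_option autoImplicit false

open scoped Topology ENNReal NNReal BigOperators
open Filter Set MeasureTheory

noncomputable section

namespace Crest.Agent.R271.G5x131

open Crest.Agent.R271.Defs710 Crest.Agent.R271.Rd692 Crest.Agent.R271.GSpec792
open Crest.Agent.R271.G4x131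

variable {n : ℕ}

/-- the growth statement in the form of `GSpec_792` -/
theorem growth (X : FCtx n) : GrowthStmt X := by
  intro b
  obtain ⟨C, N, K, hC, h⟩ := growthB X b
  refine ⟨C ^ 2, N, 2 * K, fun y => ?_⟩
  have h1 := h y
  have h2 : ‖y b‖ ^ 2 * ‖y X.h‖ ^ (2 * N) = (‖y b‖ * ‖y X.h‖ ^ N) ^ 2 := by ring
  have h3 : C ^ 2 * (1 + ∑ i, ‖y (X.z i)‖ ^ 2) ^ (2 * K) = (C * W X y ^ K) ^ 2 := by
    unfold W; ring
  rw [h2, h3]
  have h0 : 0 ≤ ‖y b‖ * ‖y X.h‖ ^ N := by positivity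
  exact pow_le_pow_left₀ h0 h1 2

section

variable (X : FCtx n)

/-- `T = ∑ |Y_j|^2` -/
def TT (y : X.B →ₐ[ℂ] ℂ) : ℝ := ∑ j, ‖y (X.Y j)‖ ^ 2

lemma TT_pos (y : X.B →ₐ[ℂ] ℂ) : 0 < TT X y := by
  unfold TT
  have h0 : y (X.Y 0) ≠ 0 := (X.Y_unit.map y).ne_zero
  have h1 : 0 < ‖y (X.Y 0)‖ ^ 2 := by positivity
  exact lt_of_lt_of_le h1
    (Finset.single_le_sum (f := fun j => ‖y (X.Y j)‖ ^ 2) (fun j _ => by positivity)
      (Finset.mem_univ 0))

/-- growth of `(1 + T)^m |h|^{2N}` -/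
lemma T_growth (m : ℕ) : ∃ (C : ℝ) (N M : ℕ), 1 ≤ C ∧
    ∀ y : X.B →ₐ[ℂ] ℂ, (1 + TT X y) ^ m * ‖y X.h‖ ^ (2 * N) ≤ C * W X y ^ M := by
  -- one common exponent for all the `Y j` and `1`
  have h1 : ∀ s : Finset (Fin (n + 1)), ∃ (C : ℝ) (N M : ℕ), 1 ≤ C ∧
      ∀ y : X.B →ₐ[ℂ] ℂ, (1 + ∑ j ∈ s, ‖y (X.Y j)‖ ^ 2) * ‖y X.h‖ ^ (2 * N) ≤ C * W X y ^ M := by
    intro s
    induction s using Finset.induction_on with
    | empty => exact ⟨1, 0, 0, le_refl _, fun y => by simp⟩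
    | insert j s hj ih =>
      obtain ⟨C, N, M, hC, h⟩ := ih
      obtain ⟨C', N', K', hC', h'⟩ := growthB X (X.Y j)
      obtain ⟨D, L, hD, hL⟩ := growth_h X
      refine ⟨C * D ^ (2 * N') + C' ^ 2 * D ^ (2 * N), N + N', M + 2 * K' + (2 * L * (N + N')), ?_,
        fun y => ?_⟩
      · have : 1 ≤ D ^ (2 * N') := one_le_pow₀ hD
        have : 0 ≤ C' ^ 2 * D ^ (2 * N) := by positivity
        nlinarith
      rw [Finset.sum_insert hj]
      have hW := one_le_W X y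
      have hW0 := W_pos X y
      have hh := hL y
      have hh1 : ‖y X.h‖ ^ (2 * N') ≤ D ^ (2 * N') * W X y ^ (2 * L * N') := by
        calc ‖y X.h‖ ^ (2 * N') ≤ (D * W X y ^ L) ^ (2 * N') :=
              pow_le_pow_left₀ (norm_nonneg _) hh _
          _ = _ := by rw [mul_pow, ← pow_mul]; ring_nf
      have hh2 : ‖y X.h‖ ^ (2 * N) ≤ D ^ (2 * N) * W X y ^ (2 * L * N) := by
        calc ‖y X.h‖ ^ (2 * N) ≤ (D * W X y ^ L) ^ (2 * N) :=
              pow_le_pow_left₀ (norm_nonneg _) hh _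
          _ = _ := by rw [mul_pow, ← pow_mul]; ring_nf
      have e1 : (1 + (‖y (X.Y j)‖ ^ 2 + ∑ j ∈ s, ‖y (X.Y j)‖ ^ 2)) * ‖y X.h‖ ^ (2 * (N + N')) =
          ((1 + ∑ j ∈ s, ‖y (X.Y j)‖ ^ 2) * ‖y X.h‖ ^ (2 * N)) * ‖y X.h‖ ^ (2 * N') +
          (‖y (X.Y j)‖ * ‖y X.h‖ ^ N') ^ 2 * ‖y X.h‖ ^ (2 * N) := by ring
      rw [e1]
      have b1 : ((1 + ∑ j ∈ s, ‖y (X.Y j)‖ ^ 2) * ‖y X.h‖ ^ (2 * N)) * ‖y X.h‖ ^ (2 * N') ≤
          (C * W X y ^ M) * (D ^ (2 * N') * W X y ^ (2 * L * N')) :=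
        mul_le_mul (h y) hh1 (by positivity) (by positivity)
      have b2 : (‖y (X.Y j)‖ * ‖y X.h‖ ^ N') ^ 2 * ‖y X.h‖ ^ (2 * N) ≤
          (C' * W X y ^ K') ^ 2 * (D ^ (2 * N) * W X y ^ (2 * L * N)) :=
        mul_le_mul (pow_le_pow_left₀ (by positivity) (h' y) 2) hh2 (by positivity) (by positivity)
      have b3 : (C * W X y ^ M) * (D ^ (2 * N') * W X y ^ (2 * L * N')) ≤
          C * D ^ (2 * N') * W X y ^ (M + 2 * K' + (2 * L * (N + N'))) := by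
        have : W X y ^ M * W X y ^ (2 * L * N') ≤ W X y ^ (M + 2 * K' + (2 * L * (N + N'))) := by
          rw [← pow_add]
          apply pow_le_pow_right₀ hW
          nlinarith [Nat.zero_le (L * N)]
        calc (C * W X y ^ M) * (D ^ (2 * N') * W X y ^ (2 * L * N'))
            = C * D ^ (2 * N') * (W X y ^ M * W X y ^ (2 * L * N')) := by ring
          _ ≤ _ := by gcongr
      have b4 : (C' * W X y ^ K') ^ 2 * (D ^ (2 * N) * W X y ^ (2 * L * N)) ≤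
          C' ^ 2 * D ^ (2 * N) * W X y ^ (M + 2 * K' + (2 * L * (N + N'))) := by
        have : (W X y ^ K') ^ 2 * W X y ^ (2 * L * N) ≤
            W X y ^ (M + 2 * K' + (2 * L * (N + N'))) := by
          rw [← pow_mul, ← pow_add]
          apply pow_le_pow_right₀ hW
          nlinarith [Nat.zero_le (L * N')]
        calc (C' * W X y ^ K') ^ 2 * (D ^ (2 * N) * W X y ^ (2 * L * N))
            = C' ^ 2 * D ^ (2 * N) * ((W X y ^ K') ^ 2 * W X y ^ (2 * L * N)) := by ring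
          _ ≤ _ := by gcongr
      calc _ ≤ C * D ^ (2 * N') * W X y ^ (M + 2 * K' + (2 * L * (N + N'))) +
            C' ^ 2 * D ^ (2 * N) * W X y ^ (M + 2 * K' + (2 * L * (N + N'))) :=
            add_le_add (b1.trans b3) (b2.trans b4)
        _ = _ := by ring
  obtain ⟨C, N, M, hC, h⟩ := h1 Finset.univ
  refine ⟨C ^ m, N * m, M * m, one_le_pow₀ hC, fun y => ?_⟩
  have h2 := h y
  have h3 : 0 ≤ (1 + TT X y) * ‖y X.h‖ ^ (2 * N) := by
    have := (TT_pos X y).le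
    positivity
  calc (1 + TT X y) ^ m * ‖y X.h‖ ^ (2 * (N * m)) = ((1 + TT X y) * ‖y X.h‖ ^ (2 * N)) ^ m := by
        rw [mul_pow, ← pow_mul]; ring_nf
    _ ≤ (C * W X y ^ M) ^ m := pow_le_pow_left₀ h3 h2 m
    _ = _ := by rw [mul_pow, ← pow_mul]

/-- bound of `wt S` by the metric -/
lemma wt_bound (S : Finset X.B) (m : ℕ) (hS : ∀ f ∈ S, f ∈ X.V m) :
    ∃ C : ℝ, 0 < C ∧ ∀ y : X.B →ₐ[ℂ] ℂ, wt S y ≤ C * TT X y ^ ((m : ℝ) / X.k) := by
  have hk : (0 : ℝ) < X.k := by exact_mod_cast X.k_pos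
  have h1 : ∀ f ∈ S, ∃ C : ℝ, 0 < C ∧ ∀ y : X.B →ₐ[ℂ] ℂ,
      ‖y f‖ ^ 2 ≤ C * TT X y ^ ((m : ℝ) / X.k) := by
    intro f hf
    obtain ⟨C, hC⟩ := X.FSbd m f (hS f hf)
    refine ⟨(|C| + 1) ^ (1 / (X.k : ℝ)), by positivity, fun y => ?_⟩
    have hT := TT_pos X y
    have h2 : ‖y f‖ ^ (2 * X.k) ≤ (|C| + 1) * TT X y ^ m := by
      refine (hC y).trans ?_
      have : C ≤ |C| + 1 := by have := le_abs_self C; linarith
      exact mul_le_mul_of_nonneg_right this (by positivity)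
    have h3 : ‖y f‖ ^ 2 = ((‖y f‖ ^ (2 * X.k) : ℝ)) ^ (1 / (X.k : ℝ)) := by
      rw [pow_mul, ← Real.rpow_natCast (‖y f‖ ^ 2) X.k, ← Real.rpow_mul (by positivity)]
      rw [mul_one_div_cancel hk.ne', Real.rpow_one]
    rw [h3]
    calc ((‖y f‖ ^ (2 * X.k) : ℝ)) ^ (1 / (X.k : ℝ)) ≤ ((|C| + 1) * TT X y ^ m) ^ (1 / (X.k : ℝ)) :=
          Real.rpow_le_rpow (by positivity) h2 (by positivity)
      _ = (|C| + 1) ^ (1 / (X.k : ℝ)) * (TT X y ^ m) ^ (1 / (X.k : ℝ)) :=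
          Real.mul_rpow (by positivity) (by positivity)
      _ = _ := by
          rw [← Real.rpow_natCast (TT X y) m, ← Real.rpow_mul hT.le]
          congr 2
          ring
  choose! C hC hCb using h1
  refine ⟨1 + ∑ f ∈ S, C f, ?_, fun y => ?_⟩
  · have : 0 ≤ ∑ f ∈ S, C f := Finset.sum_nonneg fun f hf => (hC f hf).le
    linarith
  have hT := TT_pos X y
  unfold wt
  calc ∑ b ∈ S, ‖y b‖ ^ 2 ≤ ∑ b ∈ S, C b * TT X y ^ ((m : ℝ) / X.k) :=
        Finset.sum_le_sum fun b hb => hCb b hb y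
    _ = (∑ b ∈ S, C b) * TT X y ^ ((m : ℝ) / X.k) := by rw [Finset.sum_mul]
    _ ≤ _ := by
        have : 0 ≤ TT X y ^ ((m : ℝ) / X.k) := by positivity
        nlinarith

lemma rpow_sum {ι : Type} (s : Finset ι) {T : ℝ≥0∞} (h0 : T ≠ 0) (ht : T ≠ ∞) (a : ι → ℝ) :
    ∏ i ∈ s, T ^ (a i) = T ^ (∑ i ∈ s, a i) := by
  classical
  induction s using Finset.induction_on with
  | empty => simp
  | insert i s hi ih => rw [Finset.prod_insert hi, Finset.sum_insert hi, ih, ENNReal.rpow_add _ _ h0 ht]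

/-- the weight of MLT dominates the metric -/
lemma weight_bound {r : ℕ} (S : Fin r → Finset X.B) (m : Fin r → ℕ) (c : Fin r → ℝ)
    (hS : ∀ i, ∀ f ∈ S i, f ∈ X.V (m i)) (hc : ∀ i, 0 < c i) (m₀ : ℝ) :
    ∃ K : ℝ≥0∞, K ≠ ∞ ∧ ∀ y : X.B →ₐ[ℂ] ℂ,
      (ENNReal.ofReal (TT X y)) ^ (-(m₀ / X.k)) ≤
        K * (wB S c y * (ENNReal.ofReal (TT X y)) ^ (-((m₀ - ∑ i, c i * (m i : ℝ)) / X.k))) := by
  have hk : (0 : ℝ) < X.k := by exact_mod_cast X.k_pos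
  choose C hC hCb using fun i => wt_bound X (S i) (m i) (hS i)
  refine ⟨∏ i, (ENNReal.ofReal (C i)) ^ (c i), ?_, fun y => ?_⟩
  · apply ne_of_lt
    apply ENNReal.prod_lt_top
    intro i _
    exact ENNReal.rpow_lt_top_of_nonneg (hc i).le ENNReal.ofReal_ne_top
  have hT := TT_pos X y
  set T := ENNReal.ofReal (TT X y) with hTdef
  have hT0 : T ≠ 0 := by simp [hTdef, hT]
  have hTt : T ≠ ∞ := ENNReal.ofReal_ne_top
  have h1 : ∀ i, T ^ (-(c i * (m i : ℝ) / X.k)) ≤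
      (ENNReal.ofReal (C i)) ^ (c i) * (ENNReal.ofReal (wt (S i) y)) ^ (-(c i)) := by
    intro i
    have hCi : ENNReal.ofReal (C i) ≠ 0 := by simp [hC i]
    have h2 : ENNReal.ofReal (wt (S i) y) ≤ ENNReal.ofReal (C i) * T ^ ((m i : ℝ) / X.k) := by
      rw [hTdef, ENNReal.ofReal_rpow_of_pos hT, ← ENNReal.ofReal_mul (hC i).le]
      exact ENNReal.ofReal_le_ofReal (hCb i y)
    have h3 : (ENNReal.ofReal (C i) * T ^ ((m i : ℝ) / X.k)) ^ (-(c i)) ≤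
        (ENNReal.ofReal (wt (S i) y)) ^ (-(c i)) := by
      rw [ENNReal.rpow_neg, ENNReal.rpow_neg]
      exact ENNReal.inv_le_inv.mpr (ENNReal.rpow_le_rpow h2 (hc i).le)
    have h4 : (ENNReal.ofReal (C i) * T ^ ((m i : ℝ) / X.k)) ^ (-(c i)) =
        (ENNReal.ofReal (C i)) ^ (-(c i)) * T ^ (-(c i * (m i : ℝ) / X.k)) := by
      rw [ENNReal.mul_rpow_of_ne_top ENNReal.ofReal_ne_top
        (ENNReal.rpow_ne_top_of_nonneg (by positivity) hTt), ← ENNReal.rpow_mul]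
      congr 2
      ring
    rw [h4] at h3
    calc T ^ (-(c i * (m i : ℝ) / X.k))
        = (ENNReal.ofReal (C i)) ^ (c i) * ((ENNReal.ofReal (C i)) ^ (-(c i)) *
            T ^ (-(c i * (m i : ℝ) / X.k))) := by
          rw [← mul_assoc, ← ENNReal.rpow_add _ _ hCi ENNReal.ofReal_ne_top]
          simp
      _ ≤ _ := by gcongr
  have h5 : T ^ (-(m₀ / X.k)) = (∏ i, T ^ (-(c i * (m i : ℝ) / X.k))) *
      T ^ (-((m₀ - ∑ i, c i * (m i : ℝ)) / X.k)) := by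
    have h6 : ∏ i, T ^ (-(c i * (m i : ℝ) / X.k)) = T ^ (∑ i, -(c i * (m i : ℝ) / X.k)) := by
      exact rpow_sum _ hT0 hTt _
    rw [h6, ← ENNReal.rpow_add _ _ hT0 hTt]
    congr 1
    rw [Finset.sum_neg_distrib, ← Finset.sum_div]
    field_simp
    ring
  rw [h5, ← mul_assoc]
  gcongr
  unfold wB
  rw [← Finset.prod_mul_distrib]
  exact Finset.prod_le_prod' fun i _ => h1 i

/-- (10.6) -/
theorem globalOut_of (hS : SolverStmt X) (hA : AlgStmt X) (hM : MLT X) (m : ℕ) (hm : n + 1 ≤ m) :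
    GlobalOut X m := by
  obtain ⟨r, S, mi, c, C, r₁, r₂, hSV, hc, hsum, hr1, hr12, hr2, hnot, hshell⟩ := hM
  have hk : (0 : ℝ) < X.k := by exact_mod_cast X.k_pos
  have hmR : ((n : ℝ) + 1) ≤ m := by exact_mod_cast hm
  set a : ℝ := ((m : ℝ) - ∑ i, c i * (mi i : ℝ)) / X.k with ha
  have ha0 : 0 < a := by
    apply div_pos _ hk
    linarith
  obtain ⟨F, hF, hFx, hint⟩ := hS X.x C (Fin r) S c X.Y a r₁ r₂ (fun i => (hc i).le)
    (fun i => by
      obtain ⟨b, hb⟩ := (hSV i).1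
      exact ⟨b, hb, ((hSV i).2 b hb).2⟩) X.Y_unit X.Y_z ha0 hr1 hr12 hr2 hshell
  have hFx1 : F X.x = 1 := hFx hnot
  obtain ⟨K, hK, hKb⟩ := weight_bound X S mi c (fun i f hf => ((hSV i).2 f hf).1) hc (m : ℝ)
  set g : (X.B →ₐ[ℂ] ℂ) → ℝ≥0∞ := fun y => (ENNReal.ofReal (∑ j, ‖y (X.Y j)‖ ^ 2)) ^ (-((m : ℝ) / X.k))
    with hg
  have hgK : ∀ y, g y ≤ K * (wB S c y * (ENNReal.ofReal (∑ j, ‖y (X.Y j)‖ ^ 2)) ^ (-a)) := by
    intro y
    exact hKb y
  -- `g` is bounded on the closed ball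
  have hgball : ∫⁻ ζ in Metric.ball (0 : Cn n) r₂, g (C.s ζ) < ∞ := by
    have hsub : Metric.closedBall (0 : Cn n) r₂ ⊆ Metric.ball (0 : Cn n) C.r :=
      Metric.closedBall_subset_ball hr2
    have hcont : ContinuousOn (fun ζ => TT X (C.s ζ)) (Metric.closedBall (0 : Cn n) r₂) := by
      unfold TT
      refine continuousOn_finsetSum _ fun j _ => ?_
      refine ContinuousOn.pow (ContinuousOn.norm ?_) 2
      exact fun ζ hζ => ((C.anal (X.Y j)) ζ (hsub hζ)).continuousAt.continuousWithinAt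
    obtain ⟨ζ₀, hζ₀, hmin⟩ := (isCompact_closedBall (0 : Cn n) r₂).exists_isMinOn
      ⟨0, Metric.mem_closedBall_self (by linarith)⟩ hcont
    set δ := TT X (C.s ζ₀) with hδ
    have hδ0 : 0 < δ := TT_pos X _
    have hb : ∀ ζ ∈ Metric.ball (0 : Cn n) r₂, g (C.s ζ) ≤ (ENNReal.ofReal δ) ^ (-((m : ℝ) / X.k)) := by
      intro ζ hζ
      have h1 : δ ≤ TT X (C.s ζ) := hmin (Metric.ball_subset_closedBall hζ)
      have h2 : ENNReal.ofReal δ ≤ ENNReal.ofReal (TT X (C.s ζ)) := ENNReal.ofReal_le_ofReal h1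
      show (ENNReal.ofReal (TT X (C.s ζ))) ^ (-((m : ℝ) / X.k)) ≤ _
      rw [ENNReal.rpow_neg, ENNReal.rpow_neg]
      exact ENNReal.inv_le_inv.mpr (ENNReal.rpow_le_rpow h2 (by positivity))
    calc ∫⁻ ζ in Metric.ball (0 : Cn n) r₂, g (C.s ζ)
        ≤ ∫⁻ ζ in Metric.ball (0 : Cn n) r₂, (ENNReal.ofReal δ) ^ (-((m : ℝ) / X.k)) :=
          setLIntegral_mono' Metric.isOpen_ball.measurableSet hb
      _ = (ENNReal.ofReal δ) ^ (-((m : ℝ) / X.k)) * volume (Metric.ball (0 : Cn n) r₂) := by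
          rw [setLIntegral_const]
      _ < ∞ := by
          apply ENNReal.mul_lt_top
          · rw [ENNReal.rpow_neg]
            apply lt_of_le_of_ne le_top
            rw [Ne, ENNReal.inv_eq_top]
            have : ENNReal.ofReal δ ≠ 0 := by simp [hδ0]
            simp [ENNReal.rpow_eq_zero_iff, this]
          · exact measure_ball_lt_top
  have hfin := hint g K hK hgK hgball
  -- algebraicity
  obtain ⟨D, N, M, hD, hgr⟩ := T_growth X m
  have hfin2 : lintM X.z (fun y => ENNReal.ofReal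
      (‖F y‖ ^ 2 * ‖y X.h‖ ^ (2 * N) / (1 + ∑ i, ‖y (X.z i)‖ ^ 2) ^ M)) < ∞ := by
    have hle : ∀ y : X.B →ₐ[ℂ] ℂ, ENNReal.ofReal
        (‖F y‖ ^ 2 * ‖y X.h‖ ^ (2 * N) / (1 + ∑ i, ‖y (X.z i)‖ ^ 2) ^ M) ≤
        ENNReal.ofReal D * (ENNReal.ofReal (‖F y‖ ^ 2) * g y) := by
      intro y
      have hT := TT_pos X y
      have hW := W_pos X y
      have h1 := hgr y
      have hg' : g y = ENNReal.ofReal ((TT X y) ^ (-((m : ℝ) / X.k))) := by
        show (ENNReal.ofReal (TT X y)) ^ (-((m : ℝ) / X.k)) = _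
        rw [ENNReal.ofReal_rpow_of_pos hT]
      rw [hg', ← ENNReal.ofReal_mul (by positivity), ← ENNReal.ofReal_mul (by positivity)]
      apply ENNReal.ofReal_le_ofReal
      have h2 : (TT X y) ^ ((m : ℝ) / X.k) ≤ (1 + TT X y) ^ m := by
        have h3 : (TT X y) ^ ((m : ℝ) / X.k) ≤ (1 + TT X y) ^ ((m : ℝ) / X.k) :=
          Real.rpow_le_rpow hT.le (by linarith) (by positivity)
        have h4 : (1 + TT X y) ^ ((m : ℝ) / X.k) ≤ (1 + TT X y) ^ (m : ℝ) := by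
          apply Real.rpow_le_rpow_of_exponent_le (by linarith)
          apply div_le_self (by positivity)
          exact_mod_cast X.k_pos
        rw [Real.rpow_natCast] at h4
        exact h3.trans h4
      have h5 : ‖y X.h‖ ^ (2 * N) / (1 + ∑ i, ‖y (X.z i)‖ ^ 2) ^ M ≤
          D * (TT X y) ^ (-((m : ℝ) / X.k)) := by
        rw [Real.rpow_neg hT.le, ← div_eq_mul_inv,
          div_le_div_iff₀ (by exact pow_pos hW M) (by positivity)]
        calc ‖y X.h‖ ^ (2 * N) * (TT X y) ^ ((m : ℝ) / X.k)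
            ≤ ‖y X.h‖ ^ (2 * N) * (1 + TT X y) ^ m := by gcongr
          _ = (1 + TT X y) ^ m * ‖y X.h‖ ^ (2 * N) := by ring
          _ ≤ D * W X y ^ M := h1
      calc ‖F y‖ ^ 2 * ‖y X.h‖ ^ (2 * N) / (1 + ∑ i, ‖y (X.z i)‖ ^ 2) ^ M
          = ‖F y‖ ^ 2 * (‖y X.h‖ ^ (2 * N) / (1 + ∑ i, ‖y (X.z i)‖ ^ 2) ^ M) := by ring
        _ ≤ ‖F y‖ ^ 2 * (D * (TT X y) ^ (-((m : ℝ) / X.k))) := by gcongr
        _ = _ := by ring
    calc _ ≤ lintM X.z (fun y => ENNReal.ofReal D * (ENNReal.ofReal (‖F y‖ ^ 2) * g y)) := by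
          unfold lintM
          refine lintegral_mono fun ζ => ENNReal.tsum_le_tsum fun y => hle y.1
      _ = ENNReal.ofReal D * lintM X.z (fun y => ENNReal.ofReal (‖F y‖ ^ 2) * g y) := by
          unfold lintM
          rw [← lintegral_const_mul' _ _ ENNReal.ofReal_ne_top]
          congr 1
          funext ζ
          rw [ENNReal.tsum_mul_left]
      _ < ∞ := ENNReal.mul_lt_top ENNReal.ofReal_lt_top hfin
  obtain ⟨b, hb⟩ := hA F N M hF hfin2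
  refine ⟨b, ?_, ?_⟩
  · rw [← hb, hFx1]
    exact one_ne_zero
  · have : (fun y : X.B →ₐ[ℂ] ℂ => ENNReal.ofReal (‖y b‖ ^ 2) *
        (ENNReal.ofReal (∑ j, ‖y (X.Y j)‖ ^ 2)) ^ (-((m : ℝ) / X.k))) =
        fun y => ENNReal.ofReal (‖F y‖ ^ 2) * g y := by
      funext y
      rw [hb y]
    rw [this]
    exact hfin

end

/-- G5 -/
theorem globalMain_of (hS : ∀ (n : ℕ) (X : FCtx n), 1 ≤ n → SolverStmt X)
    (hA : ∀ (n : ℕ) (X : FCtx n), 1 ≤ n → AlgStmt X) : GlobalMain := by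
  intro n X hn hM m hm
  exact globalOut_of X (hS n X hn) (hA n X hn) hM m hm

end Crest.Agent.R271.G5x131
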