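import Crest.Agent.R271.G4_934

/-!
# Row 271, sub-team L: (AF8) for germs, main proof (helper934)
-/

set_option autoImplicit false
open MeasureTheory Filter Topology Set Metric
open scoped ENNReal NNReal

namespace Crest.Agent.R271.L934

open Crest.Agent.R271.Defs710

theorem rpow_ne_zero' {x : ℝ≥0∞} (hx0 : x ≠ 0) (hx : x ≠ ∞) (p : ℝ) : x ^ p ≠ 0 := by
  intro h0
  rcases ENNReal.rpow_eq_zero_iff.1 h0 with ⟨h1, -⟩ | ⟨h1, -⟩
  · exact hx0 h1
  · exact hx h1

theorem exists_continuousOn {V : Type*} [NormedAddCommGroup V] [NormedSpace ℂ V] {κ : Type}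
    [Fintype κ] {h : κ → V → ℂ} {a : V} (hh : ∀ j, AnalyticAt ℂ (h j) a) :
    ∃ T : Set V, IsOpen T ∧ a ∈ T ∧ ContinuousOn (sqV h) T := by
  have h1 : ∀ᶠ z in 𝓝 a, ∀ j, ContinuousAt (h j) z := by
    rw [Filter.eventually_all]
    intro j
    exact (hh j).eventually_continuousAt
  obtain ⟨T, hT, hTo, haT⟩ := _root_.eventually_nhds_iff.1 h1
  refine ⟨T, hTo, haT, ?_⟩
  intro z hz
  apply ContinuousAt.continuousWithinAt
  unfold sqV
  exact tendsto_finsetSum _ fun j _ => (((hT z hz) j).norm.pow 2)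

theorem af8 (hS : SumThm) {n d : ℕ} (hd : d < n) (hd1 : 1 ≤ d) {m : ℕ} (h : Fin m → Cn n → ℂ)
    {a b g : ℝ} (hh : ∀ j, AnalyticAt ℂ (h j) 0) (ha : 0 ≤ a) (hb : 0 ≤ b) (hg : (d : ℝ) < g)
    (H : LInt (fun ζ => (ENNReal.ofReal (sqV h ζ)) ^ (-a) *
      (ENNReal.ofReal (QQ d ζ)) ^ (-b) * (ENNReal.ofReal (SS ζ)) ^ (-g)) 0)
    {ε : ℝ} (hε : 0 < ε) (hε1 : ε < 1) :
    LInt (fun ζ => (ENNReal.ofReal (sqV h ζ)) ^ (-((1 - ε) * a)) *
      (ENNReal.ofReal (QQ d ζ)) ^ (-((1 - ε) * b + (g - d) - ε))) 0 := by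
  have hd' : (1:ℝ) ≤ d := by exact_mod_cast hd1
  have hn : (0:ℝ) < n := by exact_mod_cast (Nat.zero_le _).trans_lt hd
  -- constants
  have hgd : 0 < g + d := by linarith
  set e : ℝ := ε / (2 * (g + d)) with he
  have he0 : 0 < e := by positivity
  have hegd : e * (g + d) = ε / 2 := by rw [he]; field_simp
  have heε : e ≤ ε := by
    rw [he, div_le_iff₀ (by positivity)]
    nlinarith
  have he1 : e < 1 := by linarith
  set c' : ℝ := (g + d) * (1 - e) with hc'
  have hc'eq : c' = g + d - ε / 2 := by rw [hc', ← hegd]; ring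
  have hc'd : (d:ℝ) < c' := by rw [hc'eq]; linarith
  have hc'0 : 0 < c' := by linarith
  -- eventual bounds
  set M : ℝ := sqV h 0 + 1 with hM
  have hM0 : 0 < M := by have := sqV_nonneg h 0; linarith
  have hhM : ∀ᶠ w in 𝓝 (0 : Cn n), sqV h w < M :=
    (sqV_continuousAt hh).eventually_lt_const (by linarith)
  have hS1 : ∀ᶠ w in 𝓝 (0 : Cn n), SS w < 1 :=
    (SS_cont.continuousAt (x := (0 : Cn n))).eventually_lt_const (by simp [SS])
  have hQ1 : ∀ᶠ w in 𝓝 (0 : Cn n), QQ d w < 1 := by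
    filter_upwards [hS1] with w hw
    exact lt_of_le_of_lt (QQ_le_SS w) hw
  have hfst : Tendsto (fun p : Cn n × Cn d => p.1) (𝓝 0) (𝓝 (0 : Cn n)) := by
    have : Continuous (fun p : Cn n × Cn d => p.1) := continuous_fst
    exact this.tendsto' _ _ rfl
  -- step 1
  obtain ⟨C, hC, hCle⟩ := lintegral_add_sq_le' (volume : Measure (Cn d)) (c := c') (by
    rw [finrank_Cn]; push_cast; linarith)
  have step1 : LIntM volume (fun p : Cn n × Cn d =>
      ((ENNReal.ofReal (sqV h p.1)) ^ (-a) * (ENNReal.ofReal (QQ d p.1)) ^ (-b)) *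
      (ENNReal.ofReal (SS p.1 + ‖p.2‖ ^ 2)) ^ (-c')) (0 : Cn n × Cn d) := by
    rw [Measure.volume_eq_prod]
    refine LIntM.of_inner (μ := (volume : Measure (Cn n))) (ν := (volume : Measure (Cn d)))
      (a := 0) (b := 0) H (K := C) hC (W' := univ) univ_mem ?_
    filter_upwards [hS1] with w hw
    rw [Measure.restrict_univ]
    have hmeas : Measurable (fun τ : Cn d => (ENNReal.ofReal (SS w + ‖τ‖ ^ 2)) ^ (-c')) :=
      (ENNReal.measurable_ofReal.comp (measurable_const.add (measurable_norm.pow_const 2))).pow_const _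
    rw [lintegral_const_mul _ hmeas]
    have h1 := hCle (SS w) (SS_nonneg _)
    rw [finrank_Cn] at h1
    have e1 : c' - ((2 * d : ℕ) : ℝ) / 2 = c' - d := by push_cast; ring
    rw [e1] at h1
    have h2 : (ENNReal.ofReal (SS w)) ^ (-(c' - d)) ≤ (ENNReal.ofReal (SS w)) ^ (-g) := by
      have h3 := rpow_neg_le (x := ENNReal.ofReal (SS w)) (m := 1) (by
        rw [← ENNReal.ofReal_one]; exact ENNReal.ofReal_le_ofReal hw.le) (by simp) (by simp)
        (p := c' - d) (q := g) (by linarith) (by rw [hc'eq]; linarith)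
      simpa using h3
    calc _ ≤ ((ENNReal.ofReal (sqV h w)) ^ (-a) * (ENNReal.ofReal (QQ d w)) ^ (-b)) *
          (C * (ENNReal.ofReal (SS w)) ^ (-g)) := by
          gcongr
          exact h1.trans (by gcongr)
      _ = _ := by ring
  -- step 2
  let κ' : Bool → Type := fun b => match b with
    | true => Fin m
    | false => {i : Fin n // d ≤ i.1}
  let : ∀ i, Fintype (κ' i) := fun b => match b with
    | true => (inferInstance : Fintype (Fin m))
    | false => (inferInstance : Fintype {i : Fin n // d ≤ i.1})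
  let H' : ∀ i, κ' i → Cn n × Cn d → ℂ := fun b => match b with
    | true => fun (j : Fin m) p => h j p.1
    | false => fun (j : {i : Fin n // d ≤ i.1}) p => p.1 j.1
  let cc : Bool → ℝ := fun b' => match b' with
    | true => a
    | false => b
  have hfsta : AnalyticAt ℂ (fun p : Cn n × Cn d => p.1) 0 :=
    (ContinuousLinearMap.fst ℂ (Cn n) (Cn d)).analyticAt 0
  have hH' : ∀ i j, AnalyticAt ℂ (H' i j) 0 := by
    intro i
    cases i
    · intro j
      have : (H' false j) = fun p : Cn n × Cn d =>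
        ((ContinuousLinearMap.proj (R := ℂ) (φ := fun _ : Fin n => ℂ) j.1).comp
          (ContinuousLinearMap.fst ℂ (Cn n) (Cn d))) p := rfl
      rw [this]
      exact ContinuousLinearMap.analyticAt _ _
    · intro j
      have h1 : AnalyticAt ℂ (h j) ((fun p : Cn n × Cn d => p.1) 0) := hh j
      exact AnalyticAt.fun_comp h1 hfsta
  have hcc : ∀ i, 0 ≤ cc i := by
    intro i; cases i
    · exact hb
    · exact ha
  have wV_eq : ∀ (x : ℝ) (p : Cn n × Cn d), wV H' (fun i => x * cc i) p =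
      (ENNReal.ofReal (sqV h p.1)) ^ (-(x * a)) * (ENNReal.ofReal (QQ d p.1)) ^ (-(x * b)) := by
    intro x p
    simp only [wV, Fintype.prod_bool]
    rfl
  have wV_eq1 : ∀ (p : Cn n × Cn d), wV H' cc p =
      (ENNReal.ofReal (sqV h p.1)) ^ (-a) * (ENNReal.ofReal (QQ d p.1)) ^ (-b) := by
    intro p
    simp only [wV, Fintype.prod_bool]
    rfl
  have step2 : LIntM volume (fun p : Cn n × Cn d => wV H' cc p *
      (ENNReal.ofReal (sqV (g1 (n := n) d) p + sqV (fun i : Fin d => tau (n := n) i) p)) ^ (-c')) 0 := by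
    refine step1.mono_const (K := (ENNReal.ofReal 3) ^ c')
      (ENNReal.rpow_ne_top_of_nonneg hc'0.le ENNReal.ofReal_ne_top) ?_
    refine Filter.Eventually.of_forall fun p => ?_
    rw [wV_eq1]
    have key : (ENNReal.ofReal (sqV (g1 (n := n) d) p + sqV (fun i : Fin d => tau (n := n) i) p)) ^ (-c')
        ≤ (ENNReal.ofReal 3) ^ c' * (ENNReal.ofReal (SS p.1 + ‖p.2‖ ^ 2)) ^ (-c') := by
      refine rpow_neg_le_mul (by simp) ENNReal.ofReal_ne_top ?_ hc'0.le
      rw [← ENNReal.ofReal_mul (by norm_num)]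
      apply ENNReal.ofReal_le_ofReal
      have h1 : ‖p.2‖ ^ 2 ≤ sqV (fun i : Fin d => tau (n := n) i) p := norm_sq_le_sum p.2
      have h2 : 0 ≤ sqV (g1 (n := n) d) p := sqV_nonneg _ _
      have h3 : SS p.1 ≤ 2 * sqV (g1 (n := n) d) p + 2 * sqV (fun i : Fin d => tau (n := n) i) p := by
        have h4 : ∀ i : Fin n, ‖p.1 i‖ ^ 2 ≤ 2 * ‖g1 (n := n) d i p‖ ^ 2 +
            2 * (if hi : i.1 < d then ‖p.2 ⟨i.1, hi⟩‖ ^ 2 else 0) := by
          intro i
          by_cases hi : i.1 < d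
          · have e1 : p.1 i = g1 (n := n) d i p + p.2 ⟨i.1, hi⟩ := by simp [g1, hi]
            simp only [hi, dite_true]
            calc ‖p.1 i‖ ^ 2 = ‖g1 (n := n) d i p + p.2 ⟨i.1, hi⟩‖ ^ 2 := by rw [← e1]
              _ ≤ (‖g1 (n := n) d i p‖ + ‖p.2 ⟨i.1, hi⟩‖) ^ 2 := by
                  gcongr; exact norm_add_le _ _
              _ ≤ _ := by nlinarith [sq_nonneg (‖g1 (n := n) d i p‖ - ‖p.2 ⟨i.1, hi⟩‖)]
          · have e1 : p.1 i = g1 (n := n) d i p := by simp [g1, hi]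
            simp only [hi, dite_false, mul_zero, add_zero]
            rw [← e1]
            nlinarith [sq_nonneg ‖p.1 i‖]
        have h5 : ∑ i : Fin n, (if hi : i.1 < d then ‖p.2 ⟨i.1, hi⟩‖ ^ 2 else 0) ≤
            sqV (fun i : Fin d => tau (n := n) i) p := by
          have e2 : ∑ i : Fin n, (if hi : i.1 < d then ‖p.2 ⟨i.1, hi⟩‖ ^ 2 else 0) =
              ∑ i : Fin d, ‖p.2 i‖ ^ 2 := by
            have e3 := Finset.sum_map (Finset.univ : Finset (Fin d)) (Fin.castLEEmb hd.le)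
              (fun i : Fin n => (if hi : i.1 < d then ‖p.2 ⟨i.1, hi⟩‖ ^ 2 else 0))
            have e4 : ∑ i : Fin d, ‖p.2 i‖ ^ 2 = ∑ i : Fin d,
                (fun i : Fin n => (if hi : i.1 < d then ‖p.2 ⟨i.1, hi⟩‖ ^ 2 else 0))
                  ((Fin.castLEEmb hd.le) i) := by
              apply Finset.sum_congr rfl
              intro i _
              simp
            rw [e4, ← e3]
            symm
            apply Finset.sum_subset (Finset.subset_univ _)
            intro i _ hi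
            have : ¬ i.1 < d := by
              intro hlt
              apply hi
              rw [Finset.mem_map]
              exact ⟨⟨i.1, hlt⟩, Finset.mem_univ _, by ext; simp⟩
            simp [this]
          rw [e2]
          rfl
        calc SS p.1 = ∑ i, ‖p.1 i‖ ^ 2 := rfl
          _ ≤ ∑ i, (2 * ‖g1 (n := n) d i p‖ ^ 2 +
            2 * (if hi : i.1 < d then ‖p.2 ⟨i.1, hi⟩‖ ^ 2 else 0)) :=
              Finset.sum_le_sum fun i _ => h4 i
          _ = 2 * sqV (g1 (n := n) d) p +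
              2 * ∑ i : Fin n, (if hi : i.1 < d then ‖p.2 ⟨i.1, hi⟩‖ ^ 2 else 0) := by
              rw [Finset.sum_add_distrib, ← Finset.mul_sum, ← Finset.mul_sum]
              rfl
          _ ≤ _ := by linarith
      linarith
    calc _ ≤ ((ENNReal.ofReal (sqV h p.1)) ^ (-a) * (ENNReal.ofReal (QQ d p.1)) ^ (-b)) *
          ((ENNReal.ofReal 3) ^ c' * (ENNReal.ofReal (SS p.1 + ‖p.2‖ ^ 2)) ^ (-c')) := by gcongr
      _ = _ := by ring
  -- step 3
  obtain ⟨s₁, s₂, hs₁, hs₂, hsum, hI⟩ := sum_thm_two hS Bool κ' (Fin n) (Fin d) H'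
    (g1 (n := n) d) (fun i : Fin d => tau (n := n) i) cc c' hH' (fun i => g1_analyticAt i 0)
    (fun i => tau_analyticAt i 0) hcc hc'0.le step2 he0 he1
  set ρ : Cn n → ℝ≥0∞ := fun w => (ENNReal.ofReal (sqV h w)) ^ (-((1 - e) * a)) *
    (ENNReal.ofReal (QQ d w)) ^ (-((1 - e) * b)) with hρ
  have h1e : 0 ≤ 1 - e := by linarith
  have hI' : LIntM volume (fun p : Cn n × Cn d => ρ p.1 *
      ((ENNReal.ofReal (sqV (g1 (n := n) d) p)) ^ (-s₁) *
      (ENNReal.ofReal (∑ i, ‖p.2 i‖ ^ 2)) ^ (-s₂))) 0 := by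
    refine hI.congr (Filter.Eventually.of_forall fun p => ?_)
    rw [wV_eq]
    rfl
  -- lower bound of `ρ`
  have hρlow : ∀ᶠ w in 𝓝 (0 : Cn n), (ENNReal.ofReal M) ^ (-((1 - e) * a)) ≤ ρ w := by
    filter_upwards [hhM, hQ1] with w hw hw1
    have h2 : (1:ℝ≥0∞) ≤ (ENNReal.ofReal (QQ d w)) ^ (-((1 - e) * b)) := by
      calc (1:ℝ≥0∞) = 1 ^ (-((1 - e) * b)) := by simp
        _ ≤ _ := rpow_neg_anti (by
          rw [← ENNReal.ofReal_one]; exact ENNReal.ofReal_le_ofReal hw1.le) (mul_nonneg h1e hb)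
    calc (ENNReal.ofReal M) ^ (-((1 - e) * a)) = (ENNReal.ofReal M) ^ (-((1 - e) * a)) * 1 := by
          rw [mul_one]
      _ ≤ ρ w := mul_le_mul' (rpow_neg_anti (ENNReal.ofReal_le_ofReal hw.le) (mul_nonneg h1e ha)) h2
  have hM0' : ENNReal.ofReal M ≠ 0 := by simpa using hM0
  -- step 4
  have hs₂d : s₂ < d := by
    have hG0 : ContinuousAt (sqV (g1 (n := n) d)) (0 : Cn n × Cn d) :=
      sqV_continuousAt fun j => g1_analyticAt j 0
    have hG1 : ∀ᶠ p in 𝓝 (0 : Cn n × Cn d), sqV (g1 (n := n) d) p < sqV (g1 (n := n) d) (0 : Cn n × Cn d) + 1 :=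
      hG0.eventually_lt_const (by linarith)
    set M₁ : ℝ := sqV (g1 (n := n) d) (0 : Cn n × Cn d) + 1 with hM₁
    have hM₁0 : 0 < M₁ := by
      have := sqV_nonneg (g1 (n := n) d) (0 : Cn n × Cn d); linarith
    have hI2 : LIntM volume (fun p : Cn n × Cn d => (ρ p.1 *
      (ENNReal.ofReal (sqV (g1 (n := n) d) p)) ^ (-s₁)) *
      (ENNReal.ofReal (∑ i, ‖p.2 i‖ ^ 2)) ^ (-s₂)) 0 := by
      refine hI'.congr (Filter.Eventually.of_forall fun p => ?_)
      rw [mul_assoc]
    refine exponent_lt hd1 hs₂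
      (κ := (ENNReal.ofReal M) ^ (-((1 - e) * a)) * (ENNReal.ofReal M₁) ^ (-s₁)) ?_ ?_ hI2
    · exact mul_ne_zero (rpow_ne_zero' hM0' ENNReal.ofReal_ne_top _)
        (rpow_ne_zero' (by simpa using hM₁0) ENNReal.ofReal_ne_top _)
    · filter_upwards [hfst.eventually hρlow, hG1] with p hp1 hp2
      exact mul_le_mul' hp1 (rpow_neg_anti (ENNReal.ofReal_le_ofReal hp2.le) hs₁)
  -- step 5
  obtain ⟨T, hTo, h0T, hTc⟩ := exists_continuousOn hh
  have step5 : LIntM volume (fun w : Cn n => ρ w * (ENNReal.ofReal (QQ d w)) ^ (-(s₁ - d))) 0 := by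
    rw [Measure.volume_eq_prod] at hI'
    refine LIntM.inner (μ := (volume : Measure (Cn n))) (ν := (volume : Measure (Cn d)))
      (a := 0) (b := 0) hI' (S := T ×ˢ univ) (prod_mem_nhds (hTo.mem_nhds h0T) univ_mem) ?_
      (K := (n : ℝ≥0∞) ^ s₁ * (volume (ball (0 : Cn d) 1))⁻¹) ?_ ?_
    · -- measurability
      have hTm : MeasurableSet (T ×ˢ (univ : Set (Cn d))) := hTo.measurableSet.prod MeasurableSet.univ
      have hc1 : ContinuousOn (fun p : Cn n × Cn d => sqV h p.1) (T ×ˢ univ) :=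
        hTc.comp continuousOn_fst fun p hp => hp.1
      have hm1 : AEMeasurable (fun p : Cn n × Cn d => sqV h p.1)
          (((volume : Measure (Cn n)).prod (volume : Measure (Cn d))).restrict (T ×ˢ univ)) :=
        hc1.aemeasurable hTm
      have hm2 : Measurable (fun p : Cn n × Cn d => QQ d p.1) :=
        QQ_cont.measurable.comp measurable_fst
      have hm3 : Measurable (fun p : Cn n × Cn d => sqV (g1 (n := n) d) p) := by
        have : Continuous (fun p : Cn n × Cn d => sqV (g1 (n := n) d) p) := by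
          rw [continuous_iff_continuousAt]
          intro q
          exact sqV_continuousAt fun j => g1_analyticAt j q
        exact this.measurable
      have hm4 : Measurable (fun p : Cn n × Cn d => ∑ i, ‖p.2 i‖ ^ 2) := by
        have : Continuous (fun p : Cn n × Cn d => ∑ i, ‖p.2 i‖ ^ 2) := by fun_prop
        exact this.measurable
      have hρm : AEMeasurable (fun p : Cn n × Cn d => ρ p.1)
          (((volume : Measure (Cn n)).prod (volume : Measure (Cn d))).restrict (T ×ˢ univ)) :=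
        (hm1.ennreal_ofReal.pow_const _).mul (hm2.ennreal_ofReal.pow_const _).aemeasurable
      exact hρm.mul (((hm3.ennreal_ofReal.pow_const _).mul
        (hm4.ennreal_ofReal.pow_const _)).aemeasurable)
    · refine ENNReal.mul_ne_top (ENNReal.rpow_ne_top_of_nonneg hs₁ (ENNReal.natCast_ne_top n)) ?_
      exact ENNReal.inv_ne_top.2 (measure_ball_pos _ _ one_pos).ne'
    · intro W' hW'
      obtain ⟨U, hU, hUo, h0U⟩ := _root_.eventually_nhds_iff.1
        (inner_bound (n := n) hd hd1 hs₁ hs₂ hW')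
      refine ⟨U, hUo.mem_nhds h0U, ?_⟩
      filter_upwards [ae_QQ_pos hd] with w hw hwU
      have h1 := hU w hwU hw
      have hm3 : Measurable (fun τ : Cn d => (ENNReal.ofReal (sqV (g1 (n := n) d) (w, τ))) ^ (-s₁) *
          (ENNReal.ofReal (∑ i, ‖τ i‖ ^ 2)) ^ (-s₂)) := by
        have c1 : Continuous (fun p : Cn n × Cn d => sqV (g1 (n := n) d) p) := by
          rw [continuous_iff_continuousAt]
          intro q
          exact sqV_continuousAt fun j => g1_analyticAt j q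
        have c2 : Continuous (fun τ : Cn d => sqV (g1 (n := n) d) (w, τ)) :=
          c1.comp (by fun_prop)
        have c3 : Continuous (fun τ : Cn d => ∑ i, ‖τ i‖ ^ 2) := by fun_prop
        exact (c2.measurable.ennreal_ofReal.pow_const _).mul
          (c3.measurable.ennreal_ofReal.pow_const _)
      calc ρ w * (ENNReal.ofReal (QQ d w)) ^ (-(s₁ - d))
          ≤ ρ w * (((n : ℝ≥0∞) ^ s₁ * (volume (ball (0 : Cn d) 1))⁻¹) *
            ∫⁻ τ in W', (ENNReal.ofReal (sqV (g1 (n := n) d) (w, τ))) ^ (-s₁) *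
              (ENNReal.ofReal (∑ i, ‖τ i‖ ^ 2)) ^ (-s₂)) := by gcongr
        _ = ((n : ℝ≥0∞) ^ s₁ * (volume (ball (0 : Cn d) 1))⁻¹) *
            ∫⁻ τ in W', ρ w * ((ENNReal.ofReal (sqV (g1 (n := n) d) (w, τ))) ^ (-s₁) *
              (ENNReal.ofReal (∑ i, ‖τ i‖ ^ 2)) ^ (-s₂)) := by
            rw [lintegral_const_mul _ hm3]; ring
  -- step 6
  have hs₁g : g - ε ≤ s₁ := by
    have h1 : s₁ = (1 - e) * c' - s₂ := by linarith
    have h2 : (1 - e) * c' = (g + d) - 2 * (e * (g + d)) + e * (e * (g + d)) := by rw [hc']; ring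
    rw [hegd] at h2
    have h3 : 0 ≤ e * (ε / 2) := by positivity
    linarith
  obtain ⟨U1, hU1, hU1o, h0U1⟩ := _root_.eventually_nhds_iff.1 (hhM.and hQ1)
  refine LIntM.mono_const_ae step5 (K := (ENNReal.ofReal M) ^ ((1 - e) * a - (1 - ε) * a))
    (ENNReal.rpow_ne_top_of_nonneg ?_ ENNReal.ofReal_ne_top) (hU1o.mem_nhds h0U1) ?_
  · have : (1 - e) * a - (1 - ε) * a = (ε - e) * a := by ring
    rw [this]
    exact mul_nonneg (by linarith) ha
  · filter_upwards [ae_QQ_pos hd] with w hw hwU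
    obtain ⟨h1, h2⟩ := hU1 w hwU
    have hQ0 : ENNReal.ofReal (QQ d w) ≠ 0 := by simpa using hw
    have e1 : (ENNReal.ofReal (sqV h w)) ^ (-((1 - ε) * a)) ≤
        (ENNReal.ofReal M) ^ ((1 - e) * a - (1 - ε) * a) *
          (ENNReal.ofReal (sqV h w)) ^ (-((1 - e) * a)) := by
      refine rpow_neg_le (ENNReal.ofReal_le_ofReal h1.le) ENNReal.ofReal_ne_top hM0'
        (mul_nonneg (by linarith) ha) ?_
      exact mul_le_mul_of_nonneg_right (by linarith) ha
    have e2 : (ENNReal.ofReal (QQ d w)) ^ (-((1 - ε) * b + (g - d) - ε)) ≤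
        (ENNReal.ofReal (QQ d w)) ^ (-((1 - e) * b)) * (ENNReal.ofReal (QQ d w)) ^ (-(s₁ - d)) := by
      rw [← ENNReal.rpow_add _ _ hQ0 ENNReal.ofReal_ne_top]
      refine ENNReal.rpow_le_rpow_of_exponent_ge (by
        rw [← ENNReal.ofReal_one]; exact ENNReal.ofReal_le_ofReal h2.le) ?_
      have h3 : (1 - ε) * b ≤ (1 - e) * b := mul_le_mul_of_nonneg_right (by linarith) hb
      linarith
    calc _ ≤ ((ENNReal.ofReal M) ^ ((1 - e) * a - (1 - ε) * a) *
          (ENNReal.ofReal (sqV h w)) ^ (-((1 - e) * a))) *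
          ((ENNReal.ofReal (QQ d w)) ^ (-((1 - e) * b)) *
            (ENNReal.ofReal (QQ d w)) ^ (-(s₁ - d))) := mul_le_mul' e1 e2
      _ = _ := by rw [hρ]; ring

end Crest.Agent.R271.L934
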