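import Crest.Agent.R271.G5_934

/-!
# Row 271, sub-team L: (AF8) for germs, final form (helper934)
-/

set_option autoImplicit false
open MeasureTheory Filter Topology Set Metric
open scoped ENNReal NNReal

namespace Crest.Agent.R271.L934

open Crest.Agent.R271.Defs710

theorem QQ_zero {n : ℕ} (w : Cn n) : QQ 0 w = SS w := by
  unfold QQ SS
  exact Fintype.sum_equiv (Equiv.subtypeUnivEquiv (fun i => Nat.zero_le _)) _ _ (fun i => rfl)

theorem af8_zero {n : ℕ} {m : ℕ} (h : Fin m → Cn n → ℂ)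
    {a b g : ℝ} (hh : ∀ j, AnalyticAt ℂ (h j) 0) (ha : 0 ≤ a) (hb : 0 ≤ b) (hg : 0 < g)
    (H : LInt (fun ζ => (ENNReal.ofReal (sqV h ζ)) ^ (-a) *
      (ENNReal.ofReal (QQ 0 ζ)) ^ (-b) * (ENNReal.ofReal (SS ζ)) ^ (-g)) 0)
    {ε : ℝ} (hε : 0 < ε) (hε1 : ε < 1) :
    LInt (fun ζ => (ENNReal.ofReal (sqV h ζ)) ^ (-((1 - ε) * a)) *
      (ENNReal.ofReal (QQ 0 ζ)) ^ (-((1 - ε) * b + (g - ((0 : ℕ) : ℝ)) - ε))) 0 := by
  set M : ℝ := sqV h 0 + 1 with hM
  have hM0 : 0 < M := by have := sqV_nonneg h 0; linarith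
  have hhM : ∀ᶠ w in 𝓝 (0 : Cn n), sqV h w < M :=
    (sqV_continuousAt hh).eventually_lt_const (by linarith)
  have hS1 : ∀ᶠ w in 𝓝 (0 : Cn n), SS w < 1 :=
    (SS_cont.continuousAt (x := (0 : Cn n))).eventually_lt_const (by simp [SS])
  have hM0' : ENNReal.ofReal M ≠ 0 := by simpa using hM0
  have hle1 : (1 - ε) * a ≤ a := by nlinarith
  have hle2 : (1 - ε) * b ≤ b := by nlinarith
  refine LIntM.mono_const (μ := (volume : Measure (Cn n))) H (K := (ENNReal.ofReal M) ^ (a - (1 - ε) * a))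
    (ENNReal.rpow_ne_top_of_nonneg (by linarith) ENNReal.ofReal_ne_top) ?_
  filter_upwards [hhM, hS1] with w hw hw1
  have e1 : (ENNReal.ofReal (sqV h w)) ^ (-((1 - ε) * a)) ≤
      (ENNReal.ofReal M) ^ (a - (1 - ε) * a) * (ENNReal.ofReal (sqV h w)) ^ (-a) :=
    rpow_neg_le (ENNReal.ofReal_le_ofReal hw.le) ENNReal.ofReal_ne_top hM0'
      (mul_nonneg (by linarith) ha) hle1
  have e2 : (ENNReal.ofReal (QQ 0 w)) ^ (-((1 - ε) * b + (g - ((0 : ℕ) : ℝ)) - ε)) ≤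
      (ENNReal.ofReal (QQ 0 w)) ^ (-b) * (ENNReal.ofReal (SS w)) ^ (-g) := by
    rw [QQ_zero]
    set x := ENNReal.ofReal (SS w) with hx
    have hx1 : x ≤ 1 := by
      rw [← ENNReal.ofReal_one]; exact ENNReal.ofReal_le_ofReal hw1.le
    rcases eq_or_ne x 0 with hx0 | hx0
    · rw [hx0]
      have h1 : (0 : ℝ≥0∞) ^ (-g) = ∞ := ENNReal.zero_rpow_of_neg (by linarith)
      rw [h1, ENNReal.mul_top]
      · exact le_top
      · rcases hb.eq_or_lt with hb0 | hb0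
        · rw [← hb0]; simp
        · rw [ENNReal.zero_rpow_of_neg (by linarith)]; simp
    · have hxt : x ≠ ∞ := ne_top_of_le_ne_top (by simp) hx1
      rw [← ENNReal.rpow_add _ _ hx0 hxt]
      refine ENNReal.rpow_le_rpow_of_exponent_ge hx1 ?_
      push_cast
      linarith
  calc _ ≤ ((ENNReal.ofReal M) ^ (a - (1 - ε) * a) * (ENNReal.ofReal (sqV h w)) ^ (-a)) *
        ((ENNReal.ofReal (QQ 0 w)) ^ (-b) * (ENNReal.ofReal (SS w)) ^ (-g)) := mul_le_mul' e1 e2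
    _ = _ := by ring

/-- (AF8) for germs -/
theorem af8Germ (hS : SumThm) (n : ℕ) : AF8Germ n := by
  intro d hd m h a b g hh ha hb hg H ε hε hε1
  rcases Nat.eq_zero_or_pos d with rfl | hd1
  · exact af8_zero h hh ha hb (by simpa using hg) H hε hε1
  · exact af8 hS hd hd1 h hh ha hb hg H hε hε1

end Crest.Agent.R271.L934
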