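import Mathlib

/-!
# Row 271, team L (helper821): zero sets of analytic functions on a complex vector space are null
-/

set_option autoImplicit false

open MeasureTheory Set Filter Metric Topology

namespace Crest.Agent.R271.Local821

variable {E : Type*} [NormedAddCommGroup E] [NormedSpace ℂ E] [FiniteDimensional ℂ E]
  [MeasurableSpace E] [BorelSpace E]
variable {F : Type*} [NormedAddCommGroup F] [NormedSpace ℂ F]

/-- a measurable set which meets almost every open ray from a point in a null set is null -/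
theorem null_of_rays {E : Type*} [NormedAddCommGroup E] [NormedSpace ℝ E] [FiniteDimensional ℝ E]
    [MeasurableSpace E] [BorelSpace E] (μ : Measure E) [μ.IsAddHaarMeasure] (z₁ : E) {Z : Set E}
    (hZ : MeasurableSet Z) (hz : z₁ ∉ Z)
    (h : ∀ v : E, v ≠ 0 → volume {t : ℝ | z₁ + t • v ∈ Z} = 0) : μ Z = 0 := by
  rcases subsingleton_or_nontrivial E with hE | hE
  · have : Z = ∅ := by
      ext x
      rw [Subsingleton.elim x z₁]
      simp [hz]
    rw [this, measure_empty]
  set S : Set E := (fun v => z₁ + v) ⁻¹' Z with hS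
  have hSm : MeasurableSet S := (measurable_const_add z₁) hZ
  have h0 : (0 : E) ∉ S := by simpa [hS] using hz
  have e1 : μ S = μ Z := measure_preimage_add μ z₁ Z
  rw [← e1]
  have e2 : μ S = (μ.comap (Subtype.val : ({0}ᶜ : Set E) → E)) (Subtype.val ⁻¹' S) := by
    rw [comap_subtype_coe_apply (measurableSet_singleton _).compl, Subtype.image_preimage_coe]
    congr 1
    ext x
    simp only [mem_inter_iff, mem_compl_iff, mem_singleton_iff]
    constructor
    · intro hx
      refine ⟨?_, hx⟩
      rintro rfl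
      exact h0 hx
    · exact fun hx => hx.2
  rw [e2]
  have hmp := μ.measurePreserving_homeomorphUnitSphereProd
  have e3 : (Subtype.val ⁻¹' S : Set ({0}ᶜ : Set E)) =
      (homeomorphUnitSphereProd E) ⁻¹' ((homeomorphUnitSphereProd E).symm ⁻¹' (Subtype.val ⁻¹' S)) := by
    ext x
    simp
  have hm' : MeasurableSet ((homeomorphUnitSphereProd E).symm ⁻¹'
      (Subtype.val ⁻¹' S : Set ({0}ᶜ : Set E))) :=
    (homeomorphUnitSphereProd E).symm.measurable (measurable_subtype_coe hSm)
  rw [e3, hmp.measure_preimage hm'.nullMeasurableSet]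
  refine Measure.measure_prod_null_of_ae_null hm' (Eventually.of_forall fun θ => ?_)
  have hv : (θ : E) ≠ 0 := by
    intro h0
    have := θ.2
    rw [mem_sphere_zero_iff_norm, h0, norm_zero] at this
    exact zero_ne_one this
  have hnull := h θ hv
  have hac : Measure.volumeIoiPow (Module.finrank ℝ E - 1) ≪
      Measure.comap Subtype.val (volume : Measure ℝ) := withDensity_absolutelyContinuous _ _
  refine hac ?_
  rw [comap_subtype_coe_apply measurableSet_Ioi]
  refine measure_mono_null ?_ hnull
  rintro _ ⟨t, ht, rfl⟩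
  simpa [hS] using ht

/-- **the zero set of a non-zero analytic function on a ball is null** -/
theorem null_zero_ball (μ : Measure E) [μ.IsAddHaarMeasure] {f : E → F} {y : E} {r : ℝ}
    (hf : AnalyticOnNhd ℂ f (ball y r)) {z₁ : E} (hz₁ : z₁ ∈ ball y r) (hne : f z₁ ≠ 0) :
    μ {z ∈ ball y r | f z = 0} = 0 := by
  let _ : NormedSpace ℝ E := NormedSpace.complexToReal
  have : FiniteDimensional ℝ E := FiniteDimensional.complexToReal E
  have hcont : ContinuousOn f (ball y r) := hf.continuousOn
  have hopen : IsOpen (ball y r ∩ f ⁻¹' {0}ᶜ) :=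
    hcont.isOpen_inter_preimage isOpen_ball isOpen_compl_singleton
  have hset : {z ∈ ball y r | f z = 0} = ball y r \ (ball y r ∩ f ⁻¹' {0}ᶜ) := by
    ext z
    simp only [mem_ofPred_eq, Set.mem_sdiff, mem_inter_iff, mem_preimage, mem_compl_iff,
      mem_singleton_iff, not_and, not_not]
    exact ⟨fun h => ⟨h.1, fun _ => h.2⟩, fun h => ⟨h.1, h.2 h.1⟩⟩
  have hm : MeasurableSet {z ∈ ball y r | f z = 0} := by
    rw [hset]
    exact measurableSet_ball.diff hopen.measurableSet
  refine null_of_rays μ z₁ hm (fun h => hne h.2) (fun v _ => ?_)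
  -- the line `t ↦ z₁ + t v`
  set ℓ : ℝ → E := fun t => z₁ + t • v with hℓ
  have hℓc : Continuous ℓ := by fun_prop
  set I : Set ℝ := ℓ ⁻¹' ball y r with hI
  have hIo : IsOpen I := isOpen_ball.preimage hℓc
  have hIconv : Convex ℝ I := by
    intro a ha b hb s t hs ht hst
    have hb' := (convex_ball y r) ha hb hs ht hst
    have e : s • ℓ a + t • ℓ b = ℓ (s • a + t • b) := by
      simp only [hℓ, smul_add, smul_smul, add_smul, smul_eq_mul]
      have : s • z₁ + t • z₁ = z₁ := by rw [← add_smul, hst, one_smul]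
      rw [add_add_add_comm, this]
    rw [hI, mem_preimage, ← e]
    exact hb'
  have h0I : (0 : ℝ) ∈ I := by simp [hI, hℓ, mem_ball.1 hz₁]
  have hIconn : IsConnected I := ⟨⟨0, h0I⟩, hIconv.isPreconnected⟩
  have hfR : AnalyticOnNhd ℝ f (ball y r) := fun z hz => (hf z hz).restrictScalars
  have hℓa : AnalyticOnNhd ℝ ℓ I := by
    intro t _
    have h1 : AnalyticAt ℝ (fun t : ℝ => t • v) t :=
      ((ContinuousLinearMap.id ℝ ℝ).smulRight v).analyticAt t
    exact analyticAt_const.add h1
  have hg : AnalyticOnNhd ℝ (f ∘ ℓ) I := fun t ht => (hfR _ ht).comp (hℓa t ht)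
  have h0 : (f ∘ ℓ) 0 ≠ 0 := by simpa [hℓ] using hne
  have hcod := hg.preimage_zero_mem_codiscreteWithin h0 h0I hIconn
  have hae : (f ∘ ℓ) ⁻¹' {0}ᶜ ∈ ae ((volume : Measure ℝ).restrict I) :=
    ae_restrict_le_codiscreteWithin hIo.measurableSet hcod
  rw [mem_ae_iff, Measure.restrict_apply' hIo.measurableSet] at hae
  refine measure_mono_null ?_ hae
  intro t ht
  refine ⟨?_, ht.1⟩
  simpa using ht.2

/-- If the germ at `y` of an analytic function is non-zero then it is non-zero almost everywhere
near `y`. -/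
theorem eventually_null_zero [CompleteSpace F] (μ : Measure E) [μ.IsAddHaarMeasure] {f : E → F} {y : E}
    (hf : AnalyticAt ℂ f y) (hne : ∃ᶠ z in 𝓝 y, f z ≠ 0) :
    ∃ r > 0, ∀ᵐ z ∂μ.restrict (ball y r), f z ≠ 0 := by
  obtain ⟨r, hr, hfr⟩ := hf.exists_ball_analyticOnNhd
  have hball : ball y r ∈ 𝓝 y := ball_mem_nhds y hr
  obtain ⟨z₁, hz₁, hz₁r⟩ := (hne.and_eventually hball).exists
  refine ⟨r, hr, ?_⟩
  rw [ae_restrict_iff' measurableSet_ball, ae_iff]
  have h := null_zero_ball μ hfr hz₁r hz₁
  refine measure_mono_null ?_ h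
  intro z hz
  simp only [mem_ofPred_eq, Classical.not_imp, not_not] at hz
  exact hz

end Crest.Agent.R271.Local821
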