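import Mathlib
import Crest.Agent.R271.Defs_710
import Crest.Agent.R271.LInt_821
import Crest.Agent.R271.Rd4_692

/-!
Row 271, team L (helper103): AF9 (`SpecFact`) from the specialisation theorem for germs.
-/

set_option autoImplicit false
set_option linter.unusedVariables false
set_option linter.unusedSectionVars false

open scoped ENNReal NNReal Topology BigOperators
open MeasureTheory Filter Set Metric

noncomputable section

namespace Crest.Agent.R271.Spec103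

open Crest.Agent.R271.Defs710 Crest.Agent.R271.Local821

/-- (AF9) for germs at `0 ∈ ℂⁿ × ℂᵏ` -/
def AF9Germ (n k : ℕ) : Prop :=
  ∀ (m : ℕ) (f : Fin m → Cn n × Cn k → ℂ) (c : ℝ), (∀ j, AnalyticAt ℂ (f j) 0) → 0 ≤ c →
    LInt (fun ζ => (ENNReal.ofReal (∑ j, ‖f j (ζ, 0)‖ ^ 2)) ^ (-c)) 0 →
    ∀ ε : ℝ, 0 < ε → ε < 1 →
      ∃ U ∈ 𝓝 (0 : Cn n × Cn k),
        ∫⁻ p in U, (ENNReal.ofReal (∑ j, ‖f j p‖ ^ 2)) ^ (-((1 - ε) * c)) < ∞

/-- Tonelli: a locally integrable germ on `ℂⁿ × ℂ` has integrable restrictions to a.e. slice -/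
theorem exists_slices {n m : ℕ} (f : Fin m → Cn n × Cn 1 → ℂ) (e : ℝ)
    (hf : ∀ j, AnalyticAt ℂ (f j) 0)
    (h : ∃ U ∈ 𝓝 (0 : Cn n × Cn 1), ∫⁻ p in U, (ENNReal.ofReal (∑ j, ‖f j p‖ ^ 2)) ^ e < ∞) :
    ∃ r > 0, ∃ᶠ t in 𝓝[≠] (0 : ℂ),
      ∫⁻ ζ in ball (0 : Cn n) r, (ENNReal.ofReal (∑ j, ‖f j (ζ, fun _ => t)‖ ^ 2)) ^ e < ∞ := by
  obtain ⟨U, hU, hlt⟩ := h
  have hcont : ∀ᶠ p in 𝓝 (0 : Cn n × Cn 1), ∀ j, ContinuousAt (f j) p := by
    rw [Filter.eventually_all]
    intro j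
    filter_upwards [(hf j).eventually_analyticAt] with p hp
    exact hp.continuousAt
  obtain ⟨r, hr, hrU⟩ := Metric.mem_nhds_iff.1 (Filter.inter_mem hU hcont)
  have hball : ball (0 : Cn n) r ×ˢ ball (0 : Cn 1) r = ball (0 : Cn n × Cn 1) r :=
    ball_prod_same _ _ _
  rw [← hball] at hrU
  refine ⟨r, hr, ?_⟩
  set G : Cn n × Cn 1 → ℝ≥0∞ := fun p => (ENNReal.ofReal (∑ j, ‖f j p‖ ^ 2)) ^ e with hG
  have hms : MeasurableSet (ball (0 : Cn n) r ×ˢ ball (0 : Cn 1) r) :=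
    measurableSet_ball.prod measurableSet_ball
  have hc : ContinuousOn (fun p => ∑ j, ‖f j p‖ ^ 2) (ball (0 : Cn n) r ×ˢ ball (0 : Cn 1) r) :=
    continuousOn_finsetSum _ fun j _ => fun p hp =>
      (((hrU hp).2 j).norm.pow 2).continuousWithinAt
  have hGm : AEMeasurable G ((volume.restrict (ball (0 : Cn n) r)).prod
      (volume.restrict (ball (0 : Cn 1) r))) := by
    rw [Measure.prod_restrict]
    exact ((hc.aemeasurable hms).ennreal_ofReal).pow_const e
  have hfin : ∫⁻ p, G p ∂((volume.restrict (ball (0 : Cn n) r)).prod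
      (volume.restrict (ball (0 : Cn 1) r))) < ∞ := by
    rw [Measure.prod_restrict]
    exact (lintegral_mono_set (fun p hp => (hrU hp).1)).trans_lt hlt
  rw [lintegral_prod_symm _ hGm] at hfin
  have hm2 : AEMeasurable (fun τ : Cn 1 => ∫⁻ ζ in ball (0 : Cn n) r, G (ζ, τ))
      (volume.restrict (ball (0 : Cn 1) r)) := hGm.prod_swap.lintegral_prod_right'
  have hae := ae_lt_top' hm2 hfin.ne
  by_contra hcon
  rw [Filter.not_frequently, eventually_nhdsWithin_iff, Metric.eventually_nhds_iff] at hcon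
  obtain ⟨δ, hδ, hcon⟩ := hcon
  set A : Set (Cn 1) := {τ | τ 0 ≠ 0} ∩ ball (0 : Cn 1) (min δ r) with hA
  have hAo : IsOpen A :=
    (isOpen_compl_singleton.preimage (continuous_apply (0 : Fin 1))).inter isOpen_ball
  have hAne : A.Nonempty := by
    refine ⟨fun _ => ((min δ r / 2 : ℝ) : ℂ), ?_, ?_⟩
    · have : (0 : ℝ) < min δ r / 2 := by positivity
      simpa using this.ne'
    · have h0 : (0 : ℝ) < min δ r := lt_min hδ hr
      rw [mem_ball_zero_iff, pi_norm_lt_iff h0]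
      intro i
      rw [Complex.norm_real, Real.norm_of_nonneg (by positivity)]
      linarith
  have hpos := hAo.measure_pos (volume : Measure (Cn 1)) hAne
  have hzero : (volume : Measure (Cn 1)) A = 0 := by
    rw [ae_restrict_iff' measurableSet_ball, ae_iff] at hae
    refine measure_mono_null ?_ hae
    rintro τ ⟨hτ0, hτ⟩
    simp only [Set.mem_ofPred_eq, not_forall]
    refine ⟨ball_subset_ball (min_le_right _ _) hτ, ?_⟩
    have h1 : dist (τ 0) 0 < δ := by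
      rw [dist_zero_right]
      have h2 := norm_le_pi_norm τ 0
      rw [mem_ball_zero_iff] at hτ
      exact lt_of_le_of_lt h2 (lt_of_lt_of_le hτ (min_le_left _ _))
    have h3 := hcon h1 hτ0
    have h4 : (fun _ : Fin 1 => τ 0) = τ := by
      funext i
      rw [Subsingleton.elim i 0]
    rw [h4] at h3
    exact h3
  exact hpos.ne' hzero

/-- (AF9) -/
theorem specFact_of (h : ∀ n, AF9Germ n 1) {n : ℕ} (X : FCtx n) : SpecFact X := by
  intro y nF nb b co c γ hγ0 hγ hco hc hint ε hε hε1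
  obtain ⟨C⟩ := Rd692.chartEx X y
  have hC := (LIntB_iff C _).1 hint
  set f : Fin nF → Cn n × Cn 1 → ℂ := fun i p => ∑ j, co i j (p.2 0) * C.s p.1 (b j) with hf
  have hfan : ∀ i, AnalyticAt ℂ (f i) 0 := by
    intro i
    refine Finset.analyticAt_fun_sum _ fun j _ => AnalyticAt.mul ?_ ?_
    · have h1 : AnalyticAt ℂ (fun p : Cn n × Cn 1 => p.2 0) 0 :=
        ((ContinuousLinearMap.proj (R := ℂ) (φ := fun _ : Fin 1 => ℂ) 0).comp
          (ContinuousLinearMap.snd ℂ (Cn n) (Cn 1))).analyticAt 0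
      exact AnalyticAt.comp_of_eq (g := co i j) (hco i j) h1 rfl
    · exact AnalyticAt.comp_of_eq (g := fun ζ => C.s ζ (b j)) (chart_analyticAt C (b j))
        analyticAt_fst rfl
  obtain ⟨r, hr, hfr⟩ := exists_slices f (-((1 - ε) * c)) hfan (h n nF f c hfan hc hC ε hε hε1)
  -- the disc stays in the chart
  have hlim : ∀ g : X.B, Tendsto (fun t => γ t g) (𝓝 0) (𝓝 (y g)) := by
    intro g
    have h1 := (hγ g).continuousAt
    rw [ContinuousAt, hγ0] at h1
    exact h1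
  obtain ⟨T, δ, hδ, hT⟩ := C.surj
  have hev1 : ∀ᶠ t in 𝓝 (0 : ℂ), ∀ g ∈ T, ‖γ t g - y g‖ < δ := by
    rw [Filter.eventually_all_finset]
    intro g _
    have h1 := hlim g
    rw [Metric.tendsto_nhds] at h1
    filter_upwards [h1 δ hδ] with t ht
    rwa [dist_eq_norm] at ht
  have hρ : 0 < min r C.r := lt_min hr C.r_pos
  have hev2 : ∀ᶠ t in 𝓝 (0 : ℂ), ∀ i, ‖γ t (X.z i) - y (X.z i)‖ < min r C.r := by
    rw [Filter.eventually_all]
    intro i
    have h1 := hlim (X.z i)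
    rw [Metric.tendsto_nhds] at h1
    filter_upwards [h1 _ hρ] with t ht
    rwa [dist_eq_norm] at ht
  refine (hfr.and_eventually (nhdsWithin_le_nhds (hev1.and hev2))).mono ?_
  rintro t ⟨hlt, ht1, ht2⟩
  have hs := hT (γ t) ht1
  set ζ : Cn n := fun i => γ t (X.z i) - y (X.z i) with hζ
  have hζn : ‖ζ‖ < min r C.r := (pi_norm_lt_iff hρ).2 ht2
  have hζr : ζ ∈ ball (0 : Cn n) r := mem_ball_zero_iff.2 (hζn.trans_le (min_le_left _ _))
  have hζC : ζ ∈ ball (0 : Cn n) C.r := mem_ball_zero_iff.2 (hζn.trans_le (min_le_right _ _))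
  rw [hs]
  rw [Rd692.chartChange X y C ζ hζC]
  exact ⟨ball (0 : Cn n) r, isOpen_ball.mem_nhds hζr, hlt⟩

end Crest.Agent.R271.Spec103
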