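import Mathlib
import Crest.Agent.R271.Defs_710
import Crest.Agent.R271.Spec_103
import Crest.Agent.R271.G3_934

/-!
Row 271, team L (helper103): AF9 (`SpecFact`) from the sum theorem.
-/

set_option autoImplicit false

namespace Crest.Agent.R271.Spec103

open Crest.Agent.R271.Defs710

/-- (AF9) from (AF4) -/
theorem specFact (hS : SumThm) {n : ℕ} (X : FCtx n) : SpecFact X :=
  specFact_of (fun n => L934.af9Germ hS n 1 le_rfl) X

end Crest.Agent.R271.Spec103
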