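import Crest.Agent.R271.Sum8_186
import Crest.Agent.R271.BallSolver_399

/-!
Row 271 (S0413), local theory: `Solver` on balls from the engine, hence `SumThm` from `EngineP`.
-/

open MeasureTheory Set Filter Topology Metric
open scoped ContDiff ENNReal Real

noncomputable section

namespace Crest.Agent.R271.Sum186

open Crest.Agent.R271.Defs710 Crest.Agent.R271.Ball399

variable {N : ℕ}

lemma lev0_eq {φ : CN N → ℝ} {z : CN N} (h : ContDiffAt ℝ 2 φ z) (w : CN N) :
    lev0 φ z w = levi φ z w := by
  unfold lev0 levi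
  rw [fd2_apply h w w, fd2_apply h (Complex.I • w) (Complex.I • w)]
  ring

lemma real_decomp (L : CN N →L[ℝ] ℂ) (w : CN N) :
    L w = ∑ j, (((w j).re : ℂ) * L (Pi.single j 1) + ((w j).im : ℂ) * L (Pi.single j Complex.I)) := by
  have hw : w = ∑ j, ((w j).re • (Pi.single j (1 : ℂ) : CN N) +
      (w j).im • (Pi.single j Complex.I : CN N)) := by
    funext i
    rw [Finset.sum_apply]
    rw [Finset.sum_eq_single i]
    · simp only [Pi.add_apply, Pi.smul_apply, Pi.single_eq_same, Complex.real_smul, mul_one]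
      exact (Complex.re_add_im (w i)).symm
    · intro j _ hj
      simp [Pi.single_eq_of_ne hj.symm]
    · intro h; exact absurd (Finset.mem_univ i) h
  conv_lhs => rw [hw]
  rw [map_sum]
  refine Finset.sum_congr rfl fun j _ => ?_
  rw [map_add, map_smul, map_smul, Complex.real_smul, Complex.real_smul]

lemma dbar0_sum (G : CN N → ℂ) (z w : CN N) :
    ∑ j, dbar0 j G z * (starRingEnd ℂ) (w j) = dbar G z w := by
  unfold dbar dbar0
  rw [real_decomp (fderiv ℝ G z) w, real_decomp (fderiv ℝ G z) (Complex.I • w), Finset.mul_sum,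
    ← Finset.sum_add_distrib, Finset.sum_div]
  refine Finset.sum_congr rfl fun j _ => ?_
  have h1 : (Complex.I • w) j = Complex.I * w j := rfl
  rw [h1]
  have hre : ((Complex.I * w j).re : ℂ) = -((w j).im : ℂ) := by simp
  have him : ((Complex.I * w j).im : ℂ) = ((w j).re : ℂ) := by simp
  rw [hre, him]
  have hc : (starRingEnd ℂ) (w j) = ((w j).re : ℂ) - ((w j).im : ℂ) * Complex.I := by
    apply Complex.ext <;> simp
  rw [hc]
  linear_combination (((w j).im : ℂ) * (fderiv ℝ G z (Pi.single j Complex.I)) / 2) *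
    Complex.I_mul_I * (-1)

theorem solver_of_engine (hE : EngineP) (N : ℕ) (r : ℝ) (hr : 0 < r) : Solver N (ball 0 r) := by
  intro Φ G h hΦ hpos hG hhc hh0 hdb _
  have hat : ∀ z ∈ ball (0 : CN N) r, ContDiffAt ℝ 2 Φ z := fun z hz =>
    (hΦ.contDiffAt (isOpen_ball.mem_nhds hz)).of_le two_le_inf
  have hlev : ∀ z ∈ ball (0 : CN N) r, ∀ w, 0 ≤ lev0 Φ z w := by
    intro z hz w
    rw [lev0_eq (hat z hz)]
    by_cases hw : w = 0
    · subst hw
      simp [levi]
    · exact (hpos z hz w hw).le
  obtain ⟨f, hf, hf2⟩ := solver hE hr hΦ hlev hG (kap := h) (fun z hz w => by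
    rw [dbar0_sum, lev0_eq (hat z hz)]
    exact hdb z hz w)
  refine ⟨f, hf, ?_⟩
  refine le_trans (le_of_eq ?_) hf2
  refine lintegral_congr fun z => ?_
  rw [norm_sub_rev]

/-- **AF4**, `SumThm` of `Defs_710`, from the engine. -/
theorem sumThm_of_engine (hE : EngineP) : SumThm := sumThm fun N r hr => solver_of_engine hE N r hr

end Crest.Agent.R271.Sum186
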