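import Crest.Agent.R271.G6_934
import Crest.Agent.R271.Fub_103
import Crest.Agent.R271.Spec2_103
import Crest.Agent.R271.Engine_51
import Crest.Agent.R271.Sum9_186

/-!
# Row 271, sub-team L: `SumThm`, `FubiniFact`, `SpecFact`, unconditional (helper934)
-/

set_option autoImplicit false

namespace Crest.Agent.R271.L934

open Crest.Agent.R271.Defs710

theorem fubiniFact_of_sumThm (hS : SumThm) {n : ℕ} (X : FCtx n) : FubiniFact X :=
  Fub103.fubiniFact_of (fun n => af8Germ hS n) X

end Crest.Agent.R271.L934
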