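import Crest.Agent.R271.G3_792
import Crest.Agent.R271.G4_747
import Crest.Agent.R271.G5_131
import Crest.Agent.R271.AlgA_255
import Crest.Agent.R271.AlgD_956

/-!
# Row 271, team G: everything of Part 10 from the engine (helper792)
-/

set_option autoImplicit false

noncomputable section

namespace Crest.Agent.R271.GAll792

open Crest.Agent.R271.Defs710 Crest.Agent.R271.GSpec792

/-- (G2) -/
theorem algStmt {n : ℕ} (X : FCtx n) : AlgStmt X := by
  obtain ⟨θ, μ, g, h1, h2, h3, h4, h5⟩ := Alg255.A1 X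
  exact AlgD956.algStmt_of X ⟨θ, μ, g, ⟨h1, h2, h3, h4, fun ζ hζ => (h5 ζ hζ).1,
    fun ζ hζ => (h5 ζ hζ).2⟩⟩

/-- (G5) -/
theorem globalMain_of_engine (hE : Ball399.EngineP) : GlobalMain :=
  G5x131.globalMain_of (fun _ X _ => G792.solverStmt_of_engine hE X) (fun _ X _ => algStmt X)

/-- (G4) -/
theorem multIdeal_of_engine (hE : Ball399.EngineP) {n : ℕ} (X : FCtx n) (hn : 1 ≤ n)
    (hch : ChartEx X) (hgen : GensFact X) : MultIdeal X :=
  G4_747.multIdeal X hn (G792.solverStmt_of_engine hE X) (algStmt X) hch hgen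

end Crest.Agent.R271.GAll792
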