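import Mathlib

/-! R271, team N, N1 (GEN): algebraic part.  `B` formally smooth over a perfect field `k`, with
`Ω[B/k]` free on `dz_i`; `P` a prime.  Then generically on `V(P)` the ideal `P` is generated by
functions `f_j` (`j ∉ I`) whose differentials complete `dz_i` (`i ∈ I`) to a basis. -/

set_option autoImplicit false

namespace Crest.Agent.R271.Gen86

open KaehlerDifferential TensorProduct

universe u v

variable {k : Type u} {B : Type v} [Field k] [CommRing B] [Algebra k B]

section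
variable (P : Ideal B) [P.IsPrime]

local notation "Rₚ" => Localization.AtPrime P
local notation "Kₚ" => P.ResidueField

instance fsR [Algebra.FormallySmooth k B] : Algebra.FormallySmooth k (Localization.AtPrime P) := by
  have : Algebra.FormallySmooth B (Localization.AtPrime P) := .of_isLocalization P.primeCompl
  exact .comp k B _

instance essK [Algebra.EssFiniteType k B] : Algebra.EssFiniteType k P.ResidueField :=
  Algebra.EssFiniteType.comp k B _

/-- the basis `1 ⊗ dz_i` of `K ⊗ Ω_R` -/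
noncomputable def basW {n : ℕ} (bs : Module.Basis (Fin n) B Ω[B⁄k]) :
    Module.Basis (Fin n) Kₚ (Kₚ ⊗[Rₚ] Ω[Rₚ⁄k]) :=
  haveI : Algebra.FormallyEtale B Rₚ := .of_isLocalization P.primeCompl
  Algebra.TensorProduct.basis Kₚ
    ((Algebra.TensorProduct.basis Rₚ bs).map (tensorKaehlerEquivOfFormallyEtale k B Rₚ))

/-- the vector `1 ⊗ dx` for `x : R` -/
noncomputable def dW (x : Rₚ) : Kₚ ⊗[Rₚ] Ω[Rₚ⁄k] := 1 ⊗ₜ D k Rₚ x

lemma dW_add (x y : Rₚ) : dW (k := k) P (x + y) = dW P x + dW P y := by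
  simp [dW, tmul_add]

lemma dW_sub (x y : Rₚ) : dW (k := k) P (x - y) = dW P x - dW P y := by
  simp [dW, tmul_sub]

lemma dW_mul (x y : Rₚ) : dW (k := k) P (x * y) =
    algebraMap Rₚ Kₚ x • dW P y + algebraMap Rₚ Kₚ y • dW P x := by
  simp only [dW, Derivation.leibniz, tmul_add, tmul_smul, algebraMap_smul]

lemma dW_sum {ι : Type*} (s : Finset ι) (f : ι → Rₚ) :
    dW (k := k) P (∑ i ∈ s, f i) = ∑ i ∈ s, dW P (f i) := by
  simp [dW, tmul_sum]

lemma dW_alg {n : ℕ} (bs : Module.Basis (Fin n) B Ω[B⁄k]) (b : B) :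
    dW (k := k) P (algebraMap B Rₚ b) =
      ∑ i, algebraMap B Kₚ (bs.repr (D k B b) i) • basW P bs i := by
  have : Algebra.FormallyEtale B Rₚ := .of_isLocalization P.primeCompl
  have h1 : D k Rₚ (algebraMap B Rₚ b) =
      ∑ i, algebraMap B Rₚ (bs.repr (D k B b) i) • (map k k B Rₚ (bs i)) := by
    rw [← map_D k k B Rₚ b]
    conv_lhs => rw [← bs.sum_repr (D k B b)]
    rw [map_sum]
    refine Finset.sum_congr rfl fun i _ => ?_
    rw [map_smul, algebraMap_smul]
  rw [dW, h1, tmul_sum]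
  refine Finset.sum_congr rfl fun i _ => ?_
  have h2 : basW P bs i = (1 : Kₚ) ⊗ₜ[Rₚ] (map k k B Rₚ (bs i)) := by
    simp [basW]
  rw [h2, tmul_smul, IsScalarTower.algebraMap_apply B Rₚ Kₚ]
  exact (algebraMap_smul Kₚ _ _).symm

lemma repr_dW {n : ℕ} (bs : Module.Basis (Fin n) B Ω[B⁄k]) (b : B) (i : Fin n) :
    (basW P bs).repr (dW (k := k) P (algebraMap B Rₚ b)) i =
      algebraMap B Kₚ (bs.repr (D k B b) i) := by
  rw [dW_alg P bs b, map_sum, Finsupp.finsetSum_apply]
  have : ∀ x, ((basW P bs).repr (algebraMap B Kₚ ((bs.repr (D k B b)) x) • basW P bs x)) i =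
      if x = i then algebraMap B Kₚ ((bs.repr (D k B b)) x) else 0 := by
    intro x
    rw [map_smul, Module.Basis.repr_self, Finsupp.smul_apply, Finsupp.single_apply]
    split_ifs <;> simp
  simp only [this]
  simp

/-- every element of `K ⊗ Ω_K`-kernel is `1 ⊗ dx`, `x ∈ m` -/
lemma mem_ker_iff (w : Kₚ ⊗[Rₚ] Ω[Rₚ⁄k]) :
    w ∈ LinearMap.ker (mapBaseChange k Rₚ Kₚ) ↔
      ∃ x ∈ IsLocalRing.maximalIdeal Rₚ, dW (k := k) P x = w := by
  have hsurj : Function.Surjective (algebraMap Rₚ Kₚ) := Ideal.Quotient.mk_surjective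
  have h := exact_kerCotangentToTensor_mapBaseChange k Rₚ Kₚ hsurj
  have hk : RingHom.ker (algebraMap Rₚ Kₚ) = IsLocalRing.maximalIdeal Rₚ :=
    IsLocalRing.ker_residue
  constructor
  · intro hw
    obtain ⟨c, hc⟩ := (h w).1 hw
    obtain ⟨x, rfl⟩ := Ideal.toCotangent_surjective _ c
    exact ⟨x.1, hk ▸ x.2, hc⟩
  · rintro ⟨x, hx, rfl⟩
    have hx' : x ∈ RingHom.ker (algebraMap Rₚ Kₚ) := hk ▸ hx
    exact (h _).2 ⟨Ideal.toCotangent _ ⟨x, hx'⟩, rfl⟩

lemma dW_eq_zero [PerfectField k] [Algebra.EssFiniteType k B] [Algebra.FormallySmooth k B]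
    (x : Rₚ) (hx : x ∈ IsLocalRing.maximalIdeal Rₚ) (h0 : dW (k := k) P x = 0) :
    x ∈ IsLocalRing.maximalIdeal Rₚ ^ 2 := by
  have hsurj : Function.Surjective (algebraMap Rₚ Kₚ) := Ideal.Quotient.mk_surjective
  have hk : RingHom.ker (algebraMap Rₚ Kₚ) = IsLocalRing.maximalIdeal Rₚ :=
    IsLocalRing.ker_residue
  have hfs : Algebra.FormallySmooth k Kₚ := inferInstance
  obtain ⟨l, hl⟩ := (Algebra.FormallySmooth.iff_split_injection (R := k)
    (P := Localization.AtPrime P) (A := P.ResidueField) hsurj).1 hfs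
  have hx' : x ∈ RingHom.ker (algebraMap Rₚ Kₚ) := hk ▸ hx
  have h1 : Ideal.toCotangent (RingHom.ker (algebraMap Rₚ Kₚ)) ⟨x, hx'⟩ = 0 := by
    have h2 := LinearMap.congr_fun hl (Ideal.toCotangent _ ⟨x, hx'⟩)
    rw [LinearMap.comp_apply, kerCotangentToTensor_toCotangent, LinearMap.id_apply] at h2
    rw [← h2]
    have : (1 : Kₚ) ⊗ₜ[Rₚ] D k Rₚ x = 0 := h0
    rw [this, map_zero]
  rw [Ideal.toCotangent_eq_zero] at h1
  rw [← hk]; exact h1

/-- linear algebra: complement of a subspace by basis vectors -/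
lemma exists_compl_basis {F W : Type*} [Field F] [AddCommGroup W] [Module F W] {n : ℕ}
    (e : Module.Basis (Fin n) F W) (V : Submodule F W) :
    ∃ (I : Finset (Fin n)) (g : {j // j ∉ I} → W),
      (∀ j, g j ∈ V) ∧ (∀ v ∈ V, ∃ c : {j // j ∉ I} → F, v = ∑ j, c j • g j) ∧
      (∀ c : {j // j ∉ I} → F, ∑ j, c j • g j = 0 → ∀ j, c j = 0) ∧
      I.card + Module.finrank F V = n ∧
      (∀ v ∈ V, (∀ j, j ∉ I → e.repr v j = 0) → v = 0) := by
  classical
  have : Module.Finite F W := Module.Finite.of_basis e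
  obtain ⟨κ, a, ha, hsp, hli⟩ := exists_linearIndependent' F (fun i => V.mkQ (e i))
  have : Finite κ := Finite.of_injective a ha
  have : Fintype κ := Fintype.ofFinite κ
  have hspan : Submodule.span F (Set.range ((fun i => V.mkQ (e i)) ∘ a)) = ⊤ := by
    rw [hsp]
    have h1 : Set.range (fun i => V.mkQ (e i)) = V.mkQ '' Set.range e := by
      rw [← Set.range_comp]; rfl
    rw [h1, ← Submodule.map_span, e.span_eq, Submodule.map_top, Submodule.range_mkQ]
  let I : Finset (Fin n) := Finset.univ.image a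
  have hIcard : I.card = Module.finrank F (W ⧸ V) := by
    rw [Finset.card_image_of_injective _ ha, Finset.card_univ,
      ← Module.finrank_eq_card_basis (Module.Basis.mk hli hspan.ge)]
  have hn : Module.finrank F W = n := by
    rw [Module.finrank_eq_card_basis e, Fintype.card_fin]
  have hsum : I.card + Module.finrank F V = n := by
    rw [hIcard, ← hn]; exact Submodule.finrank_quotient_add_finrank V
  have hcompl : Fintype.card {j // j ∉ I} = Module.finrank F V := by
    rw [Fintype.card_subtype_compl]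
    simp only [Fintype.card_fin, Fintype.card_coe]
    omega
  let g0 : Module.Basis (Fin (Module.finrank F V)) F V := Module.finBasis F V
  let g1 := g0.reindex ((Fintype.equivFinOfCardEq hcompl).symm)
  refine ⟨I, fun j => (g1 j).1, fun j => (g1 j).2, ?_, ?_, hsum, ?_⟩
  · intro v hv
    refine ⟨fun j => g1.repr ⟨v, hv⟩ j, ?_⟩
    have := congrArg Subtype.val (g1.sum_repr ⟨v, hv⟩)
    rw [Submodule.coe_sum] at this
    exact this.symm
  · intro c hc j
    have h0 : ∑ j, c j • g1 j = 0 := by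
      apply Subtype.ext
      rw [Submodule.coe_sum]
      exact hc
    exact Fintype.linearIndependent_iff.1 g1.linearIndependent c h0 j
  intro v hv hz
  have h1 : v = ∑ i ∈ I, e.repr v i • e i := by
    conv_lhs => rw [← e.sum_repr v]
    symm
    apply Finset.sum_subset (Finset.subset_univ _)
    intro i _ hi
    rw [hz i hi, zero_smul]
  have h2 : ∑ x : κ, e.repr v (a x) • V.mkQ (e (a x)) = 0 := by
    have h3 : V.mkQ v = 0 := by simpa using hv
    rw [h1, map_sum] at h3
    rw [← h3]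
    rw [Finset.sum_image (fun x _ y _ h => ha h)]
    refine Finset.sum_congr rfl fun x _ => ?_
    rw [map_smul]
  have h4 : ∀ x : κ, e.repr v (a x) = 0 := by
    intro x
    exact Fintype.linearIndependent_iff.1 hli (fun x => e.repr v (a x)) h2 x
  rw [h1]
  apply Finset.sum_eq_zero
  intro i hi
  obtain ⟨x, _, rfl⟩ := Finset.mem_image.1 hi
  rw [h4 x, zero_smul]

lemma finrank_ker_add {F W W' : Type*} [Field F] [AddCommGroup W] [Module F W]
    [AddCommGroup W'] [Module F W'] {n : ℕ} (e : Module.Basis (Fin n) F W) (φ : W →ₗ[F] W')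
    (hφ : Function.Surjective φ) :
    Module.finrank F (LinearMap.ker φ) + Module.finrank F W' = n := by
  have : Module.Finite F W := Module.Finite.of_basis e
  have h1 := LinearMap.finrank_range_add_finrank_ker φ
  rw [LinearMap.range_eq_top.2 hφ, finrank_top, Module.finrank_eq_card_basis e,
    Fintype.card_fin] at h1
  omega

/-- Nakayama + clearing denominators: if the differentials of the `p i ∈ P` span those of the
maximal ideal of `B_P`, then `P` is generated by the `p i` near the generic point of `V(P)`. -/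
theorem clear [PerfectField k] [IsNoetherianRing B] [Algebra.EssFiniteType k B]
    [Algebra.FormallySmooth k B] {ι : Type*} [Fintype ι] (p : ι → B) (hp : ∀ i, p i ∈ P)
    (hspan : ∀ x ∈ IsLocalRing.maximalIdeal Rₚ, ∃ c : ι → Kₚ,
      dW (k := k) P x = ∑ j, c j • dW P (algebraMap B Rₚ (p j))) :
    ∃ h : B, h ∉ P ∧ ∀ b ∈ P, h * b ∈ Ideal.span (Set.range p) := by
  classical
  have hsurj : Function.Surjective (algebraMap Rₚ Kₚ) := Ideal.Quotient.mk_surjective
  have hmax : IsLocalRing.maximalIdeal Rₚ ≤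
      Ideal.span (Set.range fun j => algebraMap B Rₚ (p j)) := by
    have : IsNoetherianRing Rₚ := IsLocalization.isNoetherianRing P.primeCompl _ inferInstance
    refine Submodule.le_of_le_smul_of_le_jacobson_bot (I := IsLocalRing.maximalIdeal Rₚ)
      (IsNoetherian.noetherian _) (IsLocalRing.maximalIdeal_le_jacobson _) ?_
    intro x hx
    obtain ⟨c, h1⟩ := hspan x hx
    choose r hr using fun j => hsurj (c j)
    have h2 : dW (k := k) P (x - ∑ j, r j * algebraMap B Rₚ (p j)) = 0 := by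
      rw [dW_sub, dW_sum, h1, sub_eq_zero]
      refine Finset.sum_congr rfl fun j _ => ?_
      rw [dW_mul, ← IsScalarTower.algebraMap_apply B Rₚ Kₚ,
        Ideal.algebraMap_residueField_eq_zero.2 (hp j), zero_smul, add_zero, hr]
    have hpm : ∀ j, algebraMap B Rₚ (p j) ∈ IsLocalRing.maximalIdeal Rₚ := fun j =>
      (IsLocalization.AtPrime.to_map_mem_maximal_iff Rₚ P _).2 (hp j)
    have h3 : x - ∑ j, r j * algebraMap B Rₚ (p j) ∈ IsLocalRing.maximalIdeal Rₚ :=
      sub_mem hx (Ideal.sum_mem _ fun j _ => Ideal.mul_mem_left _ _ (hpm j))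
    have h4 := dW_eq_zero (k := k) P _ h3 h2
    have h5 : x = (∑ j, r j * algebraMap B Rₚ (p j)) +
        (x - ∑ j, r j * algebraMap B Rₚ (p j)) := by ring
    rw [h5]
    refine Submodule.add_mem_sup ?_ ?_
    · exact Ideal.sum_mem _ fun j _ =>
        Ideal.mul_mem_left _ _ (Ideal.subset_span ⟨j, rfl⟩)
    · rw [smul_eq_mul, ← pow_two]; exact h4
  have h1 : ∀ b ∈ P, ∃ t : B, t ∉ P ∧ t * b ∈ Ideal.span (Set.range p) := by
    intro b hb
    have h2 : algebraMap B Rₚ b ∈ (Ideal.span (Set.range p)).map (algebraMap B Rₚ) := by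
      rw [Ideal.map_span, ← Set.range_comp]
      exact hmax ((IsLocalization.AtPrime.to_map_mem_maximal_iff Rₚ P _).2 hb)
    obtain ⟨⟨a, t⟩, hat⟩ := (IsLocalization.mem_map_algebraMap_iff P.primeCompl Rₚ).1 h2
    simp only at hat
    rw [← map_mul] at hat
    obtain ⟨c, hc⟩ := (IsLocalization.eq_iff_exists P.primeCompl Rₚ).1 hat
    refine ⟨c.1 * t.1, fun h => ?_, ?_⟩
    · exact (P.primeCompl.mul_mem c.2 t.2) h
    · have : c.1 * t.1 * b = c.1 * (b * t.1) := by ring
      rw [this, hc]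
      exact Ideal.mul_mem_left _ _ a.2
  obtain ⟨T, hT⟩ := (IsNoetherian.noetherian P : P.FG)
  have h3 : ∀ b : {b // b ∈ T}, ∃ t : B, t ∉ P ∧ t * b.1 ∈ Ideal.span (Set.range p) := fun b =>
    h1 b.1 (hT ▸ Submodule.subset_span b.2)
  choose t ht ht' using h3
  refine ⟨∏ b, t b, ?_, ?_⟩
  · intro h
    obtain ⟨b, _, hb⟩ := Ideal.IsPrime.prod_mem_iff.1 h
    exact ht b hb
  · intro b hb
    rw [← hT] at hb
    induction hb using Submodule.span_induction with
    | mem x hx =>
      obtain ⟨c, hc⟩ : t ⟨x, hx⟩ ∣ ∏ b, t b := Finset.dvd_prod_of_mem t (Finset.mem_univ _)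
      rw [hc]
      have : t ⟨x, hx⟩ * c * x = c * (t ⟨x, hx⟩ * x) := by ring
      rw [this]
      exact Ideal.mul_mem_left _ _ (ht' ⟨x, hx⟩)
    | zero => simp
    | add x y _ _ hx hy => rw [mul_add]; exact add_mem hx hy
    | smul a x _ hx =>
      rw [smul_eq_mul]
      have : (∏ b, t b) * (a * x) = a * ((∏ b, t b) * x) := by ring
      rw [this]
      exact Ideal.mul_mem_left _ _ hx

theorem gen_alg [PerfectField k] [IsNoetherianRing B] [Algebra.EssFiniteType k B]
    [Algebra.FormallySmooth k B] {n : ℕ} (bs : Module.Basis (Fin n) B Ω[B⁄k]) :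
    ∃ (I : Finset (Fin n)) (f : {j // j ∉ I} → B) (h : B), h ∉ P ∧ (∀ j, f j ∈ P) ∧
      (∀ b ∈ P, h * b ∈ Ideal.span (Set.range f)) ∧
      (Matrix.of fun j l : {j // j ∉ I} => bs.repr (D k B (f j)) l).det ∉ P ∧
      I.card = Module.finrank Kₚ Ω[Kₚ⁄k] := by
  classical
  set V : Submodule Kₚ (Kₚ ⊗[Rₚ] Ω[Rₚ⁄k]) := LinearMap.ker (mapBaseChange k Rₚ Kₚ) with hV
  obtain ⟨I, g, hgV, hgspan, hgli, hcard, hcompl⟩ := exists_compl_basis (basW P bs) V
  have hsurj : Function.Surjective (algebraMap Rₚ Kₚ) := Ideal.Quotient.mk_surjective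
  have hk : RingHom.ker (algebraMap Rₚ Kₚ) = IsLocalRing.maximalIdeal Rₚ :=
    IsLocalRing.ker_residue
  have hex : ∀ j, ∃ p s : B, p ∈ P ∧ s ∉ P ∧
      dW (k := k) P (algebraMap B Rₚ p) = algebraMap B Kₚ s • g j := by
    intro j
    obtain ⟨x, hx, hxg⟩ := (mem_ker_iff P _).1 (hgV j)
    obtain ⟨p, s, rfl⟩ := IsLocalization.exists_mk'_eq P.primeCompl x
    refine ⟨p, s.1, (IsLocalization.AtPrime.mk'_mem_maximal_iff Rₚ P p s).1 hx, s.2, ?_⟩
    rw [← hxg, ← IsLocalization.mk'_spec Rₚ p s, dW_mul]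
    have : algebraMap Rₚ Kₚ (IsLocalization.mk' Rₚ p s) = 0 := by
      have : IsLocalization.mk' Rₚ p s ∈ RingHom.ker (algebraMap Rₚ Kₚ) := hk ▸ hx
      exact this
    rw [this, zero_smul, zero_add, ← IsScalarTower.algebraMap_apply B Rₚ Kₚ]
  choose p s hp hs hps using hex
  have hs0 : ∀ j, algebraMap B Kₚ (s j) ≠ 0 := by
    intro j h0
    exact hs j (Ideal.algebraMap_residueField_eq_zero.1 h0)
  obtain ⟨h, hh, hspan⟩ := clear (k := k) P p hp (by
    intro x hx
    have hxV : dW (k := k) P x ∈ V := (mem_ker_iff P _).2 ⟨x, hx, rfl⟩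
    obtain ⟨c, h1⟩ := hgspan _ hxV
    refine ⟨fun j => c j * (algebraMap B Kₚ (s j))⁻¹, ?_⟩
    rw [h1]
    refine Finset.sum_congr rfl fun j _ => ?_
    rw [hps, smul_smul, mul_assoc, inv_mul_cancel₀ (hs0 j), mul_one])
  refine ⟨I, p, h, hh, hp, hspan, ?_, ?_⟩
  · intro hdet
    have h1 : (Matrix.of fun j l : {j // j ∉ I} =>
        algebraMap B Kₚ (bs.repr (D k B (p j)) l)).det = 0 := by
      have h2 := Ideal.algebraMap_residueField_eq_zero.2 hdet
      rw [RingHom.map_det] at h2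
      exact h2
    obtain ⟨v, hv0, hv⟩ := Matrix.exists_vecMul_eq_zero_iff.2 h1
    apply hv0
    have hw : (∑ j, v j • dW (k := k) P (algebraMap B Rₚ (p j))) = 0 := by
      apply hcompl
      · refine Submodule.sum_mem _ fun j _ => Submodule.smul_mem _ _ ?_
        rw [hps]
        exact Submodule.smul_mem _ _ (hgV j)
      · intro l hl
        have h3 := congrFun hv ⟨l, hl⟩
        rw [map_sum, Finsupp.finsetSum_apply]
        simp only [Matrix.vecMul, dotProduct, Matrix.of_apply, Pi.zero_apply] at h3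
        rw [← h3]
        refine Finset.sum_congr rfl fun j _ => ?_
        rw [map_smul, Finsupp.smul_apply, repr_dW, smul_eq_mul]
    have hw2 : (∑ j, (v j * algebraMap B Kₚ (s j)) • g j) = 0 := by
      rw [← hw]
      refine Finset.sum_congr rfl fun j _ => ?_
      rw [hps, smul_smul]
    funext j
    have h4 := hgli (fun j => v j * algebraMap B Kₚ (s j)) hw2 j
    exact (mul_eq_zero.1 h4).resolve_right (hs0 j)
  · have h1 := finrank_ker_add (basW P bs) (mapBaseChange k Rₚ Kₚ)
      (mapBaseChange_surjective k Rₚ Kₚ hsurj)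
    rw [← hV] at h1
    exact Nat.add_right_cancel (hcard.trans ((Nat.add_comm _ _).trans h1).symm)

/-- functions in `P` with invertible Jacobian w.r.t. `z` generate `P` near the generic point of
`V(P)` (used for maximal ideals `P`). -/
theorem local_gen [PerfectField k] [IsNoetherianRing B] [Algebra.EssFiniteType k B]
    [Algebra.FormallySmooth k B] {n : ℕ} (bs : Module.Basis (Fin n) B Ω[B⁄k])
    (w : Fin n → B) (hw : ∀ i, w i ∈ P)
    (hdet : (Matrix.of fun j l : Fin n => bs.repr (D k B (w j)) l).det ∉ P) :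
    ∃ h : B, h ∉ P ∧ ∀ b ∈ P, h * b ∈ Ideal.span (Set.range w) := by
  classical
  refine clear (k := k) P w hw ?_
  intro x _
  set M : Matrix (Fin n) (Fin n) Kₚ := Matrix.of fun j l =>
    algebraMap B Kₚ (bs.repr (D k B (w j)) l) with hM
  have hM0 : M.det ≠ 0 := by
    intro h0
    apply hdet
    rw [← Ideal.algebraMap_residueField_eq_zero, RingHom.map_det]
    exact h0
  have hMu : IsUnit M.det := isUnit_iff_ne_zero.2 hM0
  set v : Fin n → Kₚ := fun l => (basW P bs).repr (dW (k := k) P x) l with hv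
  refine ⟨Matrix.vecMul v M⁻¹, ?_⟩
  have h1 : Matrix.vecMul (Matrix.vecMul v M⁻¹) M = v := by
    rw [Matrix.vecMul_vecMul, Matrix.nonsing_inv_mul _ hMu, Matrix.vecMul_one]
  apply (basW P bs).repr.injective
  ext l
  rw [map_sum, Finsupp.finsetSum_apply]
  have h2 := congrFun h1 l
  simp only [hv] at h2
  rw [← h2]
  simp only [Matrix.vecMul, dotProduct]
  refine Finset.sum_congr rfl fun j _ => ?_
  rw [map_smul, Finsupp.smul_apply, repr_dW, smul_eq_mul, hM, Matrix.of_apply]

end

end Crest.Agent.R271.Gen86
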