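import Crest.Agent.R271.C5_756
import Crest.Agent.R271.Ctx2_728

/-!
Row 271: `growthProp : Ctx728.GrowthProp` (C5), from `C5_756.GSec.growth`.
-/

set_option autoImplicit false

open scoped BigOperators
open Polynomial

noncomputable section

namespace Crest.Agent.R271.Growth756

open Crest.Agent.R271.Ctx728

theorem monomial_mem {B : Type} [CommRing B] [Algebra ℂ B] (W : Submodule ℂ B) (N : ℕ) (u : B)
    (hu : u ∈ W ^ N) :
    (monomial N u : B[X]) ∈ Algebra.adjoin ℂ ((fun w => (monomial 1 w : B[X])) '' (W : Set B)) := by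
  induction N generalizing u with
  | zero =>
    rw [pow_zero, Submodule.mem_one] at hu
    obtain ⟨c, rfl⟩ := hu
    rw [monomial_zero_left, ← Polynomial.algebraMap_apply]
    exact Subalgebra.algebraMap_mem _ _
  | succ N ih =>
    rw [pow_succ] at hu
    refine Submodule.mul_induction_on hu ?_ ?_
    · intro a ha w hw
      have h1 := ih a ha
      have h2 : (monomial 1 w : B[X]) ∈
        Algebra.adjoin ℂ ((fun w => (monomial 1 w : B[X])) '' (W : Set B)) :=
        Algebra.subset_adjoin ⟨w, hw, rfl⟩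
      have := Subalgebra.mul_mem _ h1 h2
      rwa [monomial_mul_monomial] at this
    · intro a b ha hb
      rw [map_add]
      exact Subalgebra.add_mem _ ha hb

theorem isIntegral_of_GInt {B : Type} [CommRing B] [Algebra ℂ B] {W : Submodule ℂ B} {m : ℕ}
    {f : B} (h : GInt W m f) :
    IsIntegral (Algebra.adjoin ℂ ((fun w => (monomial 1 w : B[X])) '' (W : Set B)))
      (monomial m f : B[X]) := by
  obtain ⟨r, hr, a, ha, hf⟩ := h
  refine isIntegral_of_rel r hr
    (fun j => ⟨monomial (m * j) (a j), monomial_mem W _ _ (ha j)⟩) _ ?_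
  rw [monomial_pow, hf, map_sum]
  refine Finset.sum_congr rfl fun i hi => ?_
  have hi' := Finset.mem_range.1 hi
  show _ = (monomial (m * (r - i)) (a (r - i)) : B[X]) * (monomial m f) ^ i
  have e1 : m * r = m * (r - i) + m * i := by
    rw [← Nat.mul_add, Nat.sub_add_cancel hi'.le]
  rw [monomial_pow, monomial_mul_monomial, e1]

theorem gsec {B : Type} [CommRing B] [IsDomain B] [Algebra ℂ B] {V : ℕ → Submodule ℂ B} {k₀ : ℕ}
    (h : Ctx728.GSec B V k₀) : C5_756.GSec V k₀ where
  one := by rw [h.zero]; exact Submodule.mem_one.2 ⟨1, map_one _⟩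
  mul := h.mul
  fin := fun m => Module.Finite.iff_fg.1 (h.fin m)
  bpf := h.bpf
  gen := by
    obtain ⟨Q, S, hS, hS2⟩ := h.gen
    have hone : (1 : B) ∈ V 0 := by rw [h.zero]; exact Submodule.mem_one.2 ⟨1, map_one _⟩
    intro b
    have hb : b ∈ Algebra.adjoin ℂ (S : Set B) := by rw [hS]; trivial
    induction hb using Algebra.adjoin_induction with
    | mem b hb =>
      obtain ⟨g, hg, hu, hbg⟩ := hS2 b hb
      exact ⟨Q, g, hg, hu, hbg⟩
    | algebraMap r =>
      refine ⟨0, 1, hone, isUnit_one, ?_⟩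
      rw [← Algebra.smul_def]
      exact Submodule.smul_mem _ _ hone
    | add a b _ _ h1 h2 =>
      obtain ⟨p, g, hg, hu, ha⟩ := h1
      obtain ⟨p', g', hg', hu', hb⟩ := h2
      refine ⟨p + p', g * g', h.mul _ _ _ _ hg hg', hu.mul hu', ?_⟩
      have e1 : (a + b) * (g * g') = (a * g) * g' + g * (b * g') := by ring
      rw [e1]
      exact Submodule.add_mem _ (h.mul _ _ _ _ ha hg') (h.mul _ _ _ _ hg hb)
    | mul a b _ _ h1 h2 =>
      obtain ⟨p, g, hg, hu, ha⟩ := h1
      obtain ⟨p', g', hg', hu', hb⟩ := h2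
      refine ⟨p + p', g * g', h.mul _ _ _ _ hg hg', hu.mul hu', ?_⟩
      have e1 : (a * b) * (g * g') = (a * g) * (b * g') := by ring
      rw [e1]
      exact h.mul _ _ _ _ ha hb
  int := fun m hm q f hf => isIntegral_of_GInt (h.int m hm q f hf)

theorem growthProp : Ctx728.GrowthProp := by
  intro B _ _ _ V k₀ h d ε hε
  obtain ⟨Q, S, hS, -⟩ := h.gen
  have hft : Algebra.FiniteType ℂ B := ⟨⟨S, hS⟩⟩
  exact (gsec h).growth d ε hε

end Crest.Agent.R271.Growth756
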