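import Mathlib

/-!
# Row 271, analytic engine (H): calculus on a Riemann domain `p : M → ℂⁿ` (helper51)

`RDom n M` : a local homeomorphism `p : M → (Fin n → ℂ)`.
* `D f x : (Fin n → ℂ) →L[ℝ] G` : derivative of `f : M → G` in the coordinates given by `p`;
* `Sm f` : `f` is smooth;
* `dz j f`, `db j f` : Wirtinger derivatives of `f : M → ℂ`.
-/

set_option autoImplicit false
set_option linter.unusedSectionVars false

noncomputable section

open Set Filter Topology MeasureTheory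

namespace Crest.Agent.R271.Ho51

lemma two_le_top' : (2 : WithTop ℕ∞) ≤ ((⊤ : ℕ∞) : WithTop ℕ∞) := by
  have : ((2 : ℕ∞) : WithTop ℕ∞) ≤ ((⊤ : ℕ∞) : WithTop ℕ∞) := WithTop.coe_le_coe.mpr le_top
  simpa using this

lemma one_add_one_le_top' : (1 : WithTop ℕ∞) + 1 ≤ ((⊤ : ℕ∞) : WithTop ℕ∞) := by
  rw [one_add_one_eq_two]; exact two_le_top'

/-- A Riemann domain over `ℂⁿ`: a local homeomorphism `p : M → (Fin n → ℂ)`. -/
class RDom (n : outParam ℕ) (M : Type*) [TopologicalSpace M] where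
  /-- the coordinates -/
  p : M → (Fin n → ℂ)
  hp : IsLocalHomeomorph p

variable {n : ℕ} {M : Type*} [TopologicalSpace M] [RDom n M]

/-- the coordinates -/
abbrev cp (x : M) : Fin n → ℂ := RDom.p x

lemma cp_lh : IsLocalHomeomorph (cp : M → (Fin n → ℂ)) := RDom.hp

lemma cp_cont : Continuous (cp : M → (Fin n → ℂ)) := cp_lh.continuous

/-- a chart: an open partial homeomorphism which is given by `p` -/
def IsCh (e : OpenPartialHomeomorph M (Fin n → ℂ)) : Prop := (⇑e : M → (Fin n → ℂ)) = cp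

/-- the standard chart at `x` -/
def ch (x : M) : OpenPartialHomeomorph M (Fin n → ℂ) := (cp_lh (M := M) x).choose

lemma mem_ch (x : M) : x ∈ (ch x).source := (cp_lh (M := M) x).choose_spec.1

lemma isCh_ch (x : M) : IsCh (ch x) := (cp_lh (M := M) x).choose_spec.2.symm

lemma IsCh.apply {e : OpenPartialHomeomorph M (Fin n → ℂ)} (he : IsCh e) (x : M) : e x = cp x := by
  rw [he]

lemma IsCh.symm_cp {e : OpenPartialHomeomorph M (Fin n → ℂ)} (he : IsCh e) {x : M}
    (hx : x ∈ e.source) : e.symm (cp x) = x := by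
  rw [← he.apply]; exact e.left_inv hx

lemma IsCh.cp_symm {e : OpenPartialHomeomorph M (Fin n → ℂ)} (he : IsCh e) {z : Fin n → ℂ}
    (hz : z ∈ e.target) : cp (e.symm z) = z := by
  rw [← he.apply]; exact e.right_inv hz

lemma IsCh.cp_mem {e : OpenPartialHomeomorph M (Fin n → ℂ)} (he : IsCh e) {x : M}
    (hx : x ∈ e.source) : cp x ∈ e.target := by
  rw [← he.apply]; exact e.map_source hx

lemma IsCh.injOn {e : OpenPartialHomeomorph M (Fin n → ℂ)} (he : IsCh e) :
    InjOn (cp : M → (Fin n → ℂ)) e.source := by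
  have := e.injOn
  rwa [he] at this

lemma IsCh.image_eq {e : OpenPartialHomeomorph M (Fin n → ℂ)} (he : IsCh e) (s : Set M) :
    e '' s = cp '' s := by rw [he]

/-- Two charts have the same inverse near `p x`. -/
lemma IsCh.germ {e e' : OpenPartialHomeomorph M (Fin n → ℂ)} (he : IsCh e) (he' : IsCh e') {x : M}
    (hx : x ∈ e.source) (hx' : x ∈ e'.source) :
    (e.symm : (Fin n → ℂ) → M) =ᶠ[𝓝 (cp x)] e'.symm := by
  have h1 : ContinuousAt e.symm (cp x) := e.symm.continuousAt (by simpa using he.cp_mem hx)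
  have h2 : ∀ᶠ z in 𝓝 (cp x), e.symm z ∈ e'.source := by
    apply h1.eventually_mem
    rw [he.symm_cp hx]
    exact e'.open_source.mem_nhds hx'
  have h3 : ∀ᶠ z in 𝓝 (cp x), z ∈ e.target := e.open_target.mem_nhds (he.cp_mem hx)
  filter_upwards [h2, h3] with z hz1 hz2
  have h4 := he'.symm_cp hz1
  rw [he.cp_symm hz2] at h4
  exact h4.symm

variable {G : Type*} [NormedAddCommGroup G] [NormedSpace ℝ G]

/-- derivative in the coordinates `p` -/
def D (f : M → G) (x : M) : (Fin n → ℂ) →L[ℝ] G := fderiv ℝ (f ∘ (ch x).symm) (cp x)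

/-- smooth functions -/
def Sm (f : M → G) : Prop := ∀ x : M, ContDiffAt ℝ (⊤ : ℕ∞) (f ∘ (ch x).symm) (cp x)

lemma comp_germ {e e' : OpenPartialHomeomorph M (Fin n → ℂ)} (he : IsCh e) (he' : IsCh e') {x : M}
    (hx : x ∈ e.source) (hx' : x ∈ e'.source) (f : M → G) :
    (f ∘ e.symm) =ᶠ[𝓝 (cp x)] (f ∘ e'.symm) := by
  filter_upwards [he.germ he' hx hx'] with z hz
  simp [hz]

lemma D_eq {e : OpenPartialHomeomorph M (Fin n → ℂ)} (he : IsCh e) {x : M} (hx : x ∈ e.source)
    (f : M → G) : D f x = fderiv ℝ (f ∘ e.symm) (cp x) :=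
  (comp_germ (isCh_ch x) he (mem_ch x) hx f).fderiv_eq

lemma D_symm {e : OpenPartialHomeomorph M (Fin n → ℂ)} (he : IsCh e) {z : Fin n → ℂ}
    (hz : z ∈ e.target) (f : M → G) : D f (e.symm z) = fderiv ℝ (f ∘ e.symm) z := by
  have h1 : e.symm z ∈ e.source := e.map_target hz
  rw [D_eq he h1, he.cp_symm hz]

lemma Sm.contDiffAt {f : M → G} (hf : Sm f) {e : OpenPartialHomeomorph M (Fin n → ℂ)}
    (he : IsCh e) {x : M} (hx : x ∈ e.source) :
    ContDiffAt ℝ (⊤ : ℕ∞) (f ∘ e.symm) (cp x) :=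
  (hf x).congr_of_eventuallyEq (comp_germ he (isCh_ch x) hx (mem_ch x) f)

lemma Sm.contDiffAt' {f : M → G} (hf : Sm f) {e : OpenPartialHomeomorph M (Fin n → ℂ)}
    (he : IsCh e) {z : Fin n → ℂ} (hz : z ∈ e.target) :
    ContDiffAt ℝ (⊤ : ℕ∞) (f ∘ e.symm) z := by
  have h1 : e.symm z ∈ e.source := e.map_target hz
  have := hf.contDiffAt he h1
  rwa [he.cp_symm hz] at this

lemma Sm.contDiffOn {f : M → G} (hf : Sm f) {e : OpenPartialHomeomorph M (Fin n → ℂ)}
    (he : IsCh e) : ContDiffOn ℝ (⊤ : ℕ∞) (f ∘ e.symm) e.target :=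
  fun _ hz => (hf.contDiffAt' he hz).contDiffWithinAt

/-- near `x` the function is `f ∘ e.symm` composed with `p` -/
lemma eventually_eq_comp {e : OpenPartialHomeomorph M (Fin n → ℂ)} (he : IsCh e) {x : M}
    (hx : x ∈ e.source) (f : M → G) : f =ᶠ[𝓝 x] fun y => (f ∘ e.symm) (cp y) := by
  filter_upwards [e.open_source.mem_nhds hx] with y hy
  simp [he.symm_cp hy]

lemma Sm.continuous {f : M → G} (hf : Sm f) : Continuous f := by
  rw [continuous_iff_continuousAt]
  intro x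
  have h1 : ContinuousAt (fun y => (f ∘ (ch x).symm) (cp y)) x :=
    ContinuousAt.comp (g := f ∘ (ch x).symm) (hf x).continuousAt cp_cont.continuousAt
  exact h1.congr (eventually_eq_comp (isCh_ch x) (mem_ch x) f).symm

/-- smoothness is local -/
lemma Sm.of_locally {f : M → G}
    (h : ∀ x : M, ∃ g : M → G, Sm g ∧ f =ᶠ[𝓝 x] g) : Sm f := by
  intro x
  obtain ⟨g, hg, hfg⟩ := h x
  refine (hg x).congr_of_eventuallyEq ?_
  have h1 : Tendsto (ch x).symm (𝓝 (cp x)) (𝓝 x) := by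
    have := (ch x).symm.continuousAt (x := cp x) (by simpa using (isCh_ch x).cp_mem (mem_ch x))
    rwa [ContinuousAt, (isCh_ch x).symm_cp (mem_ch x)] at this
  filter_upwards [h1.eventually hfg] with z hz
  simpa using hz

lemma D_congr {f g : M → G} {x : M} (h : f =ᶠ[𝓝 x] g) : D f x = D g x := by
  apply Filter.EventuallyEq.fderiv_eq
  have h1 : Tendsto (ch x).symm (𝓝 (cp x)) (𝓝 x) := by
    have := (ch x).symm.continuousAt (x := cp x) (by simpa using (isCh_ch x).cp_mem (mem_ch x))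
    rwa [ContinuousAt, (isCh_ch x).symm_cp (mem_ch x)] at this
  filter_upwards [h1.eventually h] with z hz
  simpa using hz

/-- composition with the coordinates of a function smooth at the points `p x` -/
lemma Sm.of_coord {g : (Fin n → ℂ) → G} (hg : ContDiff ℝ (⊤ : ℕ∞) g) :
    Sm (fun x : M => g (cp x)) := by
  intro x
  have h1 : ((fun x : M => g (cp x)) ∘ (ch x).symm) =ᶠ[𝓝 (cp x)] g := by
    filter_upwards [(ch x).open_target.mem_nhds ((isCh_ch x).cp_mem (mem_ch x))] with z hz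
    simp [(isCh_ch x).cp_symm hz]
  exact hg.contDiffAt.congr_of_eventuallyEq h1

/-- The derivative of a smooth function is smooth. -/
lemma Sm.D {f : M → G} (hf : Sm f) : Sm (D f) := by
  intro x
  have h1 : (Ho51.D f ∘ (ch x).symm) =ᶠ[𝓝 (cp x)] fderiv ℝ (f ∘ (ch x).symm) := by
    filter_upwards [(ch x).open_target.mem_nhds ((isCh_ch x).cp_mem (mem_ch x))] with z hz
    exact D_symm (isCh_ch x) hz f
  have h2 : ContDiffAt ℝ (⊤ : ℕ∞) (fderiv ℝ (f ∘ (ch x).symm)) (cp x) :=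
    (hf x).fderiv_right (m := (⊤ : ℕ∞)) (by exact_mod_cast le_top)
  exact h2.congr_of_eventuallyEq h1

section ops

variable {G' : Type*} [NormedAddCommGroup G'] [NormedSpace ℝ G']

lemma Sm.comp {f : M → G} {g : G → G'} (hg : ContDiff ℝ (⊤ : ℕ∞) g) (hf : Sm f) :
    Sm (fun x => g (f x)) := fun x => hg.contDiffAt.comp _ (hf x)

lemma Sm.comp_at {f : M → G} {g : G → G'} (hf : Sm f)
    (hg : ∀ x, ContDiffAt ℝ (⊤ : ℕ∞) g (f x)) : Sm (fun x => g (f x)) := fun x => by
  have h1 : ContDiffAt ℝ (⊤ : ℕ∞) g ((f ∘ (ch x).symm) (cp x)) := by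
    simpa [(isCh_ch x).symm_cp (mem_ch x)] using hg x
  exact h1.comp _ (hf x)

lemma Sm.const (c : G) : Sm (fun _ : M => c) := fun _ => contDiffAt_const

lemma Sm.add {f g : M → G} (hf : Sm f) (hg : Sm g) : Sm (fun x => f x + g x) := fun x =>
  (hf x).add (hg x)

lemma Sm.sub {f g : M → G} (hf : Sm f) (hg : Sm g) : Sm (fun x => f x - g x) := fun x =>
  (hf x).sub (hg x)

lemma Sm.neg {f : M → G} (hf : Sm f) : Sm (fun x => - f x) := fun x => (hf x).neg

lemma Sm.sum {ι : Type*} {s : Finset ι} {f : ι → M → G} (hf : ∀ i ∈ s, Sm (f i)) :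
    Sm (fun x => ∑ i ∈ s, f i x) := fun x => by
  have := ContDiffAt.sum (𝕜 := ℝ) (n := (⊤ : ℕ∞)) (x := cp x)
    (f := fun i => f i ∘ (ch x).symm) (s := s) (fun i hi => hf i hi x)
  refine this.congr_of_eventuallyEq (Eventually.of_forall fun z => ?_)
  simp

lemma Sm.smul {c : M → ℝ} {f : M → G} (hc : Sm c) (hf : Sm f) : Sm (fun x => c x • f x) :=
  fun x => (hc x).smul (hf x)

lemma Sm.mul {f g : M → ℂ} (hf : Sm f) (hg : Sm g) : Sm (fun x => f x * g x) := fun x =>
  (hf x).mul (hg x)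

lemma Sm.mulR {f g : M → ℝ} (hf : Sm f) (hg : Sm g) : Sm (fun x => f x * g x) := fun x =>
  (hf x).mul (hg x)

lemma Sm.clm {f : M → G} (L : G →L[ℝ] G') (hf : Sm f) : Sm (fun x => L (f x)) :=
  Sm.comp L.contDiff hf

lemma Sm.conj {f : M → ℂ} (hf : Sm f) : Sm (fun x => (starRingEnd ℂ) (f x)) :=
  hf.clm (Complex.conjCLE : ℂ →L[ℝ] ℂ)

lemma Sm.ofReal {f : M → ℝ} (hf : Sm f) : Sm (fun x => ((f x : ℝ) : ℂ)) :=
  hf.clm Complex.ofRealCLM

lemma Sm.apply {f : M → (Fin n → ℂ) →L[ℝ] G} (hf : Sm f) (v : Fin n → ℂ) :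
    Sm (fun x => f x v) := hf.clm (ContinuousLinearMap.apply ℝ G v)

lemma Sm.differentiableAt {f : M → G} (hf : Sm f) (x : M) :
    DifferentiableAt ℝ (f ∘ (ch x).symm) (cp x) :=
  (hf x).differentiableAt (by simp)

lemma D_add {f g : M → G} (hf : Sm f) (hg : Sm g) (x : M) :
    Ho51.D (fun x => f x + g x) x = Ho51.D f x + Ho51.D g x :=
  fderiv_add (hf.differentiableAt x) (hg.differentiableAt x)

lemma D_sub {f g : M → G} (hf : Sm f) (hg : Sm g) (x : M) :
    Ho51.D (fun x => f x - g x) x = Ho51.D f x - Ho51.D g x :=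
  fderiv_sub (hf.differentiableAt x) (hg.differentiableAt x)

lemma D_neg {f : M → G} (x : M) : Ho51.D (fun x => - f x) x = - Ho51.D f x :=
  fderiv_neg

lemma D_const (c : G) (x : M) : Ho51.D (fun _ : M => c) x = 0 := fderiv_const_apply c

lemma D_clm {f : M → G} (hf : Sm f) (L : G →L[ℝ] G') (x : M) :
    Ho51.D (fun x => L (f x)) x = L.comp (Ho51.D f x) :=
  L.hasFDerivAt.comp (cp x) (hf.differentiableAt x).hasFDerivAt |>.fderiv

lemma symm_cp (x : M) : (ch x).symm (cp x) = x := (isCh_ch x).symm_cp (mem_ch x)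

lemma D_mul {f g : M → ℂ} (hf : Sm f) (hg : Sm g) (x : M) (v : Fin n → ℂ) :
    Ho51.D (fun x => f x * g x) x v = Ho51.D f x v * g x + f x * Ho51.D g x v := by
  have h := fderiv_mul (hf.differentiableAt x) (hg.differentiableAt x)
  have h2 : Ho51.D (fun x => f x * g x) x =
      fderiv ℝ ((f ∘ (ch x).symm) * (g ∘ (ch x).symm)) (cp x) := rfl
  rw [h2, h]
  simp only [Function.comp_apply, symm_cp, _root_.add_apply,
    _root_.smul_apply, smul_eq_mul]
  unfold Ho51.D
  ring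

lemma D_smul {c : M → ℝ} {f : M → G} (hc : Sm c) (hf : Sm f) (x : M) (v : Fin n → ℂ) :
    Ho51.D (fun x => c x • f x) x v = Ho51.D c x v • f x + c x • Ho51.D f x v := by
  have h := fderiv_smul (hc.differentiableAt x) (hf.differentiableAt x)
  have h2 : Ho51.D (fun x => c x • f x) x =
      fderiv ℝ (fun z => (c ∘ (ch x).symm) z • (f ∘ (ch x).symm) z) (cp x) := rfl
  rw [h2]
  erw [h]
  simp only [Function.comp_apply, symm_cp, _root_.add_apply,
    _root_.smul_apply, ContinuousLinearMap.smulRight_apply]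
  unfold Ho51.D
  rw [add_comm]

/-- chain rule for a real function of a real function -/
lemma D_comp_real {f : M → ℝ} {g : ℝ → ℝ} {g' : ℝ} (hf : Sm f) (x : M)
    (hg : HasDerivAt g g' (f x)) (v : Fin n → ℂ) :
    Ho51.D (fun x => g (f x)) x v = g' * Ho51.D f x v := by
  have h1 : HasDerivAt g g' ((f ∘ (ch x).symm) (cp x)) := by simpa [symm_cp] using hg
  have h2 := h1.comp_hasFDerivAt (cp x) (hf.differentiableAt x).hasFDerivAt
  have h3 : Ho51.D (fun x => g (f x)) x = g' • fderiv ℝ (f ∘ (ch x).symm) (cp x) := h2.fderiv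
  rw [h3]
  rfl

/-- symmetry of second derivatives -/
lemma D_D_comm {f : M → G} (hf : Sm f) (x : M) (v w : Fin n → ℂ) :
    Ho51.D (fun y => Ho51.D f y v) x w = Ho51.D (fun y => Ho51.D f y w) x v := by
  have key : ∀ v w : Fin n → ℂ, Ho51.D (fun y => Ho51.D f y v) x w =
      fderiv ℝ (fderiv ℝ (f ∘ (ch x).symm)) (cp x) w v := by
    intro v w
    have h1 : ((fun y => Ho51.D f y v) ∘ (ch x).symm) =ᶠ[𝓝 (cp x)]
        fun z => fderiv ℝ (f ∘ (ch x).symm) z v := by
      filter_upwards [(ch x).open_target.mem_nhds ((isCh_ch x).cp_mem (mem_ch x))] with z hz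
      simp only [Function.comp_apply]
      rw [D_symm (isCh_ch x) hz f]
    have h2 : Ho51.D (fun y => Ho51.D f y v) x =
        fderiv ℝ (fun z => fderiv ℝ (f ∘ (ch x).symm) z v) (cp x) := h1.fderiv_eq
    rw [h2]
    have h3 : DifferentiableAt ℝ (fderiv ℝ (f ∘ (ch x).symm)) (cp x) :=
      ((hf x).fderiv_right (m := 1) one_add_one_le_top').differentiableAt (by simp)
    rw [fderiv_clm_apply h3 (differentiableAt_const v)]
    simp
  rw [key v w, key w v]
  have h4 := (hf x).isSymmSndFDerivAt (by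
    simp only [minSmoothness_of_isRCLikeNormedField]
    exact two_le_top')
  exact h4 w v

end ops

end Crest.Agent.R271.Ho51
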