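import Mathlib

/-!
# Row 271, analytic engine (H), piece T3: flat mollifier lemma (helper88)
-/

set_option autoImplicit false
set_option linter.unusedSectionVars false

noncomputable section

open Set Filter Topology MeasureTheory Metric
open scoped Convolution ENNReal

namespace Crest.Agent.R271.H88

/-! ### Young's inequality `L¹ * L² → L²` -/

theorem sq_lintegral_mul_le {α : Type*} [MeasurableSpace α] (μ : Measure α) {k g : α → ℝ≥0∞}
    (hk : AEMeasurable k μ) (hg : AEMeasurable g μ) :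
    (∫⁻ a, k a * g a ∂μ) ^ 2 ≤ (∫⁻ a, k a ∂μ) * ∫⁻ a, k a * g a ^ 2 ∂μ := by
  have h := ENNReal.lintegral_mul_le_Lp_mul_Lq μ Real.HolderConjugate.two_two
    (f := fun a => k a ^ (1 / 2 : ℝ)) (g := fun a => k a ^ (1 / 2 : ℝ) * g a)
    (hk.pow_const _) ((hk.pow_const _).mul hg)
  have e1 : ∀ a, k a ^ (1 / 2 : ℝ) * k a ^ (1 / 2 : ℝ) = k a := fun a => by
    rw [← ENNReal.rpow_add_of_nonneg _ _ (by norm_num) (by norm_num)]; norm_num
  have e2 : ∀ a, (k a ^ (1 / 2 : ℝ)) ^ (2 : ℝ) = k a := fun a => by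
    rw [← ENNReal.rpow_mul]; norm_num
  have e3 : ∀ a, (k a ^ (1 / 2 : ℝ) * g a) ^ (2 : ℝ) = k a * g a ^ 2 := fun a => by
    rw [ENNReal.mul_rpow_of_nonneg _ _ (by norm_num), e2]; norm_num
  have e4 : ∀ a, ((fun a => k a ^ (1 / 2 : ℝ)) * (fun a => k a ^ (1 / 2 : ℝ) * g a)) a
      = k a * g a := fun a => by
    simp only [Pi.mul_apply]; rw [← mul_assoc, e1]
  simp only [e2, e3, e4] at h
  calc (∫⁻ a, k a * g a ∂μ) ^ 2
      ≤ ((∫⁻ a, k a ∂μ) ^ (1 / 2 : ℝ) * (∫⁻ a, k a * g a ^ 2 ∂μ) ^ (1 / 2 : ℝ)) ^ 2 := by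
        gcongr
    _ = (∫⁻ a, k a ∂μ) * ∫⁻ a, k a * g a ^ 2 ∂μ := by
        rw [mul_pow, ← ENNReal.rpow_natCast, ← ENNReal.rpow_natCast, ← ENNReal.rpow_mul,
          ← ENNReal.rpow_mul]
        norm_num

/-- Young's inequality `L¹ * L² → L²`, kernel form -/
theorem young_lintegral {E : Type*} [AddCommGroup E] [MeasurableSpace E] [MeasurableAdd₂ E]
    [MeasurableNeg E] (μ : Measure E) [SFinite μ] [μ.IsAddLeftInvariant] [μ.IsNegInvariant]
    {k g : E → ℝ≥0∞} (hk : Measurable k) (hg : AEMeasurable g μ) :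
    ∫⁻ x, (∫⁻ y, k (x - y) * g y ∂μ) ^ 2 ∂μ ≤ (∫⁻ x, k x ∂μ) ^ 2 * ∫⁻ x, g x ^ 2 ∂μ := by
  have hm : ∀ x, Measurable fun y => k (x - y) := fun x =>
    hk.comp (measurable_const.sub measurable_id)
  have h1 : ∀ x, ∫⁻ y, k (x - y) ∂μ = ∫⁻ y, k y ∂μ := fun x =>
    lintegral_sub_left_eq_self k x
  calc ∫⁻ x, (∫⁻ y, k (x - y) * g y ∂μ) ^ 2 ∂μ
      ≤ ∫⁻ x, (∫⁻ y, k y ∂μ) * ∫⁻ y, k (x - y) * g y ^ 2 ∂μ ∂μ := by
        refine lintegral_mono fun x => ?_
        have := sq_lintegral_mul_le μ (hm x).aemeasurable hg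
        rwa [h1] at this
    _ = (∫⁻ y, k y ∂μ) * ∫⁻ x, ∫⁻ y, k (x - y) * g y ^ 2 ∂μ ∂μ := by
        refine lintegral_const_mul'' _ ?_
        have : AEMeasurable (fun p : E × E => k (p.1 - p.2) * g p.2 ^ 2) (μ.prod μ) :=
          (hk.comp measurable_sub).aemeasurable.mul
            ((hg.comp_quasiMeasurePreserving Measure.quasiMeasurePreserving_snd).pow_const 2)
        exact this.lintegral_prod_right'
    _ = (∫⁻ y, k y ∂μ) * ∫⁻ y, ∫⁻ x, k (x - y) * g y ^ 2 ∂μ ∂μ := by
        congr 1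
        refine lintegral_lintegral_swap ?_
        exact (hk.comp measurable_sub).aemeasurable.mul
            ((hg.comp_quasiMeasurePreserving Measure.quasiMeasurePreserving_snd).pow_const 2)
    _ = (∫⁻ y, k y ∂μ) * ∫⁻ y, (∫⁻ x, k x ∂μ) * g y ^ 2 ∂μ := by
        congr 1
        refine lintegral_congr fun y => ?_
        have hm' : Measurable fun x => k (x - y) := hk.comp (measurable_id.sub measurable_const)
        rw [lintegral_mul_const _ hm', lintegral_sub_right_eq_self k y]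
    _ = (∫⁻ x, k x ∂μ) ^ 2 * ∫⁻ x, g x ^ 2 ∂μ := by
        rw [lintegral_const_mul'' _ (hg.pow_const 2), sq, mul_assoc]

/-! ### mollifiers -/

variable {E : Type*} [NormedAddCommGroup E] [NormedSpace ℝ E] [FiniteDimensional ℝ E]
  [MeasurableSpace E] [BorelSpace E] (μ : Measure E) [μ.IsAddHaarMeasure]
  {V : Type*} [NormedAddCommGroup V] [NormedSpace ℝ V] [FiniteDimensional ℝ V]
  {W : Type*} [NormedAddCommGroup W] [NormedSpace ℝ W] [FiniteDimensional ℝ W]

/-- the bump function with radii `r/2, r` -/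
def bp {r : ℝ} (hr : 0 < r) : ContDiffBump (0 : E) := ⟨r / 2, r, half_pos hr, half_lt_self hr⟩

/-- the standard mollifier -/
def rho {r : ℝ} (hr : 0 < r) : E → ℝ := (bp hr).normed μ

variable {r : ℝ} (hr : 0 < r)

lemma rho_contDiff : ContDiff ℝ (⊤ : ℕ∞) (rho μ hr) := (bp hr).contDiff_normed

lemma rho_cs : HasCompactSupport (rho μ hr) := (bp hr).hasCompactSupport_normed

lemma rho_nonneg (x : E) : 0 ≤ rho μ hr x := (bp hr).nonneg_normed x

lemma rho_integral : ∫ x, rho μ hr x ∂μ = 1 := (bp hr).integral_normed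

lemma rho_integrable : Integrable (rho μ hr) μ := (bp hr).integrable_normed

lemma rho_support : Function.support (rho μ hr) = ball (0 : E) r := (bp hr).support_normed_eq

lemma rho_zero {x : E} (hx : r ≤ ‖x‖) : rho μ hr x = 0 := by
  have : x ∉ Function.support (rho μ hr) := by
    rw [rho_support]; simpa using hx
  simpa using this

lemma rho_lintegral : ∫⁻ x, ‖rho μ hr x‖ₑ ∂μ = 1 := by
  have h1 : ∀ x, ‖rho μ hr x‖ₑ = ENNReal.ofReal (rho μ hr x) := fun x =>
    Real.enorm_of_nonneg (rho_nonneg μ hr x)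
  simp_rw [h1]
  rw [← ofReal_integral_eq_lintegral_ofReal (rho_integrable μ hr)
    (Eventually.of_forall (rho_nonneg μ hr)), rho_integral, ENNReal.ofReal_one]

/-- the mollification -/
def mo (v : E → V) : E → V := rho μ hr ⋆[ContinuousLinearMap.lsmul ℝ ℝ, μ] v

lemma mo_apply (v : E → V) (x : E) : mo μ hr v x = ∫ t, rho μ hr (x - t) • v t ∂μ := by
  unfold mo
  rw [convolution_eq_swap]
  rfl

lemma eLpNorm_two {f : E → V} : eLpNorm f 2 μ = (∫⁻ x, ‖f x‖ₑ ^ 2 ∂μ) ^ (1 / 2 : ℝ) := by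
  rw [eLpNorm_eq_lintegral_rpow_enorm_toReal (by norm_num) (by norm_num)]
  simp

lemma mo_young {v : E → V} (hv : AEStronglyMeasurable v μ) :
    eLpNorm (mo μ hr v) 2 μ ≤ eLpNorm v 2 μ := by
  rw [eLpNorm_two, eLpNorm_two]
  apply ENNReal.rpow_le_rpow _ (by norm_num)
  have h1 : ∀ x, ‖mo μ hr v x‖ₑ ≤ ∫⁻ y, ‖rho μ hr (x - y)‖ₑ * ‖v y‖ₑ ∂μ := fun x => by
    rw [mo_apply]
    refine (enorm_integral_le_lintegral_enorm _).trans (le_of_eq ?_)
    refine lintegral_congr fun y => ?_
    rw [enorm_smul]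
  calc ∫⁻ x, ‖mo μ hr v x‖ₑ ^ 2 ∂μ
      ≤ ∫⁻ x, (∫⁻ y, ‖rho μ hr (x - y)‖ₑ * ‖v y‖ₑ ∂μ) ^ 2 ∂μ :=
        lintegral_mono fun x => pow_le_pow_left' (h1 x) 2
    _ ≤ (∫⁻ x, ‖rho μ hr x‖ₑ ∂μ) ^ 2 * ∫⁻ x, ‖v x‖ₑ ^ 2 ∂μ :=
        young_lintegral μ (k := fun x => ‖rho μ hr x‖ₑ) (g := fun x => ‖v x‖ₑ)
          ((rho_contDiff μ hr).continuous.measurable.enorm) hv.enorm
    _ = ∫⁻ x, ‖v x‖ₑ ^ 2 ∂μ := by rw [rho_lintegral]; simp

lemma locInt {v : E → V} (hv : MemLp v 2 μ) : LocallyIntegrable v μ :=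
  hv.locallyIntegrable (by norm_num)

lemma mo_contDiff {v : E → V} (hv : LocallyIntegrable v μ) : ContDiff ℝ (⊤ : ℕ∞) (mo μ hr v) :=
  (rho_cs μ hr).contDiff_convolution_left _ (rho_contDiff μ hr) hv

lemma mo_aesm {v : E → V} (hv : LocallyIntegrable v μ) : AEStronglyMeasurable (mo μ hr v) μ :=
  (mo_contDiff μ hr hv).continuous.aestronglyMeasurable

/-- the mollification vanishes at distance `≥ r` from `K`. -/
lemma mo_zero {v : E → V} {K : Set E} (hK : ∀ x ∉ K, v x = 0) {x : E}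
    (hx : ∀ y ∈ K, r ≤ dist x y) : mo μ hr v x = 0 := by
  rw [mo_apply]
  apply integral_eq_zero_of_ae
  refine Eventually.of_forall fun y => ?_
  by_cases hy : y ∈ K
  · have := hx y hy
    rw [dist_eq_norm] at this
    simp [rho_zero μ hr this]
  · simp [hK y hy]

lemma mo_sub {v w : E → V} (hv : LocallyIntegrable v μ) (hw : LocallyIntegrable w μ) :
    mo μ hr (v - w) = mo μ hr v - mo μ hr w := by
  have hc : ∀ {f : E → V}, LocallyIntegrable f μ → ∀ x,
      Integrable (fun t => rho μ hr (x - t) • f t) μ := fun {f} hf x => by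
    have h1 : HasCompactSupport (fun t => rho μ hr (x - t)) := by
      apply HasCompactSupport.intro (isCompact_closedBall x r)
      intro t ht
      apply rho_zero
      rw [mem_closedBall, not_le, dist_comm, dist_eq_norm] at ht
      exact ht.le
    exact hf.integrable_smul_left_of_hasCompactSupport
      ((rho_contDiff μ hr).continuous.comp (continuous_const.sub continuous_id)) h1
  funext x
  rw [Pi.sub_apply, mo_apply, mo_apply, mo_apply, ← integral_sub (hc hv x) (hc hw x)]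
  refine integral_congr_ae (Eventually.of_forall fun t => ?_)
  simp [smul_sub]

/-- mollification of a continuous compactly supported function converges in `L²`. -/
lemma mo_tendsto_cont {g : E → V} (hg : Continuous g) (hc : HasCompactSupport g) {ε : ℝ≥0∞}
    (hε : ε ≠ 0) : ∃ δ : ℝ, 0 < δ ∧ ∀ (r : ℝ) (hr : 0 < r), r ≤ δ →
      eLpNorm (mo μ hr g - g) 2 μ ≤ ε := by
  set K' : Set E := cthickening 1 (tsupport g) with hK'
  have hK'c : IsCompact K' := hc.isCompact.cthickening
  have hμ : μ K' ≠ ⊤ := hK'c.measure_ne_top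
  obtain ⟨η, hη, hη'⟩ : ∃ η : ℝ, 0 < η ∧ (μ K') ^ (1 / 2 : ℝ) * ENNReal.ofReal η ≤ ε := by
    have hfin : (μ K') ^ (1 / 2 : ℝ) ≠ ⊤ := ENNReal.rpow_ne_top_of_nonneg (by norm_num) hμ
    have ht : Tendsto (fun η : ℝ => (μ K') ^ (1 / 2 : ℝ) * ENNReal.ofReal η) (𝓝 0) (𝓝 0) := by
      have := ENNReal.Tendsto.const_mul (a := (μ K') ^ (1 / 2 : ℝ))
        (ENNReal.tendsto_ofReal (tendsto_id (α := ℝ) (x := 𝓝 0))) (Or.inr hfin)
      simpa using this
    have h2 := (ht.eventually (gt_mem_nhds (pos_iff_ne_zero.mpr hε)))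
    obtain ⟨s, hs, hs'⟩ := Metric.eventually_nhds_iff.mp h2
    refine ⟨s / 2, by linarith, (hs' ?_).le⟩
    rw [Real.dist_eq, sub_zero, abs_of_pos (by linarith)]
    linarith
  obtain ⟨δ, hδ, hδ'⟩ := Metric.uniformContinuous_iff.mp
    (hc.uniformContinuous_of_continuous hg) η hη
  refine ⟨min δ 1, lt_min hδ one_pos, fun r hr hrδ => ?_⟩
  have hr1 : r ≤ δ := hrδ.trans (min_le_left _ _)
  have hr2 : r ≤ 1 := hrδ.trans (min_le_right _ _)
  have hbd : ∀ x, ‖(mo μ hr g - g) x‖ ≤ η := fun x => by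
    rw [Pi.sub_apply, ← dist_eq_norm]
    apply ContDiffBump.dist_normed_convolution_le hg.aestronglyMeasurable
    intro y hy
    exact (hδ' ((mem_ball.mp hy).trans_le hr1)).le
  have hz : ∀ x ∉ K', (mo μ hr g - g) x = 0 := fun x hx => by
    have h1 : ∀ y ∈ tsupport g, r ≤ dist x y := by
      intro y hy
      by_contra hlt
      apply hx
      exact mem_cthickening_of_dist_le x y 1 _ hy (by linarith)
    have h2 : g x = 0 := by
      by_contra h
      exact hx (self_subset_cthickening _ (subset_tsupport g h))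
    rw [Pi.sub_apply, h2, sub_zero]
    exact mo_zero μ hr (fun y hy => image_eq_zero_of_notMem_tsupport hy) h1
  have hsupp : Function.support (mo μ hr g - g) ⊆ K' := by
    intro x hx
    by_contra h
    exact hx (hz x h)
  rw [← eLpNorm_restrict_eq_of_support_subset hsupp]
  refine (eLpNorm_le_of_ae_bound (C := η) (Eventually.of_forall hbd)).trans ?_
  simpa using hη'

/-- mollification of an `L²` function converges in `L²`. -/
theorem mo_tendsto {v : E → V} (hv : MemLp v 2 μ) {ε : ℝ≥0∞} (hε : ε ≠ 0) :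
    ∃ δ : ℝ, 0 < δ ∧ ∀ (r : ℝ) (hr : 0 < r), r ≤ δ → eLpNorm (mo μ hr v - v) 2 μ ≤ ε := by
  have hε3 : ε / 3 ≠ 0 := by
    simp [ENNReal.div_eq_zero_iff, hε]
  obtain ⟨g, hgc, hvg, hg, hgm⟩ := hv.exists_hasCompactSupport_eLpNorm_sub_le (by norm_num) hε3
  obtain ⟨δ, hδ, hδ'⟩ := mo_tendsto_cont μ hg hgc hε3
  refine ⟨δ, hδ, fun r hr hrδ => ?_⟩
  have hlv := locInt μ hv
  have hlg := locInt μ hgm
  have e : mo μ hr v - v = mo μ hr (v - g) + (mo μ hr g - g) + (g - v) := by
    rw [mo_sub μ hr hlv hlg]; abel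
  rw [e]
  have hvgm : AEStronglyMeasurable (v - g) μ := hv.1.sub hgm.1
  have h1 : eLpNorm (mo μ hr (v - g)) 2 μ ≤ ε / 3 := (mo_young μ hr hvgm).trans hvg
  have h2 := hδ' r hr hrδ
  have h3 : eLpNorm (g - v) 2 μ ≤ ε / 3 := by
    rw [eLpNorm_sub_comm]; exact hvg
  have m1 : AEStronglyMeasurable (mo μ hr (v - g)) μ := mo_aesm μ hr (hlv.sub hlg)
  have m2 : AEStronglyMeasurable (mo μ hr g - g) μ := (mo_aesm μ hr hlg).sub hgm.1
  have m3 : AEStronglyMeasurable (g - v) μ := hgm.1.sub hv.1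
  calc eLpNorm (mo μ hr (v - g) + (mo μ hr g - g) + (g - v)) 2 μ
      ≤ eLpNorm (mo μ hr (v - g) + (mo μ hr g - g)) 2 μ + eLpNorm (g - v) 2 μ :=
        eLpNorm_add_le (m1.add m2) m3 (by norm_num)
    _ ≤ eLpNorm (mo μ hr (v - g)) 2 μ + eLpNorm (mo μ hr g - g) 2 μ + eLpNorm (g - v) 2 μ := by
        gcongr
        exact eLpNorm_add_le m1 m2 (by norm_num)
    _ ≤ ε / 3 + ε / 3 + ε / 3 := by gcongr
    _ = ε := ENNReal.add_thirds ε

/-- **Flat mollifier lemma.** -/
theorem flat_moll (L : (E →L[ℝ] V) →L[ℝ] W) (v : E → V) (w : E → W)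
    (hv : MemLp v 2 μ) (hw : MemLp w 2 μ) (K U : Set E) (hK : IsCompact K) (hU : IsOpen U)
    (hKU : K ⊆ U) (hvK : ∀ x ∉ K, v x = 0) (hwK : ∀ x ∉ K, w x = 0)
    (h : ∀ θ : E → ℝ, ContDiff ℝ ((⊤ : ℕ∞) : WithTop ℕ∞) θ → HasCompactSupport θ →
      tsupport θ ⊆ U →
      ∫ x, L ((fderiv ℝ θ x).smulRight (v x)) ∂μ = - ∫ x, θ x • w x ∂μ)
    (ε : ℝ≥0∞) (hε : 0 < ε) :
    ∃ f : E → V, ContDiff ℝ ((⊤ : ℕ∞) : WithTop ℕ∞) f ∧ HasCompactSupport f ∧ tsupport f ⊆ U ∧
      eLpNorm (f - v) 2 μ ≤ ε ∧ eLpNorm (fun x => L (fderiv ℝ f x) - w x) 2 μ ≤ ε := by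
  obtain ⟨d, hd, hdU⟩ := hK.exists_cthickening_subset_open hU hKU
  obtain ⟨δ₁, hδ₁, h₁⟩ := mo_tendsto μ hv hε.ne'
  obtain ⟨δ₂, hδ₂, h₂⟩ := mo_tendsto μ hw hε.ne'
  set r : ℝ := min (d / 2) (min δ₁ δ₂) with hrdef
  have hr : 0 < r := lt_min (by linarith) (lt_min hδ₁ hδ₂)
  have hr1 : r ≤ δ₁ := (min_le_right _ _).trans (min_le_left _ _)
  have hr2 : r ≤ δ₂ := (min_le_right _ _).trans (min_le_right _ _)
  have hrd : 2 * r ≤ d := by have := min_le_left (d / 2) (min δ₁ δ₂); linarith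
  have hlv := locInt μ hv
  have hsub : tsupport (mo μ hr v) ⊆ cthickening r K := by
    apply closure_minimal _ isClosed_cthickening
    intro x hx
    by_contra hcon
    apply hx
    apply mo_zero μ hr hvK
    intro y hy
    by_contra hlt
    exact hcon (mem_cthickening_of_dist_le x y r _ hy (by linarith))
  refine ⟨mo μ hr v, mo_contDiff μ hr hlv, ?_, ?_, h₁ r hr hr1, ?_⟩
  · exact (hK.cthickening (r := r)).of_isClosed_subset (isClosed_tsupport _) hsub
  · exact hsub.trans ((cthickening_mono (by linarith) K).trans hdU)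
  · have key : ∀ x, L (fderiv ℝ (mo μ hr v) x) = mo μ hr w x := by
      intro x
      have hfd : fderiv ℝ (mo μ hr v) x =
          (fderiv ℝ (rho μ hr) ⋆[(ContinuousLinearMap.lsmul ℝ ℝ).precompL E, μ] v) x :=
        ((rho_cs μ hr).hasFDerivAt_convolution_left _
          ((rho_contDiff μ hr).of_le (by exact_mod_cast le_top)) hlv x).fderiv
      have hint : Integrable (fun t => (fderiv ℝ (rho μ hr) (x - t)).smulRight (v t)) μ := by
        have h1 := (((rho_cs μ hr).fderiv ℝ).convolutionExists_left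
          ((ContinuousLinearMap.lsmul ℝ ℝ : ℝ →L[ℝ] V →L[ℝ] V).precompL E)
          ((rho_contDiff μ hr).continuous_fderiv (by simp)) hlv x).integrable_swap
        refine h1.congr (Eventually.of_forall fun t => ?_)
        ext e
        simp [ContinuousLinearMap.precompL_apply]
      have hfd2 : fderiv ℝ (mo μ hr v) x =
          ∫ t, (fderiv ℝ (rho μ hr) (x - t)).smulRight (v t) ∂μ := by
        rw [hfd, convolution_eq_swap]
        refine integral_congr_ae (Eventually.of_forall fun t => ?_)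
        ext e
        simp [ContinuousLinearMap.precompL_apply]
      rw [hfd2, ← L.integral_comp_comm hint]
      by_cases hx : ∀ y ∈ K, r < dist x y
      · rw [mo_zero μ hr hwK fun y hy => (hx y hy).le]
        apply integral_eq_zero_of_ae
        refine Eventually.of_forall fun t => ?_
        by_cases ht : t ∈ K
        · have h3 : fderiv ℝ (rho μ hr) (x - t) = 0 := by
            have h4 : (x - t) ∉ tsupport (rho μ hr) := by
              intro h5
              have h6 : tsupport (rho μ hr) ⊆ closedBall 0 r := by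
                rw [tsupport, rho_support]; exact closure_ball_subset_closedBall
              have := h6 h5
              rw [mem_closedBall, dist_zero_right, ← dist_eq_norm] at this
              exact absurd (hx t ht) (not_lt.mpr this)
            have := (notMem_tsupport_iff_eventuallyEq.mp h4).fderiv_eq (𝕜 := ℝ)
            rw [this]; simp
          have h4 : (fderiv ℝ (rho μ hr) (x - t)).smulRight (v t) = 0 := by
            rw [h3]; ext e; simp
          simp [h4]
        · have h4 : (fderiv ℝ (rho μ hr) (x - t)).smulRight (v t) = 0 := by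
            ext e; simp [hvK t ht]
          simp [h4]
      · push Not at hx
        obtain ⟨y, hy, hxy⟩ := hx
        have hθs : ContDiff ℝ ((⊤ : ℕ∞) : WithTop ℕ∞) (fun t => rho μ hr (x - t)) :=
          (rho_contDiff μ hr).comp (contDiff_const.sub contDiff_id)
        have hts : tsupport (fun t => rho μ hr (x - t)) ⊆ closedBall x r := by
          apply closure_minimal _ isClosed_closedBall
          intro t ht
          rw [mem_closedBall, dist_comm, dist_eq_norm]
          by_contra hlt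
          exact ht (rho_zero μ hr (by linarith))
        have hθc : HasCompactSupport (fun t => rho μ hr (x - t)) :=
          (isCompact_closedBall x r).of_isClosed_subset (isClosed_tsupport _) hts
        have hθU : tsupport (fun t => rho μ hr (x - t)) ⊆ U := by
          refine hts.trans (Subset.trans ?_ hdU)
          intro t ht
          rw [mem_closedBall] at ht
          apply mem_cthickening_of_dist_le t y d _ hy
          calc dist t y ≤ dist t x + dist x y := dist_triangle _ _ _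
            _ ≤ r + r := add_le_add ht hxy
            _ ≤ d := by linarith
        have h3 := h _ hθs hθc hθU
        rw [mo_apply]
        have h4 : ∀ t, fderiv ℝ (fun t => rho μ hr (x - t)) t = - fderiv ℝ (rho μ hr) (x - t) := by
          intro t
          have h5 : HasFDerivAt (fun t : E => x - t) (-(ContinuousLinearMap.id ℝ E)) t := by
            simpa using (hasFDerivAt_id (𝕜 := ℝ) t).const_sub x
          have h6 : HasFDerivAt (rho μ hr) (fderiv ℝ (rho μ hr) (x - t)) (x - t) :=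
            ((rho_contDiff μ hr).differentiable (by simp) (x - t)).hasFDerivAt
          have h7 : HasFDerivAt (fun t => rho μ hr (x - t)) _ t := h6.comp t h5
          rw [h7.fderiv]
          ext e
          simp
        have h5 : ∀ t, L ((fderiv ℝ (fun t => rho μ hr (x - t)) t).smulRight (v t)) =
            - L ((fderiv ℝ (rho μ hr) (x - t)).smulRight (v t)) := by
          intro t
          rw [h4 t, ← map_neg]
          congr 1
          ext e
          simp
        simp_rw [h5] at h3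
        rw [integral_neg, neg_inj] at h3
        exact h3
    have e : (fun x => L (fderiv ℝ (mo μ hr v) x) - w x) = mo μ hr w - w := by
      funext x
      rw [key x, Pi.sub_apply]
    rw [e]
    exact h₂ r hr hr2

end Crest.Agent.R271.H88
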