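import Crest.Agent.R271.H1_51

/-!
Row 271, sub-team H: Lebesgue measure on a Riemann domain, smooth partition of unity (helper868).
-/

set_option autoImplicit false
set_option linter.unusedSectionVars false

noncomputable section

open Set Filter Topology MeasureTheory

namespace Crest.Agent.R271.H868

open Crest.Agent.R271.Ho51

variable {n : ℕ} {M : Type*} [TopologicalSpace M] [RDom n M]

section measure

variable [MeasurableSpace M] [BorelSpace M]

/-- the measure on `M` given by one chart -/
def nu (e : OpenPartialHomeomorph M (Fin n → ℂ)) : Measure M :=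
  (volume.restrict e.target).map e.symm

/-- `μ` is the pull back of Lebesgue measure -/
def IsLeb (μ : Measure M) : Prop :=
  ∀ e : OpenPartialHomeomorph M (Fin n → ℂ), IsCh e →
    μ.restrict e.source = (volume.restrict e.target).map e.symm

lemma aem_symm (e : OpenPartialHomeomorph M (Fin n → ℂ)) :
    AEMeasurable e.symm (volume.restrict e.target) :=
  e.continuousOn_symm.aemeasurable e.open_target.measurableSet

lemma nu_apply (e : OpenPartialHomeomorph M (Fin n → ℂ)) {S : Set M} (hS : MeasurableSet S) :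
    nu e S = volume (e.target ∩ e.symm ⁻¹' S) := by
  have hm : NullMeasurableSet (e.symm ⁻¹' S) (volume.restrict e.target) :=
    (aem_symm e).nullMeasurable hS
  rw [nu, Measure.map_apply_of_aemeasurable (aem_symm e) hS,
    Measure.restrict_apply₀ hm, inter_comm]

lemma nu_apply' {e : OpenPartialHomeomorph M (Fin n → ℂ)} (he : IsCh e) {S : Set M}
    (hS : MeasurableSet S) (hSe : S ⊆ e.source) : nu e S = volume (cp '' S) := by
  rw [nu_apply e hS]
  congr 1
  ext z
  constructor
  · rintro ⟨hz, hz'⟩
    exact ⟨e.symm z, hz', he.cp_symm hz⟩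
  · rintro ⟨y, hy, rfl⟩
    refine ⟨he.cp_mem (hSe hy), ?_⟩
    simpa [he.symm_cp (hSe hy)] using hy

lemma nu_inter_source (e : OpenPartialHomeomorph M (Fin n → ℂ)) {S : Set M}
    (hS : MeasurableSet S) : nu e (S ∩ e.source) = nu e S := by
  rw [nu_apply e hS, nu_apply e (hS.inter e.open_source.measurableSet)]
  congr 1
  ext z
  constructor
  · rintro ⟨hz, hz'⟩
    exact ⟨hz, hz'.1⟩
  · rintro ⟨hz, hz'⟩
    exact ⟨hz, hz', e.map_target hz⟩

theorem exists_leb [SecondCountableTopology M] : ∃ μ : Measure M, IsLeb μ := by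
  classical
  rcases isEmpty_or_nonempty M with hM | hM
  · exact ⟨0, fun e _ => Measure.ext fun s _ => by
      have : s = ∅ := Subsingleton.elim _ _
      simp [this]⟩
  obtain ⟨s, hsc, hs⟩ := TopologicalSpace.countable_cover_nhds
    (f := fun x : M => (ch x).source) (fun x => (ch x).open_source.mem_nhds (mem_ch x))
  have hne : s.Nonempty := by
    rcases s.eq_empty_or_nonempty with h | h
    · exfalso
      have : (Set.univ : Set M) = ∅ := by rw [← hs, h]; simp
      exact (Set.univ_nonempty (α := M)).ne_empty this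
    · exact h
  obtain ⟨c, hc⟩ := hsc.exists_eq_range hne
  set U : ℕ → Set M := fun k => (ch (c k)).source with hU
  have hUm : ∀ k, MeasurableSet (U k) := fun k => (ch (c k)).open_source.measurableSet
  have hUu : ⋃ k, U k = univ := by
    rw [← hs, hc]
    simp [hU]
  set A := disjointed U with hA
  have hAm : ∀ k, MeasurableSet (A k) := MeasurableSet.disjointed hUm
  have hAd : Pairwise (Function.onFun Disjoint A) := disjoint_disjointed U
  have hAu : ⋃ k, A k = univ := by rw [hA, iUnion_disjointed, hUu]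
  refine ⟨Measure.sum fun k => (nu (ch (c k))).restrict (A k), fun e he => ?_⟩
  refine Measure.ext fun S hS => ?_
  have hSe := hS.inter e.open_source.measurableSet
  rw [Measure.restrict_apply hS, Measure.sum_apply _ hSe]
  have h1 : ∀ k, (nu (ch (c k))).restrict (A k) (S ∩ e.source) = nu e ((S ∩ e.source) ∩ A k) := by
    intro k
    rw [Measure.restrict_apply hSe,
      nu_apply' (isCh_ch (c k)) (hSe.inter (hAm k))
        (fun y hy => disjointed_subset U k hy.2),
      nu_apply' he (hSe.inter (hAm k)) (fun y hy => hy.1.2)]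
  simp_rw [h1]
  rw [← measure_iUnion]
  · rw [← inter_iUnion, hAu, inter_univ, nu_inter_source e hS]
    rfl
  · intro i j hij
    exact (hAd hij).mono inter_subset_right inter_subset_right
  · exact fun k => hSe.inter (hAm k)

variable {μ : Measure M}

lemma IsLeb.apply (hμ : IsLeb μ) {e : OpenPartialHomeomorph M (Fin n → ℂ)} (he : IsCh e)
    {S : Set M} (hS : MeasurableSet S) (hSe : S ⊆ e.source) : μ S = volume (cp '' S) := by
  have h1 := congrArg (fun ν : Measure M => ν S) (hμ e he)
  simp only [Measure.restrict_apply hS, inter_eq_self_of_subset_left hSe] at h1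
  rw [h1]
  exact nu_apply' he hS hSe

theorem IsLeb.unique [SecondCountableTopology M] {μ' : Measure M} (hμ : IsLeb μ)
    (hμ' : IsLeb μ') : μ = μ' := by
  obtain ⟨s, hsc, hs⟩ := TopologicalSpace.countable_cover_nhds
    (f := fun x : M => (ch x).source) (fun x => (ch x).open_source.mem_nhds (mem_ch x))
  refine Measure.ext_of_biUnion_eq_univ hsc hs (fun x _ => ?_)
  rw [hμ _ (isCh_ch x), hμ' _ (isCh_ch x)]

/-- Lebesgue measure on `M` is locally finite -/
theorem IsLeb.locallyFinite (hμ : IsLeb μ) : IsLocallyFiniteMeasure μ := by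
  constructor
  intro x
  have hxt : cp x ∈ (ch x).target := (isCh_ch x).cp_mem (mem_ch x)
  obtain ⟨r, hr, hrt⟩ := Metric.isOpen_iff.1 (ch x).open_target _ hxt
  set W : Set M := (ch x).source ∩ cp ⁻¹' (Metric.ball (cp x) r) with hW
  have hWo : IsOpen W := (ch x).open_source.inter (Metric.isOpen_ball.preimage cp_cont)
  refine ⟨W, hWo.mem_nhds ⟨mem_ch x, Metric.mem_ball_self hr⟩, ?_⟩
  rw [hμ.apply (isCh_ch x) hWo.measurableSet inter_subset_left]
  refine (measure_mono (t := Metric.ball (cp x) r) ?_).trans_lt measure_ball_lt_top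
  rintro _ ⟨y, hy, rfl⟩
  exact hy.2

end measure

section pou

lemma Sm.prodR {ι : Type*} (s : Finset ι) {f : ι → M → ℝ} (hf : ∀ i ∈ s, Sm (f i)) :
    Sm (fun x => ∏ i ∈ s, f i x) := by
  classical
  induction s using Finset.induction_on with
  | empty => simpa using (Sm.const (M := M) (1 : ℝ))
  | insert a s ha ih =>
    have h1 := Sm.mulR (hf a (Finset.mem_insert_self a s))
      (ih fun i hi => hf i (Finset.mem_insert_of_mem hi))
    have h2 : (fun x => ∏ i ∈ insert a s, f i x) = fun x => f a x * ∏ i ∈ s, f i x := by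
      funext x; rw [Finset.prod_insert ha]
    rw [h2]; exact h1

variable [T2Space M]

/-- bump functions on `M` supported in charts -/
lemma exists_bump (x : M) : ∃ (g : M → ℝ) (W : Set M), Sm g ∧ HasCompactSupport g ∧
    tsupport g ⊆ (ch x).source ∧ (∀ y, 0 ≤ g y) ∧ (∀ y, g y ≤ 1) ∧ IsOpen W ∧ x ∈ W ∧
    ∀ y ∈ W, g y = 1 := by
  classical
  have hxt : cp x ∈ (ch x).target := (isCh_ch x).cp_mem (mem_ch x)
  obtain ⟨r, hr, hrt⟩ := Metric.isOpen_iff.1 (ch x).open_target _ hxt
  let b : ContDiffBump (cp x) := ⟨r / 4, r / 2, by positivity, by linarith⟩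
  have hKt : Metric.closedBall (cp x) (r / 2) ⊆ (ch x).target :=
    (Metric.closedBall_subset_ball (by linarith)).trans hrt
  set L : Set M := (ch x).symm '' Metric.closedBall (cp x) (r / 2) with hL
  have hLc : IsCompact L :=
    (isCompact_closedBall _ _).image_of_continuousOn ((ch x).continuousOn_symm.mono hKt)
  have hLs : L ⊆ (ch x).source := by
    rintro _ ⟨z, hz, rfl⟩
    exact (ch x).map_target (hKt hz)
  set g : M → ℝ := (ch x).source.indicator (fun y => b (cp y)) with hg
  have hsupp : Function.support g ⊆ L := by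
    intro y hy
    rw [Function.mem_support, hg] at hy
    have hys : y ∈ (ch x).source := by
      by_contra h
      exact hy (indicator_of_notMem h _)
    rw [indicator_of_mem hys] at hy
    have h1 : cp y ∈ Metric.ball (cp x) b.rOut := by
      rw [← b.support_eq]; exact hy
    exact ⟨cp y, Metric.ball_subset_closedBall h1, (isCh_ch x).symm_cp hys⟩
  have hts : tsupport g ⊆ L := closure_minimal hsupp hLc.isClosed
  refine ⟨g, (ch x).source ∩ cp ⁻¹' Metric.ball (cp x) (r / 4), ?_, ?_, hts.trans hLs, ?_, ?_, ?_,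
    ?_, ?_⟩
  · refine Sm.of_locally fun y => ?_
    by_cases hy : y ∈ (ch x).source
    · refine ⟨fun z => b (cp z), Sm.of_coord b.contDiff, ?_⟩
      filter_upwards [(ch x).open_source.mem_nhds hy] with z hz
      rw [hg, indicator_of_mem hz]
    · refine ⟨fun _ => 0, Sm.const 0, ?_⟩
      have hyL : y ∈ Lᶜ := fun h => hy (hLs h)
      filter_upwards [hLc.isClosed.isOpen_compl.mem_nhds hyL] with z hz
      by_contra h
      exact hz (hsupp h)
  · exact hLc.of_isClosed_subset (isClosed_tsupport g) hts
  · intro y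
    exact indicator_nonneg (fun z _ => b.nonneg) y
  · intro y
    exact indicator_le' (fun z _ => b.le_one) (fun z _ => zero_le_one) y
  · exact (ch x).open_source.inter (Metric.isOpen_ball.preimage cp_cont)
  · exact ⟨mem_ch x, Metric.mem_ball_self (by positivity)⟩
  · rintro y ⟨hy, hy'⟩
    rw [hg, indicator_of_mem hy]
    exact b.one_of_mem_closedBall (Metric.ball_subset_closedBall hy')

theorem exists_pou {K : Set M} (hK : IsCompact K) :
    ∃ (m : ℕ) (c : Fin m → M) (g : Fin m → M → ℝ),
      (∀ i, Sm (g i) ∧ HasCompactSupport (g i) ∧ tsupport (g i) ⊆ (ch (c i)).source ∧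
        ∀ x, 0 ≤ g i x) ∧ ∀ᶠ x in 𝓝ˢ K, ∑ i, g i x = 1 := by
  classical
  choose b W hbs hbc hbt hb0 hb1 hWo hxW hbW using fun x : M => exists_bump x
  obtain ⟨t, _, htK⟩ := hK.elim_nhds_subcover W (fun x _ => (hWo x).mem_nhds (hxW x))
  let c : Fin t.card → M := fun i => (t.equivFin.symm i : M)
  have hcov : K ⊆ ⋃ i, W (c i) := by
    intro x hx
    obtain ⟨y, hy, hxy⟩ := mem_iUnion₂.1 (htK hx)
    refine mem_iUnion.2 ⟨t.equivFin ⟨y, hy⟩, ?_⟩
    simpa [c] using hxy
  let g : Fin t.card → M → ℝ := fun i x =>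
    b (c i) x * ∏ j ∈ Finset.univ with j < i, (1 - b (c j) x)
  refine ⟨t.card, c, g, fun i => ⟨?_, ?_, ?_, ?_⟩, ?_⟩
  · exact Sm.mulR (hbs _) (Sm.prodR _ fun j _ => Sm.sub (Sm.const 1) (hbs _))
  · exact (hbc (c i)).mul_right
  · exact (tsupport_mul_subset_left).trans (hbt (c i))
  · intro x
    exact mul_nonneg (hb0 _ _) (Finset.prod_nonneg fun j _ => sub_nonneg.2 (hb1 _ _))
  · have hU : IsOpen (⋃ i, W (c i)) := isOpen_iUnion fun i => hWo _
    filter_upwards [hU.mem_nhdsSet.2 hcov] with x hx
    have h1 := Finset.prod_one_sub_ordered (Finset.univ : Finset (Fin t.card))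
      (fun i => b (c i) x)
    have h2 : ∏ i, (1 - b (c i) x) = 0 := by
      obtain ⟨i, hi⟩ := mem_iUnion.1 hx
      refine Finset.prod_eq_zero (Finset.mem_univ i) ?_
      rw [hbW _ _ hi, sub_self]
    rw [h2] at h1
    show ∑ i, b (c i) x * ∏ j ∈ Finset.univ with j < i, (1 - b (c j) x) = 1
    linarith

end pou

end Crest.Agent.R271.H868
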