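import Crest.Agent.R271.H3_51

/-!
# Row 271, analytic engine (H): the operator `(div, ∂̄)` on forms (helper51)
-/

set_option autoImplicit false
set_option linter.unusedSectionVars false

noncomputable section

open Set Filter Topology MeasureTheory ComplexConjugate

namespace Crest.Agent.R271.Ho51

variable {n : ℕ}

/-- the linear map underlying `Lop` -/
def LopL (n : ℕ) : ((Fin n → ℂ) →L[ℝ] (Fin n → ℂ)) →ₗ[ℝ] (ℂ × (Fin n → Fin n → ℂ)) where
  toFun A := (∑ j, wz j ((ContinuousLinearMap.proj (R := ℝ) j).comp A), fun j k =>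
    wb j ((ContinuousLinearMap.proj (R := ℝ) k).comp A) -
      wb k ((ContinuousLinearMap.proj (R := ℝ) j).comp A))
  map_add' A B := by
    ext j
    · simp only [Prod.fst_add, ← Finset.sum_add_distrib]
      refine Finset.sum_congr rfl fun j _ => ?_
      simp [wz]; ring
    · simp [wb]; ring
  map_smul' c A := by
    ext j
    · simp only [Prod.smul_fst, RingHom.id_apply, Finset.smul_sum]
      refine Finset.sum_congr rfl fun j _ => ?_
      simp [wz]; ring
    · simp [wb]; ring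

/-- the operator `v ↦ (∑ ∂_j v_j, (∂̄_j v_k - ∂̄_k v_j)_{jk})` is `Lop n ∘ D` -/
def Lop (n : ℕ) : ((Fin n → ℂ) →L[ℝ] (Fin n → ℂ)) →L[ℝ] (ℂ × (Fin n → Fin n → ℂ)) :=
  LinearMap.toContinuousLinearMap (LopL n)

lemma Lop_fst (A : (Fin n → ℂ) →L[ℝ] (Fin n → ℂ)) :
    (Lop n A).1 = ∑ j, wz j ((ContinuousLinearMap.proj (R := ℝ) j).comp A) := rfl

lemma Lop_snd (A : (Fin n → ℂ) →L[ℝ] (Fin n → ℂ)) (j k : Fin n) :
    (Lop n A).2 j k = wb j ((ContinuousLinearMap.proj (R := ℝ) k).comp A) -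
      wb k ((ContinuousLinearMap.proj (R := ℝ) j).comp A) := rfl

variable {M : Type*} [TopologicalSpace M] [RDom n M]

lemma Sm.pi_apply {f : M → (Fin n → ℂ)} (hf : Sm f) (j : Fin n) : Sm (fun y => f y j) :=
  hf.clm (ContinuousLinearMap.proj (R := ℝ) j)

lemma D_pi_apply {f : M → (Fin n → ℂ)} (hf : Sm f) (j : Fin n) (x : M) :
    D (fun y => f y j) x = (ContinuousLinearMap.proj (R := ℝ) j).comp (D f x) :=
  D_clm hf (ContinuousLinearMap.proj (R := ℝ) j : (Fin n → ℂ) →L[ℝ] ℂ) x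

lemma Lop_D_fst {f : M → (Fin n → ℂ)} (hf : Sm f) (x : M) :
    (Lop n (D f x)).1 = ∑ j, dz j (fun y => f y j) x := by
  rw [Lop_fst]
  refine Finset.sum_congr rfl fun j _ => ?_
  rw [dz, D_pi_apply hf]

lemma Lop_D_snd {f : M → (Fin n → ℂ)} (hf : Sm f) (x : M) (j k : Fin n) :
    (Lop n (D f x)).2 j k = db j (fun y => f y k) x - db k (fun y => f y j) x := by
  rw [Lop_snd, db, db, D_pi_apply hf, D_pi_apply hf]

lemma Lop_smulRight_fst {θ : M → ℝ} (hθ : Sm θ) (x : M) (v : Fin n → ℂ) :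
    (Lop n ((D θ x).smulRight v)).1 = ∑ j, dz j (fun y => (θ y : ℂ)) x * v j := by
  rw [Lop_fst]
  refine Finset.sum_congr rfl fun j _ => ?_
  rw [dz, wz, wz, D_ofReal hθ, D_ofReal hθ]
  simp
  ring

lemma Lop_smulRight_snd {θ : M → ℝ} (hθ : Sm θ) (x : M) (v : Fin n → ℂ) (j k : Fin n) :
    (Lop n ((D θ x).smulRight v)).2 j k =
      db j (fun y => (θ y : ℂ)) x * v k - db k (fun y => (θ y : ℂ)) x * v j := by
  rw [Lop_snd, db, db, wb, wb, wb, wb, D_ofReal hθ, D_ofReal hθ, D_ofReal hθ, D_ofReal hθ]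
  simp
  ring

end Crest.Agent.R271.Ho51
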