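import Crest.Agent.R271.H3_51
import Crest.Agent.R271.H3_88

/-!
# Row 271, analytic engine (H), piece T4: product rule for weak equations and density of smooth
compactly supported functions (helper88)
-/

set_option autoImplicit false
set_option linter.unusedSectionVars false

noncomputable section

open Set Filter Topology MeasureTheory
open scoped ENNReal

namespace Crest.Agent.R271.H88

open Crest.Agent.R271.Ho51

variable {n : ℕ} {M : Type*} [TopologicalSpace M] [RDom n M] [MeasurableSpace M] [BorelSpace M]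
  {μ : Measure M}
  {V : Type*} [NormedAddCommGroup V] [NormedSpace ℝ V]
  {W : Type*} [NormedAddCommGroup W] [NormedSpace ℝ W]

/-- derivative of a product of real functions -/
lemma D_mulR {f g : M → ℝ} (hf : Sm f) (hg : Sm g) (x : M) :
    D (fun x => f x * g x) x = f x • D g x + g x • D f x := by
  ext v
  have := D_smul (G := ℝ) hf hg x v
  simp only [smul_eq_mul] at this
  rw [this]
  simp only [_root_.add_apply, _root_.smul_apply, smul_eq_mul]
  ring

lemma norm_L_le (L : ((Fin n → ℂ) →L[ℝ] V) →L[ℝ] W) (A : (Fin n → ℂ) →L[ℝ] ℝ) (u : V) :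
    ‖L (A.smulRight u)‖ ≤ ‖L‖ * ‖A‖ * ‖u‖ := by
  calc ‖L (A.smulRight u)‖ ≤ ‖L‖ * ‖A.smulRight u‖ := L.le_opNorm _
    _ ≤ ‖L‖ * (‖A‖ * ‖u‖) := by
        gcongr
        rw [ContinuousLinearMap.norm_smulRight_apply]
    _ = ‖L‖ * ‖A‖ * ‖u‖ := by ring

lemma continuous_L (L : ((Fin n → ℂ) →L[ℝ] V) →L[ℝ] W) :
    Continuous fun q : ((Fin n → ℂ) →L[ℝ] ℝ) × V => L (q.1.smulRight q.2) := by
  have h : Continuous fun q : ((Fin n → ℂ) →L[ℝ] ℝ) × V =>
      (ContinuousLinearMap.smulRightL ℝ (Fin n → ℂ) V) q.1 q.2 :=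
    (ContinuousLinearMap.smulRightL ℝ (Fin n → ℂ) V).isBoundedBilinearMap.continuous
  exact L.continuous.comp h

lemma aesm_L (L : ((Fin n → ℂ) →L[ℝ] V) →L[ℝ] W) {A : M → (Fin n → ℂ) →L[ℝ] ℝ}
    {v : M → V} {ν : Measure M} (hA : AEStronglyMeasurable A ν) (hv : AEStronglyMeasurable v ν) :
    AEStronglyMeasurable (fun x => L ((A x).smulRight (v x))) ν :=
  (continuous_L L).comp_aestronglyMeasurable (hA.prodMk hv)

lemma contA_aesm {A : M → (Fin n → ℂ) →L[ℝ] ℝ} (hA : Continuous A) (ν : Measure M) :
    AEStronglyMeasurable A ν :=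
  hA.aestronglyMeasurable

lemma integrable_L [T2Space M] (L : ((Fin n → ℂ) →L[ℝ] V) →L[ℝ] W)
    {A : M → (Fin n → ℂ) →L[ℝ] ℝ}
    {v : M → V} (hA : Continuous A) (hc : HasCompactSupport A) (hv : LocallyIntegrable v μ)
    (hvm : AEStronglyMeasurable v μ) :
    Integrable (fun x => L ((A x).smulRight (v x))) μ := by
  obtain ⟨C, hC⟩ := hA.bounded_above_of_compact_support hc
  have hK : IsCompact (tsupport A) := hc
  have h1 : IntegrableOn v (tsupport A) μ := hv.integrableOn_isCompact hK
  have h2 : Integrable (fun x => (tsupport A).indicator (fun x => ‖L‖ * C * ‖v x‖) x) μ := by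
    rw [integrable_indicator_iff (isClosed_tsupport A).measurableSet]
    exact h1.norm.const_mul _
  refine h2.mono' (aesm_L L (contA_aesm hA μ) hvm) (Eventually.of_forall fun x => ?_)
  by_cases hx : x ∈ tsupport A
  · rw [indicator_of_mem hx]
    refine (norm_L_le L _ _).trans ?_
    gcongr
    exact hC x
  · rw [indicator_of_notMem hx, image_eq_zero_of_notMem_tsupport hx]
    have : (0 : (Fin n → ℂ) →L[ℝ] ℝ).smulRight (v x) = 0 := by ext; simp
    rw [this]; simp

/-- **Product rule** for weak equations. -/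
theorem WP.smul [T2Space M] {L : ((Fin n → ℂ) →L[ℝ] V) →L[ℝ] W} {v : M → V} {w : M → W}
    (h : WP μ L v w) (hv : LocallyIntegrable v μ) (hvm : AEStronglyMeasurable v μ)
    (hw : LocallyIntegrable w μ) {b : M → ℝ} (hb : Sm b) :
    WP μ L (fun x => b x • v x) (fun x => b x • w x + L ((D b x).smulRight (v x))) := by
  intro θ hθ hc
  have h1 := h (fun x => b x * θ x) (hb.mulR hθ) (hc.mul_left)
  have i1 : Integrable (fun x => L ((D (fun x => b x * θ x) x).smulRight (v x))) μ :=
    integrable_L L (hb.mulR hθ).D.continuous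
      (hasCompactSupport_D (f := fun x => b x * θ x) hc.mul_left) hv hvm
  have i2 : Integrable (fun x => L ((θ x • D b x).smulRight (v x))) μ :=
    integrable_L L (hθ.smul hb.D).continuous hc.smul_right hv hvm
  have i3 : Integrable (fun x => (b x * θ x) • w x) μ :=
    hw.integrable_smul_left_of_hasCompactSupport (hb.mulR hθ).continuous hc.mul_left
  have e1 : ∀ x, L ((D θ x).smulRight (b x • v x)) =
      L ((D (fun x => b x * θ x) x).smulRight (v x)) - L ((θ x • D b x).smulRight (v x)) := by
    intro x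
    rw [← map_sub]
    congr 1
    rw [D_mulR hb hθ]
    ext e
    simp only [ContinuousLinearMap.smulRight_apply, _root_.sub_apply, _root_.add_apply,
      _root_.smul_apply, smul_eq_mul, add_smul, smul_smul]
    rw [mul_comm (D θ x e) (b x)]
    abel
  have e2 : ∀ x, θ x • (b x • w x + L ((D b x).smulRight (v x))) =
      (b x * θ x) • w x + L ((θ x • D b x).smulRight (v x)) := by
    intro x
    rw [smul_add, smul_smul, mul_comm (θ x) (b x), ← map_smul]
    congr 2
    ext e
    simp [smul_smul]
  simp_rw [e1, e2]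
  rw [integral_sub i1 i2, integral_add i3 i2, h1]
  abel

section chart

variable [T2Space M] [FiniteDimensional ℝ V] [FiniteDimensional ℝ W]

lemma eLp_chart (hμ : IsLeb μ) {e : OpenPartialHomeomorph M (Fin n → ℂ)} (he : IsCh e)
    {F : M → V} (hF : AEStronglyMeasurable F μ) (h0 : ∀ x ∉ e.source, F x = 0) :
    eLpNorm (ext0 e F) 2 volume = eLpNorm F 2 μ := by
  have h1 : Function.support F ⊆ e.source := by
    intro x hx
    by_contra hc
    exact hx (h0 x hc)
  have h2 : AEStronglyMeasurable F ((volume.restrict e.target).map e.symm) := by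
    rw [← hμ e he]; exact hF.restrict
  rw [← eLpNorm_restrict_eq_of_support_subset h1, hμ e he,
    eLpNorm_map_measure h2 (aem_symm e), ext0,
    eLpNorm_indicator_eq_eLpNorm_restrict e.open_target.measurableSet]

lemma aesm_chart (hμ : IsLeb μ) {e : OpenPartialHomeomorph M (Fin n → ℂ)} (he : IsCh e)
    {F : M → V} (hF : AEStronglyMeasurable F μ) :
    AEStronglyMeasurable (ext0 e F) volume := by
  have h2 : AEStronglyMeasurable F ((volume.restrict e.target).map e.symm) := by
    rw [← hμ e he]; exact hF.restrict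
  rw [ext0, aestronglyMeasurable_indicator_iff e.open_target.measurableSet]
  exact h2.comp_aemeasurable (aem_symm e)

lemma memLp_chart (hμ : IsLeb μ) {e : OpenPartialHomeomorph M (Fin n → ℂ)} (he : IsCh e)
    {F : M → V} (hF : MemLp F 2 μ) (h0 : ∀ x ∉ e.source, F x = 0) :
    MemLp (ext0 e F) 2 volume :=
  ⟨aesm_chart hμ he hF.1, by rw [eLp_chart hμ he hF.1 h0]; exact hF.2⟩

lemma int_chart0 (hμ : IsLeb μ) {e : OpenPartialHomeomorph M (Fin n → ℂ)} (he : IsCh e)
    {F : M → V} (hF : AEStronglyMeasurable F μ) (h0 : ∀ x ∉ e.source, F x = 0) :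
    ∫ x, F x ∂μ = ∫ z, ext0 e F z := by
  rw [← setIntegral_eq_integral_of_forall_compl_eq_zero (s := e.source) (fun x hx => h0 x hx),
    integral_chart hμ he hF.restrict, ext0, integral_indicator e.open_target.measurableSet]
  rfl

lemma ext0_out {e : OpenPartialHomeomorph M (Fin n → ℂ)} (he : IsCh e)
    {F : M → V} {K : Set M} (hF : ∀ x ∉ K, F x = 0) : ∀ z ∉ cp '' K, ext0 e F z = 0 := by
  intro z hz
  by_cases hzt : z ∈ e.target
  · rw [ext0_of_mem e F hzt]
    apply hF
    intro hc
    exact hz ⟨e.symm z, hc, he.cp_symm hzt⟩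
  · simp [ext0, indicator_of_notMem hzt]

/-- density in a chart -/
lemma density_chart (hμ : IsLeb μ) {e : OpenPartialHomeomorph M (Fin n → ℂ)} (he : IsCh e)
    (L : ((Fin n → ℂ) →L[ℝ] V) →L[ℝ] W) (v : M → V) (w : M → W) (hv : MemLp v 2 μ)
    (hw : MemLp w 2 μ) (K : Set M) (hK : IsCompact K) (hKe : K ⊆ e.source)
    (hvK : ∀ x ∉ K, v x = 0) (hwK : ∀ x ∉ K, w x = 0) (h : WP μ L v w) (U : Set M)
    (hU : IsOpen U) (hKU : K ⊆ U) (ε : ℝ≥0∞) (hε : 0 < ε) :
    ∃ f : M → V, Sm f ∧ HasCompactSupport f ∧ tsupport f ⊆ U ∧ eLpNorm (f - v) 2 μ ≤ ε ∧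
      eLpNorm (fun x => L (D f x) - w x) 2 μ ≤ ε := by
  have hve : ∀ x ∉ e.source, v x = 0 := fun x hx => hvK x fun hc => hx (hKe hc)
  have hwe : ∀ x ∉ e.source, w x = 0 := fun x hx => hwK x fun hc => hx (hKe hc)
  have hKt : cp '' K ⊆ e.target := by
    rintro _ ⟨x, hx, rfl⟩
    exact he.cp_mem (hKe hx)
  obtain ⟨f', hf's, hf'c, hf'U, hf'1, hf'2⟩ := flat_moll volume L (ext0 e v) (ext0 e w)
    (memLp_chart hμ he hv hve) (memLp_chart hμ he hw hwe) (cp '' K)
    (e.target ∩ e.symm ⁻¹' U) (isCompact_cp_image hK)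
    (by simpa using e.symm.isOpen_inter_preimage hU)
    (by
      rintro _ ⟨x, hx, rfl⟩
      exact ⟨he.cp_mem (hKe hx), by rw [mem_preimage, he.symm_cp (hKe hx)]; exact hKU hx⟩)
    (ext0_out he hvK) (ext0_out he hwK) (by
      intro θ hθ hθc hθU
      have hθt : tsupport θ ⊆ e.target := hθU.trans inter_subset_left
      have hS := pull_sm he hθ hθt hθc
      have hC := pull_hasCompactSupport he hθt hθc
      have h1 := h (pull e θ) hS hC
      rw [int_chart0 hμ he (aesm_L L (contA_aesm hS.D.continuous μ) hv.1)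
        (fun x hx => by
          rw [hve x hx]
          have : (D (pull e θ) x).smulRight (0 : V) = 0 := by ext; simp
          rw [this, map_zero]),
        int_chart0 hμ he (F := fun x => pull e θ x • w x)
        (hS.continuous.aestronglyMeasurable.smul hw.1)
        (fun x hx => by rw [hwe x hx, smul_zero])] at h1
      have e1 : ∀ z, ext0 e (fun x => L ((D (pull e θ) x).smulRight (v x))) z =
          L ((fderiv ℝ θ z).smulRight (ext0 e v z)) := by
        intro z
        by_cases hz : z ∈ e.target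
        · rw [ext0_of_mem e _ hz, ext0_of_mem e _ hz, D_pull he hθt hθc,
            pull_of_mem e _ (e.map_target hz), he.cp_symm hz]
        · have : (fderiv ℝ θ z).smulRight (0 : V) = 0 := by ext; simp
          simp [ext0, indicator_of_notMem hz, this]
      have e2 : ∀ z, ext0 e (fun x => pull e θ x • w x) z = θ z • ext0 e w z := by
        intro z
        by_cases hz : z ∈ e.target
        · rw [ext0_of_mem e _ hz, ext0_of_mem e _ hz,
            pull_of_mem e _ (e.map_target hz), he.cp_symm hz]
        · simp [ext0, indicator_of_notMem hz]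
      simp_rw [e1] at h1
      rw [h1]
      congr 1
      exact integral_congr_ae (Eventually.of_forall e2))
    ε hε
  have hf't : tsupport f' ⊆ e.target := hf'U.trans inter_subset_left
  have hS : Sm (pull e f') := pull_sm he hf's hf't hf'c
  have hC : HasCompactSupport (pull e f') := pull_hasCompactSupport he hf't hf'c
  refine ⟨pull e f', hS, hC, ?_, ?_, ?_⟩
  · refine (pull_tsupport he hf't hf'c).trans ?_
    rintro _ ⟨z, hz, rfl⟩
    exact (hf'U hz).2
  · have h1 : ext0 e (pull e f' - v) = f' - ext0 e v := by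
      funext z
      by_cases hz : z ∈ e.target
      · rw [ext0_of_mem e _ hz, Pi.sub_apply, Pi.sub_apply, ext0_of_mem e _ hz,
          pull_of_mem e _ (e.map_target hz), he.cp_symm hz]
      · have : f' z = 0 := image_eq_zero_of_notMem_tsupport fun hc => hz (hf't hc)
        simp [ext0, indicator_of_notMem hz, this]
    rw [← eLp_chart hμ he (hS.continuous.aestronglyMeasurable.sub hv.1) (fun x hx => by
      simp [pull, indicator_of_notMem hx, hve x hx]), h1]
    exact hf'1
  · have h1 : ext0 e (fun x => L (D (pull e f') x) - w x) =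
        fun z => L (fderiv ℝ f' z) - ext0 e w z := by
      funext z
      by_cases hz : z ∈ e.target
      · rw [ext0_of_mem e _ hz, ext0_of_mem e _ hz, D_pull he hf't hf'c,
          pull_of_mem e _ (e.map_target hz), he.cp_symm hz]
      · have hnt : z ∉ tsupport f' := fun hc => hz (hf't hc)
        have : fderiv ℝ f' z = 0 := by
          rw [(notMem_tsupport_iff_eventuallyEq.mp hnt).fderiv_eq]; simp
        simp [ext0, indicator_of_notMem hz, this]
    have hm : AEStronglyMeasurable (fun x => L (D (pull e f') x) - w x) μ :=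
      (L.continuous.comp hS.D.continuous).aestronglyMeasurable.sub hw.1
    rw [← eLp_chart hμ he hm (fun x hx => by
        rw [D_pull he hf't hf'c, hwe x hx]
        simp [pull, indicator_of_notMem hx]), h1]
    exact hf'2

/-- **Density** of smooth compactly supported functions in the graph norm (compact supports). -/
theorem density_compact (hμ : IsLeb μ)
    (L : ((Fin n → ℂ) →L[ℝ] V) →L[ℝ] W) (v : M → V) (w : M → W) (hv : MemLp v 2 μ)
    (hw : MemLp w 2 μ) (K : Set M) (hK : IsCompact K)
    (hvK : ∀ x ∉ K, v x = 0) (hwK : ∀ x ∉ K, w x = 0) (h : WP μ L v w) (U : Set M)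
    (hU : IsOpen U) (hKU : K ⊆ U) (ε : ℝ≥0∞) (hε : 0 < ε) :
    ∃ f : M → V, Sm f ∧ HasCompactSupport f ∧ tsupport f ⊆ U ∧ eLpNorm (f - v) 2 μ ≤ ε ∧
      eLpNorm (fun x => L (D f x) - w x) 2 μ ≤ ε := by
  have := hμ.locallyFinite
  obtain ⟨m, c, g, hg, hsum⟩ := exists_pou (M := M) hK
  have hvl : LocallyIntegrable v μ := hv.locallyIntegrable (by norm_num)
  have hwl : LocallyIntegrable w μ := hw.locallyIntegrable (by norm_num)
  have hsum1 : ∀ x ∈ K, ∑ i, g i x = 1 := fun x hx => hsum.self_of_nhdsSet x hx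
  have hsD : ∀ (s : Finset (Fin m)) (x : M), D (fun y => ∑ i ∈ s, g i y) x =
      ∑ i ∈ s, D (g i) x := by
    intro s x
    induction s using Finset.induction_on with
    | empty => simp [D_const]
    | insert a s ha ih =>
      simp only [Finset.sum_insert ha]
      rw [D_add (hg a).1 (Sm.sum fun i _ => (hg i).1), ih]
  have hsumD : ∀ x ∈ K, ∑ i, D (g i) x = 0 := by
    intro x hx
    rw [← hsD Finset.univ x]
    have h1 : (fun y => ∑ i, g i y) =ᶠ[𝓝 x] fun _ => (1 : ℝ) :=
      (hsum.filter_mono (nhds_le_nhdsSet hx))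
    rw [D_congr h1, D_const]
  have key : ∀ i : Fin m, ∃ f : M → V, Sm f ∧ HasCompactSupport f ∧ tsupport f ⊆ U ∧
      eLpNorm (f - fun x => g i x • v x) 2 μ ≤ ε / (m + 1) ∧
      eLpNorm (fun x => L (D f x) - (g i x • w x + L ((D (g i) x).smulRight (v x)))) 2 μ
        ≤ ε / (m + 1) := by
    intro i
    obtain ⟨hgs, hgc, hgt, hg0⟩ := hg i
    obtain ⟨C₁, hC₁⟩ := hgs.continuous.bounded_above_of_compact_support hgc
    obtain ⟨C₂, hC₂⟩ := hgs.D.continuous.bounded_above_of_compact_support
      (hasCompactSupport_D hgc)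
    have hz : ∀ x, v x = 0 → L ((D (g i) x).smulRight (v x)) = 0 := fun x hx => by
      rw [hx]
      have : (D (g i) x).smulRight (0 : V) = 0 := by ext; simp
      rw [this, map_zero]
    have hz' : ∀ x, D (g i) x = 0 → L ((D (g i) x).smulRight (v x)) = 0 := fun x hx => by
      rw [hx]
      have : (0 : (Fin n → ℂ) →L[ℝ] ℝ).smulRight (v x) = 0 := by ext; simp
      rw [this, map_zero]
    have m1 : MemLp (fun x => g i x • v x) 2 μ := by
      refine MemLp.of_le_mul (c := C₁) hv (hgs.continuous.aestronglyMeasurable.smul hv.1)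
        (Eventually.of_forall fun x => ?_)
      rw [norm_smul]
      gcongr
      exact hC₁ x
    have m2 : MemLp (fun x => g i x • w x) 2 μ := by
      refine MemLp.of_le_mul (c := C₁) hw (hgs.continuous.aestronglyMeasurable.smul hw.1)
        (Eventually.of_forall fun x => ?_)
      rw [norm_smul]
      gcongr
      exact hC₁ x
    have m3 : MemLp (fun x => L ((D (g i) x).smulRight (v x))) 2 μ := by
      refine MemLp.of_le_mul (c := ‖L‖ * C₂) hv (aesm_L L (contA_aesm hgs.D.continuous μ) hv.1)
        (Eventually.of_forall fun x => ?_)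
      refine (norm_L_le L _ _).trans ?_
      gcongr
      exact hC₂ x
    refine density_chart hμ (isCh_ch (c i)) L (fun x => g i x • v x)
      (fun x => g i x • w x + L ((D (g i) x).smulRight (v x))) m1 (m2.add m3)
      (K ∩ tsupport (g i)) (hK.inter_right (isClosed_tsupport _))
      (inter_subset_right.trans hgt) ?_ ?_ (WP.smul h hvl hv.1 hwl hgs) U hU
      (inter_subset_left.trans hKU) (ε / (m + 1)) ?_
    · intro x hx
      by_cases hxK : x ∈ K
      · have : x ∉ tsupport (g i) := fun hc => hx ⟨hxK, hc⟩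
        rw [image_eq_zero_of_notMem_tsupport this, zero_smul]
      · rw [hvK x hxK, smul_zero]
    · intro x hx
      by_cases hxK : x ∈ K
      · have h1 : x ∉ tsupport (g i) := fun hc => hx ⟨hxK, hc⟩
        have h2 : x ∉ tsupport (D (g i)) := fun hc => h1 (tsupport_D _ hc)
        rw [image_eq_zero_of_notMem_tsupport h1, zero_smul, zero_add]
        exact hz' x (image_eq_zero_of_notMem_tsupport h2)
      · rw [hwK x hxK, smul_zero, zero_add]
        exact hz x (hvK x hxK)
    · exact ENNReal.div_pos hε.ne' (by simp)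
  choose f hfs hfc hfU hf1 hf2 using key
  have hDs : ∀ (s : Finset (Fin m)) (x : M), D (fun y => ∑ i ∈ s, f i y) x =
      ∑ i ∈ s, D (f i) x := by
    intro s x
    induction s using Finset.induction_on with
    | empty => simp [D_const]
    | insert a s ha ih =>
      simp only [Finset.sum_insert ha]
      rw [D_add (hfs a) (Sm.sum fun i _ => hfs i), ih]
  have hεs : ∑ _i : Fin m, ε / ((m : ℝ≥0∞) + 1) ≤ ε := by
    rw [Finset.sum_const, Finset.card_univ, Fintype.card_fin, nsmul_eq_mul]
    calc (m : ℝ≥0∞) * (ε / (m + 1)) ≤ ((m : ℝ≥0∞) + 1) * (ε / (m + 1)) := by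
          gcongr; exact le_self_add
      _ = ε := ENNReal.mul_div_cancel (by simp) (by simp)
  have hsub : tsupport (fun x => ∑ i, f i x) ⊆ ⋃ i, tsupport (f i) := by
    refine closure_minimal ?_ (isClosed_iUnion_of_finite fun i => isClosed_tsupport _)
    intro x hx
    by_contra hcon
    apply hx
    refine Finset.sum_eq_zero fun i _ => ?_
    by_contra hne
    exact hcon (mem_iUnion.2 ⟨i, subset_tsupport _ hne⟩)
  refine ⟨fun x => ∑ i, f i x, Sm.sum fun i _ => hfs i, ?_, ?_, ?_, ?_⟩
  · exact (isCompact_iUnion fun i => hfc i).of_isClosed_subset (isClosed_tsupport _) hsub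
  · exact hsub.trans (iUnion_subset hfU)
  · have e1 : ((fun x => ∑ i, f i x) - v) = ∑ i, (f i - fun x => g i x • v x) := by
      funext x
      rw [Pi.sub_apply, Finset.sum_apply]
      simp only [Pi.sub_apply]
      rw [Finset.sum_sub_distrib, ← Finset.sum_smul]
      by_cases hx : x ∈ K
      · rw [hsum1 x hx, one_smul]
      · rw [hvK x hx, smul_zero]
    rw [e1]
    refine (eLpNorm_sum_le (fun i _ => (hfs i).continuous.aestronglyMeasurable.sub
      ((hg i).1.continuous.aestronglyMeasurable.smul hv.1)) (by norm_num)).trans ?_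
    exact (Finset.sum_le_sum fun i _ => hf1 i).trans hεs
  · have e1 : (fun x => L (D (fun x => ∑ i, f i x) x) - w x) =
        ∑ i, fun x => L (D (f i) x) - (g i x • w x + L ((D (g i) x).smulRight (v x))) := by
      funext x
      rw [Finset.sum_apply, hDs Finset.univ x, map_sum, Finset.sum_sub_distrib,
        Finset.sum_add_distrib, ← Finset.sum_smul]
      congr 1
      by_cases hx : x ∈ K
      · have h1 : ∑ i, (D (g i) x).smulRight (v x) = 0 := by
          have h2 : ∑ i, (D (g i) x).smulRight (v x) = (∑ i, D (g i) x).smulRight (v x) := by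
            ext e
            simp [Finset.sum_smul]
          rw [h2, hsumD x hx]
          ext; simp
        rw [hsum1 x hx, one_smul, ← map_sum, h1, map_zero, add_zero]
      · have h1 : ∑ i, (D (g i) x).smulRight (v x) = 0 := by
          refine Finset.sum_eq_zero fun i _ => ?_
          rw [hvK x hx]
          ext; simp
        rw [hwK x hx, smul_zero, ← map_sum, h1, map_zero, add_zero]
    rw [e1]
    refine (eLpNorm_sum_le (fun i _ => ?_) (by norm_num)).trans ?_
    · exact ((L.continuous.comp (hfs i).D.continuous).aestronglyMeasurable.sub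
        (((hg i).1.continuous.aestronglyMeasurable.smul hw.1).add
          (aesm_L L (contA_aesm (hg i).1.D.continuous μ) hv.1)))
    · exact (Finset.sum_le_sum fun i _ => hf2 i).trans hεs

end chart

end Crest.Agent.R271.H88
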