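import Mathlib

/-!
# Row 271 (S0413), team H, piece T5: projection + Riesz

Abstract Hilbert space part of Hörmander's L² method.

* `H1` = L²(φ₁) functions, `H2` = L²(φ₂) (0,1)-forms, `H3` = L²(φ₃) (0,2)-forms;
* `D` = test forms with `ι : D → H2` (inclusion), `θ : D → H1` (formal adjoint `T*`),
  `σ : D → H3` (`∂bar`);
* `E` = test functions with `ι₁ : E → H1`, `δ : E → H2` (`∂bar` of a test function);
* `N ≤ H2` = closed subspace of weakly `∂bar`-closed forms.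
-/

namespace Crest.Agent.R271.H361

open Filter Topology

variable {H1 H2 H3 D E : Type*}
  [NormedAddCommGroup H1] [InnerProductSpace ℂ H1] [CompleteSpace H1]
  [NormedAddCommGroup H2] [InnerProductSpace ℂ H2] [CompleteSpace H2]
  [NormedAddCommGroup H3]
  [AddCommGroup D] [Module ℂ D]

omit [CompleteSpace H2] in
/-- Riesz step: a linear functional `f ↦ ⟪α, ι f⟫` bounded by `√K ‖θ f‖` is represented by a
vector `u` through `θ`. -/
theorem riesz_of_bound (ι : D →ₗ[ℂ] H2) (θ : D →ₗ[ℂ] H1) (α : H2) {K : ℝ} (hK : 0 ≤ K)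
    (hb : ∀ f : D, ‖inner ℂ α (ι f)‖ ^ 2 ≤ K * ‖θ f‖ ^ 2) :
    ∃ u : H1, ‖u‖ ^ 2 ≤ K ∧ ∀ f : D, inner ℂ u (θ f) = inner ℂ α (ι f) := by
  classical
  -- the functional on `D`
  let L : D →ₗ[ℂ] ℂ := (innerSL ℂ α).toLinearMap ∘ₗ ι
  have hL : ∀ f, L f = inner ℂ α (ι f) := fun f => rfl
  have hker : LinearMap.ker θ.rangeRestrict ≤ LinearMap.ker L := by
    intro f hf
    rw [LinearMap.mem_ker] at hf ⊢
    have h0 : θ f = 0 := by
      have := congrArg Subtype.val hf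
      simpa using this
    have h1 := hb f
    rw [h0, norm_zero] at h1
    have h2 : ‖inner ℂ α (ι f)‖ ^ 2 ≤ 0 := by simpa using h1
    have h3 : ‖inner ℂ α (ι f)‖ = 0 := by
      have := sq_nonneg ‖inner ℂ α (ι f)‖
      nlinarith [norm_nonneg (inner ℂ α (ι f))]
    rw [hL]
    exact norm_eq_zero.mp h3
  -- factor through the range of `θ`
  obtain ⟨ℓ, hℓ⟩ : ∃ ℓ : LinearMap.range θ →ₗ[ℂ] ℂ, ∀ f : D, ℓ (θ.rangeRestrict f) = L f := by
    have hsurj : Function.Surjective θ.rangeRestrict := LinearMap.surjective_rangeRestrict θ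
    obtain ⟨s, hs⟩ := (θ.rangeRestrict).exists_rightInverse_of_surjective
      (LinearMap.range_eq_top.mpr hsurj)
    refine ⟨L ∘ₗ s, fun f => ?_⟩
    have h1 : θ.rangeRestrict (s (θ.rangeRestrict f) - f) = 0 := by
      rw [map_sub]
      have := LinearMap.congr_fun hs (θ.rangeRestrict f)
      simp only [LinearMap.comp_apply, LinearMap.id_apply] at this
      rw [this, sub_self]
    have h2 : (s (θ.rangeRestrict f) - f) ∈ LinearMap.ker L := hker (LinearMap.mem_ker.mpr h1)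
    rw [LinearMap.mem_ker, map_sub, sub_eq_zero] at h2
    simpa using h2
  have hbound : ∀ x : LinearMap.range θ, ‖ℓ x‖ ≤ Real.sqrt K * ‖x‖ := by
    rintro ⟨x, f, rfl⟩
    have h1 : ℓ ⟨θ f, f, rfl⟩ = L f := hℓ f
    rw [h1, hL]
    have h2 : ‖inner ℂ α (ι f)‖ ≤ Real.sqrt (K * ‖θ f‖ ^ 2) := Real.le_sqrt_of_sq_le (hb f)
    rw [Real.sqrt_mul hK, Real.sqrt_sq (norm_nonneg _)] at h2
    simpa using h2
  let ℓc : LinearMap.range θ →L[ℂ] ℂ := ℓ.mkContinuous (Real.sqrt K) hbound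
  obtain ⟨g, hg, hgn⟩ := exists_extension_norm_eq (LinearMap.range θ) ℓc
  refine ⟨(InnerProductSpace.toDual ℂ H1).symm g, ?_, fun f => ?_⟩
  · have h1 : ‖g‖ ≤ Real.sqrt K := by
      rw [hgn]
      exact LinearMap.mkContinuous_norm_le _ (Real.sqrt_nonneg _) _
    rw [LinearIsometryEquiv.norm_map]
    calc ‖g‖ ^ 2 ≤ (Real.sqrt K) ^ 2 := by gcongr
      _ = K := Real.sq_sqrt hK
  · rw [InnerProductSpace.toDual_symm_apply]
    have h1 := hg ⟨θ f, f, rfl⟩
    simp only at h1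
    rw [h1]
    exact hℓ f

/-- **Hörmander's existence argument, abstract form.**
`hdual` is the duality `⟪∂bar v, f⟫ = ⟪v, T* f⟫` for test `v`, `f`; `hdens` is the density
(approximation in graph norm) of test forms in `{g ∈ N, weak T* g = h ∈ H1}`; `hap` is the a priori
inequality for test forms (with the Cauchy–Schwarz inequality for `α` included). -/
theorem exists_solution {V : Type*} (ι : D →ₗ[ℂ] H2) (θ : D →ₗ[ℂ] H1) (σ : D → H3)
    (ι₁ : V → H1) (δ : V → H2) (N : Submodule ℂ H2) (hN : IsClosed (N : Set H2))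
    (hδN : ∀ v, δ v ∈ N)
    (hdual : ∀ (v : V) (f : D), inner ℂ (δ v) (ι f) = inner ℂ (ι₁ v) (θ f))
    (hdens : ∀ (g : H2) (h : H1), g ∈ N → (∀ v : V, inner ℂ (δ v) g = inner ℂ (ι₁ v) h) →
      ∃ f : ℕ → D, Tendsto (fun k => ι (f k)) atTop (𝓝 g) ∧
        Tendsto (fun k => θ (f k)) atTop (𝓝 h) ∧ Tendsto (fun k => σ (f k)) atTop (𝓝 0))
    (α : H2) (hα : α ∈ N) {K L : ℝ} (hK : 0 ≤ K)
    (hap : ∀ f : D, ‖inner ℂ α (ι f)‖ ^ 2 ≤ K * ‖θ f‖ ^ 2 + L * ‖σ f‖ ^ 2) :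
    ∃ u : H1, ‖u‖ ^ 2 ≤ K ∧ ∀ f : D, inner ℂ u (θ f) = inner ℂ α (ι f) := by
  classical
  have : CompleteSpace N := hN.completeSpace_coe
  refine riesz_of_bound ι θ α hK (fun f => ?_)
  set g : H2 := (N.orthogonalProjectionOnto (ι f) : H2) with hg
  have hgN : g ∈ N := (N.orthogonalProjectionOnto (ι f)).2
  -- inner products with elements of `N` do not see the projection
  have hproj : ∀ w ∈ N, inner ℂ w g = inner ℂ w (ι f) := by
    intro w hw
    have h1 : inner ℂ w (ι f - g) = 0 :=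
      (Submodule.sub_starProjection_mem_orthogonal (K := N) (ι f)) w hw
    rw [inner_sub_right, sub_eq_zero] at h1
    exact h1.symm
  obtain ⟨F, hF1, hF2, hF3⟩ := hdens g (θ f) hgN (fun v => by
    rw [hproj (δ v) (hδN v), hdual])
  have hlim1 : Tendsto (fun k => ‖inner ℂ α (ι (F k))‖ ^ 2) atTop (𝓝 (‖inner ℂ α g‖ ^ 2)) :=
    ((Filter.Tendsto.inner tendsto_const_nhds hF1).norm).pow 2
  have hlim2 : Tendsto (fun k => K * ‖θ (F k)‖ ^ 2 + L * ‖σ (F k)‖ ^ 2) atTop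
      (𝓝 (K * ‖θ f‖ ^ 2 + L * ‖(0 : H3)‖ ^ 2)) :=
    ((hF2.norm.pow 2).const_mul K).add ((hF3.norm.pow 2).const_mul L)
  have hle := le_of_tendsto_of_tendsto' hlim1 hlim2 (fun k => hap (F k))
  rw [hproj α hα] at hle
  simpa using hle

/-- **T5 in the form of helper51 (#4686).** -/
theorem T5 {H1 H2 D1 D2 : Type*}
    [NormedAddCommGroup H1] [InnerProductSpace ℂ H1] [CompleteSpace H1]
    [NormedAddCommGroup H2] [InnerProductSpace ℂ H2] [CompleteSpace H2]
    [AddCommGroup D2] [Module ℂ D2]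
    (N : Submodule ℂ H2) (hN : IsClosed (N : Set H2)) (α : H2) (hα : α ∈ N)
    (i1 : D1 → H1) (T : D1 → H2) (hT : ∀ w, T w ∈ N)
    (i2 : D2 →ₗ[ℂ] H2) (Ts : D2 →ₗ[ℂ] H1)
    (adj : ∀ (f : D2) (w : D1), inner ℂ (i2 f) (T w) = inner ℂ (Ts f) (i1 w))
    {C : ℝ} (hC : 0 ≤ C)
    (est : ∀ v ∈ N, ∀ t : H1, (∀ w, inner ℂ v (T w) = inner ℂ t (i1 w)) →
      ‖inner ℂ α v‖ ≤ C * ‖t‖) :
    ∃ u : H1, ‖u‖ ≤ C ∧ ∀ f : D2, inner ℂ u (Ts f) = inner ℂ α (i2 f) := by
  classical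
  have : CompleteSpace N := hN.completeSpace_coe
  obtain ⟨u, hu, hu'⟩ := riesz_of_bound i2 Ts α (K := C ^ 2) (by positivity) (fun f => by
    set g : H2 := (N.orthogonalProjectionOnto (i2 f) : H2) with hg
    have hgN : g ∈ N := (N.orthogonalProjectionOnto (i2 f)).2
    have hproj : ∀ w ∈ N, inner ℂ w g = inner ℂ w (i2 f) := by
      intro w hw
      have h1 : inner ℂ w (i2 f - g) = 0 :=
        (Submodule.sub_starProjection_mem_orthogonal (K := N) (i2 f)) w hw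
      rw [inner_sub_right, sub_eq_zero] at h1
      exact h1.symm
    have hproj' : ∀ w ∈ N, inner ℂ g w = inner ℂ (i2 f) w := by
      intro w hw
      rw [← inner_conj_symm, hproj w hw, inner_conj_symm]
    have h := est g hgN (Ts f) (fun w => by rw [hproj' _ (hT w), adj])
    rw [← hproj α hα, ← mul_pow]
    gcongr)
  exact ⟨u, by
    have := abs_le_of_sq_le_sq hu hC
    exact (abs_le.mp this).2, hu'⟩

end Crest.Agent.R271.H361
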