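import Mathlib

/-!
# Row 271, analytic engine (H), piece T6: smooth convex weights (helper88)
-/

set_option autoImplicit false

noncomputable section

open Set Filter Topology MeasureTheory

namespace Crest.Agent.R271.H88

/-- derivative of the basic convex function -/
def sd (t : ℝ) : ℝ := 2 * Real.smoothTransition (2 * t)

/-- basic smooth convex function, `0` for `t ≤ 0` -/
def sf (t : ℝ) : ℝ := ∫ s in (0 : ℝ)..t, sd s

lemma sd_contDiff : ContDiff ℝ (⊤ : ℕ∞) sd :=
  contDiff_const.mul (Real.smoothTransition.contDiff.comp (contDiff_const.mul contDiff_id))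

lemma sd_nonneg (t : ℝ) : 0 ≤ sd t := mul_nonneg (by norm_num) (Real.smoothTransition.nonneg _)

lemma sd_mono : Monotone sd := fun a b h =>
  mul_le_mul_of_nonneg_left (Real.smoothTransition.monotone (by linarith)) (by norm_num)

lemma sd_zero {t : ℝ} (ht : t ≤ 0) : sd t = 0 := by
  unfold sd; rw [Real.smoothTransition.zero_of_nonpos (by linarith)]; ring

lemma sd_two {t : ℝ} (ht : 1 / 2 ≤ t) : sd t = 2 := by
  unfold sd; rw [Real.smoothTransition.one_of_one_le (by linarith)]; ring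

lemma sf_hasDerivAt (t : ℝ) : HasDerivAt sf (sd t) t :=
  intervalIntegral.integral_hasDerivAt_right (sd_contDiff.continuous.intervalIntegrable _ _)
    (sd_contDiff.continuous.stronglyMeasurableAtFilter _ _) sd_contDiff.continuous.continuousAt

lemma sf_deriv : deriv sf = sd := funext fun t => (sf_hasDerivAt t).deriv

lemma sf_contDiff : ContDiff ℝ (⊤ : ℕ∞) sf := by
  rw [contDiff_infty_iff_deriv, sf_deriv]
  exact ⟨fun t => (sf_hasDerivAt t).differentiableAt, sd_contDiff⟩

lemma sf_zero {t : ℝ} (ht : t ≤ 0) : sf t = 0 := by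
  unfold sf
  apply intervalIntegral.integral_zero_ae
  refine Eventually.of_forall fun s hs => ?_
  rw [uIoc_of_ge ht] at hs
  exact sd_zero hs.2

lemma sf_mono : Monotone sf := by
  apply monotone_of_deriv_nonneg (fun t => (sf_hasDerivAt t).differentiableAt)
  intro t
  rw [sf_deriv]
  exact sd_nonneg t

lemma sf_nonneg (t : ℝ) : 0 ≤ sf t := by
  rcases le_total t 0 with h | h
  · exact (sf_zero h).ge
  · have := sf_mono h
    rwa [sf_zero le_rfl] at this

lemma sf_one {t : ℝ} (ht : 1 ≤ t) : 1 ≤ sf t := by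
  refine le_trans ?_ (sf_mono ht)
  have h1 : sf 1 = sf (1 / 2) + ∫ s in (1 / 2 : ℝ)..1, sd s := by
    unfold sf
    rw [intervalIntegral.integral_add_adjacent_intervals] <;>
    exact sd_contDiff.continuous.intervalIntegrable _ _
  have h2 : ∫ s in (1 / 2 : ℝ)..1, sd s = 1 := by
    have : ∫ s in (1 / 2 : ℝ)..1, sd s = ∫ s in (1 / 2 : ℝ)..1, (2 : ℝ) := by
      apply intervalIntegral.integral_congr
      intro s hs
      rw [uIcc_of_le (by norm_num)] at hs
      exact sd_two hs.1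
    rw [this]
    simp
    norm_num
  rw [h1, h2]
  linarith [sf_nonneg (1 / 2)]

lemma sd_one {t : ℝ} (ht : 1 ≤ t) : 1 ≤ sd t := by
  rw [sd_two (by linarith)]; norm_num

/-- partial sums of the weight -/
def wsum (a : ℝ) (b : ℕ → ℝ) (K : ℕ) (t : ℝ) : ℝ :=
  ∑ k ∈ Finset.range K, |b k| * sf (t - a - k)

lemma wsum_eq (a : ℝ) (b : ℕ → ℝ) {K L : ℕ} (h : K ≤ L) {t : ℝ} (ht : t - a ≤ K) :
    wsum a b L t = wsum a b K t := by
  unfold wsum
  rw [← Finset.sum_subset (Finset.range_mono h)]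
  intro k _ hk
  have hk' : K ≤ k := by simpa using hk
  have : (K : ℝ) ≤ k := by exact_mod_cast hk'
  rw [sf_zero (by linarith), mul_zero]

/-- the weight -/
def wX (a : ℝ) (b : ℕ → ℝ) (t : ℝ) : ℝ := wsum a b ⌈t - a⌉₊ t

lemma wX_eq (a : ℝ) (b : ℕ → ℝ) {K : ℕ} {t : ℝ} (ht : t - a ≤ K) : wX a b t = wsum a b K t :=
  (wsum_eq a b (Nat.ceil_le.mpr ht) (Nat.le_ceil _)).symm

lemma wX_ev (a : ℝ) (b : ℕ → ℝ) {K : ℕ} {t : ℝ} (ht : t - a < K) :
    wX a b =ᶠ[𝓝 t] wsum a b K := by
  have : ∀ᶠ s in 𝓝 t, s - a < K :=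
    (continuous_id.sub continuous_const).continuousAt.eventually_lt continuousAt_const ht
  filter_upwards [this] with s hs using wX_eq a b hs.le

lemma wsum_contDiff (a : ℝ) (b : ℕ → ℝ) (K : ℕ) : ContDiff ℝ (⊤ : ℕ∞) (wsum a b K) := by
  unfold wsum
  apply ContDiff.sum
  intro k _
  exact contDiff_const.mul (sf_contDiff.comp ((contDiff_id.sub contDiff_const).sub contDiff_const))

lemma wsum_hasDerivAt (a : ℝ) (b : ℕ → ℝ) (K : ℕ) (t : ℝ) :
    HasDerivAt (wsum a b K) (∑ k ∈ Finset.range K, |b k| * sd (t - a - k)) t := by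
  unfold wsum
  apply HasDerivAt.fun_sum
  intro k _
  have h1 : HasDerivAt (fun t : ℝ => t - a - k) 1 t := by
    simpa using ((hasDerivAt_id t).sub_const a).sub_const (k : ℝ)
  have := (sf_hasDerivAt (t - a - k)).comp t h1
  simpa using this.const_mul |b k|

lemma wsum_deriv_mono (a : ℝ) (b : ℕ → ℝ) (K : ℕ) :
    Monotone fun t => ∑ k ∈ Finset.range K, |b k| * sd (t - a - k) := fun s t h =>
  Finset.sum_le_sum fun k _ => mul_le_mul_of_nonneg_left (sd_mono (by linarith)) (abs_nonneg _)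

theorem exists_convex_weight (a : ℝ) (b : ℕ → ℝ) :
    ∃ X : ℝ → ℝ, ContDiff ℝ ((⊤ : ℕ∞) : WithTop ℕ∞) X ∧ (∀ t ≤ a, X t = 0) ∧
      (∀ t, 0 ≤ X t ∧ 0 ≤ deriv X t ∧ 0 ≤ deriv (deriv X) t) ∧
      ∀ k : ℕ, ∀ t, a + k + 1 ≤ t → b k ≤ X t ∧ b k ≤ deriv X t := by
  have hK : ∀ t : ℝ, ∃ K : ℕ, t - a < K := fun t => exists_nat_gt _
  have hd : ∀ (K : ℕ) (t : ℝ), t - a < K →
      deriv (wX a b) t = ∑ k ∈ Finset.range K, |b k| * sd (t - a - k) := fun K t ht => by
    rw [(wX_ev a b ht).deriv_eq, (wsum_hasDerivAt a b K t).deriv]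
  refine ⟨wX a b, ?_, ?_, ?_, ?_⟩
  · rw [contDiff_iff_contDiffAt]
    intro t
    obtain ⟨K, hK⟩ := hK t
    exact (wsum_contDiff a b K).contDiffAt.congr_of_eventuallyEq (wX_ev a b hK)
  · intro t ht
    rw [wX_eq a b (K := 0) (by simpa using ht)]
    simp [wsum]
  · intro t
    obtain ⟨K, hK⟩ := hK t
    refine ⟨?_, ?_, ?_⟩
    · rw [wX_eq a b hK.le]
      exact Finset.sum_nonneg fun k _ => mul_nonneg (abs_nonneg _) (sf_nonneg _)
    · rw [hd K t hK]
      exact Finset.sum_nonneg fun k _ => mul_nonneg (abs_nonneg _) (sd_nonneg _)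
    · have h1 : deriv (wX a b) =ᶠ[𝓝 t] fun s => ∑ k ∈ Finset.range K, |b k| * sd (s - a - k) := by
        have : ∀ᶠ s in 𝓝 t, s - a < K :=
          (continuous_id.sub continuous_const).continuousAt.eventually_lt continuousAt_const hK
        filter_upwards [this] with s hs using hd K s hs
      rw [h1.deriv_eq]
      exact (wsum_deriv_mono a b K).deriv_nonneg
  · intro k t ht
    obtain ⟨K, hK⟩ := hK t
    have hkK : k < K := by
      have : (k : ℝ) < K := by linarith
      exact_mod_cast this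
    have hm : k ∈ Finset.range K := Finset.mem_range.mpr hkK
    constructor
    · rw [wX_eq a b hK.le]
      refine le_trans ?_ (Finset.single_le_sum (f := fun k : ℕ => |b k| * sf (t - a - k))
        (fun j _ => mul_nonneg (abs_nonneg _) (sf_nonneg _)) hm)
      calc b k ≤ |b k| * 1 := by rw [mul_one]; exact le_abs_self _
        _ ≤ |b k| * sf (t - a - k) :=
          mul_le_mul_of_nonneg_left (sf_one (by linarith)) (abs_nonneg _)
    · rw [hd K t hK]
      refine le_trans ?_ (Finset.single_le_sum (f := fun k : ℕ => |b k| * sd (t - a - k))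
        (fun j _ => mul_nonneg (abs_nonneg _) (sd_nonneg _)) hm)
      calc b k ≤ |b k| * 1 := by rw [mul_one]; exact le_abs_self _
        _ ≤ |b k| * sd (t - a - k) :=
          mul_le_mul_of_nonneg_left (sd_one (by linarith)) (abs_nonneg _)

end Crest.Agent.R271.H88
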