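import Crest.Agent.R271.H4_51

/-!
# Row 271, analytic engine (H): global estimate by cut-offs (helper51)
-/

set_option autoImplicit false
set_option linter.unusedSectionVars false

noncomputable section

open Set Filter Topology MeasureTheory ComplexConjugate

namespace Crest.Agent.R271.Ho51

variable {n : ℕ}

/-! ### elementary inequalities -/

lemma norm_sq_le_nsq (w : Fin n → ℂ) : ‖w‖ ^ 2 ≤ nsq w := by
  have h : ‖w‖ ≤ Real.sqrt (nsq w) := by
    refine (pi_norm_le_iff_of_nonneg (Real.sqrt_nonneg _)).2 fun j => ?_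
    refine Real.le_sqrt_of_sq_le ?_
    exact Finset.single_le_sum (f := fun j => ‖w j‖ ^ 2) (fun i _ => by positivity)
      (Finset.mem_univ j)
  calc ‖w‖ ^ 2 ≤ (Real.sqrt (nsq w)) ^ 2 := by
        gcongr
    _ = nsq w := Real.sq_sqrt (nsq_nonneg w)

lemma nsq_le_norm_sq (w : Fin n → ℂ) : nsq w ≤ n * ‖w‖ ^ 2 := by
  unfold nsq
  calc ∑ j, ‖w j‖ ^ 2 ≤ ∑ _j : Fin n, ‖w‖ ^ 2 := by
        refine Finset.sum_le_sum fun j _ => ?_
        gcongr
        exact norm_le_pi_norm w j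
    _ = n * ‖w‖ ^ 2 := by simp

/-- Cauchy-Schwarz -/
lemma norm_sum_mul_sq_le (a b : Fin n → ℂ) : ‖∑ j, a j * b j‖ ^ 2 ≤ nsq a * nsq b := by
  have h1 : ‖∑ j, a j * b j‖ ≤ ∑ j, ‖a j‖ * ‖b j‖ := by
    refine (norm_sum_le _ _).trans (le_of_eq ?_)
    exact Finset.sum_congr rfl fun j _ => norm_mul _ _
  have h2 : (∑ j, ‖a j‖ * ‖b j‖) ^ 2 ≤ (∑ j, ‖a j‖ ^ 2) * ∑ j, ‖b j‖ ^ 2 :=
    Finset.sum_mul_sq_le_sq_mul_sq _ _ _
  have h0 : 0 ≤ ‖∑ j, a j * b j‖ := norm_nonneg _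
  calc ‖∑ j, a j * b j‖ ^ 2 ≤ (∑ j, ‖a j‖ * ‖b j‖) ^ 2 := by gcongr
    _ ≤ _ := h2

lemma nsq_conj (w : Fin n → ℂ) : nsq (fun j => conj (w j)) = nsq w := by
  simp [nsq]

lemma continuous_nsq : Continuous (nsq : (Fin n → ℂ) → ℝ) := by
  unfold nsq; fun_prop

lemma nsq_smul (c : ℝ) (w : Fin n → ℂ) : nsq (c • w) = c ^ 2 * nsq w := by
  unfold nsq
  rw [Finset.mul_sum]
  refine Finset.sum_congr rfl fun j _ => ?_
  rw [Pi.smul_apply, norm_smul, mul_pow, Real.norm_eq_abs, sq_abs]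

lemma norm_add_sq_le (a b : ℂ) : ‖a + b‖ ^ 2 ≤ 2 * ‖a‖ ^ 2 + 2 * ‖b‖ ^ 2 := by
  have h := norm_add_le a b
  nlinarith [sq_nonneg (‖a‖ - ‖b‖), norm_nonneg (a + b), norm_nonneg a, norm_nonneg b]

variable {M : Type*} [TopologicalSpace M] [RDom n M]

/-- first derivative of a function which is constant near `x` -/
lemma dz_eventually_const {f : M → ℝ} {c : ℝ} {x : M} (h : ∀ᶠ y in 𝓝 x, f y = c) (j : Fin n) :
    dz j (fun y => (f y : ℂ)) x = 0 := by
  have h1 : (fun y => (f y : ℂ)) =ᶠ[𝓝 x] fun _ => (c : ℂ) := by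
    filter_upwards [h] with y hy
    rw [hy]
  rw [dz_congr h1, dz_const]

lemma db_eventually_const {f : M → ℝ} {c : ℝ} {x : M} (h : ∀ᶠ y in 𝓝 x, f y = c) (j : Fin n) :
    db j (fun y => (f y : ℂ)) x = 0 := by
  have h1 : (fun y => (f y : ℂ)) =ᶠ[𝓝 x] fun _ => (c : ℂ) := by
    filter_upwards [h] with y hy
    rw [hy]
  rw [db_congr h1, db_const]

variable [MeasurableSpace M] [BorelSpace M]

/-- the compact a priori estimate, as a proposition -/
def PairC (μ : Measure M) (Φ χ ψ : M → ℝ) (α : M → (Fin n → ℂ)) (K0 : ℝ) : Prop :=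
  ∀ (v : M → (Fin n → ℂ)) (d : M → ℂ) (s : M → Fin n → Fin n → ℂ) (K : Set M),
    MemLp v 2 μ → MemLp d 2 μ → MemLp s 2 μ → IsCompact K → (∀ x ∉ K, v x = 0) →
    (∀ x ∉ K, d x = 0) → (∀ x ∉ K, s x = 0) → WP μ (Lop n) v (fun x => (d x, s x)) →
    ‖∫ x, (∑ j, α x j * conj (v x j)) * Real.exp (-(Φ x + χ x - ψ x)) ∂μ‖ ^ 2 ≤
      K0 * (2 * ∫ x, ‖d x - ∑ j, v x j * dz j (fun y => ((Φ y + χ y - ψ y : ℝ) : ℂ)) x‖ ^ 2 *
          Real.exp (-(Φ x + χ x)) ∂μ +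
        (1 / 2) * ∑ j, ∑ k, ∫ x, ‖s x j k‖ ^ 2 * Real.exp (-(Φ x + χ x)) ∂μ)

/-- the product rule for weak equations, as a proposition -/
def WPmul (μ : Measure M) : Prop :=
  ∀ (v : M → (Fin n → ℂ)) (w : M → ℂ × (Fin n → Fin n → ℂ)) (b : M → ℝ),
    LocallyIntegrable v μ → LocallyIntegrable w μ → Sm b → WP μ (Lop n) v w →
      WP μ (Lop n) (fun x => b x • v x)
        (fun x => b x • w x + Lop n ((D b x).smulRight (v x)))

lemma memLp_two_of_bound {μ : Measure M} {G : Type*} [NormedAddCommGroup G] {f : M → G}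
    {g : M → ℝ} (hf : AEStronglyMeasurable f μ) (hg : Integrable g μ) (C : ℝ)
    (h : ∀ x, ‖f x‖ ^ 2 ≤ C * g x) : MemLp f 2 μ := by
  rw [memLp_two_iff_integrable_sq_norm hf]
  refine (hg.const_mul C).mono' (hf.norm.pow 2) (Eventually.of_forall fun x => ?_)
  rw [Real.norm_of_nonneg (by positivity)]
  exact h x

/-- a locally `L²` function is locally integrable -/
lemma locallyIntegrable_of_bound {μ : Measure M} (hμ : IsLeb μ) {G : Type*}
    [NormedAddCommGroup G] {f : M → G} {g : M → ℝ} (hf : AEStronglyMeasurable f μ)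
    (hg : Integrable g μ) {C : M → ℝ} (hC : Continuous C) (hg0 : ∀ x, 0 ≤ g x)
    (h : ∀ x, ‖f x‖ ^ 2 ≤ C x * g x) : LocallyIntegrable f μ := by
  have := hμ.locallyFinite
  intro x
  obtain ⟨U, hU, hUf⟩ := μ.finiteAt_nhds x
  have hC1 : ∀ᶠ y in 𝓝 x, C y ≤ C x + 1 := by
    have := hC.continuousAt (x := x)
    filter_upwards [this.eventually_lt continuousAt_const (lt_add_one (C x))] with y hy
    exact hy.le
  obtain ⟨W, hWsub, hWo, hxW⟩ := mem_nhds_iff.1 (inter_mem hU hC1)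
  refine ⟨W, hWo.mem_nhds hxW, ?_⟩
  have hWf : μ W < ⊤ := lt_of_le_of_lt (measure_mono (hWsub.trans inter_subset_left)) hUf
  have h1 : IntegrableOn (fun y => 1 + (C x + 1) * g y) W μ :=
    (integrableOn_const hWf.ne (by simp)).add (hg.integrableOn.const_mul _)
  refine Integrable.mono' h1 hf.restrict ?_
  filter_upwards [ae_restrict_mem hWo.measurableSet] with y hy
  have h2 : C y ≤ C x + 1 := (hWsub hy).2
  have h3 : ‖f y‖ ^ 2 ≤ (C x + 1) * g y :=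
    (h y).trans (mul_le_mul_of_nonneg_right h2 (hg0 y))
  nlinarith [sq_nonneg (‖f y‖ - 1), norm_nonneg (f y)]

end Crest.Agent.R271.Ho51
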