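import Crest.Agent.R271.H7a_51

/-!
# Row 271, analytic engine (H): global estimate by cut-offs (helper51)
-/

set_option autoImplicit false
set_option linter.unusedSectionVars false

noncomputable section

open Set Filter Topology MeasureTheory ComplexConjugate

namespace Crest.Agent.R271.Ho51

variable {n : ℕ} {M : Type*} [TopologicalSpace M] [RDom n M] [MeasurableSpace M] [BorelSpace M]

lemma memLp_two_of_compact {μ : Measure M} {G : Type*} [NormedAddCommGroup G] {f : M → G}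
    {g : M → ℝ} (hf : AEStronglyMeasurable f μ) (hg : Integrable g μ) (hg0 : ∀ x, 0 ≤ g x)
    {C : M → ℝ} (hC : Continuous C) {K : Set M} (hK : IsCompact K) (hfK : ∀ x ∉ K, f x = 0)
    (h : ∀ x, ‖f x‖ ^ 2 ≤ C x * g x) : MemLp f 2 μ := by
  obtain ⟨B, hB⟩ := hK.bddAbove_image hC.continuousOn
  refine memLp_two_of_bound hf hg (max B 0) fun x => ?_
  by_cases hx : x ∈ K
  · have h1 : C x ≤ B := hB (mem_image_of_mem _ hx)
    exact (h x).trans (mul_le_mul_of_nonneg_right (h1.trans (le_max_left _ _)) (hg0 x))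
  · rw [hfK x hx]
    simp only [norm_zero, ne_eq, OfNat.ofNat_ne_zero, not_false_eq_true, zero_pow]
    exact mul_nonneg (le_max_right _ _) (hg0 x)

lemma norm_db_ofReal {φ : M → ℝ} (hφ : Sm φ) (j : Fin n) (x : M) :
    ‖db j (fun y => (φ y : ℂ)) x‖ = ‖dz j (fun y => (φ y : ℂ)) x‖ := by
  rw [db_ofReal hφ, RCLike.norm_conj]

lemma norm_apply_sq_le_nsq (w : Fin n → ℂ) (j : Fin n) : ‖w j‖ ^ 2 ≤ nsq w :=
  Finset.single_le_sum (f := fun j => ‖w j‖ ^ 2) (fun i _ => by positivity) (Finset.mem_univ j)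

lemma s_bound {η : M → ℝ} (hη : Sm η) (x : M) (V : Fin n → ℂ) (j k : Fin n) :
    ‖db j (fun y => (η y : ℂ)) x * V k - db k (fun y => (η y : ℂ)) x * V j‖ ^ 2 ≤
      4 * (nsq (fun j => dz j (fun y => (η y : ℂ)) x) * nsq V) := by
  set a := fun j => dz j (fun y => (η y : ℂ)) x with ha
  have h1 : ∀ i, ‖db i (fun y => (η y : ℂ)) x‖ ^ 2 ≤ nsq a := by
    intro i
    rw [norm_db_ofReal hη]
    exact norm_apply_sq_le_nsq a i
  have h2 : ∀ i, ‖V i‖ ^ 2 ≤ nsq V := norm_apply_sq_le_nsq V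
  have h3 : ∀ i l, ‖db i (fun y => (η y : ℂ)) x * V l‖ ^ 2 ≤ nsq a * nsq V := by
    intro i l
    rw [norm_mul, mul_pow]
    exact mul_le_mul (h1 i) (h2 l) (by positivity) (nsq_nonneg _)
  have h4 := norm_add_sq_le (db j (fun y => (η y : ℂ)) x * V k)
    (-(db k (fun y => (η y : ℂ)) x * V j))
  rw [norm_neg, ← sub_eq_add_neg] at h4
  linarith [h3 j k, h3 k j]

theorem pairing_global {μ : Measure M} (hμ : IsLeb μ) (hmul : WPmul (M := M) μ)
    {Φ χ ψ : M → ℝ} (hΦ : Sm Φ) (hχ : Sm χ) (hψ : Sm ψ)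
    {α : M → (Fin n → ℂ)} (hα : Continuous α) {K0 : ℝ} (_hK0 : 0 ≤ K0)
    (hpair : PairC μ Φ χ ψ α K0)
    (hαi : Integrable (fun x => nsq (α x) * Real.exp (-(Φ x + χ x - ψ x))) μ)
    (η : ℕ → M → ℝ) (hη : ∀ ν, Sm (η ν) ∧ HasCompactSupport (η ν) ∧
      (∀ x, 0 ≤ η ν x ∧ η ν x ≤ 1) ∧
      ∀ x, nsq (fun j => dz j (fun y => (η ν y : ℂ)) x) ≤ Real.exp (ψ x))
    (hη1 : ∀ x, ∀ᶠ ν in atTop, ∀ᶠ y in 𝓝 x, η ν y = 1)
    {V : M → (Fin n → ℂ)} {t : M → ℂ} (hV : AEStronglyMeasurable V μ)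
    (ht : AEStronglyMeasurable t μ)
    (hVi : Integrable (fun x => nsq (V x) * Real.exp (-(Φ x + χ x - ψ x))) μ)
    (hti : Integrable (fun x => ‖t x‖ ^ 2 * Real.exp (-(Φ x + χ x - 2 * ψ x))) μ)
    (hw : WP μ (Lop n) V (fun x => (∑ j, V x j * dz j (fun y => ((Φ y + χ y - ψ y : ℝ) : ℂ)) x -
      Real.exp (ψ x) * t x, 0))) :
    ‖∫ x, (∑ j, α x j * conj (V x j)) * Real.exp (-(Φ x + χ x - ψ x)) ∂μ‖ ^ 2 ≤
      K0 * (2 * ∫ x, ‖t x‖ ^ 2 * Real.exp (-(Φ x + χ x - 2 * ψ x)) ∂μ) := by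
  classical
  have hφ2 : Sm (fun y => Φ y + χ y - ψ y) := (hΦ.add hχ).sub hψ
  set p2 : M → (Fin n → ℂ) := fun x j => dz j (fun y => ((Φ y + χ y - ψ y : ℝ) : ℂ)) x with hp2
  have hp2c : Continuous p2 := continuous_pi fun j => (hφ2.ofReal.dz j).continuous
  have hVj : ∀ j, AEStronglyMeasurable (fun x => V x j) μ := fun j =>
    (continuous_apply j).comp_aestronglyMeasurable hV
  set dV : M → ℂ := fun x => ∑ j, V x j * p2 x j - Real.exp (ψ x) * t x with hdV
  have hψc := hψ.continuous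
  have hΦc := hΦ.continuous
  have hχc := hχ.continuous
  have hdVm : AEStronglyMeasurable dV μ := by
    refine AEStronglyMeasurable.sub ?_ ?_
    · refine Finset.aestronglyMeasurable_fun_sum _ fun j _ => ?_
      exact (hVj j).mul ((continuous_apply j).comp hp2c).aestronglyMeasurable
    · refine AEStronglyMeasurable.mul ?_ ht
      exact (Complex.continuous_ofReal.comp (Real.continuous_exp.comp hψc)).aestronglyMeasurable
  set g : M → ℝ := fun x => nsq (V x) * Real.exp (-(Φ x + χ x - ψ x)) +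
    ‖t x‖ ^ 2 * Real.exp (-(Φ x + χ x - 2 * ψ x)) with hgdef
  have hgi : Integrable g μ := hVi.add hti
  have hg0 : ∀ x, 0 ≤ g x := fun x => by
    have := nsq_nonneg (V x)
    simp only [hgdef]
    positivity
  have hVg : ∀ x, nsq (V x) ≤ Real.exp (Φ x + χ x - ψ x) * g x := by
    intro x
    have h1 : Real.exp (Φ x + χ x - ψ x) * Real.exp (-(Φ x + χ x - ψ x)) = 1 := by
      rw [← Real.exp_add]; simp
    have h2 : 0 ≤ Real.exp (Φ x + χ x - ψ x) * (‖t x‖ ^ 2 * Real.exp (-(Φ x + χ x - 2 * ψ x))) := by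
      positivity
    have h3 : Real.exp (Φ x + χ x - ψ x) * g x = nsq (V x) *
      (Real.exp (Φ x + χ x - ψ x) * Real.exp (-(Φ x + χ x - ψ x))) +
      Real.exp (Φ x + χ x - ψ x) * (‖t x‖ ^ 2 * Real.exp (-(Φ x + χ x - 2 * ψ x))) := by
      simp only [hgdef]; ring
    rw [h3, h1, mul_one]
    linarith
  have htg : ∀ x, ‖t x‖ ^ 2 ≤ Real.exp (Φ x + χ x - 2 * ψ x) * g x := by
    intro x
    have h1 : Real.exp (Φ x + χ x - 2 * ψ x) * Real.exp (-(Φ x + χ x - 2 * ψ x)) = 1 := by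
      rw [← Real.exp_add]; simp
    have h2 : 0 ≤ Real.exp (Φ x + χ x - 2 * ψ x) *
        (nsq (V x) * Real.exp (-(Φ x + χ x - ψ x))) := by
      have := nsq_nonneg (V x)
      positivity
    have h3 : Real.exp (Φ x + χ x - 2 * ψ x) * g x = ‖t x‖ ^ 2 *
      (Real.exp (Φ x + χ x - 2 * ψ x) * Real.exp (-(Φ x + χ x - 2 * ψ x))) +
      Real.exp (Φ x + χ x - 2 * ψ x) * (nsq (V x) * Real.exp (-(Φ x + χ x - ψ x))) := by
      simp only [hgdef]; ring
    rw [h3, h1, mul_one]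
    linarith
  set Cd : M → ℝ := fun x => 2 * (nsq (p2 x) * Real.exp (Φ x + χ x - ψ x)) +
    2 * (Real.exp (ψ x) ^ 2 * Real.exp (Φ x + χ x - 2 * ψ x)) with hCd
  have hCdc : Continuous Cd := by
    have := continuous_nsq.comp hp2c
    simp only [hCd]
    fun_prop
  have hdVg : ∀ x, ‖dV x‖ ^ 2 ≤ Cd x * g x := by
    intro x
    have h1 : ‖dV x‖ ^ 2 ≤ 2 * ‖∑ j, V x j * p2 x j‖ ^ 2 + 2 * ‖-((Real.exp (ψ x) : ℂ) * t x)‖ ^ 2 := by
      simp only [hdV]
      rw [sub_eq_add_neg]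
      exact norm_add_sq_le _ _
    have h2 := norm_sum_mul_sq_le (V x) (p2 x)
    have h3 : ‖-((Real.exp (ψ x) : ℂ) * t x)‖ ^ 2 = Real.exp (ψ x) ^ 2 * ‖t x‖ ^ 2 := by
      rw [norm_neg, norm_mul, mul_pow, Complex.norm_real, Real.norm_eq_abs, sq_abs]
    have h4 : nsq (V x) * nsq (p2 x) ≤ (Real.exp (Φ x + χ x - ψ x) * g x) * nsq (p2 x) :=
      mul_le_mul_of_nonneg_right (hVg x) (nsq_nonneg _)
    have h5 : Real.exp (ψ x) ^ 2 * ‖t x‖ ^ 2 ≤
        Real.exp (ψ x) ^ 2 * (Real.exp (Φ x + χ x - 2 * ψ x) * g x) :=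
      mul_le_mul_of_nonneg_left (htg x) (by positivity)
    rw [h3] at h1
    simp only [hCd]
    nlinarith [h1, h2, h4, h5]
  -- local integrability
  have hVloc : LocallyIntegrable V μ :=
    locallyIntegrable_of_bound hμ hV hgi (C := fun x => Real.exp (Φ x + χ x - ψ x))
      (by fun_prop) hg0 (fun x => (norm_sq_le_nsq (V x)).trans (hVg x))
  have hdVloc : LocallyIntegrable (fun x => ((dV x, 0) : ℂ × (Fin n → Fin n → ℂ))) μ := by
    refine locallyIntegrable_of_bound hμ (hdVm.prodMk aestronglyMeasurable_const) hgi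
      (C := Cd) hCdc hg0 fun x => ?_
    have : ‖((dV x, 0) : ℂ × (Fin n → Fin n → ℂ))‖ = ‖dV x‖ := by
      rw [Prod.norm_mk, norm_zero]; exact max_eq_left (norm_nonneg _)
    rw [this]; exact hdVg x
  -- the truncated data
  set dη : ℕ → M → (Fin n → ℂ) := fun ν x j => dz j (fun y => (η ν y : ℂ)) x with hdη
  have hdηc : ∀ ν, Continuous (dη ν) := fun ν =>
    continuous_pi fun j => ((hη ν).1.ofReal.dz j).continuous
  have hdbc : ∀ ν j, Continuous (fun x => db j (fun y => (η ν y : ℂ)) x) := fun ν j =>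
    ((hη ν).1.ofReal.db j).continuous
  set v : ℕ → M → (Fin n → ℂ) := fun ν x => η ν x • V x with hv
  set d : ℕ → M → ℂ := fun ν x => η ν x * dV x + ∑ j, dη ν x j * V x j with hd
  set s : ℕ → M → Fin n → Fin n → ℂ := fun ν x j k =>
    db j (fun y => (η ν y : ℂ)) x * V x k - db k (fun y => (η ν y : ℂ)) x * V x j with hs
  have hvm : ∀ ν, AEStronglyMeasurable (v ν) μ := fun ν =>
    (hη ν).1.continuous.aestronglyMeasurable.smul hV
  have hdm1 : ∀ ν, AEStronglyMeasurable (fun x => ∑ j, dη ν x j * V x j) μ := fun ν =>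
    Finset.aestronglyMeasurable_fun_sum _ fun j _ =>
      ((continuous_apply j).comp (hdηc ν)).aestronglyMeasurable.mul (hVj j)
  have hdm : ∀ ν, AEStronglyMeasurable (d ν) μ := fun ν =>
    ((Complex.continuous_ofReal.comp (hη ν).1.continuous).aestronglyMeasurable.mul hdVm).add
      (hdm1 ν)
  have hsmjk : ∀ ν j k, AEStronglyMeasurable (fun x => s ν x j k) μ := fun ν j k =>
    ((hdbc ν j).aestronglyMeasurable.mul (hVj k)).sub
      ((hdbc ν k).aestronglyMeasurable.mul (hVj j))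
  have hsm : ∀ ν, AEStronglyMeasurable (s ν) μ := fun ν => by
    have h1 : ∀ j, AEMeasurable (fun x => s ν x j) μ := fun j =>
      aemeasurable_pi_iff.2 fun k => (hsmjk ν j k).aemeasurable
    exact (aemeasurable_pi_iff.2 h1).aestronglyMeasurable
  -- supports
  have hη0 : ∀ ν, ∀ x ∉ tsupport (η ν), η ν x = 0 := fun ν x hx =>
    image_eq_zero_of_notMem_tsupport hx
  have hηe : ∀ ν, ∀ x ∉ tsupport (η ν), ∀ᶠ y in 𝓝 x, η ν y = 0 := fun ν x hx =>
    notMem_tsupport_iff_eventuallyEq.1 hx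
  have hdη0 : ∀ ν, ∀ x ∉ tsupport (η ν), dη ν x = 0 := fun ν x hx => by
    funext j
    exact dz_eventually_const (hηe ν x hx) j
  have hv0 : ∀ ν, ∀ x ∉ tsupport (η ν), v ν x = 0 := fun ν x hx => by
    simp only [hv, hη0 ν x hx, zero_smul]
  have hd0 : ∀ ν, ∀ x ∉ tsupport (η ν), d ν x = 0 := fun ν x hx => by
    simp only [hd, hη0 ν x hx, hdη0 ν x hx, Complex.ofReal_zero, zero_mul, Pi.zero_apply,
      Finset.sum_const_zero, add_zero]
  have hs0 : ∀ ν, ∀ x ∉ tsupport (η ν), s ν x = 0 := fun ν x hx => by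
    funext j k
    simp only [hs, db_eventually_const (hηe ν x hx), zero_mul, sub_self, Pi.zero_apply]
  -- bounds
  have hη1' : ∀ ν x, η ν x ^ 2 ≤ 1 := fun ν x => by
    have := (hη ν).2.2.1 x
    nlinarith
  have hvb : ∀ ν x, ‖v ν x‖ ^ 2 ≤ Real.exp (Φ x + χ x - ψ x) * g x := by
    intro ν x
    simp only [hv, norm_smul, mul_pow, Real.norm_eq_abs, sq_abs]
    calc η ν x ^ 2 * ‖V x‖ ^ 2 ≤ 1 * nsq (V x) :=
          mul_le_mul (hη1' ν x) (norm_sq_le_nsq _) (by positivity) (by norm_num)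
      _ ≤ _ := by rw [one_mul]; exact hVg x
  have hdb1 : ∀ ν x, ‖∑ j, dη ν x j * V x j‖ ^ 2 ≤ nsq (dη ν x) * nsq (V x) := fun ν x =>
    norm_sum_mul_sq_le _ _
  have hdbd : ∀ ν x, ‖d ν x‖ ^ 2 ≤
      (2 * Cd x + 2 * (nsq (dη ν x) * Real.exp (Φ x + χ x - ψ x))) * g x := by
    intro ν x
    have h1 : ‖d ν x‖ ^ 2 ≤ 2 * ‖(η ν x : ℂ) * dV x‖ ^ 2 + 2 * ‖∑ j, dη ν x j * V x j‖ ^ 2 :=
      norm_add_sq_le _ _
    have h2 : ‖(η ν x : ℂ) * dV x‖ ^ 2 ≤ Cd x * g x := by
      rw [norm_mul, mul_pow, Complex.norm_real, Real.norm_eq_abs, sq_abs]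
      calc η ν x ^ 2 * ‖dV x‖ ^ 2 ≤ 1 * (Cd x * g x) :=
            mul_le_mul (hη1' ν x) (hdVg x) (by positivity) (by norm_num)
        _ = _ := one_mul _
    have h3 : nsq (dη ν x) * nsq (V x) ≤ nsq (dη ν x) * (Real.exp (Φ x + χ x - ψ x) * g x) :=
      mul_le_mul_of_nonneg_left (hVg x) (nsq_nonneg _)
    have h4 := hdb1 ν x
    nlinarith [h1, h2, h3, h4]
  have hsb : ∀ ν x, ‖s ν x‖ ^ 2 ≤
      (4 * (nsq (dη ν x) * Real.exp (Φ x + χ x - ψ x))) * g x := by
    intro ν x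
    have hB : 0 ≤ (4 * (nsq (dη ν x) * Real.exp (Φ x + χ x - ψ x))) * g x := by
      have := nsq_nonneg (dη ν x)
      have := hg0 x
      positivity
    have h1 : ‖s ν x‖ ≤ Real.sqrt ((4 * (nsq (dη ν x) * Real.exp (Φ x + χ x - ψ x))) * g x) := by
      refine (pi_norm_le_iff_of_nonneg (Real.sqrt_nonneg _)).2 fun j => ?_
      refine (pi_norm_le_iff_of_nonneg (Real.sqrt_nonneg _)).2 fun k => ?_
      refine Real.le_sqrt_of_sq_le ?_
      have h2 := s_bound (hη ν).1 x (V x) j k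
      have h3 : nsq (dη ν x) * nsq (V x) ≤ nsq (dη ν x) * (Real.exp (Φ x + χ x - ψ x) * g x) :=
        mul_le_mul_of_nonneg_left (hVg x) (nsq_nonneg _)
      calc ‖s ν x j k‖ ^ 2 ≤ 4 * (nsq (dη ν x) * nsq (V x)) := h2
        _ ≤ _ := by nlinarith [h3]
    calc ‖s ν x‖ ^ 2 ≤ (Real.sqrt _) ^ 2 := by gcongr
      _ = _ := Real.sq_sqrt hB
  have hnc : ∀ ν, Continuous (fun x => nsq (dη ν x)) := fun ν => continuous_nsq.comp (hdηc ν)
  have hvL : ∀ ν, MemLp (v ν) 2 μ := fun ν =>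
    memLp_two_of_compact (hvm ν) hgi hg0 (by fun_prop) (hη ν).2.1 (hv0 ν) (hvb ν)
  have hdL : ∀ ν, MemLp (d ν) 2 μ := fun ν =>
    memLp_two_of_compact (hdm ν) hgi hg0 (by have := hnc ν; fun_prop) (hη ν).2.1 (hd0 ν) (hdbd ν)
  have hsL : ∀ ν, MemLp (s ν) 2 μ := fun ν =>
    memLp_two_of_compact (hsm ν) hgi hg0 (by have := hnc ν; fun_prop) (hη ν).2.1 (hs0 ν) (hsb ν)
  have hwν : ∀ ν, WP μ (Lop n) (v ν) (fun x => (d ν x, s ν x)) := by
    intro ν
    have h1 := hmul V (fun x => (dV x, 0)) (η ν) hVloc hdVloc (hη ν).1 hw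
    have h2 : (fun x => η ν x • ((dV x, 0) : ℂ × (Fin n → Fin n → ℂ)) +
        Lop n ((D (η ν) x).smulRight (V x))) = fun x => (d ν x, s ν x) := by
      funext x
      refine Prod.ext ?_ ?_
      · rw [Prod.fst_add, Lop_smulRight_fst (hη ν).1]
        simp [hd, hdη]
      · funext j k
        rw [Prod.snd_add, Pi.add_apply, Pi.add_apply, Lop_smulRight_snd (hη ν).1]
        simp [hs]
    rw [h2] at h1
    exact h1
  have hineq := fun ν => hpair (v ν) (d ν) (s ν) (tsupport (η ν)) (hvL ν) (hdL ν) (hsL ν)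
    (hη ν).2.1 (hv0 ν) (hd0 ν) (hs0 ν) (hwν ν)
  -- limits
  have hE : ∀ x, Real.exp (ψ x) * Real.exp (-(Φ x + χ x)) = Real.exp (-(Φ x + χ x - ψ x)) := by
    intro x; rw [← Real.exp_add]; congr 1; ring
  have hE2 : ∀ x, Real.exp (ψ x) ^ 2 * Real.exp (-(Φ x + χ x)) =
      Real.exp (-(Φ x + χ x - 2 * ψ x)) := by
    intro x; rw [sq, ← Real.exp_add, ← Real.exp_add]; congr 1; ring
  have hexpm : ∀ {h : M → ℝ}, Continuous h → AEStronglyMeasurable (fun x => Real.exp (h x)) μ :=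
    fun hh => (Real.continuous_exp.comp hh).aestronglyMeasurable
  have hexpmC : ∀ {h : M → ℝ}, Continuous h →
      AEStronglyMeasurable (fun x => ((Real.exp (h x) : ℝ) : ℂ)) μ :=
    fun hh => (Complex.continuous_ofReal.comp (Real.continuous_exp.comp hh)).aestronglyMeasurable
  have hαj : ∀ j, AEStronglyMeasurable (fun x => α x j) μ := fun j =>
    ((continuous_apply j).comp hα).aestronglyMeasurable
  have hL0 : Tendsto (fun ν => ∫ x, (∑ j, α x j * conj (v ν x j)) *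
      Real.exp (-(Φ x + χ x - ψ x)) ∂μ) atTop
      (𝓝 (∫ x, (∑ j, α x j * conj (V x j)) * Real.exp (-(Φ x + χ x - ψ x)) ∂μ)) := by
    refine tendsto_integral_of_dominated_convergence
      (fun x => (nsq (α x) * Real.exp (-(Φ x + χ x - ψ x)) +
        nsq (V x) * Real.exp (-(Φ x + χ x - ψ x)))) ?_ (hαi.add hVi) ?_ ?_
    · intro ν
      refine AEStronglyMeasurable.mul ?_ (hexpmC (by fun_prop))
      refine Finset.aestronglyMeasurable_fun_sum _ fun j _ => (hαj j).mul ?_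
      exact (Complex.continuous_conj.comp_aestronglyMeasurable
        ((continuous_apply j).comp_aestronglyMeasurable (hvm ν)))
    · intro ν
      refine Eventually.of_forall fun x => ?_
      have h1 : ‖∑ j, α x j * conj (v ν x j)‖ ^ 2 ≤ nsq (α x) * nsq (V x) := by
        refine (norm_sum_mul_sq_le (α x) (fun j => conj (v ν x j))).trans ?_
        rw [nsq_conj]
        refine mul_le_mul_of_nonneg_left ?_ (nsq_nonneg _)
        simp only [hv]
        rw [nsq_smul]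
        calc η ν x ^ 2 * nsq (V x) ≤ 1 * nsq (V x) :=
              mul_le_mul_of_nonneg_right (hη1' ν x) (nsq_nonneg _)
          _ = _ := one_mul _
      have h2 : ‖∑ j, α x j * conj (v ν x j)‖ ≤ nsq (α x) + nsq (V x) := by
        have h3 := nsq_nonneg (α x)
        have h4 := nsq_nonneg (V x)
        have h5 := norm_nonneg (∑ j, α x j * conj (v ν x j))
        nlinarith [sq_nonneg (nsq (α x) - nsq (V x))]
      rw [norm_mul, Complex.norm_real, Real.norm_of_nonneg (Real.exp_pos _).le]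
      calc _ ≤ (nsq (α x) + nsq (V x)) * Real.exp (-(Φ x + χ x - ψ x)) :=
            mul_le_mul_of_nonneg_right h2 (Real.exp_pos _).le
        _ = _ := by ring
    · refine Eventually.of_forall fun x => ?_
      refine tendsto_const_nhds.congr' ?_
      filter_upwards [hη1 x] with ν hν
      have : η ν x = 1 := hν.self_of_nhds
      simp only [hv, this, one_smul]
  have hdsub : ∀ ν x, d ν x - ∑ j, v ν x j * p2 x j =
      -((η ν x : ℂ) * ((Real.exp (ψ x) : ℝ) * t x)) + ∑ j, dη ν x j * V x j := by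
    intro ν x
    have h1 : ∑ j, v ν x j * p2 x j = (η ν x : ℂ) * ∑ j, V x j * p2 x j := by
      rw [Finset.mul_sum]
      refine Finset.sum_congr rfl fun j _ => ?_
      simp only [hv, Pi.smul_apply, Complex.real_smul]; ring
    rw [h1]
    simp only [hd, hdV]
    ring
  have hR1 : Tendsto (fun ν => ∫ x, ‖d ν x - ∑ j, v ν x j * p2 x j‖ ^ 2 *
      Real.exp (-(Φ x + χ x)) ∂μ) atTop
      (𝓝 (∫ x, ‖t x‖ ^ 2 * Real.exp (-(Φ x + χ x - 2 * ψ x)) ∂μ)) := by
    refine tendsto_integral_of_dominated_convergence (fun x => 2 * g x) ?_ (hgi.const_mul 2) ?_ ?_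
    · intro ν
      refine AEStronglyMeasurable.mul ?_ (hexpm (by fun_prop))
      refine ((hdm ν).sub ?_).norm.pow 2
      refine Finset.aestronglyMeasurable_fun_sum _ fun j _ => ?_
      exact ((continuous_apply j).comp_aestronglyMeasurable (hvm ν)).mul
        ((continuous_apply j).comp hp2c).aestronglyMeasurable
    · intro ν
      refine Eventually.of_forall fun x => ?_
      rw [hdsub, Real.norm_of_nonneg (by positivity)]
      have h1 := norm_add_sq_le (-((η ν x : ℂ) * ((Real.exp (ψ x) : ℝ) * t x)))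
        (∑ j, dη ν x j * V x j)
      have h2 : ‖-((η ν x : ℂ) * ((Real.exp (ψ x) : ℝ) * t x))‖ ^ 2 ≤
          Real.exp (ψ x) ^ 2 * ‖t x‖ ^ 2 := by
        rw [norm_neg, norm_mul, norm_mul, mul_pow, mul_pow, Complex.norm_real, Complex.norm_real,
          Real.norm_eq_abs, sq_abs, Real.norm_eq_abs, sq_abs]
        calc _ ≤ 1 * (Real.exp (ψ x) ^ 2 * ‖t x‖ ^ 2) :=
              mul_le_mul_of_nonneg_right (hη1' ν x) (by positivity)
          _ = _ := one_mul _
      have h3 := hdb1 ν x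
      have h4 : nsq (dη ν x) * nsq (V x) ≤ Real.exp (ψ x) * nsq (V x) :=
        mul_le_mul_of_nonneg_right ((hη ν).2.2.2 x) (nsq_nonneg _)
      have h5 : ‖-((η ν x : ℂ) * ((Real.exp (ψ x) : ℝ) * t x)) + ∑ j, dη ν x j * V x j‖ ^ 2 ≤
          2 * (Real.exp (ψ x) ^ 2 * ‖t x‖ ^ 2) + 2 * (Real.exp (ψ x) * nsq (V x)) := by
        linarith
      have h6 := mul_le_mul_of_nonneg_right h5 (Real.exp_pos (-(Φ x + χ x))).le
      refine h6.trans (le_of_eq ?_)
      simp only [hgdef]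
      rw [← hE x, ← hE2 x]
      ring
    · refine Eventually.of_forall fun x => ?_
      refine tendsto_const_nhds.congr' ?_
      filter_upwards [hη1 x] with ν hν
      have h1 : η ν x = 1 := hν.self_of_nhds
      have h2 : dη ν x = 0 := by
        funext j
        exact dz_eventually_const hν j
      rw [hdsub, h1, h2]
      simp only [Complex.ofReal_one, one_mul, Pi.zero_apply, zero_mul, Finset.sum_const_zero,
        add_zero, norm_neg, norm_mul, mul_pow, Complex.norm_real, Real.norm_eq_abs, sq_abs]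
      rw [← hE2 x]
      ring
  have hR2 : ∀ j k, Tendsto (fun ν => ∫ x, ‖s ν x j k‖ ^ 2 *
      Real.exp (-(Φ x + χ x)) ∂μ) atTop (𝓝 0) := by
    intro j k
    have h0 : (0 : ℝ) = ∫ _x : M, (0 : ℝ) ∂μ := by simp
    rw [h0]
    refine tendsto_integral_of_dominated_convergence (fun x => 4 * g x) ?_ (hgi.const_mul 4) ?_ ?_
    · intro ν
      exact AEStronglyMeasurable.mul ((hsmjk ν j k).norm.pow 2) (hexpm (by fun_prop))
    · intro ν
      refine Eventually.of_forall fun x => ?_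
      rw [Real.norm_of_nonneg (by positivity)]
      have h2 := s_bound (hη ν).1 x (V x) j k
      have h4 : nsq (dη ν x) * nsq (V x) ≤ Real.exp (ψ x) * nsq (V x) :=
        mul_le_mul_of_nonneg_right ((hη ν).2.2.2 x) (nsq_nonneg _)
      have h5 : ‖s ν x j k‖ ^ 2 ≤ 4 * (Real.exp (ψ x) * nsq (V x)) :=
        h2.trans (by linarith [h4])
      have h6 := mul_le_mul_of_nonneg_right h5 (Real.exp_pos (-(Φ x + χ x))).le
      refine h6.trans ?_
      simp only [hgdef]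
      rw [← hE x]
      have h7 : 0 ≤ ‖t x‖ ^ 2 * Real.exp (-(Φ x + χ x - 2 * ψ x)) := by positivity
      nlinarith [h7]
    · refine Eventually.of_forall fun x => ?_
      refine tendsto_const_nhds.congr' ?_
      filter_upwards [hη1 x] with ν hν
      simp only [hs, db_eventually_const hν, zero_mul, sub_self, norm_zero, ne_eq,
        OfNat.ofNat_ne_zero, not_false_eq_true, zero_pow]
  have hRR : Tendsto (fun ν => K0 * (2 * ∫ x, ‖d ν x - ∑ j, v ν x j * p2 x j‖ ^ 2 *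
      Real.exp (-(Φ x + χ x)) ∂μ + (1 / 2) * ∑ j, ∑ k, ∫ x, ‖s ν x j k‖ ^ 2 *
      Real.exp (-(Φ x + χ x)) ∂μ)) atTop
      (𝓝 (K0 * (2 * ∫ x, ‖t x‖ ^ 2 * Real.exp (-(Φ x + χ x - 2 * ψ x)) ∂μ +
        (1 / 2) * ∑ _j : Fin n, ∑ _k : Fin n, (0 : ℝ)))) := by
    refine Tendsto.const_mul _ ((hR1.const_mul 2).add (Tendsto.const_mul _ ?_))
    exact tendsto_finsetSum _ fun j _ => tendsto_finsetSum _ fun k _ => hR2 j k
  simp only [Finset.sum_const_zero, mul_zero, add_zero] at hRR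
  exact le_of_tendsto_of_tendsto' ((hL0.norm).pow 2) hRR hineq

end Crest.Agent.R271.Ho51
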