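import Crest.Agent.R271.H7b_51
import Crest.Agent.R271.H5_361

/-!
# Row 271, analytic engine (H): Hilbert space step (helper51)
-/

set_option autoImplicit false
set_option linter.unusedSectionVars false

noncomputable section

open Set Filter Topology MeasureTheory ComplexConjugate

namespace Crest.Agent.R271.Ho51

/-! ### inner products in `L²` -/

section L2

variable {α : Type*} [MeasurableSpace α] {μ : Measure α} {E : Type*} [NormedAddCommGroup E]
  [InnerProductSpace ℂ E]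

lemma inner_toLp_left {f : α → E} (hf : MemLp f 2 μ) (v : Lp E 2 μ) :
    inner ℂ (hf.toLp f) v = ∫ x, inner ℂ (f x) (v x) ∂μ := by
  rw [L2.inner_def]
  refine integral_congr_ae ?_
  filter_upwards [hf.coeFn_toLp] with x hx
  rw [hx]

lemma inner_toLp_right {f : α → E} (hf : MemLp f 2 μ) (v : Lp E 2 μ) :
    inner ℂ v (hf.toLp f) = ∫ x, inner ℂ (v x) (f x) ∂μ := by
  rw [L2.inner_def]
  refine integral_congr_ae ?_
  filter_upwards [hf.coeFn_toLp] with x hx
  rw [hx]

lemma inner_toLp_toLp {f g : α → E} (hf : MemLp f 2 μ) (hg : MemLp g 2 μ) :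
    inner ℂ (hf.toLp f) (hg.toLp g) = ∫ x, inner ℂ (f x) (g x) ∂μ := by
  rw [inner_toLp_left]
  refine integral_congr_ae ?_
  filter_upwards [hg.coeFn_toLp] with x hx
  rw [hx]

lemma Lp_norm_sq (u : Lp E 2 μ) : ‖u‖ ^ 2 = ∫ x, ‖u x‖ ^ 2 ∂μ := by
  have h1 : ((‖u‖ ^ 2 : ℝ) : ℂ) = ((∫ x, ‖u x‖ ^ 2 ∂μ : ℝ) : ℂ) := by
    have h2 := inner_self_eq_norm_sq_to_K (𝕜 := ℂ) u
    rw [L2.inner_def] at h2
    have h3 : (∫ x, inner ℂ (u x) (u x) ∂μ) = ((∫ x, ‖u x‖ ^ 2 ∂μ : ℝ) : ℂ) := by
      rw [← integral_complex_ofReal]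
      refine integral_congr_ae (Eventually.of_forall fun x => ?_)
      have := inner_self_eq_norm_sq_to_K (𝕜 := ℂ) (u x)
      simp only at this ⊢
      rw [this]
      push_cast
      rfl
    rw [h3] at h2
    rw [h2]
    push_cast
    rfl
  exact_mod_cast h1

lemma Lp_integrable_sq (u : Lp E 2 μ) : Integrable (fun x => ‖u x‖ ^ 2) μ :=
  (memLp_two_iff_integrable_sq_norm (Lp.aestronglyMeasurable u)).1 (Lp.memLp u)

end L2

variable {n : ℕ}

/-- the euclidean space -/
abbrev EE (n : ℕ) : Type := EuclideanSpace ℂ (Fin n)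

/-- euclidean version of a vector -/
def tE (w : Fin n → ℂ) : EE n := WithLp.toLp 2 w

lemma tE_apply (w : Fin n → ℂ) (j : Fin n) : tE w j = w j := rfl

lemma continuous_tE : Continuous (tE : (Fin n → ℂ) → EE n) :=
  PiLp.continuous_toLp 2 _

lemma norm_sq_tE (w : Fin n → ℂ) : ‖tE w‖ ^ 2 = nsq w := by
  rw [EuclideanSpace.norm_sq_eq]; rfl

lemma norm_sq_EE (w : EE n) : ‖w‖ ^ 2 = nsq (fun j => w j) := by
  rw [EuclideanSpace.norm_sq_eq]; rfl

lemma inner_EE (v w : EE n) : inner ℂ v w = ∑ j, conj (v j) * w j := by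
  rw [PiLp.inner_apply]
  refine Finset.sum_congr rfl fun j _ => ?_
  rw [RCLike.inner_apply']

variable {M : Type*} [TopologicalSpace M] [RDom n M]

/-- test functions -/
def TF (M : Type*) [TopologicalSpace M] [RDom n M] : Submodule ℂ (M → ℂ) where
  carrier := {f | Sm f ∧ HasCompactSupport f}
  add_mem' := fun ha hb => ⟨ha.1.add hb.1, ha.2.add hb.2⟩
  zero_mem' := ⟨Sm.const 0, HasCompactSupport.zero⟩
  smul_mem' := fun c _ hf => ⟨(Sm.const c).mul hf.1, hf.2.mul_left (f := fun _ => c)⟩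

lemma Sm.smulC {f : M → (Fin n → ℂ)} (hf : Sm f) {c : M → ℂ} (hc : Sm c) :
    Sm (fun x => c x • f x) := fun x =>
  (hc x).smul (hf x)

lemma Sm.pi {f : M → (Fin n → ℂ)} (hf : ∀ j, Sm (fun x => f x j)) : Sm f := fun x =>
  contDiffAt_pi.2 fun j => hf j x

/-- test forms -/
def TFm (M : Type*) [TopologicalSpace M] [RDom n M] : Submodule ℂ (M → (Fin n → ℂ)) where
  carrier := {f | Sm f ∧ HasCompactSupport f}
  add_mem' := fun ha hb => ⟨ha.1.add hb.1, ha.2.add hb.2⟩
  zero_mem' := ⟨Sm.const 0, HasCompactSupport.zero⟩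
  smul_mem' := fun c _ hf => ⟨hf.1.smulC (Sm.const c), hf.2.smul_left (f := fun _ => c)⟩

variable [MeasurableSpace M] [BorelSpace M]

lemma memLp_smooth {μ : Measure M} (hμ : IsLeb μ) {G : Type*} [NormedAddCommGroup G]
    {f : M → G} (hf : Continuous f) (hc : HasCompactSupport f) : MemLp f 2 μ := by
  have := hμ.locallyFinite
  exact hf.memLp_of_hasCompactSupport hc

lemma memLp_tE {μ : Measure M} (hμ : IsLeb μ)
    {f : M → (Fin n → ℂ)} (hf : Continuous f) (hc : HasCompactSupport f) :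
    MemLp (fun x => tE (f x)) 2 μ :=
  memLp_smooth hμ (continuous_tE.comp hf) (hc.comp_left (g := tE) rfl)

/-- divergence of a form -/
def dvg (g : M → (Fin n → ℂ)) (x : M) : ℂ := ∑ j, dz j (fun y => g y j) x

lemma dvg_sm {g : M → (Fin n → ℂ)} (hg : Sm g) : Sm (dvg g) :=
  Sm.sum fun j _ => (hg.pi_apply j).dz j

lemma dz_hcs {f : M → ℂ} (hc : HasCompactSupport f) (j : Fin n) : HasCompactSupport (dz j f) :=
  (hasCompactSupport_D hc).comp_left (g := wz j) (by simp [wz])

lemma db_hcs {f : M → ℂ} (hc : HasCompactSupport f) (j : Fin n) : HasCompactSupport (db j f) :=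
  (hasCompactSupport_D hc).comp_left (g := wb j) (by simp [wb])

lemma pi_hcs {g : M → (Fin n → ℂ)} (hc : HasCompactSupport g) (j : Fin n) :
    HasCompactSupport (fun x => g x j) := hc.comp_left (g := fun w : Fin n → ℂ => w j) rfl

lemma sum_hcs {ι : Type*} (s : Finset ι) {f : ι → M → ℂ}
    (hc : ∀ i ∈ s, HasCompactSupport (f i)) : HasCompactSupport (fun x => ∑ i ∈ s, f i x) := by
  classical
  induction s using Finset.induction_on with
  | empty => exact HasCompactSupport.zero (α := M) (β := ℂ)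
  | insert a s ha ih =>
    simp only [Finset.sum_insert ha]
    exact (hc a (by simp)).add (ih fun i hi => hc i (by simp [hi]))

lemma dvg_hcs {g : M → (Fin n → ℂ)} (hc : HasCompactSupport g) : HasCompactSupport (dvg g) :=
  sum_hcs _ fun j _ => dz_hcs (pi_hcs hc j) j

lemma dvg_add {f g : M → (Fin n → ℂ)} (hf : Sm f) (hg : Sm g) (x : M) :
    dvg (fun x => f x + g x) x = dvg f x + dvg g x := by
  unfold dvg
  rw [← Finset.sum_add_distrib]
  refine Finset.sum_congr rfl fun j _ => ?_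
  exact dz_add (hf.pi_apply j) (hg.pi_apply j) j x

lemma dvg_smul {g : M → (Fin n → ℂ)} (hg : Sm g) (c : ℂ) (x : M) :
    dvg (fun x => c • g x) x = c * dvg g x := by
  unfold dvg
  rw [Finset.mul_sum]
  refine Finset.sum_congr rfl fun j _ => ?_
  exact dz_const_mul (hg.pi_apply j) c j x

end Crest.Agent.R271.Ho51
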