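import Crest.Agent.R271.H7c_51

/-!
# Row 271, analytic engine (H): Hilbert space step, continued (helper51)
-/

set_option autoImplicit false
set_option linter.unusedSectionVars false

noncomputable section

open Set Filter Topology MeasureTheory ComplexConjugate

namespace Crest.Agent.R271.Ho51

variable {n : ℕ} {M : Type*} [TopologicalSpace M] [T2Space M] [RDom n M]
  [MeasurableSpace M] [BorelSpace M] {μ : Measure M}

/-- integration by parts: `∫ ∑ conj(g_j) ∂̄_j w = - ∫ conj(div g) w` -/
lemma ibp_div (hμ : IsLeb μ) {g : M → (Fin n → ℂ)} (hg : Sm g) (hgc : HasCompactSupport g)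
    {w : M → ℂ} (hw : Sm w) :
    ∫ x, ∑ j, conj (g x j) * db j w x ∂μ = ∫ x, -(conj (dvg g x) * w x) ∂μ := by
  have h0 : ∀ j, ∫ x, db j (fun y => conj (g y j) * w y) x ∂μ = 0 := fun j =>
    integral_db_eq_zero hμ ((hg.pi_apply j).conj.mul hw)
      (((pi_hcs hgc j).comp_left (g := conj) (by simp)).mul_right) j
  have hi : ∀ j, Integrable (fun x => db j (fun y => conj (g y j) * w y) x) μ := fun j =>
    (((hg.pi_apply j).conj.mul hw).db j).integrable hμ
      (db_hcs (((pi_hcs hgc j).comp_left (g := conj) (by simp)).mul_right) j)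
  have h1 : ∫ x, ∑ j, db j (fun y => conj (g y j) * w y) x ∂μ = 0 := by
    rw [integral_finsetSum _ fun j _ => hi j]
    exact Finset.sum_eq_zero fun j _ => h0 j
  have h2 : ∀ x, ∑ j, db j (fun y => conj (g y j) * w y) x =
      ∑ j, conj (g x j) * db j w x - -(conj (dvg g x) * w x) := by
    intro x
    have h3 : ∀ j, db j (fun y => conj (g y j) * w y) x =
        conj (g x j) * db j w x + conj (dz j (fun y => g y j) x) * w x := by
      intro j
      rw [db_mul (hg.pi_apply j).conj hw, db_conj (hg.pi_apply j)]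
      ring
    simp only [h3, Finset.sum_add_distrib, sub_neg_eq_add]
    congr 1
    unfold dvg
    rw [map_sum, Finset.sum_mul]
  simp only [h2] at h1
  have i1 : Integrable (fun x => ∑ j, conj (g x j) * db j w x) μ :=
    integrable_finsetSum _ fun j _ =>
      ((hg.pi_apply j).conj.mul (hw.db j)).integrable hμ
        (((pi_hcs hgc j).comp_left (g := conj) (by simp)).mul_right)
  have i2 : Integrable (fun x => -(conj (dvg g x) * w x)) μ :=
    ((dvg_sm hg).conj.mul hw).neg.integrable hμ
      ((((dvg_hcs hgc).comp_left (g := conj) (by simp)).mul_right).comp_left (g := fun z => -z)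
        (by simp))
  rw [integral_sub i1 i2] at h1
  exact sub_eq_zero.1 h1

/-- `∂̄ ∂̄ = 0` weakly -/
lemma closed_pair (hμ : IsLeb μ) {θ : M → ℂ} (hθ : Sm θ) (hθc : HasCompactSupport θ)
    {w : M → ℂ} (hw : Sm w) (j k : Fin n) :
    ∫ x, (db j θ x * db k w x - db k θ x * db j w x) ∂μ = 0 := by
  have h0 : ∀ j k, ∫ x, db j (fun y => θ y * db k w y) x ∂μ = 0 := fun j k =>
    integral_db_eq_zero hμ (hθ.mul (hw.db k)) hθc.mul_right j
  have hi : ∀ j k, Integrable (fun x => db j (fun y => θ y * db k w y) x) μ := fun j k =>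
    ((hθ.mul (hw.db k)).db j).integrable hμ (db_hcs hθc.mul_right j)
  have h1 : ∀ x, db j θ x * db k w x - db k θ x * db j w x =
      db j (fun y => θ y * db k w y) x - db k (fun y => θ y * db j w y) x := by
    intro x
    rw [db_mul hθ (hw.db k), db_mul hθ (hw.db j), db_db_comm hw j k]
    ring
  simp only [h1]
  rw [integral_sub (hi j k) (hi k j), h0, h0, sub_zero]

/-- the vectors defining `ker S` -/
def svec (b : ℝ) (p q : ℂ) (j k : Fin n) : Fin n → ℂ :=
  fun l => (b : ℂ) * ((if l = k then p else 0) - (if l = j then q else 0))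

lemma inner_svec (b : ℝ) (p q : ℂ) (j k : Fin n) (v : EE n) :
    inner ℂ (tE (svec b p q j k)) v = (b : ℂ) * (conj p * v k - conj q * v j) := by
  rw [inner_EE]
  simp only [tE_apply, svec, map_mul, map_sub, Complex.conj_ofReal, apply_ite conj, map_zero]
  simp only [mul_sub, sub_mul, mul_ite, ite_mul, mul_zero, zero_mul, Finset.sum_sub_distrib,
    Finset.sum_ite_eq', Finset.sum_ite_eq, Finset.mem_univ, if_true]
  ring

lemma svec_sm {b : M → ℝ} (hb : Sm b) {p q : M → ℂ} (hp : Sm p) (hq : Sm q) (j k : Fin n) :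
    Sm (fun x => svec (b x) (p x) (q x) j k) := by
  refine Sm.pi fun l => ?_
  unfold svec
  refine hb.ofReal.mul (Sm.sub ?_ ?_)
  · by_cases h : l = k
    · simpa [h] using hp
    · simpa [h] using Sm.const (0 : ℂ)
  · by_cases h : l = j
    · simpa [h] using hq
    · simpa [h] using Sm.const (0 : ℂ)

lemma svec_hcs {b : M → ℝ} {p q : M → ℂ} {K : Set M} (hK : IsCompact K)
    (hp : ∀ x ∉ K, p x = 0) (hq : ∀ x ∉ K, q x = 0) (j k : Fin n) :
    HasCompactSupport (fun x => svec (b x) (p x) (q x) j k) := by
  refine HasCompactSupport.intro hK fun x hx => ?_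
  funext l
  simp [svec, hp x hx, hq x hx]

/-- product of an `L²` vector component with a smooth compactly supported function -/
lemma integrable_comp_mul (hμ : IsLeb μ) (v : Lp (EE n) 2 μ) (j : Fin n) {c : M → ℂ}
    (hc : Continuous c) (hcc : HasCompactSupport c) : Integrable (fun x => v x j * c x) μ := by
  have h1 : MemLp (fun x => v x j) 2 μ := by
    have h2 := Lp.memLp v
    refine h2.mono ?_ (Eventually.of_forall fun x => ?_)
    · exact ((EuclideanSpace.proj (𝕜 := ℂ) j).continuous).comp_aestronglyMeasurable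
        (Lp.aestronglyMeasurable v)
    · exact PiLp.norm_apply_le _ j
  exact h1.integrable_mul (memLp_smooth hμ hc hcc)

lemma integrable_mul' (hμ : IsLeb μ) (t : Lp ℂ 2 μ) {c : M → ℂ}
    (hc : Continuous c) (hcc : HasCompactSupport c) : Integrable (fun x => t x * c x) μ :=
  (Lp.memLp t).integrable_mul (memLp_smooth hμ hc hcc)

end Crest.Agent.R271.Ho51
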