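import Crest.Agent.R271.H7d_51

/-!
# Row 271, analytic engine (H): Hilbert space step, the weak equation (helper51)
-/

set_option autoImplicit false
set_option linter.unusedSectionVars false

noncomputable section

open Set Filter Topology MeasureTheory ComplexConjugate

namespace Crest.Agent.R271.Ho51

variable {n : ℕ} {M : Type*} [TopologicalSpace M] [T2Space M] [RDom n M]
  [MeasurableSpace M] [BorelSpace M] {μ : Measure M}

/-- `V = e^{φ₂/2} v` -/
def Vof (φ2 : M → ℝ) (v : M → EE n) : M → (Fin n → ℂ) :=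
  fun x j => (Real.exp (φ2 x / 2) : ℂ) * v x j

lemma Vof_aesm {φ2 : M → ℝ} (hφ2 : Continuous φ2) (v : Lp (EE n) 2 μ) :
    AEStronglyMeasurable (Vof φ2 v) μ := by
  have h1 : ∀ j, AEMeasurable (fun x => Vof φ2 v x j) μ := fun j => by
    refine AEStronglyMeasurable.aemeasurable ?_
    refine AEStronglyMeasurable.mul ?_ ?_
    · exact (Complex.continuous_ofReal.comp (Real.continuous_exp.comp
        (hφ2.div_const 2))).aestronglyMeasurable
    · exact ((EuclideanSpace.proj (𝕜 := ℂ) j).continuous).comp_aestronglyMeasurable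
        (Lp.aestronglyMeasurable v)
  exact (aemeasurable_pi_iff.2 h1).aestronglyMeasurable

lemma nsq_Vof (φ2 : M → ℝ) (v : M → EE n) (x : M) :
    nsq (Vof φ2 v x) * Real.exp (-φ2 x) = ‖v x‖ ^ 2 := by
  rw [norm_sq_EE]
  unfold nsq Vof
  rw [Finset.sum_mul]
  refine Finset.sum_congr rfl fun j _ => ?_
  rw [norm_mul, mul_pow, Complex.norm_real, Real.norm_of_nonneg (Real.exp_pos _).le, sq,
    ← Real.exp_add]
  have h : Real.exp (φ2 x / 2 + φ2 x / 2) * Real.exp (-φ2 x) = 1 := by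
    rw [← Real.exp_add]
    simp
  calc Real.exp (φ2 x / 2 + φ2 x / 2) * ‖v x j‖ ^ 2 * Real.exp (-φ2 x) =
      (Real.exp (φ2 x / 2 + φ2 x / 2) * Real.exp (-φ2 x)) * ‖v x j‖ ^ 2 := by ring
    _ = ‖v x j‖ ^ 2 := by rw [h, one_mul]

/-- `t ↦ e^{φ₁/2} t` -/
def tof (φ1 : M → ℝ) (t : M → ℂ) : M → ℂ := fun x => (Real.exp (φ1 x / 2) : ℂ) * t x

lemma tof_aesm {φ1 : M → ℝ} (hφ1 : Continuous φ1) (t : Lp ℂ 2 μ) :
    AEStronglyMeasurable (tof φ1 t) μ :=
  AEStronglyMeasurable.mul (Complex.continuous_ofReal.comp (Real.continuous_exp.comp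
    (hφ1.div_const 2))).aestronglyMeasurable (Lp.aestronglyMeasurable t)

lemma norm_tof (φ1 : M → ℝ) (t : M → ℂ) (x : M) :
    ‖tof φ1 t x‖ ^ 2 * Real.exp (-φ1 x) = ‖t x‖ ^ 2 := by
  unfold tof
  rw [norm_mul, mul_pow, Complex.norm_real, Real.norm_of_nonneg (Real.exp_pos _).le, sq,
    ← Real.exp_add]
  have h : Real.exp (φ1 x / 2 + φ1 x / 2) * Real.exp (-φ1 x) = 1 := by
    rw [← Real.exp_add]
    simp
  calc Real.exp (φ1 x / 2 + φ1 x / 2) * ‖t x‖ ^ 2 * Real.exp (-φ1 x) =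
      (Real.exp (φ1 x / 2 + φ1 x / 2) * Real.exp (-φ1 x)) * ‖t x‖ ^ 2 := by ring
    _ = ‖t x‖ ^ 2 := by rw [h, one_mul]

lemma hcs_of_tsupport {G : Type*} [Zero G] {θ : M → ℝ} (hθc : HasCompactSupport θ) {f : M → G}
    (hf : ∀ x ∉ tsupport θ, f x = 0) : HasCompactSupport f :=
  HasCompactSupport.intro hθc hf

lemma dz_off {θ : M → ℝ} {x : M} (hx : x ∉ tsupport θ) (j : Fin n) :
    dz j (fun y => (θ y : ℂ)) x = 0 := by
  have h := notMem_tsupport_iff_eventuallyEq.1 hx
  exact dz_eventually_const (c := 0) h j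

lemma db_off {θ : M → ℝ} {x : M} (hx : x ∉ tsupport θ) (j : Fin n) :
    db j (fun y => (θ y : ℂ)) x = 0 := by
  have h := notMem_tsupport_iff_eventuallyEq.1 hx
  exact db_eventually_const (c := 0) h j

/-- The weak equation satisfied by `V = e^{φ₂/2} v`. -/
theorem wp_of (hμ : IsLeb μ) {φ1 φ2 ψ : M → ℝ} (hφ1 : Sm φ1) (hφ2 : Sm φ2) (hψ : Sm ψ)
    (h12 : ∀ x, ψ x = φ2 x - φ1 x)
    (v : Lp (EE n) 2 μ) (t : Lp ℂ 2 μ)
    (hN : ∀ θ : M → ℝ, Sm θ → HasCompactSupport θ → ∀ j k : Fin n,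
      ∫ x, (Real.exp (φ2 x / 2) : ℂ) * (db j (fun y => (θ y : ℂ)) x * v x k -
        db k (fun y => (θ y : ℂ)) x * v x j) ∂μ = 0)
    (hT : ∀ θ : M → ℝ, Sm θ → HasCompactSupport θ →
      ∫ x, ∑ j, conj (v x j) * ((Real.exp (φ2 x / 2) : ℂ) * (db j (fun y => (θ y : ℂ)) x +
        θ x * db j (fun y => (φ2 y : ℂ)) x)) ∂μ =
      ∫ x, conj (t x) * ((Real.exp (φ2 x - φ1 x / 2) : ℂ) * θ x) ∂μ) :
    WP μ (Lop n) (Vof φ2 v) (fun x => (∑ j, Vof φ2 v x j * dz j (fun y => (φ2 y : ℂ)) x -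
      Real.exp (ψ x) * tof φ1 t x, 0)) := by
  classical
  have hφ1c := hφ1.continuous
  have hφ2c := hφ2.continuous
  have hψc := hψ.continuous
  have hexpc : ∀ {h : M → ℝ}, Continuous h → Continuous (fun x => ((Real.exp (h x) : ℝ) : ℂ)) :=
    fun hh => Complex.continuous_ofReal.comp (Real.continuous_exp.comp hh)
  intro θ hθ hθc
  have hθcC : Continuous (fun x => (θ x : ℂ)) := Complex.continuous_ofReal.comp hθ.continuous
  have hθ0 : ∀ x ∉ tsupport θ, θ x = 0 := fun x hx => image_eq_zero_of_notMem_tsupport hx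
  have hdzc : ∀ j, Continuous (fun x => dz j (fun y => (θ y : ℂ)) x) := fun j =>
    (hθ.ofReal.dz j).continuous
  have hdbc : ∀ j, Continuous (fun x => db j (fun y => (θ y : ℂ)) x) := fun j =>
    (hθ.ofReal.db j).continuous
  have hdz2c : ∀ j, Continuous (fun x => dz j (fun y => (φ2 y : ℂ)) x) := fun j =>
    (hφ2.ofReal.dz j).continuous
  have hb2 : Continuous (fun x => ((Real.exp (φ2 x / 2) : ℝ) : ℂ)) := hexpc (by fun_prop)
  -- integrable pieces
  have I1 : ∀ j k, Integrable (fun x => dz j (fun y => (θ y : ℂ)) x * Vof φ2 v x k) μ := by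
    intro j k
    have := integrable_comp_mul hμ v k (c := fun x => (Real.exp (φ2 x / 2) : ℂ) *
      dz j (fun y => (θ y : ℂ)) x) (hb2.mul (hdzc j))
      (hcs_of_tsupport hθc fun x hx => by rw [dz_off hx, mul_zero])
    refine this.congr (Eventually.of_forall fun x => ?_)
    simp only [Vof]; ring
  have I2 : ∀ j k, Integrable (fun x => db j (fun y => (θ y : ℂ)) x * Vof φ2 v x k) μ := by
    intro j k
    have := integrable_comp_mul hμ v k (c := fun x => (Real.exp (φ2 x / 2) : ℂ) *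
      db j (fun y => (θ y : ℂ)) x) (hb2.mul (hdbc j))
      (hcs_of_tsupport hθc fun x hx => by rw [db_off hx, mul_zero])
    refine this.congr (Eventually.of_forall fun x => ?_)
    simp only [Vof]; ring
  have I3 : ∀ j, Integrable (fun x => (θ x : ℂ) * (Vof φ2 v x j *
      dz j (fun y => (φ2 y : ℂ)) x)) μ := by
    intro j
    have := integrable_comp_mul hμ v j (c := fun x => (Real.exp (φ2 x / 2) : ℂ) *
      ((θ x : ℂ) * dz j (fun y => (φ2 y : ℂ)) x)) (hb2.mul (hθcC.mul (hdz2c j)))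
      (hcs_of_tsupport hθc fun x hx => by rw [hθ0 x hx]; simp)
    refine this.congr (Eventually.of_forall fun x => ?_)
    simp only [Vof]; ring
  have I4 : Integrable (fun x => (θ x : ℂ) * (Real.exp (ψ x) * tof φ1 t x)) μ := by
    have := integrable_mul' hμ t (c := fun x => (θ x : ℂ) * ((Real.exp (ψ x) : ℝ) : ℂ) *
      ((Real.exp (φ1 x / 2) : ℝ) : ℂ)) ((hθcC.mul (hexpc hψc)).mul (hexpc (by fun_prop)))
      (hcs_of_tsupport hθc fun x hx => by rw [hθ0 x hx]; simp)
    refine this.congr (Eventually.of_forall fun x => ?_)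
    simp only [tof]; ring
  -- the first component
  have E1 : ∫ x, ∑ j, dz j (fun y => (θ y : ℂ)) x * Vof φ2 v x j ∂μ =
      - ∫ x, (θ x : ℂ) * (∑ j, Vof φ2 v x j * dz j (fun y => (φ2 y : ℂ)) x -
        Real.exp (ψ x) * tof φ1 t x) ∂μ := by
    have h1 := congrArg conj (hT θ hθ hθc)
    rw [← integral_conj, ← integral_conj] at h1
    have h2 : (fun x => conj (∑ j, conj (v x j) * ((Real.exp (φ2 x / 2) : ℂ) *
        (db j (fun y => (θ y : ℂ)) x + θ x * db j (fun y => (φ2 y : ℂ)) x)))) =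
        fun x => ∑ j, dz j (fun y => (θ y : ℂ)) x * Vof φ2 v x j +
          ∑ j, (θ x : ℂ) * (Vof φ2 v x j * dz j (fun y => (φ2 y : ℂ)) x) := by
      funext x
      rw [map_sum, ← Finset.sum_add_distrib]
      refine Finset.sum_congr rfl fun j _ => ?_
      rw [db_ofReal hθ, db_ofReal hφ2]
      simp only [map_mul, map_add, Complex.conj_conj, Complex.conj_ofReal, Vof]
      ring
    have h3 : (fun x => conj (conj (t x) * ((Real.exp (φ2 x - φ1 x / 2) : ℂ) * θ x))) =
        fun x => (θ x : ℂ) * (Real.exp (ψ x) * tof φ1 t x) := by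
      funext x
      simp only [map_mul, Complex.conj_conj, Complex.conj_ofReal, tof]
      have h4 : Real.exp (φ2 x - φ1 x / 2) = Real.exp (ψ x) * Real.exp (φ1 x / 2) := by
        rw [← Real.exp_add, h12 x]; congr 1; ring
      rw [h4]
      push_cast
      ring
    rw [h2, h3, integral_add (integrable_finsetSum _ fun j _ => I1 j j)
      (integrable_finsetSum _ fun j _ => I3 j)] at h1
    have h5 : (fun x => (θ x : ℂ) * (∑ j, Vof φ2 v x j * dz j (fun y => (φ2 y : ℂ)) x -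
        Real.exp (ψ x) * tof φ1 t x)) =
        fun x => ∑ j, (θ x : ℂ) * (Vof φ2 v x j * dz j (fun y => (φ2 y : ℂ)) x) -
          (θ x : ℂ) * (Real.exp (ψ x) * tof φ1 t x) := by
      funext x
      rw [mul_sub, Finset.mul_sum]
    rw [h5, integral_sub (integrable_finsetSum _ fun j _ => I3 j) I4, ← h1]
    ring
  have hL : (fun x => Lop n ((D θ x).smulRight (Vof φ2 v x))) = fun x =>
      (∑ j, dz j (fun y => (θ y : ℂ)) x * Vof φ2 v x j,
        fun j k => db j (fun y => (θ y : ℂ)) x * Vof φ2 v x k -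
          db k (fun y => (θ y : ℂ)) x * Vof φ2 v x j) := by
    funext x
    refine Prod.ext (Lop_smulRight_fst hθ x _) ?_
    funext j k
    exact Lop_smulRight_snd hθ x _ j k
  rw [hL]
  have hR : (fun x => θ x • ((∑ j, Vof φ2 v x j * dz j (fun y => (φ2 y : ℂ)) x -
      Real.exp (ψ x) * tof φ1 t x, 0) : ℂ × (Fin n → Fin n → ℂ))) = fun x =>
      ((θ x : ℂ) * (∑ j, Vof φ2 v x j * dz j (fun y => (φ2 y : ℂ)) x -
        Real.exp (ψ x) * tof φ1 t x), (0 : Fin n → Fin n → ℂ)) := by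
    funext x
    refine Prod.ext ?_ ?_
    · simp
    · simp
  rw [hR]
  have J1 : Integrable (fun x => ∑ j, dz j (fun y => (θ y : ℂ)) x * Vof φ2 v x j) μ :=
    integrable_finsetSum _ fun j _ => I1 j j
  have J2 : ∀ j k, Integrable (fun x => db j (fun y => (θ y : ℂ)) x * Vof φ2 v x k -
          db k (fun y => (θ y : ℂ)) x * Vof φ2 v x j) μ := fun j k => (I2 j k).sub (I2 k j)
  have J2' : ∀ j, Integrable (fun x => fun k => db j (fun y => (θ y : ℂ)) x * Vof φ2 v x k -
          db k (fun y => (θ y : ℂ)) x * Vof φ2 v x j) μ := fun j => Integrable.of_eval (J2 j)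
  have J3 : Integrable (fun x => fun j k => db j (fun y => (θ y : ℂ)) x * Vof φ2 v x k -
          db k (fun y => (θ y : ℂ)) x * Vof φ2 v x j) μ := Integrable.of_eval J2'
  have J4 : Integrable (fun x => (θ x : ℂ) * (∑ j, Vof φ2 v x j *
      dz j (fun y => (φ2 y : ℂ)) x - Real.exp (ψ x) * tof φ1 t x)) μ := by
    have := (integrable_finsetSum Finset.univ fun j _ => I3 j).sub I4
    refine this.congr (Eventually.of_forall fun x => ?_)
    simp only [Pi.sub_apply, mul_sub, Finset.mul_sum]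
  rw [integral_pair J1 J3, integral_pair J4 (integrable_zero _ _ _), E1]
  refine Prod.ext ?_ ?_
  · simp
  · show (∫ x, (fun j k => db j (fun y => (θ y : ℂ)) x * Vof φ2 v x k -
          db k (fun y => (θ y : ℂ)) x * Vof φ2 v x j) ∂μ) = -(∫ _x : M, (0 : Fin n → Fin n → ℂ) ∂μ)
    rw [integral_zero, neg_zero]
    funext j k
    rw [eval_integral J2' j, eval_integral (J2 j) k]
    show _ = (0 : ℂ)
    rw [← hN θ hθ hθc j k]
    refine integral_congr_ae (Eventually.of_forall fun x => ?_)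
    simp only [Vof]; ring

end Crest.Agent.R271.Ho51
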