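import Crest.Agent.R271.H7e_51

/-!
# Row 271, analytic engine (H): weak solution of `∂̄ u = ∂̄ G` (helper51)
-/

set_option autoImplicit false
set_option linter.unusedSectionVars false

noncomputable section

open Set Filter Topology MeasureTheory ComplexConjugate

namespace Crest.Agent.R271.Ho51

variable {n : ℕ} {M : Type*} [TopologicalSpace M] [T2Space M] [RDom n M]
  [MeasurableSpace M] [BorelSpace M] {μ : Measure M}

lemma expC_sm {h : M → ℝ} (hh : Sm h) : Sm (fun x => ((Real.exp (h x) : ℝ) : ℂ)) :=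
  (Sm.comp (Real.contDiff_exp.of_le le_top) hh).ofReal

lemma half_sm {h : M → ℝ} (hh : Sm h) : Sm (fun x => h x / 2) := by
  have := hh.mulR (Sm.const (1 / 2 : ℝ))
  refine Sm.of_locally fun x => ⟨_, this, Eventually.of_forall fun y => ?_⟩
  simp only; ring

/-- `e^{-φ₁/2} w` -/
def fi1 (φ1 : M → ℝ) (w : M → ℂ) (x : M) : ℂ := (Real.exp (-(φ1 x / 2)) : ℂ) * w x
/-- `e^{-φ₂/2} ∂̄ w` -/
def fT (φ2 : M → ℝ) (w : M → ℂ) (x : M) : EE n :=
  tE (fun j => (Real.exp (-(φ2 x / 2)) : ℂ) * db j w x)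
/-- `e^{φ₂/2} g` -/
def fi2 (φ2 : M → ℝ) (g : M → (Fin n → ℂ)) (x : M) : EE n :=
  tE (fun j => (Real.exp (φ2 x / 2) : ℂ) * g x j)
/-- `- e^{φ₁/2} div g` -/
def fTs (φ1 : M → ℝ) (g : M → (Fin n → ℂ)) (x : M) : ℂ :=
  -((Real.exp (φ1 x / 2) : ℂ) * dvg g x)
/-- the vectors defining `ker S` -/
def fS (φ2 : M → ℝ) (θ : M → ℝ) (j k : Fin n) (x : M) : EE n :=
  tE (svec (Real.exp (φ2 x / 2)) (dz j (fun y => (θ y : ℂ)) x) (dz k (fun y => (θ y : ℂ)) x) j k)

lemma mfi1 (hμ : IsLeb μ) {φ1 : M → ℝ} (hφ1 : Sm φ1) {w : M → ℂ} (hw : Sm w)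
    (hwc : HasCompactSupport w) : MemLp (fi1 φ1 w) 2 μ :=
  memLp_smooth hμ ((expC_sm (half_sm hφ1).neg).mul hw).continuous hwc.mul_left

lemma mfT (hμ : IsLeb μ) {φ2 : M → ℝ} (hφ2 : Sm φ2) {w : M → ℂ} (hw : Sm w)
    (hwc : HasCompactSupport w) : MemLp (fT φ2 w) 2 μ :=
  memLp_tE hμ (continuous_pi fun j => ((expC_sm (half_sm hφ2).neg).mul (hw.db j)).continuous)
    (HasCompactSupport.intro hwc fun x hx => by
      funext j
      have : db j w x = 0 := by
        have h := notMem_tsupport_iff_eventuallyEq.1 hx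
        have h' : w =ᶠ[𝓝 x] fun _ => (0 : ℂ) := h
        rw [db_congr h', db_const]
      simp [this])

lemma mfi2 (hμ : IsLeb μ) {φ2 : M → ℝ} (hφ2 : Sm φ2) {g : M → (Fin n → ℂ)} (hg : Sm g)
    (hgc : HasCompactSupport g) : MemLp (fi2 φ2 g) 2 μ :=
  memLp_tE hμ (continuous_pi fun j => ((expC_sm (half_sm hφ2)).mul (hg.pi_apply j)).continuous)
    (HasCompactSupport.intro hgc fun x hx => by
      funext j
      simp [image_eq_zero_of_notMem_tsupport hx])

lemma mfTs (hμ : IsLeb μ) {φ1 : M → ℝ} (hφ1 : Sm φ1) {g : M → (Fin n → ℂ)} (hg : Sm g)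
    (hgc : HasCompactSupport g) : MemLp (fTs φ1 g) 2 μ :=
  memLp_smooth hμ ((expC_sm (half_sm hφ1)).mul (dvg_sm hg)).neg.continuous
    (((dvg_hcs hgc).mul_left).comp_left (g := fun z => -z) (by simp))

lemma mfS (hμ : IsLeb μ) {φ2 : M → ℝ} (hφ2 : Sm φ2) {θ : M → ℝ} (hθ : Sm θ)
    (hθc : HasCompactSupport θ) (j k : Fin n) : MemLp (fS φ2 θ j k) 2 μ :=
  memLp_tE hμ (svec_sm (Sm.comp (Real.contDiff_exp.of_le le_top) (half_sm hφ2))
    (hθ.ofReal.dz j) (hθ.ofReal.dz k) j k).continuous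
    (svec_hcs hθc (fun _ hx => dz_off hx j) (fun _ hx => dz_off hx k) j k)

lemma exp_inv_mul (h : ℝ) : ((Real.exp (-h) : ℝ) : ℂ) * ((Real.exp h : ℝ) : ℂ) = 1 := by
  rw [← Complex.ofReal_mul, ← Real.exp_add]; simp

lemma adj_pt (φ2 : M → ℝ) (g : M → (Fin n → ℂ)) (w : M → ℂ) (x : M) :
    inner ℂ (fi2 φ2 g x) (fT φ2 w x) = ∑ j, conj (g x j) * db j w x := by
  rw [inner_EE]
  refine Finset.sum_congr rfl fun j _ => ?_
  simp only [fi2, fT, tE_apply, map_mul, Complex.conj_ofReal]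
  have := exp_inv_mul (φ2 x / 2)
  linear_combination (conj (g x j) * db j w x) * this

lemma adj_pt' (φ1 : M → ℝ) (g : M → (Fin n → ℂ)) (w : M → ℂ) (x : M) :
    inner ℂ (fTs φ1 g x) (fi1 φ1 w x) = -(conj (dvg g x) * w x) := by
  rw [RCLike.inner_apply']
  simp only [fTs, fi1, map_mul, map_neg, Complex.conj_ofReal]
  have := exp_inv_mul (φ1 x / 2)
  linear_combination (-(conj (dvg g x) * w x)) * this

/-- **weak solution** -/
theorem solve (hμ : IsLeb μ) (hmul : WPmul (M := M) μ)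
    {Φ χ ψ : M → ℝ} (hΦ : Sm Φ) (hχ : Sm χ) (hψ : Sm ψ)
    {G : M → ℂ} (hG : Sm G) {K0 : ℝ} (hK0 : 0 ≤ K0)
    (hpair : PairC μ Φ χ ψ (fun x j => db j G x) K0)
    (hαi : Integrable (fun x => nsq (fun j => db j G x) * Real.exp (-(Φ x + χ x - ψ x))) μ)
    (η : ℕ → M → ℝ) (hη : ∀ ν, Sm (η ν) ∧ HasCompactSupport (η ν) ∧
      (∀ x, 0 ≤ η ν x ∧ η ν x ≤ 1) ∧
      ∀ x, nsq (fun j => dz j (fun y => (η ν y : ℂ)) x) ≤ Real.exp (ψ x))
    (hη1 : ∀ x, ∀ᶠ ν in atTop, ∀ᶠ y in 𝓝 x, η ν y = 1) :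
    ∃ U : M → ℂ, AEStronglyMeasurable U μ ∧
      Integrable (fun x => ‖U x‖ ^ 2 * Real.exp (-(Φ x + χ x - 2 * ψ x))) μ ∧
      ∫ x, ‖U x‖ ^ 2 * Real.exp (-(Φ x + χ x - 2 * ψ x)) ∂μ ≤ 2 * K0 ∧
      ∀ (j : Fin n) (θ : M → ℝ), Sm θ → HasCompactSupport θ →
        ∫ x, U x * db j (fun y => (θ y : ℂ)) x ∂μ = - ∫ x, db j G x * θ x ∂μ := by
  classical
  set φ1 : M → ℝ := fun x => Φ x + χ x - 2 * ψ x with hφ1def
  set φ2 : M → ℝ := fun x => Φ x + χ x - ψ x with hφ2def
  have hφ1 : Sm φ1 := (hΦ.add hχ).sub ((Sm.const (2 : ℝ)).mulR hψ)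
  have hφ2 : Sm φ2 := (hΦ.add hχ).sub hψ
  have h12 : ∀ x, ψ x = φ2 x - φ1 x := fun x => by simp only [hφ1def, hφ2def]; ring
  -- the closed subspace
  let ι := {θ : M → ℝ // Sm θ ∧ HasCompactSupport θ} × Fin n × Fin n
  let sv : ι → Lp (EE n) 2 μ := fun i =>
    (mfS hμ hφ2 i.1.2.1 i.1.2.2 i.2.1 i.2.2).toLp (fS φ2 i.1.1 i.2.1 i.2.2)
  let N : Submodule ℂ (Lp (EE n) 2 μ) := (Submodule.span ℂ (Set.range sv))ᗮ
  have hN : ∀ v, v ∈ N ↔ ∀ i, inner ℂ (sv i) v = 0 := by
    intro v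
    constructor
    · intro hv i
      exact hv (sv i) (Submodule.subset_span (Set.mem_range_self i))
    · intro hv
      rw [Submodule.mem_orthogonal]
      intro u hu
      induction hu using Submodule.span_induction with
      | mem u hu => obtain ⟨i, rfl⟩ := hu; exact hv i
      | zero => simp
      | add a b _ _ ha hb => rw [inner_add_left, ha, hb, add_zero]
      | smul c a _ ha => rw [inner_smul_left, ha, mul_zero]
  have hNcl : IsClosed (N : Set (Lp (EE n) 2 μ)) := Submodule.isClosed_orthogonal _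
  -- inner product with sv
  have hsv_pt : ∀ (θ : M → ℝ) (_ : Sm θ) (j k : Fin n) (x : M) (v : EE n),
      inner ℂ (fS φ2 θ j k x) v = (Real.exp (φ2 x / 2) : ℂ) *
        (db j (fun y => (θ y : ℂ)) x * v k - db k (fun y => (θ y : ℂ)) x * v j) := by
    intro θ hθ j k x v
    rw [fS, inner_svec, db_ofReal hθ, db_ofReal hθ]
  -- the right-hand side as a vector
  have hαL : MemLp (fun x => fT φ2 G x) 2 μ := by
    have hm : AEStronglyMeasurable (fun x => fT φ2 G x) μ :=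
      (continuous_tE.comp (continuous_pi fun j =>
        ((expC_sm (half_sm hφ2).neg).mul (hG.db j)).continuous)).aestronglyMeasurable
    rw [memLp_two_iff_integrable_sq_norm hm]
    refine hαi.congr (Eventually.of_forall fun x => ?_)
    simp only [fT]
    rw [norm_sq_tE]
    unfold nsq
    rw [Finset.sum_mul]
    refine Finset.sum_congr rfl fun j _ => ?_
    rw [norm_mul, mul_pow, Complex.norm_real, Real.norm_of_nonneg (Real.exp_pos _).le]
    have : Real.exp (-(φ2 x / 2)) ^ 2 = Real.exp (-φ2 x) := by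
      rw [sq, ← Real.exp_add]; congr 1; ring
    rw [this]; ring
  let αt : Lp (EE n) 2 μ := hαL.toLp _
  -- `∂̄` of a smooth function is in `N`
  have hdbN : ∀ (w : M → ℂ) (_ : Sm w) (hL : MemLp (fun x => fT φ2 w x) 2 μ),
      hL.toLp _ ∈ N := by
    intro w hw hL
    rw [hN]
    rintro ⟨⟨θ, hθ, hθc⟩, j, k⟩
    show inner ℂ ((mfS hμ hφ2 hθ hθc j k).toLp (fS φ2 θ j k)) (hL.toLp _) = 0
    rw [inner_toLp_toLp, ← closed_pair hμ hθ.ofReal (hθc.comp_left (g := fun r : ℝ => (r : ℂ))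
      (by simp)) hw j k]
    refine integral_congr_ae (Eventually.of_forall fun x => ?_)
    simp only
    rw [hsv_pt θ hθ]
    simp only [fT, tE_apply]
    have := exp_inv_mul (φ2 x / 2)
    linear_combination (db j (fun y => (θ y : ℂ)) x * db k w x -
      db k (fun y => (θ y : ℂ)) x * db j w x) * this
  have hαN : αt ∈ N := hdbN G hG hαL
  -- operators
  let i1 : TF M → Lp ℂ 2 μ := fun w => (mfi1 hμ hφ1 w.2.1 w.2.2).toLp _
  let T : TF M → Lp (EE n) 2 μ := fun w => (mfT hμ hφ2 w.2.1 w.2.2).toLp _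
  have hTN : ∀ w, T w ∈ N := fun w => hdbN w.1 w.2.1 (mfT hμ hφ2 w.2.1 w.2.2)
  let i2 : TFm M →ₗ[ℂ] Lp (EE n) 2 μ :=
    { toFun := fun g => (mfi2 hμ hφ2 g.2.1 g.2.2).toLp _
      map_add' := fun f g => by
        rw [← MemLp.toLp_add]
        refine MemLp.toLp_congr _ _ (Eventually.of_forall fun x => ?_)
        simp only [fi2, Pi.add_apply]
        ext j
        simp only [tE_apply, PiLp.add_apply, Submodule.coe_add, Pi.add_apply]
        ring
      map_smul' := fun c g => by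
        rw [RingHom.id_apply, ← MemLp.toLp_const_smul]
        refine MemLp.toLp_congr _ _ (Eventually.of_forall fun x => ?_)
        simp only [fi2, Pi.smul_apply]
        ext j
        simp only [tE_apply, PiLp.smul_apply, Submodule.coe_smul, Pi.smul_apply, smul_eq_mul]
        ring }
  let Ts : TFm M →ₗ[ℂ] Lp ℂ 2 μ :=
    { toFun := fun g => (mfTs hμ hφ1 g.2.1 g.2.2).toLp _
      map_add' := fun f g => by
        rw [← MemLp.toLp_add]
        refine MemLp.toLp_congr _ _ (Eventually.of_forall fun x => ?_)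
        simp only [fTs, Pi.add_apply]
        have : dvg ((f + g : TFm M) : M → (Fin n → ℂ)) x = dvg f.1 x + dvg g.1 x :=
          dvg_add f.2.1 g.2.1 x
        rw [this]
        ring
      map_smul' := fun c g => by
        rw [RingHom.id_apply, ← MemLp.toLp_const_smul]
        refine MemLp.toLp_congr _ _ (Eventually.of_forall fun x => ?_)
        simp only [fTs, Pi.smul_apply, smul_eq_mul]
        have : dvg ((c • g : TFm M) : M → (Fin n → ℂ)) x = c * dvg g.1 x :=
          dvg_smul g.2.1 c x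
        rw [this]
        ring }
  have adj : ∀ (f : TFm M) (w : TF M), inner ℂ (i2 f) (T w) = inner ℂ (Ts f) (i1 w) := by
    intro f w
    show inner ℂ ((mfi2 hμ hφ2 f.2.1 f.2.2).toLp _) ((mfT hμ hφ2 w.2.1 w.2.2).toLp _) =
      inner ℂ ((mfTs hμ hφ1 f.2.1 f.2.2).toLp _) ((mfi1 hμ hφ1 w.2.1 w.2.2).toLp _)
    rw [inner_toLp_toLp, inner_toLp_toLp]
    simp only [adj_pt φ2, adj_pt' φ1]
    exact ibp_div hμ f.2.1 f.2.2 w.2.1
  -- the a priori estimate
  have est : ∀ v ∈ N, ∀ t : Lp ℂ 2 μ, (∀ w, inner ℂ v (T w) = inner ℂ t (i1 w)) →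
      ‖inner ℂ αt v‖ ≤ Real.sqrt (2 * K0) * ‖t‖ := by
    intro v hv t hvt
    have hNv : ∀ θ : M → ℝ, Sm θ → HasCompactSupport θ → ∀ j k : Fin n,
        ∫ x, (Real.exp (φ2 x / 2) : ℂ) * (db j (fun y => (θ y : ℂ)) x * v x k -
          db k (fun y => (θ y : ℂ)) x * v x j) ∂μ = 0 := by
      intro θ hθ hθc j k
      have h1 := (hN v).1 hv ⟨⟨θ, hθ, hθc⟩, j, k⟩
      have h2 : inner ℂ ((mfS hμ hφ2 hθ hθc j k).toLp (fS φ2 θ j k)) v = 0 := h1
      rw [inner_toLp_left] at h2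
      rw [← h2]
      refine integral_congr_ae (Eventually.of_forall fun x => ?_)
      simp only
      rw [hsv_pt θ hθ]
    have hTv : ∀ θ : M → ℝ, Sm θ → HasCompactSupport θ →
        ∫ x, ∑ j, conj (v x j) * ((Real.exp (φ2 x / 2) : ℂ) * (db j (fun y => (θ y : ℂ)) x +
          θ x * db j (fun y => (φ2 y : ℂ)) x)) ∂μ =
        ∫ x, conj (t x) * ((Real.exp (φ2 x - φ1 x / 2) : ℂ) * θ x) ∂μ := by
      intro θ hθ hθc
      have hwS : Sm (fun x => ((Real.exp (φ2 x) : ℝ) : ℂ) * (θ x : ℂ)) :=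
        (expC_sm hφ2).mul hθ.ofReal
      have hwc : HasCompactSupport (fun x => ((Real.exp (φ2 x) : ℝ) : ℂ) * (θ x : ℂ)) :=
        (hθc.comp_left (g := fun r : ℝ => (r : ℂ)) (by simp)).mul_left
      have h1 := hvt ⟨_, hwS, hwc⟩
      have h2 : inner ℂ v ((mfT hμ hφ2 hwS hwc).toLp _) =
        inner ℂ t ((mfi1 hμ hφ1 hwS hwc).toLp _) := h1
      rw [inner_toLp_right, inner_toLp_right] at h2
      have h3 : ∀ x, inner ℂ (v x) (fT φ2 (fun x => ((Real.exp (φ2 x) : ℝ) : ℂ) * (θ x : ℂ)) x) =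
          ∑ j, conj (v x j) * ((Real.exp (φ2 x / 2) : ℂ) * (db j (fun y => (θ y : ℂ)) x +
          θ x * db j (fun y => (φ2 y : ℂ)) x)) := by
        intro x
        rw [inner_EE]
        refine Finset.sum_congr rfl fun j _ => ?_
        simp only [fT, tE_apply]
        have hd : HasDerivAt Real.exp (Real.exp (φ2 x)) (φ2 x) := Real.hasDerivAt_exp _
        have hexpS : Sm (fun y => Real.exp (φ2 y)) :=
          Sm.comp (Real.contDiff_exp.of_le le_top) hφ2
        rw [db_mul (expC_sm hφ2) hθ.ofReal, db_comp_real hφ2 hexpS x hd]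
        have h4 : ((Real.exp (-(φ2 x / 2)) : ℝ) : ℂ) * ((Real.exp (φ2 x) : ℝ) : ℂ) =
            ((Real.exp (φ2 x / 2) : ℝ) : ℂ) := by
          rw [← Complex.ofReal_mul, ← Real.exp_add]; congr 2; ring
        linear_combination (conj (v x j) * (db j (fun y => (θ y : ℂ)) x +
          θ x * db j (fun y => (φ2 y : ℂ)) x)) * h4
      have h3' : ∀ x, inner ℂ (t x) (fi1 φ1 (fun x => ((Real.exp (φ2 x) : ℝ) : ℂ) *
          (θ x : ℂ)) x) = conj (t x) * ((Real.exp (φ2 x - φ1 x / 2) : ℂ) * θ x) := by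
        intro x
        rw [RCLike.inner_apply']
        simp only [fi1]
        have h4 : ((Real.exp (-(φ1 x / 2)) : ℝ) : ℂ) * ((Real.exp (φ2 x) : ℝ) : ℂ) =
            ((Real.exp (φ2 x - φ1 x / 2) : ℝ) : ℂ) := by
          rw [← Complex.ofReal_mul, ← Real.exp_add]; congr 2; ring
        linear_combination (conj (t x) * θ x) * h4
      simp only [h3, h3'] at h2
      exact h2
    have hwp := wp_of hμ hφ1 hφ2 hψ h12 v t hNv hTv
    have hVi : Integrable (fun x => nsq (Vof φ2 v x) * Real.exp (-(Φ x + χ x - ψ x))) μ := by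
      refine (Lp_integrable_sq v).congr (Eventually.of_forall fun x => ?_)
      exact (nsq_Vof φ2 v x).symm
    have hti : Integrable (fun x => ‖tof φ1 t x‖ ^ 2 *
        Real.exp (-(Φ x + χ x - 2 * ψ x))) μ := by
      refine (Lp_integrable_sq t).congr (Eventually.of_forall fun x => ?_)
      exact (norm_tof φ1 t x).symm
    have hmain := pairing_global hμ hmul hΦ hχ hψ
      (α := fun x j => db j G x) (continuous_pi fun j => (hG.db j).continuous) hK0 hpair hαi
      η hη hη1 (Vof_aesm hφ2.continuous v) (tof_aesm hφ1.continuous t) hVi hti hwp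
    have hR : ∫ x, ‖tof φ1 t x‖ ^ 2 * Real.exp (-(Φ x + χ x - 2 * ψ x)) ∂μ = ‖t‖ ^ 2 := by
      rw [Lp_norm_sq]
      refine integral_congr_ae (Eventually.of_forall fun x => ?_)
      exact norm_tof φ1 t x
    have hL : ‖inner ℂ αt v‖ = ‖∫ x, (∑ j, db j G x * conj (Vof φ2 v x j)) *
        Real.exp (-(Φ x + χ x - ψ x)) ∂μ‖ := by
      have h5 : inner ℂ αt v = conj (∫ x, (∑ j, db j G x * conj (Vof φ2 v x j)) *
        Real.exp (-(Φ x + χ x - ψ x)) ∂μ) := by
        rw [← integral_conj]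
        show inner ℂ (hαL.toLp _) v = _
        rw [inner_toLp_left]
        refine integral_congr_ae (Eventually.of_forall fun x => ?_)
        simp only
        rw [inner_EE]
        simp only [fT, tE_apply, map_mul, map_sum, Complex.conj_ofReal, Complex.conj_conj, Vof]
        rw [Finset.sum_mul]
        refine Finset.sum_congr rfl fun j _ => ?_
        have h6 : ((Real.exp (φ2 x / 2) : ℝ) : ℂ) *
            ((Real.exp (-(Φ x + χ x - ψ x)) : ℝ) : ℂ) =
            ((Real.exp (-(φ2 x / 2)) : ℝ) : ℂ) := by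
          rw [← Complex.ofReal_mul, ← Real.exp_add]; congr 2
          simp only [hφ2def]; ring
        linear_combination (-(conj (db j G x) * v x j)) * h6
      rw [h5, RCLike.norm_conj]
    rw [hR] at hmain
    rw [hL]
    have h7 : ‖∫ x, (∑ j, db j G x * conj (Vof φ2 v x j)) *
        Real.exp (-(Φ x + χ x - ψ x)) ∂μ‖ ^ 2 ≤ (Real.sqrt (2 * K0) * ‖t‖) ^ 2 := by
      rw [mul_pow, Real.sq_sqrt (by positivity)]
      calc _ ≤ K0 * (2 * ‖t‖ ^ 2) := hmain
        _ = _ := by ring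
    exact (pow_le_pow_iff_left₀ (norm_nonneg _) (by positivity) two_ne_zero).1 h7
  obtain ⟨u, hu, hu'⟩ := H361.T5 N hNcl αt hαN i1 T hTN i2 Ts adj (Real.sqrt_nonneg _) est
  refine ⟨tof φ1 u, tof_aesm hφ1.continuous u, ?_, ?_, ?_⟩
  · refine (Lp_integrable_sq u).congr (Eventually.of_forall fun x => ?_)
    exact (norm_tof φ1 u x).symm
  · have h1 : ∫ x, ‖tof φ1 u x‖ ^ 2 * Real.exp (-(Φ x + χ x - 2 * ψ x)) ∂μ = ‖u‖ ^ 2 := by
      rw [Lp_norm_sq]
      refine integral_congr_ae (Eventually.of_forall fun x => ?_)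
      exact norm_tof φ1 u x
    rw [h1]
    calc ‖u‖ ^ 2 ≤ (Real.sqrt (2 * K0)) ^ 2 := by gcongr
      _ = 2 * K0 := Real.sq_sqrt (by positivity)
  · intro j θ hθ hθc
    -- the test form `θ e_j`
    have hgS : Sm (fun x : M => (Pi.single j ((θ x : ℝ) : ℂ) : Fin n → ℂ)) := by
      refine Sm.pi fun l => ?_
      by_cases h : l = j
      · subst h
        simpa using hθ.ofReal
      · have : (fun x : M => (Pi.single j ((θ x : ℝ) : ℂ) : Fin n → ℂ) l) = fun _ => 0 := by
          funext x; simp [Pi.single_eq_of_ne h]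
        rw [this]; exact Sm.const _
    have hgc : HasCompactSupport (fun x : M => (Pi.single j ((θ x : ℝ) : ℂ) : Fin n → ℂ)) :=
      hθc.comp_left (g := fun r : ℝ => (Pi.single j (r : ℂ) : Fin n → ℂ)) (by simp)
    have h1 := hu' ⟨_, hgS, hgc⟩
    have h2 : inner ℂ u ((mfTs hμ hφ1 hgS hgc).toLp _) =
      inner ℂ (hαL.toLp _) ((mfi2 hμ hφ2 hgS hgc).toLp _) := h1
    rw [inner_toLp_right, inner_toLp_toLp] at h2
    have hdv : ∀ x, dvg (fun x : M => (Pi.single j ((θ x : ℝ) : ℂ) : Fin n → ℂ)) x =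
        dz j (fun y => (θ y : ℂ)) x := by
      intro x
      unfold dvg
      rw [Finset.sum_eq_single j]
      · simp
      · intro l _ hl
        have : (fun x : M => (Pi.single j ((θ x : ℝ) : ℂ) : Fin n → ℂ) l) = fun _ => 0 := by
          funext x; simp [Pi.single_eq_of_ne hl]
        rw [this, dz_const]
      · simp
    have h3 : ∀ x, inner ℂ (u x) (fTs φ1 (fun x : M => (Pi.single j ((θ x : ℝ) : ℂ) :
        Fin n → ℂ)) x) = -(conj (tof φ1 u x) * dz j (fun y => (θ y : ℂ)) x) := by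
      intro x
      rw [RCLike.inner_apply']
      simp only [fTs, hdv, tof, map_mul, Complex.conj_ofReal]
      ring
    have h4 : ∀ x, inner ℂ (fT φ2 G x) (fi2 φ2 (fun x : M => (Pi.single j ((θ x : ℝ) : ℂ) :
        Fin n → ℂ)) x) = conj (db j G x) * θ x := by
      intro x
      rw [inner_EE, Finset.sum_eq_single j]
      · simp only [fT, fi2, tE_apply, map_mul, Complex.conj_ofReal, Pi.single_eq_same]
        have := exp_inv_mul (φ2 x / 2)
        linear_combination (conj (db j G x) * θ x) * this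
      · intro l _ hl
        simp [fi2, tE_apply, Pi.single_eq_of_ne hl]
      · simp
    simp only [h3, h4] at h2
    have h5 := congrArg conj h2
    rw [← integral_conj, ← integral_conj] at h5
    have e1 : (fun x => conj (-(conj (tof φ1 u x) * dz j (fun y => (θ y : ℂ)) x))) =
        fun x => -(tof φ1 u x * db j (fun y => (θ y : ℂ)) x) := by
      funext x
      rw [db_ofReal hθ, map_neg, map_mul, Complex.conj_conj]
    have e2 : (fun x => conj (conj (db j G x) * (θ x : ℂ))) = fun x => db j G x * θ x := by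
      funext x
      rw [map_mul, Complex.conj_conj, Complex.conj_ofReal]
    rw [e1, e2, integral_neg] at h5
    rw [← h5, neg_neg]

end Crest.Agent.R271.Ho51
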