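import Crest.Agent.R264.Berg1
import Crest.Agent.R266.SCV

/-!
Row 271 (T9, helper297): L² Montel theorem along an ultrafilter on open subsets of `Fin n → ℂ`.
-/

set_option autoImplicit false

open MeasureTheory Set Metric Filter Topology
open scoped ENNReal

noncomputable section

namespace Crest.Agent.R271.Montel297

variable {n : ℕ}

/-- sub mean value inequality for `|f|²` on closed polydiscs -/
theorem volume_mul_enorm_sq_le {f : (Fin n → ℂ) → ℂ} {x : Fin n → ℂ} {r : ℝ}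
    {D : Set (Fin n → ℂ)} (hD : IsOpen D) (hf : DifferentiableOn ℂ f D)
    (hB : closedBall x r ⊆ D) :
    volume (closedBall x r) * ‖f x‖ₑ ^ 2 ≤ ∫⁻ y in closedBall x r, ‖f y‖ₑ ^ 2 := by
  have h := Crest.Agent.R264.Berg.mv_closedBall (f := fun y => f y ^ 2) hD (hf.pow 2) hB
  have h1 : ‖∫ y in closedBall x r, f y ^ 2‖ₑ ≤ ∫⁻ y in closedBall x r, ‖f y ^ 2‖ₑ :=
    enorm_integral_le_lintegral_enorm _
  rw [h, enorm_smul, enorm_pow] at h1
  have hfin : volume (closedBall x r) ≠ ⊤ := measure_closedBall_lt_top.ne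
  have h2 : ‖volume.real (closedBall x r)‖ₑ = volume (closedBall x r) := by
    rw [Real.enorm_eq_ofReal measureReal_nonneg, Measure.real, ENNReal.ofReal_toReal hfin]
  rw [h2] at h1
  simpa only [enorm_pow] using h1

/-- the bound obtained from an `L²` bound -/
def bd (n : ℕ) (r : ℝ) (C : ℝ≥0∞) : ℝ :=
  Real.sqrt ((C / volume (closedBall (0 : Fin n → ℂ) r)).toReal)

theorem norm_le_bd {f : (Fin n → ℂ) → ℂ} {x : Fin n → ℂ} {r : ℝ} (hr : 0 < r)
    {D : Set (Fin n → ℂ)} (hD : IsOpen D) (hf : DifferentiableOn ℂ f D)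
    (hB : closedBall x r ⊆ D) {C : ℝ≥0∞} (hC : C ≠ ⊤)
    (hI : ∫⁻ y in D, ‖f y‖ₑ ^ 2 ≤ C) : ‖f x‖ ≤ bd n r C := by
  have h := volume_mul_enorm_sq_le hD hf hB
  have h1 : ∫⁻ y in closedBall x r, ‖f y‖ₑ ^ 2 ≤ C :=
    (lintegral_mono_set hB).trans hI
  have hv : volume (closedBall x r) = volume (closedBall (0 : Fin n → ℂ) r) :=
    Measure.addHaar_closedBall_center volume x r
  rw [hv] at h
  set v := volume (closedBall (0 : Fin n → ℂ) r) with hvdef
  have hv0 : v ≠ 0 := (measure_closedBall_pos volume _ hr).ne'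
  have hvt : v ≠ ⊤ := measure_closedBall_lt_top.ne
  have h2 : ‖f x‖ₑ ^ 2 ≤ C / v := by
    rw [ENNReal.le_div_iff_mul_le (Or.inl hv0) (Or.inl hvt), mul_comm]
    exact h.trans h1
  have h3 : (‖f x‖ₑ ^ 2).toReal ≤ (C / v).toReal :=
    ENNReal.toReal_mono (ENNReal.div_ne_top hC hv0) h2
  rw [ENNReal.toReal_pow, toReal_enorm] at h3
  exact Real.le_sqrt_of_sq_le h3

theorem bd_nonneg (r : ℝ) (C : ℝ≥0∞) : 0 ≤ bd n r C := Real.sqrt_nonneg _

theorem lipschitz_of_L2 {f : (Fin n → ℂ) → ℂ} {x : Fin n → ℂ} {r : ℝ} (hr : 0 < r)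
    {D : Set (Fin n → ℂ)} (hD : IsOpen D) (hf : DifferentiableOn ℂ f D)
    (hB : closedBall x (2 * r) ⊆ D) {C : ℝ≥0∞} (hC : C ≠ ⊤)
    (hI : ∫⁻ y in D, ‖f y‖ₑ ^ 2 ≤ C) {y z : Fin n → ℂ} (hy : y ∈ ball x (r / 2))
    (hz : z ∈ ball x (r / 2)) : ‖f y - f z‖ ≤ bd n r C / (r / 2) * ‖y - z‖ := by
  have hsup : ∀ w ∈ ball x r, ‖f w‖ ≤ bd n r C := by
    intro w hw
    refine norm_le_bd hr hD hf (fun u hu => hB ?_) hC hI
    rw [mem_closedBall] at hu ⊢
    rw [mem_ball] at hw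
    linarith [dist_triangle u w x]
  have hsub : ball x r ⊆ D := fun w hw => hB (mem_closedBall.2 (by
    rw [mem_ball] at hw; linarith))
  have hder : ∀ w ∈ ball x (r / 2), ‖fderiv ℂ f w‖ ≤ bd n r C / (r / 2) := by
    intro w hw
    have hsub2 : ball w (r / 2) ⊆ ball x r := by
      intro u hu
      rw [mem_ball] at hu hw ⊢
      linarith [dist_triangle u w x]
    exact Crest.Agent.R266.SCV.norm_fderiv_le_of_ball (by positivity)
      (hf.mono (hsub2.trans hsub)) (fun u hu => hsup u (hsub2 hu))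
  refine (convex_ball x (r / 2)).norm_image_sub_le_of_norm_fderiv_le (𝕜 := ℂ) (fun w hw => ?_)
    hder hz hy
  have hw' : w ∈ D := hsub (ball_subset_ball (by linarith) hw)
  exact hf.differentiableAt (hD.mem_nhds hw')

/-- **Montel's theorem**, `L²` form, along an ultrafilter. -/
theorem montel_L2 {ι : Type*} (U : Set (Fin n → ℂ)) (hU : IsOpen U)
    (F : ι → (Fin n → ℂ) → ℂ) (hF : ∀ i, DifferentiableOn ℂ (F i) U) (C : ℝ≥0∞) (hC : C ≠ ⊤)
    (l : Ultrafilter ι) (hb : ∀ᶠ i in l, ∫⁻ x in U, ‖F i x‖ₑ ^ 2 ≤ C) :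
    ∃ F0 : (Fin n → ℂ) → ℂ, DifferentiableOn ℂ F0 U ∧
      TendstoLocallyUniformlyOn F F0 l U := by
  have hrad : ∀ x ∈ U, ∃ r : ℝ, 0 < r ∧ closedBall x (2 * r) ⊆ U := by
    intro x hx
    obtain ⟨ε, hε, h⟩ := Metric.nhds_basis_closedBall.mem_iff.1 (hU.mem_nhds hx)
    exact ⟨ε / 2, by positivity, by rwa [mul_div_cancel₀ _ (two_ne_zero)]⟩
  have hlim : ∀ x ∈ U, Tendsto (fun i => F i x) l (𝓝 (limUnder (l : Filter ι) (fun i => F i x))) := by
    intro x hx
    obtain ⟨r, hr, hB⟩ := hrad x hx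
    have hbd : ∀ᶠ i in l, F i x ∈ closedBall (0 : ℂ) (bd n r C) := by
      filter_upwards [hb] with i hi
      rw [mem_closedBall_zero_iff]
      exact norm_le_bd hr hU (hF i)
        ((closedBall_subset_closedBall (by linarith)).trans hB) hC hi
    have hle : (↑(l.map (fun i => F i x)) : Filter ℂ) ≤ 𝓟 (closedBall (0 : ℂ) (bd n r C)) := by
      rw [le_principal_iff, Ultrafilter.coe_map]
      exact hbd
    obtain ⟨a, -, ha⟩ := (isCompact_closedBall (0 : ℂ) (bd n r C)).ultrafilter_le_nhds _ hle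
    exact tendsto_nhds_limUnder ⟨a, ha⟩
  refine ⟨fun x => limUnder (l : Filter ι) (fun i => F i x), ?_⟩
  set F0 : (Fin n → ℂ) → ℂ := fun x => limUnder (l : Filter ι) (fun i => F i x) with hF0
  have hconv : TendstoLocallyUniformlyOn F F0 l U := by
    rw [Metric.tendstoLocallyUniformlyOn_iff]
    intro ε hε x hx
    obtain ⟨r, hr, hB⟩ := hrad x hx
    set K : ℝ := bd n r C / (r / 2) with hK
    have hK0 : 0 ≤ K := div_nonneg (bd_nonneg _ _) (by positivity)
    have hsub : ball x (r / 2) ⊆ U := fun w hw => hB (mem_closedBall.2 (by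
      rw [mem_ball] at hw; linarith))
    have hlip0 : ∀ y ∈ ball x (r / 2), ‖F0 y - F0 x‖ ≤ K * ‖y - x‖ := by
      intro y hy
      have h1 : Tendsto (fun i => ‖F i y - F i x‖) l (𝓝 ‖F0 y - F0 x‖) :=
        ((hlim y (hsub hy)).sub (hlim x hx)).norm
      refine le_of_tendsto h1 ?_
      filter_upwards [hb] with i hi
      exact lipschitz_of_L2 hr hU (hF i) hB hC hi hy (mem_ball_self (by positivity))
    set δ : ℝ := min (r / 2) (ε / (3 * (K + 1))) with hδ
    have hδ0 : 0 < δ := lt_min (by positivity) (by positivity)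
    refine ⟨ball x δ, mem_nhdsWithin_of_mem_nhds (ball_mem_nhds x hδ0), ?_⟩
    have hx0 : ∀ᶠ i in l, dist (F i x) (F0 x) < ε / 3 :=
      (Metric.tendsto_nhds.1 (hlim x hx)) (ε / 3) (by positivity)
    filter_upwards [hb, hx0] with i hi hi0 y hy
    have hy' : y ∈ ball x (r / 2) := ball_subset_ball (min_le_left _ _) hy
    have h1 := hlip0 y hy'
    have h2 := lipschitz_of_L2 hr hU (hF i) hB hC hi (mem_ball_self (by positivity)) hy'
    have hyx : ‖y - x‖ < ε / (3 * (K + 1)) := by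
      rw [mem_ball, dist_eq_norm] at hy
      exact hy.trans_le (min_le_right _ _)
    have hKy : K * ‖y - x‖ ≤ ε / 3 := by
      calc K * ‖y - x‖ ≤ (K + 1) * (ε / (3 * (K + 1))) := by
            apply mul_le_mul (by linarith) hyx.le (norm_nonneg _) (by positivity)
        _ = ε / 3 := by field_simp
    rw [norm_sub_rev x y, ← hK] at h2
    rw [dist_eq_norm] at hi0
    rw [dist_eq_norm]
    calc ‖F0 y - F i y‖ = ‖(F0 y - F0 x) + ((F i x - F i y) - (F i x - F0 x))‖ := by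
          congr 1; ring
      _ ≤ ‖F0 y - F0 x‖ + (‖F i x - F i y‖ + ‖F i x - F0 x‖) :=
          (norm_add_le _ _).trans (add_le_add le_rfl (norm_sub_le _ _))
      _ < ε := by
          linarith
  exact ⟨(Crest.Agent.R266.SCV.analyticOnNhd_of_tendstoLocallyUniformlyOn hU hconv
    (Eventually.of_forall hF)).differentiableOn, hconv⟩

end Crest.Agent.R271.Montel297
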