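import Crest.Agent.R271.H4_51
import Crest.Agent.R271.Montel_297

/-!
# Row 271, analytic engine (H), T7a: the limit argument (helper297)

Montel along an ultrafilter in the charts of a Riemann domain, Fatou and monotone convergence.
-/

set_option autoImplicit false
set_option linter.unusedSectionVars false

noncomputable section

open Set Filter Topology MeasureTheory Metric
open scoped ENNReal

namespace Crest.Agent.R271.T7a297

open Ho51

variable {n : ℕ} {M : Type*} [TopologicalSpace M] [RDom n M]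

theorem Hol.continuous {F : M → ℂ} (hF : Hol F) : Continuous F := by
  rw [continuous_iff_continuousAt]
  intro x
  have h1 : ContinuousAt (F ∘ (ch x).symm) (cp x) :=
    ((hF (ch x) (isCh_ch x)).differentiableAt
      ((ch x).open_target.mem_nhds ((isCh_ch x).cp_mem (mem_ch x)))).continuousAt
  have h2 : ContinuousAt (fun y => (F ∘ (ch x).symm) (cp y)) x :=
    ContinuousAt.comp (g := F ∘ (ch x).symm) h1 cp_cont.continuousAt
  exact h2.congr (eventually_eq_comp (isCh_ch x) (mem_ch x) F).symm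

variable [T2Space M] [SecondCountableTopology M] [MeasurableSpace M] [BorelSpace M]

/-- integral over a ball in a chart -/
theorem lintegral_ball_le {μ : Measure M} (hμ : IsLeb μ)
    {e : OpenPartialHomeomorph M (Fin n → ℂ)} (he : IsCh e) {B : Set (Fin n → ℂ)}
    (hB : IsCompact B) (hBt : B ⊆ e.target) {f : M → ℝ≥0∞} (hf : Measurable f) :
    ∫⁻ y in B, f (e.symm y) ≤ ∫⁻ x in e.symm '' B, f x ∂μ := by
  have hS : MeasurableSet (e.symm '' B) :=
    (hB.image_of_continuousOn (e.symm.continuousOn.mono hBt)).isClosed.measurableSet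
  have h1 : ∫⁻ x in e.source, (e.symm '' B).indicator f x ∂μ =
      ∫⁻ y in e.target, (e.symm '' B).indicator f (e.symm y) :=
    lintegral_chart hμ he (hf.indicator hS).aemeasurable
  calc ∫⁻ y in B, f (e.symm y) ≤ ∫⁻ y in B, (e.symm '' B).indicator f (e.symm y) := by
        refine setLIntegral_mono' hB.isClosed.measurableSet fun y hy => ?_
        rw [indicator_of_mem (mem_image_of_mem _ hy)]
    _ ≤ ∫⁻ y in e.target, (e.symm '' B).indicator f (e.symm y) := lintegral_mono_set hBt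
    _ = ∫⁻ x in e.source, (e.symm '' B).indicator f x ∂μ := h1.symm
    _ ≤ ∫⁻ x, (e.symm '' B).indicator f x ∂μ := setLIntegral_le_lintegral _ _
    _ = ∫⁻ x in e.symm '' B, f x ∂μ := lintegral_indicator hS _

theorem enorm_sq_le_aux (a b : ℂ) : ‖a‖ₑ ^ 2 ≤ 2 * ENNReal.ofReal (‖a - b‖ ^ 2) +
    2 * ENNReal.ofReal (‖b‖ ^ 2) := by
  have h1 : ‖a‖ₑ ^ 2 = ENNReal.ofReal (‖a‖ ^ 2) := by
    rw [ENNReal.ofReal_pow (norm_nonneg _), ofReal_norm]
  have h2 : (2 : ℝ≥0∞) = ENNReal.ofReal 2 := by simp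
  rw [h1, h2, ← ENNReal.ofReal_mul (by norm_num), ← ENNReal.ofReal_mul (by norm_num),
    ← ENNReal.ofReal_add (by positivity) (by positivity)]
  apply ENNReal.ofReal_le_ofReal
  have h3 : ‖a‖ ≤ ‖a - b‖ + ‖b‖ := by
    have := norm_add_le (a - b) b
    rwa [sub_add_cancel] at this
  nlinarith [norm_nonneg a, norm_nonneg (a - b), norm_nonneg b, sq_nonneg (‖a - b‖ - ‖b‖)]

section main

variable {μ : Measure M} {ρ : M → ℝ} {φ : ℕ → M → ℝ} {G : M → ℂ} {F : ℕ → M → ℂ} {K : ℝ≥0∞}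

theorem anti_aux (hmono : ∀ k x, φ (k + 1) x ≤ φ k x) {k j : ℕ} (hkj : k ≤ j) (x : M) :
    φ j x ≤ φ k x := by
  have : Antitone fun k => φ k x := antitone_nat_of_succ_le fun k => hmono k x
  exact this hkj

/-- the local bound and Montel's theorem in a chart -/
theorem local_montel (hμ : IsLeb μ) (hρ : Continuous ρ) (hφ : ∀ k, Continuous (φ k))
    (hmono : ∀ k x, φ (k + 1) x ≤ φ k x) (hG : Continuous G) (hF : ∀ k, Hol (F k))
    (hK : K ≠ ⊤)
    (hb : ∀ k : ℕ, ∫⁻ x in {x | ρ x ≤ k},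
      ENNReal.ofReal (‖F k x - G x‖ ^ 2 * Real.exp (-φ k x)) ∂μ ≤ K)
    {e : OpenPartialHomeomorph M (Fin n → ℂ)} (he : IsCh e) {z : Fin n → ℂ} (hz : z ∈ e.target) :
    ∃ r : ℝ, 0 < r ∧ ball z r ⊆ e.target ∧ ∃ f0 : (Fin n → ℂ) → ℂ,
      DifferentiableOn ℂ f0 (ball z r) ∧
      TendstoLocallyUniformlyOn (fun j => F j ∘ e.symm) f0 (hyperfilter ℕ : Filter ℕ)
        (ball z r) := by
  have hlf := hμ.locallyFinite
  obtain ⟨r, hr, hB⟩ := Metric.nhds_basis_closedBall.mem_iff.1 (e.open_target.mem_nhds hz)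
  set B : Set (Fin n → ℂ) := closedBall z r with hBdef
  have hBc : IsCompact B := isCompact_closedBall z r
  set S : Set M := e.symm '' B with hSdef
  have hSc : IsCompact S := hBc.image_of_continuousOn (e.symm.continuousOn.mono hB)
  have hSm : MeasurableSet S := hSc.isClosed.measurableSet
  obtain ⟨b, hb'⟩ := hSc.bddAbove_image hρ.continuousOn
  obtain ⟨k0, hk0⟩ := exists_nat_ge b
  have hSk : ∀ x ∈ S, ρ x ≤ k0 := fun x hx => (hb' (mem_image_of_mem _ hx)).trans hk0
  obtain ⟨m, hm'⟩ := hSc.bddAbove_image (hφ k0).continuousOn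
  have hSm' : ∀ x ∈ S, φ k0 x ≤ m := fun x hx => hm' (mem_image_of_mem _ hx)
  obtain ⟨g, hg'⟩ := hSc.bddAbove_image hG.norm.continuousOn
  have hSg : ∀ x ∈ S, ‖G x‖ ≤ g := fun x hx => hg' (mem_image_of_mem _ hx)
  set C : ℝ≥0∞ := 2 * ENNReal.ofReal (Real.exp m) * K + 2 * ENNReal.ofReal (g ^ 2) * μ S with hCdef
  have hC : C ≠ ⊤ := by
    refine ENNReal.add_ne_top.2 ⟨ENNReal.mul_ne_top (ENNReal.mul_ne_top (by simp)
      ENNReal.ofReal_ne_top) hK, ENNReal.mul_ne_top (ENNReal.mul_ne_top (by simp)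
      ENNReal.ofReal_ne_top) hSc.measure_lt_top.ne⟩
  have hbound : ∀ j, k0 ≤ j → ∫⁻ y in ball z r, ‖(F j ∘ e.symm) y‖ₑ ^ 2 ≤ C := by
    intro j hj
    have hFc : Continuous (F j) := Hol.continuous (hF j)
    have hfm : Measurable fun x => ‖F j x‖ₑ ^ 2 := hFc.enorm.measurable.pow_const 2
    have h1 : ∫⁻ y in B, ‖F j (e.symm y)‖ₑ ^ 2 ≤ ∫⁻ x in S, ‖F j x‖ₑ ^ 2 ∂μ :=
      lintegral_ball_le hμ he hBc hB hfm
    have h2 : ∀ x ∈ S, ‖F j x‖ₑ ^ 2 ≤ 2 * ENNReal.ofReal (Real.exp m) *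
        ENNReal.ofReal (‖F j x - G x‖ ^ 2 * Real.exp (-φ j x)) +
        2 * ENNReal.ofReal (g ^ 2) := by
      intro x hx
      refine (enorm_sq_le_aux (F j x) (G x)).trans (add_le_add ?_ ?_)
      · rw [mul_assoc, ← ENNReal.ofReal_mul (Real.exp_pos m).le]
        refine mul_le_mul_right (ENNReal.ofReal_le_ofReal ?_) _
        have h3 : φ j x ≤ m := (anti_aux hmono hj x).trans (hSm' x hx)
        have h4 : 1 ≤ Real.exp m * Real.exp (-φ j x) := by
          rw [← Real.exp_add]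
          exact Real.one_le_exp (by linarith)
        nlinarith [sq_nonneg ‖F j x - G x‖]
      · refine mul_le_mul_right (ENNReal.ofReal_le_ofReal ?_) _
        have := hSg x hx
        exact pow_le_pow_left₀ (norm_nonneg _) this 2
    have hmeas : Measurable fun x => ENNReal.ofReal (‖F j x - G x‖ ^ 2 * Real.exp (-φ j x)) :=
      ((((hFc.sub hG).norm.pow 2).mul (Real.continuous_exp.comp (hφ j).neg))).measurable.ennreal_ofReal
    have h5 : S ⊆ {x | ρ x ≤ (j : ℝ)} := fun x hx => (hSk x hx).trans (by exact_mod_cast hj)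
    calc ∫⁻ y in ball z r, ‖(F j ∘ e.symm) y‖ₑ ^ 2
        ≤ ∫⁻ y in B, ‖F j (e.symm y)‖ₑ ^ 2 := lintegral_mono_set ball_subset_closedBall
      _ ≤ ∫⁻ x in S, ‖F j x‖ₑ ^ 2 ∂μ := h1
      _ ≤ ∫⁻ x in S, (2 * ENNReal.ofReal (Real.exp m) *
        ENNReal.ofReal (‖F j x - G x‖ ^ 2 * Real.exp (-φ j x)) +
        2 * ENNReal.ofReal (g ^ 2)) ∂μ := setLIntegral_mono' hSm h2
      _ = 2 * ENNReal.ofReal (Real.exp m) *
          ∫⁻ x in S, ENNReal.ofReal (‖F j x - G x‖ ^ 2 * Real.exp (-φ j x)) ∂μ +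
          2 * ENNReal.ofReal (g ^ 2) * μ S := by
        rw [lintegral_add_left (hmeas.const_mul _), lintegral_const_mul _ hmeas,
          setLIntegral_const]
      _ ≤ C := by
        refine add_le_add (mul_le_mul_right ?_ _) le_rfl
        exact (lintegral_mono_set h5).trans (hb j)
  obtain ⟨f0, hf0, hf0'⟩ := Montel297.montel_L2 (ball z r) isOpen_ball (fun j => F j ∘ e.symm)
    (fun j => (hF j e he).mono (ball_subset_closedBall.trans hB)) C hC (hyperfilter ℕ)
    (by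
      have h6 : ∀ᶠ j in (atTop : Filter ℕ), k0 ≤ j := eventually_ge_atTop k0
      have h7 : ∀ᶠ j in (hyperfilter ℕ : Filter ℕ), k0 ≤ j := by
        rw [← Nat.cofinite_eq_atTop] at h6
        exact hyperfilter_le_cofinite h6
      filter_upwards [h7] with j hj
      exact hbound j hj)
  exact ⟨r, hr, ball_subset_closedBall.trans hB, f0, hf0, hf0'⟩

/-- **T7a** -/
theorem engine_limit (hμ : IsLeb μ) (ρ : M → ℝ) (hρ : Continuous ρ)
    (hcpt : ∀ t, IsCompact {x | ρ x ≤ t})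
    (φ : ℕ → M → ℝ) (hφ : ∀ k, Continuous (φ k)) (hmono : ∀ k x, φ (k + 1) x ≤ φ k x)
    (G : M → ℂ) (hG : Continuous G) (F : ℕ → M → ℂ) (hF : ∀ k, Hol (F k))
    (K : ℝ≥0∞) (hK : K ≠ ⊤)
    (hb : ∀ k : ℕ, ∫⁻ x in {x | ρ x ≤ k},
      ENNReal.ofReal (‖F k x - G x‖ ^ 2 * Real.exp (-φ k x)) ∂μ ≤ K) :
    ∃ F0 : M → ℂ, Hol F0 ∧
      ∫⁻ x, ENNReal.ofReal (‖F0 x - G x‖ ^ 2) * (⨆ k, ENNReal.ofReal (Real.exp (-φ k x))) ∂μ
        ≤ K := by
  have hloc := fun {e : OpenPartialHomeomorph M (Fin n → ℂ)} (he : IsCh e) {z : Fin n → ℂ}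
    (hz : z ∈ e.target) => local_montel hμ hρ hφ hmono hG hF hK hb he hz
  set l : Filter ℕ := (hyperfilter ℕ : Filter ℕ) with hl
  -- pointwise limits
  set F0 : M → ℂ := fun x => limUnder l (fun j => F j x) with hF0
  have hlim : ∀ x, Tendsto (fun j => F j x) l (𝓝 (F0 x)) := by
    intro x
    obtain ⟨r, hr, -, f0, -, hf0⟩ := hloc (isCh_ch x) ((isCh_ch x).cp_mem (mem_ch x))
    have h1 := hf0.tendsto_at (mem_ball_self hr)
    have h2 : Tendsto (fun j => F j x) l (𝓝 (f0 (cp x))) := by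
      simpa [symm_cp] using h1
    exact tendsto_nhds_limUnder ⟨_, h2⟩
  have hagree : ∀ {e : OpenPartialHomeomorph M (Fin n → ℂ)} {z : Fin n → ℂ} {r : ℝ}
      {f0 : (Fin n → ℂ) → ℂ}, TendstoLocallyUniformlyOn (fun j => F j ∘ e.symm) f0 l (ball z r) →
      ∀ y ∈ ball z r, f0 y = F0 (e.symm y) := by
    intro e z r f0 hf0 y hy
    exact tendsto_nhds_unique (hf0.tendsto_at hy) (hlim (e.symm y))
  have hHol : Hol F0 := by
    intro e he z hz
    obtain ⟨r, hr, hsub, f0, hd, hf0⟩ := hloc he hz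
    have h1 : DifferentiableAt ℂ f0 z := hd.differentiableAt (isOpen_ball.mem_nhds (mem_ball_self hr))
    refine (h1.congr_of_eventuallyEq ?_).differentiableWithinAt
    filter_upwards [isOpen_ball.mem_nhds (mem_ball_self hr)] with y hy
    exact (hagree hf0 y hy).symm
  have hF0c : Continuous F0 := Hol.continuous hHol
  have hLU : TendstoLocallyUniformly F F0 l := by
    intro u hu x
    obtain ⟨r, hr, hsub, f0, hd, hf0⟩ := hloc (isCh_ch x) ((isCh_ch x).cp_mem (mem_ch x))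
    obtain ⟨t, ht, hev⟩ := hf0 u hu (cp x) (mem_ball_self hr)
    rw [isOpen_ball.nhdsWithin_eq (mem_ball_self hr)] at ht
    refine ⟨(ch x).source ∩ cp ⁻¹' (t ∩ ball (cp x) r), inter_mem
      ((ch x).open_source.mem_nhds (mem_ch x)) (cp_cont.continuousAt.preimage_mem_nhds
        (inter_mem ht (isOpen_ball.mem_nhds (mem_ball_self hr)))), ?_⟩
    filter_upwards [hev] with j hj y hy
    have h1 := hj (cp y) hy.2.1
    rw [hagree hf0 _ hy.2.2] at h1
    simpa [(isCh_ch x).symm_cp hy.1] using h1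
  have hle : l ≤ atTop := by
    rw [← Nat.cofinite_eq_atTop]
    exact hyperfilter_le_cofinite
  -- a subsequence converging uniformly on the sublevel sets
  have hsub : ∀ m : ℕ, ∃ j : ℕ, m ≤ j ∧ ∀ x, ρ x ≤ m → dist (F0 x) (F j x) < 1 / ((m : ℝ) + 1) := by
    intro m
    have h1 : TendstoUniformlyOn F F0 l {x | ρ x ≤ (m : ℝ)} :=
      (tendstoLocallyUniformlyOn_iff_tendstoUniformlyOn_of_compact (hcpt m)).1
        hLU.tendstoLocallyUniformlyOn
    have h2 := (Metric.tendstoUniformlyOn_iff.1 h1) (1 / ((m : ℝ) + 1)) (by positivity)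
    have h3 : ∀ᶠ j in l, m ≤ j := hle (eventually_ge_atTop m)
    obtain ⟨j, hj1, hj2⟩ := (h3.and h2).exists
    exact ⟨j, hj1, fun x hx => hj2 x hx⟩
  choose J hJ1 hJ2 using hsub
  have hJlim : ∀ x, Tendsto (fun m => F (J m) x) atTop (𝓝 (F0 x)) := by
    intro x
    rw [tendsto_iff_dist_tendsto_zero]
    refine squeeze_zero' (Eventually.of_forall fun _ => dist_nonneg) ?_
      tendsto_one_div_add_atTop_nhds_zero_nat
    obtain ⟨m0, hm0⟩ := exists_nat_ge (ρ x)
    filter_upwards [eventually_ge_atTop m0] with m hm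
    rw [dist_comm]
    exact (hJ2 m x (hm0.trans (by exact_mod_cast hm))).le
  have hFc : ∀ j, Continuous (F j) := fun j => Hol.continuous (hF j)
  have hmeasS : ∀ k : ℕ, MeasurableSet {x | ρ x ≤ (k : ℝ)} := fun k =>
    (isClosed_le hρ continuous_const).measurableSet
  -- Fatou
  have hfatou : ∀ k : ℕ, ∫⁻ x in {x | ρ x ≤ (k : ℝ)},
      ENNReal.ofReal (‖F0 x - G x‖ ^ 2) * ENNReal.ofReal (Real.exp (-φ k x)) ∂μ ≤ K := by
    intro k
    have h1 : ∀ x, ENNReal.ofReal (‖F0 x - G x‖ ^ 2) * ENNReal.ofReal (Real.exp (-φ k x)) =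
        liminf (fun m => ENNReal.ofReal (‖F (J m) x - G x‖ ^ 2 * Real.exp (-φ k x))) atTop := by
      intro x
      have h2 : Tendsto (fun m => ENNReal.ofReal (‖F (J m) x - G x‖ ^ 2 * Real.exp (-φ k x)))
          atTop (𝓝 (ENNReal.ofReal (‖F0 x - G x‖ ^ 2 * Real.exp (-φ k x)))) :=
        (ENNReal.continuous_ofReal.tendsto _).comp
          (((((hJlim x).sub_const (G x)).norm).pow 2).mul_const _)
      rw [h2.liminf_eq, ENNReal.ofReal_mul (by positivity)]
    simp only [h1]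
    refine (lintegral_liminf_le fun m => ?_).trans ?_
    · exact (((((hFc (J m)).sub hG).norm.pow 2).mul
        (Real.continuous_exp.comp (hφ k).neg))).measurable.ennreal_ofReal
    · refine liminf_le_of_frequently_le' (Eventually.frequently ?_)
      filter_upwards [eventually_ge_atTop k] with m hm
      have hkJ : k ≤ J m := hm.trans (hJ1 m)
      refine le_trans ?_ (hb (J m))
      refine (setLIntegral_mono' (hmeasS k) (g := fun x =>
        ENNReal.ofReal (‖F (J m) x - G x‖ ^ 2 * Real.exp (-φ (J m) x))) fun x _ => ?_).trans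
        (lintegral_mono_set fun x hx => ?_)
      · refine ENNReal.ofReal_le_ofReal (mul_le_mul_of_nonneg_left ?_ (by positivity))
        exact Real.exp_le_exp.2 (neg_le_neg (anti_aux hmono hkJ x))
      · exact le_trans (show ρ x ≤ (k : ℝ) from hx) (by exact_mod_cast hkJ)
  -- monotone convergence
  refine ⟨F0, hHol, ?_⟩
  set g : ℕ → M → ℝ≥0∞ := fun k => {x | ρ x ≤ (k : ℝ)}.indicator
    (fun x => ENNReal.ofReal (‖F0 x - G x‖ ^ 2) * ENNReal.ofReal (Real.exp (-φ k x))) with hg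
  have hgm : ∀ k, Measurable (g k) := fun k =>
    ((((hF0c.sub hG).norm.pow 2).measurable.ennreal_ofReal).mul
      (Real.continuous_exp.comp (hφ k).neg).measurable.ennreal_ofReal).indicator (hmeasS k)
  have hexp : ∀ x {k k' : ℕ}, k ≤ k' → ENNReal.ofReal (Real.exp (-φ k x)) ≤
      ENNReal.ofReal (Real.exp (-φ k' x)) := fun x k k' h =>
    ENNReal.ofReal_le_ofReal (Real.exp_le_exp.2 (neg_le_neg (anti_aux hmono h x)))
  have hgmono : Monotone g := by
    intro k k' hkk' x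
    by_cases hx : ρ x ≤ (k : ℝ)
    · have hx' : ρ x ≤ (k' : ℝ) := hx.trans (by exact_mod_cast hkk')
      simp only [hg, indicator_of_mem (show x ∈ {x | ρ x ≤ (k : ℝ)} from hx),
        indicator_of_mem (show x ∈ {x | ρ x ≤ (k' : ℝ)} from hx')]
      exact mul_le_mul_right (hexp x hkk') _
    · simp only [hg, indicator_of_notMem (show x ∉ {x | ρ x ≤ (k : ℝ)} from hx)]
      exact zero_le
  have hsup : ∀ x, ENNReal.ofReal (‖F0 x - G x‖ ^ 2) *
      (⨆ k, ENNReal.ofReal (Real.exp (-φ k x))) = ⨆ k, g k x := by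
    intro x
    rw [ENNReal.mul_iSup]
    apply le_antisymm
    · refine iSup_le fun k => ?_
      obtain ⟨m0, hm0⟩ := exists_nat_ge (ρ x)
      have hx : ρ x ≤ ((max k m0 : ℕ) : ℝ) := hm0.trans (by exact_mod_cast le_max_right _ _)
      refine le_trans ?_ (le_iSup (fun k => g k x) (max k m0))
      simp only [hg, indicator_of_mem (show x ∈ {x | ρ x ≤ ((max k m0 : ℕ) : ℝ)} from hx)]
      exact mul_le_mul_right (hexp x (le_max_left _ _)) _
    · refine iSup_mono fun k => ?_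
      exact indicator_le_self _ _ _
  simp only [hsup]
  rw [lintegral_iSup hgm hgmono]
  refine iSup_le fun k => ?_
  simp only [hg]
  rw [lintegral_indicator (hmeasS k)]
  exact hfatou k

end main

end Crest.Agent.R271.T7a297
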