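import Crest.Agent.R271.H4_51
import Crest.Agent.R271.H4_88

/-!
# Row 271, analytic engine (H), piece T7b2: the basic estimate for compactly supported `L²` forms
(helper88)
-/

set_option autoImplicit false
set_option linter.unusedSectionVars false

noncomputable section

open Set Filter Topology MeasureTheory ComplexConjugate
open scoped ENNReal

namespace Crest.Agent.R271.H88

open Crest.Agent.R271.Ho51

variable {n : ℕ} {M : Type*} [TopologicalSpace M] [RDom n M] [MeasurableSpace M] [BorelSpace M]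

/-- the statement of the a priori inequality (T2) -/
def Apriori (μ : Measure M) : Prop :=
  ∀ (phi psi : M → ℝ), Sm phi → Sm psi → ∀ f : M → (Fin n → ℂ), Sm f → HasCompactSupport f →
    ∫ x, Levi phi x (f x) * Real.exp (-phi x) ∂μ ≤
      2 * ∫ x, ‖∑ j, (dz j (fun y => f y j) x -
          f x j * dz j (fun y => ((phi y - psi y : ℝ) : ℂ)) x)‖ ^ 2 * Real.exp (-phi x) ∂μ
      + 2 * ∫ x, nsq (f x) * nsq (fun j => dz j (fun y => (psi y : ℂ)) x) * Real.exp (-phi x) ∂μ
      + (1 / 2) * ∑ j, ∑ k, ∫ x, ‖db j (fun y => f y k) x - db k (fun y => f y j) x‖ ^ 2 *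
          Real.exp (-phi x) ∂μ

variable {μ : Measure M}

lemma Lv_continuous {φ : M → ℝ} (hφ : Sm φ) (j k : Fin n) : Continuous (fun x => Lv φ x j k) :=
  ((hφ.ofReal.db k).dz j).continuous

lemma Levi_continuous {φ : M → ℝ} (hφ : Sm φ) {f : M → Fin n → ℂ} (hf : Continuous f) :
    Continuous (fun x => Levi φ x (f x)) := by
  unfold Levi
  refine Complex.continuous_re.comp ?_
  refine continuous_finsetSum _ fun j _ => continuous_finsetSum _ fun k _ => ?_
  exact ((Lv_continuous hφ j k).mul ((continuous_apply j).comp hf)).mul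
    (Complex.continuous_conj.comp ((continuous_apply k).comp hf))

lemma Levi_zero (φ : M → ℝ) (x : M) : Levi φ x 0 = 0 := by
  simp [Levi]

lemma nsq_zero : nsq (0 : Fin n → ℂ) = 0 := by simp [nsq]

lemma nsq_continuous : Continuous (nsq : (Fin n → ℂ) → ℝ) := by
  unfold nsq
  exact continuous_finsetSum _ fun j _ => ((continuous_apply j).norm).pow 2

/-- the integral of a square -/
lemma sq_int {V : Type*} [NormedAddCommGroup V] {G : M → V} (hG : MemLp G 2 μ) :
    ∫ x, ‖G x‖ ^ 2 ∂μ = (eLpNorm G 2 μ).toReal ^ 2 := by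
  rw [eLpNorm_eq_lintegral_rpow_enorm_toReal (by norm_num) (by norm_num),
    integral_eq_lintegral_of_nonneg_ae (f := fun x => ‖G x‖ ^ 2)
      (Eventually.of_forall fun x => by positivity) ((hG.1.norm.pow 2))]
  have e : ∀ x, ENNReal.ofReal (‖G x‖ ^ 2) = ‖G x‖ₑ ^ (ENNReal.toReal 2) := by
    intro x
    rw [ENNReal.ofReal_pow (norm_nonneg _), ofReal_norm]
    simp
  simp_rw [e]
  rw [← ENNReal.toReal_rpow, ← Real.rpow_natCast, ← Real.rpow_mul ENNReal.toReal_nonneg]
  simp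

lemma tendsto_sq {V : Type*} [NormedAddCommGroup V] {H : ℕ → M → V} {H0 : M → V}
    (hH : ∀ k, MemLp (H k) 2 μ) (hH0 : MemLp H0 2 μ)
    (h : Tendsto (fun k => eLpNorm (H k - H0) 2 μ) atTop (𝓝 0)) :
    Tendsto (fun k => ∫ x, ‖H k x‖ ^ 2 ∂μ) atTop (𝓝 (∫ x, ‖H0 x‖ ^ 2 ∂μ)) := by
  have h1 := ((Lp.tendsto_Lp_iff_tendsto_eLpNorm'' H hH H0 hH0).2 h).norm
  simp only [Lp.norm_toLp] at h1
  rw [sq_int hH0]
  simp_rw [sq_int (hH _)]
  exact h1.pow 2

/-- `L²` convergence of functions supported in a compact set, controlled by `p k`, `q k`. -/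
lemma tendsto_of_bound {V : Type*} [NormedAddCommGroup V] {P Q : Type*} [NormedAddCommGroup P]
    [NormedAddCommGroup Q] {H : ℕ → M → V} {H0 : M → V} {p : ℕ → M → P} {q : ℕ → M → Q}
    (hp : ∀ k, AEStronglyMeasurable (p k) μ) (hq : ∀ k, AEStronglyMeasurable (q k) μ)
    (hpt : Tendsto (fun k => eLpNorm (p k) 2 μ) atTop (𝓝 0))
    (hqt : Tendsto (fun k => eLpNorm (q k) 2 μ) atTop (𝓝 0)) {C : ℝ} (_hC : 0 ≤ C)
    (hb : ∀ k x, ‖H k x - H0 x‖ ≤ C * (‖p k x‖ + ‖q k x‖)) :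
    Tendsto (fun k => eLpNorm (H k - H0) 2 μ) atTop (𝓝 0) := by
  have h1 : ∀ k, eLpNorm (H k - H0) 2 μ ≤
      ENNReal.ofReal C * (eLpNorm (p k) 2 μ + eLpNorm (q k) 2 μ) := by
    intro k
    have h2 : eLpNorm (H k - H0) 2 μ ≤
        ENNReal.ofReal C * eLpNorm (fun x => ‖p k x‖ + ‖q k x‖) 2 μ := by
      refine eLpNorm_le_mul_eLpNorm_of_ae_le_mul (Eventually.of_forall fun x => ?_) 2
      refine (hb k x).trans (le_of_eq ?_)
      rw [Real.norm_of_nonneg (by positivity)]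
    refine h2.trans ?_
    gcongr
    refine (eLpNorm_add_le (hp k).norm (hq k).norm (by norm_num)).trans ?_
    rw [eLpNorm_norm, eLpNorm_norm]
  have h3 : Tendsto (fun k => ENNReal.ofReal C * (eLpNorm (p k) 2 μ + eLpNorm (q k) 2 μ)) atTop
      (𝓝 0) := by
    have := ENNReal.Tendsto.const_mul (a := ENNReal.ofReal C) (hpt.add hqt)
      (Or.inr ENNReal.ofReal_ne_top)
    simpa using this
  exact tendsto_of_tendsto_of_tendsto_of_le_of_le tendsto_const_nhds h3 (fun _ => zero_le) h1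

section main

variable [T2Space M]
  {Phi chi psi : M → ℝ} {al : M → (Fin n → ℂ)} {kap : M → ℝ} {K0 : ℝ}

/-- Cauchy–Schwarz for the pairing. -/
lemma pairing_cs (hμ : IsLeb μ) (hPhi : Sm Phi) (hchi : Sm chi)
    (hpos : ∀ x w, 0 ≤ Levi Phi x w)
    (h2 : ∀ x, 2 * psi x ≤ chi x) (hkap0 : ∀ x, 0 ≤ kap x)
    (hkapm : Measurable kap)
    (hk : ∀ x (w : Fin n → ℂ), ‖∑ j, al x j * conj (w j)‖ ^ 2 ≤ kap x * Levi Phi x w)
    (hK0 : 0 ≤ K0)
    (hK : ∫⁻ x, ENNReal.ofReal (kap x * Real.exp (-Phi x)) ∂μ ≤ ENNReal.ofReal K0)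
    {f : M → (Fin n → ℂ)} (hf : Sm f) (hfc : HasCompactSupport f) :
    ‖∫ x, (∑ j, al x j * conj (f x j)) * (Real.exp (-(Phi x + chi x - psi x)) : ℂ) ∂μ‖ ^ 2 ≤
      K0 * ∫ x, Levi Phi x (f x) * Real.exp (-(Phi x + chi x)) ∂μ := by
  have hloc := hμ.locallyFinite
  set a : M → ℝ := fun x => kap x * Real.exp (-Phi x) with ha
  set b : M → ℝ := fun x => Levi Phi x (f x) * Real.exp (-(Phi x + chi x)) with hb
  have ha0 : ∀ x, 0 ≤ a x := fun x => mul_nonneg (hkap0 x) (Real.exp_pos _).le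
  have hb0 : ∀ x, 0 ≤ b x := fun x => mul_nonneg (hpos x _) (Real.exp_pos _).le
  have hbc : Continuous b := (Levi_continuous hPhi hf.continuous).mul
    (Real.continuous_exp.comp (hPhi.continuous.add hchi.continuous).neg)
  have hbs : HasCompactSupport b := by
    refine hfc.mono' ?_
    intro x hx
    by_contra hxs
    apply hx
    simp only [hb]
    rw [image_eq_zero_of_notMem_tsupport hxs, Levi_zero, zero_mul]
  have hbi : Integrable b μ := hbc.integrable_of_hasCompactSupport hbs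
  have ham : Measurable a := hkapm.mul
    (Real.measurable_exp.comp hPhi.continuous.measurable.neg)
  have hbm : Measurable b := hbc.measurable
  have hpt : ∀ x, ‖(∑ j, al x j * conj (f x j)) *
      (Real.exp (-(Phi x + chi x - psi x)) : ℂ)‖ ≤ Real.sqrt (a x) * Real.sqrt (b x) := by
    intro x
    rw [norm_mul, Complex.norm_real, Real.norm_of_nonneg (Real.exp_pos _).le,
      ← Real.sqrt_mul (ha0 x)]
    apply Real.le_sqrt_of_sq_le
    rw [mul_pow]
    have e1 : Real.exp (-(Phi x + chi x - psi x)) ^ 2 ≤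
        Real.exp (-Phi x) * Real.exp (-(Phi x + chi x)) := by
      rw [sq, ← Real.exp_add, ← Real.exp_add]
      apply Real.exp_le_exp.2
      have := h2 x
      linarith
    calc ‖∑ j, al x j * conj (f x j)‖ ^ 2 * Real.exp (-(Phi x + chi x - psi x)) ^ 2
        ≤ (kap x * Levi Phi x (f x)) * (Real.exp (-Phi x) * Real.exp (-(Phi x + chi x))) :=
          mul_le_mul (hk x (f x)) e1 (by positivity) (mul_nonneg (hkap0 x) (hpos x _))
      _ = a x * b x := by simp only [ha, hb]; ring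
  have key : ‖∫ x, (∑ j, al x j * conj (f x j)) *
      (Real.exp (-(Phi x + chi x - psi x)) : ℂ) ∂μ‖ₑ ^ 2 ≤
      (∫⁻ x, ENNReal.ofReal (a x) ∂μ) * ∫⁻ x, ENNReal.ofReal (b x) ∂μ := by
    have h3 : ‖∫ x, (∑ j, al x j * conj (f x j)) *
        (Real.exp (-(Phi x + chi x - psi x)) : ℂ) ∂μ‖ₑ ≤
        ∫⁻ x, ENNReal.ofReal (Real.sqrt (a x)) * ENNReal.ofReal (Real.sqrt (b x)) ∂μ := by
      refine (enorm_integral_le_lintegral_enorm _).trans (lintegral_mono fun x => ?_)
      rw [← ofReal_norm, ← ENNReal.ofReal_mul (Real.sqrt_nonneg _)]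
      exact ENNReal.ofReal_le_ofReal (hpt x)
    have h4 := ENNReal.lintegral_mul_le_Lp_mul_Lq μ Real.HolderConjugate.two_two
      (f := fun x => ENNReal.ofReal (Real.sqrt (a x)))
      (g := fun x => ENNReal.ofReal (Real.sqrt (b x)))
      ham.sqrt.ennreal_ofReal.aemeasurable hbm.sqrt.ennreal_ofReal.aemeasurable
    have e2 : ∀ {c : M → ℝ}, (∀ x, 0 ≤ c x) → ∀ x,
        ENNReal.ofReal (Real.sqrt (c x)) ^ (2 : ℝ) = ENNReal.ofReal (c x) := by
      intro c hc x
      rw [ENNReal.ofReal_rpow_of_nonneg (Real.sqrt_nonneg _) (by norm_num)]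
      congr 1
      rw [show (2 : ℝ) = ((2 : ℕ) : ℝ) by norm_num, Real.rpow_natCast, Real.sq_sqrt (hc x)]
    simp only [e2 ha0, e2 hb0, Pi.mul_apply] at h4
    calc ‖∫ x, (∑ j, al x j * conj (f x j)) *
        (Real.exp (-(Phi x + chi x - psi x)) : ℂ) ∂μ‖ₑ ^ 2
        ≤ ((∫⁻ x, ENNReal.ofReal (a x) ∂μ) ^ (1 / 2 : ℝ) *
          (∫⁻ x, ENNReal.ofReal (b x) ∂μ) ^ (1 / 2 : ℝ)) ^ 2 :=
          pow_le_pow_left' (h3.trans h4) 2
      _ = (∫⁻ x, ENNReal.ofReal (a x) ∂μ) * ∫⁻ x, ENNReal.ofReal (b x) ∂μ := by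
          rw [mul_pow, ← ENNReal.rpow_natCast, ← ENNReal.rpow_natCast, ← ENNReal.rpow_mul,
            ← ENNReal.rpow_mul]
          norm_num
  have h5 : ∫⁻ x, ENNReal.ofReal (b x) ∂μ = ENNReal.ofReal (∫ x, b x ∂μ) :=
    (ofReal_integral_eq_lintegral_ofReal hbi (Eventually.of_forall hb0)).symm
  rw [h5] at key
  have h6 := key.trans (mul_le_mul_left hK _)
  rw [← ENNReal.ofReal_mul hK0, ← ofReal_norm, ← ENNReal.ofReal_pow (norm_nonneg _)] at h6
  have h7 : 0 ≤ K0 * ∫ x, b x ∂μ := mul_nonneg hK0 (integral_nonneg hb0)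
  exact (ENNReal.ofReal_le_ofReal_iff h7).1 h6

/-- the estimate for test forms -/
lemma pairing_test (hμ : IsLeb μ) (hap : Apriori μ) (hPhi : Sm Phi) (hchi : Sm chi)
    (hpsi : Sm psi) (hpos : ∀ x w, 0 ≤ Levi Phi x w)
    (hL : ∀ x w, 2 * nsq (fun j => dz j (fun y => (psi y : ℂ)) x) * nsq w ≤ Levi chi x w)
    (h2 : ∀ x, 2 * psi x ≤ chi x) (hkap0 : ∀ x, 0 ≤ kap x)
    (hkapm : Measurable kap)
    (hk : ∀ x (w : Fin n → ℂ), ‖∑ j, al x j * conj (w j)‖ ^ 2 ≤ kap x * Levi Phi x w)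
    (hK0 : 0 ≤ K0)
    (hK : ∫⁻ x, ENNReal.ofReal (kap x * Real.exp (-Phi x)) ∂μ ≤ ENNReal.ofReal K0)
    {f : M → (Fin n → ℂ)} (hf : Sm f) (hfc : HasCompactSupport f) :
    ‖∫ x, (∑ j, al x j * conj (f x j)) * (Real.exp (-(Phi x + chi x - psi x)) : ℂ) ∂μ‖ ^ 2 ≤
      K0 * (2 * ∫ x, ‖(Lop n (D f x)).1 - ∑ j, f x j *
          dz j (fun y => ((Phi y + chi y - psi y : ℝ) : ℂ)) x‖ ^ 2 *
            Real.exp (-(Phi x + chi x)) ∂μ +
        (1 / 2) * ∑ j, ∑ k, ∫ x, ‖(Lop n (D f x)).2 j k‖ ^ 2 *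
            Real.exp (-(Phi x + chi x)) ∂μ) := by
  have hloc := hμ.locallyFinite
  refine (pairing_cs hμ hPhi hchi hpos h2 hkap0 hkapm hk hK0 hK hf hfc).trans ?_
  refine mul_le_mul_of_nonneg_left ?_ hK0
  have h3 := hap (fun x => Phi x + chi x) psi (hPhi.add hchi) hpsi f hf hfc
  have e1 : ∀ x, (Lop n (D f x)).1 - ∑ j, f x j *
          dz j (fun y => ((Phi y + chi y - psi y : ℝ) : ℂ)) x =
      ∑ j, (dz j (fun y => f y j) x - f x j *
          dz j (fun y => ((Phi y + chi y - psi y : ℝ) : ℂ)) x) := by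
    intro x
    rw [Lop_D_fst hf, Finset.sum_sub_distrib]
  simp_rw [e1, Lop_D_snd hf]
  have hcs : ∀ (g : M → ℝ), Continuous g → (∀ x, f x = 0 → g x = 0) → Integrable g μ := by
    intro g hg hg0
    refine hg.integrable_of_hasCompactSupport (hfc.mono' ?_)
    intro x hx
    by_contra hxs
    exact hx (hg0 x (image_eq_zero_of_notMem_tsupport hxs))
  have hexp : Continuous fun x => Real.exp (-(Phi x + chi x)) :=
    Real.continuous_exp.comp (hPhi.continuous.add hchi.continuous).neg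
  have hdpsi : Continuous fun x => nsq (fun j => dz j (fun y => (psi y : ℂ)) x) := by
    refine nsq_continuous.comp ?_
    exact continuous_pi fun j => (hpsi.ofReal.dz j).continuous
  have i1 : Integrable (fun x => Levi Phi x (f x) * Real.exp (-(Phi x + chi x))) μ :=
    hcs _ ((Levi_continuous hPhi hf.continuous).mul hexp) fun x hx => by rw [hx, Levi_zero]; ring
  have i2 : Integrable (fun x => nsq (f x) * nsq (fun j => dz j (fun y => (psi y : ℂ)) x) *
      Real.exp (-(Phi x + chi x))) μ :=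
    hcs _ (((nsq_continuous.comp hf.continuous).mul hdpsi).mul hexp) fun x hx => by
      rw [hx, nsq_zero]; ring
  have i3 : Integrable (fun x => Levi (fun y => Phi y + chi y) x (f x) *
      Real.exp (-(Phi x + chi x))) μ :=
    hcs _ ((Levi_continuous (hPhi.add hchi) hf.continuous).mul hexp) fun x hx => by
      rw [hx, Levi_zero]; ring
  have h4 : ∫ x, Levi Phi x (f x) * Real.exp (-(Phi x + chi x)) ∂μ +
      2 * ∫ x, nsq (f x) * nsq (fun j => dz j (fun y => (psi y : ℂ)) x) *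
        Real.exp (-(Phi x + chi x)) ∂μ ≤
      ∫ x, Levi (fun y => Phi y + chi y) x (f x) * Real.exp (-(Phi x + chi x)) ∂μ := by
    rw [← integral_const_mul, ← integral_add i1 (i2.const_mul 2)]
    refine integral_mono (i1.add (i2.const_mul 2)) i3 fun x => ?_
    show Levi Phi x (f x) * Real.exp (-(Phi x + chi x)) +
      2 * (nsq (f x) * nsq (fun j => dz j (fun y => (psi y : ℂ)) x) *
        Real.exp (-(Phi x + chi x))) ≤ _
    rw [Levi_add hPhi hchi]
    have h5 := hL x (f x)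
    have h6 := Real.exp_pos (-(Phi x + chi x))
    nlinarith
  linarith

/-- **T7b2**: the estimate for compactly supported `L²` forms. -/
theorem pairing_compact (hμ : IsLeb μ) (hap : Apriori μ) (hPhi : Sm Phi) (hchi : Sm chi)
    (hpsi : Sm psi) (hpos : ∀ x w, 0 ≤ Levi Phi x w)
    (hL : ∀ x w, 2 * nsq (fun j => dz j (fun y => (psi y : ℂ)) x) * nsq w ≤ Levi chi x w)
    (h2 : ∀ x, 2 * psi x ≤ chi x) (hal : Continuous al) (hkap0 : ∀ x, 0 ≤ kap x)
    (hkapm : Measurable kap)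
    (hk : ∀ x (w : Fin n → ℂ), ‖∑ j, al x j * conj (w j)‖ ^ 2 ≤ kap x * Levi Phi x w)
    (hK0 : 0 ≤ K0)
    (hKint : ∫⁻ x, ENNReal.ofReal (kap x * Real.exp (-Phi x)) ∂μ ≤ ENNReal.ofReal K0)
    {v : M → (Fin n → ℂ)} {d : M → ℂ} {s : M → Fin n → Fin n → ℂ}
    (hv : MemLp v 2 μ) (hd : MemLp d 2 μ) (hs : MemLp s 2 μ) {K : Set M} (hK : IsCompact K)
    (hvK : ∀ x ∉ K, v x = 0) (hdK : ∀ x ∉ K, d x = 0) (hsK : ∀ x ∉ K, s x = 0)
    (hw : WP μ (Lop n) v (fun x => (d x, s x))) :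
    ‖∫ x, (∑ j, al x j * conj (v x j)) * (Real.exp (-(Phi x + chi x - psi x)) : ℂ) ∂μ‖ ^ 2 ≤
      K0 * (2 * ∫ x, ‖d x - ∑ j, v x j *
          dz j (fun y => ((Phi y + chi y - psi y : ℝ) : ℂ)) x‖ ^ 2 *
            Real.exp (-(Phi x + chi x)) ∂μ +
        (1 / 2) * ∑ j, ∑ k, ∫ x, ‖s x j k‖ ^ 2 * Real.exp (-(Phi x + chi x)) ∂μ) := by
  have hloc := hμ.locallyFinite
  -- a relatively compact neighbourhood of `K`
  obtain ⟨U, K', hU, hKU, hUK', hK'⟩ : ∃ U K' : Set M, IsOpen U ∧ K ⊆ U ∧ U ⊆ K' ∧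
      IsCompact K' := by
    obtain ⟨m, c, g, hg, hsum⟩ := exists_pou (M := M) hK
    refine ⟨{x | 0 < ∑ i, g i x}, ⋃ i, tsupport (g i), ?_, ?_, ?_, ?_⟩
    · exact isOpen_lt continuous_const (Sm.sum fun i _ => (hg i).1).continuous
    · intro x hx
      have := hsum.self_of_nhdsSet x hx
      simp [this]
    · intro x hx
      by_contra hcon
      have h0 : ∑ i, g i x = 0 := Finset.sum_eq_zero fun i _ => by
        by_contra hne
        exact hcon (mem_iUnion.2 ⟨i, subset_tsupport _ hne⟩)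
      rw [mem_ofPred_eq, h0] at hx
      exact lt_irrefl _ hx
    · exact isCompact_iUnion fun i => (hg i).2.1
  have hwm : MemLp (fun x => (d x, s x)) 2 μ := by
    refine MemLp.of_le_mul (g := fun x => ‖d x‖ + ‖s x‖) (c := 1) (hd.norm.add hs.norm)
      (hd.1.prodMk hs.1) (Eventually.of_forall fun x => ?_)
    rw [one_mul, Real.norm_of_nonneg (by positivity), Prod.norm_def]
    exact max_le (le_add_of_nonneg_right (norm_nonneg _)) (le_add_of_nonneg_left (norm_nonneg _))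
  have hKK' : K ⊆ K' := hKU.trans hUK'
  have hε : ∀ k : ℕ, (0 : ℝ≥0∞) < ((k : ℝ≥0∞) + 1)⁻¹ := fun k => by
    rw [ENNReal.inv_pos]; simp
  choose f hfs hfc hfU hf1 hf2 using fun k : ℕ => density_compact hμ (Lop n) v
    (fun x => (d x, s x)) hv hwm K hK hvK (fun x hx => by rw [hdK x hx, hsK x hx]; rfl) hw U hU hKU
    ((k : ℝ≥0∞) + 1)⁻¹ (hε k)
  have hfz : ∀ k, ∀ x ∉ K', f k x = 0 := fun k x hx =>
    image_eq_zero_of_notMem_tsupport fun hc => hx (hUK' (hfU k hc))
  have hDz : ∀ k, ∀ x ∉ K', D (f k) x = 0 := fun k x hx =>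
    image_eq_zero_of_notMem_tsupport fun hc => hx (hUK' (hfU k (tsupport_D _ hc)))
  have hvz : ∀ x ∉ K', v x = 0 := fun x hx => hvK x fun hc => hx (hKK' hc)
  have hdz : ∀ x ∉ K', d x = 0 := fun x hx => hdK x fun hc => hx (hKK' hc)
  have hsz : ∀ x ∉ K', s x = 0 := fun x hx => hsK x fun hc => hx (hKK' hc)
  have hinv : Tendsto (fun k : ℕ => ((k : ℝ≥0∞) + 1)⁻¹) atTop (𝓝 0) := by
    have h1 := ENNReal.tendsto_inv_nat_nhds_zero
    have h3 := (tendsto_add_atTop_iff_nat (f := fun k : ℕ => ((k : ℝ≥0∞))⁻¹) 1).2 h1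
    simpa using h3
  -- the two basic convergences
  have t1 : Tendsto (fun k => eLpNorm (f k - v) 2 μ) atTop (𝓝 0) :=
    tendsto_of_tendsto_of_tendsto_of_le_of_le tendsto_const_nhds hinv (fun _ => zero_le) hf1
  have t2 : Tendsto (fun k => eLpNorm (fun x => Lop n (D (f k) x) - (d x, s x)) 2 μ) atTop
      (𝓝 0) :=
    tendsto_of_tendsto_of_tendsto_of_le_of_le tendsto_const_nhds hinv (fun _ => zero_le) hf2
  have mfv : ∀ k, AEStronglyMeasurable (f k - v) μ := fun k =>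
    (hfs k).continuous.aestronglyMeasurable.sub hv.1
  have mDf : ∀ k, AEStronglyMeasurable (fun x => Lop n (D (f k) x)) μ := fun k =>
    ((Lop n).continuous.comp (hfs k).D.continuous).aestronglyMeasurable
  have mw : ∀ k, AEStronglyMeasurable (fun x => Lop n (D (f k) x) - (d x, s x)) μ := fun k =>
    (mDf k).sub hwm.1
  -- weights
  set E1 : M → ℝ := fun x => Real.exp (-(Phi x + chi x - psi x)) with hE1
  set E2 : M → ℝ := fun x => Real.exp (-(Phi x + chi x) / 2) with hE2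
  set th : Fin n → M → ℂ := fun j x => dz j (fun y => ((Phi y + chi y - psi y : ℝ) : ℂ)) x with hth
  have hE1c : Continuous E1 := Real.continuous_exp.comp
    ((hPhi.continuous.add hchi.continuous).sub hpsi.continuous).neg
  have hE2c : Continuous E2 := Real.continuous_exp.comp
    ((hPhi.continuous.add hchi.continuous).neg.div_const 2)
  have hE2sq : ∀ x, Real.exp (-(Phi x + chi x)) = E2 x ^ 2 := fun x => by
    rw [hE2, sq, ← Real.exp_add]; congr 1; ring
  have hthc : ∀ j, Continuous (th j) := fun j =>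
    ((Sm.ofReal ((hPhi.add hchi).sub hpsi)).dz j).continuous
  obtain ⟨C2, hC2⟩ := hK'.exists_bound_of_continuousOn hE2c.continuousOn
  obtain ⟨C3, hC3⟩ := hK'.exists_bound_of_continuousOn
    (f := fun x => ∑ j, ‖th j x‖) (continuous_finsetSum _ fun j _ => (hthc j).norm).continuousOn
  obtain ⟨C1, hC1⟩ := hK'.exists_bound_of_continuousOn
    (f := fun x => (∑ j, ‖al x j‖) * E1 x)
    ((continuous_finsetSum _ fun j _ => ((continuous_apply j).comp hal).norm).mul hE1c).continuousOn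
  have hC2' : ∀ x ∈ K', E2 x ≤ |C2| := fun x hx =>
    (le_abs_self _).trans ((hC2 x hx).trans (le_abs_self _))
  have hC3' : ∀ x ∈ K', ∑ j, ‖th j x‖ ≤ |C3| := fun x hx =>
    (le_abs_self _).trans ((hC3 x hx).trans (le_abs_self _))
  have hC1' : ∀ x ∈ K', (∑ j, ‖al x j‖) * E1 x ≤ |C1| := fun x hx =>
    (le_abs_self _).trans ((hC1 x hx).trans (le_abs_self _))
  have hE2p : ∀ x, 0 ≤ E2 x := fun x => (Real.exp_pos _).le
  have hE1p : ∀ x, 0 ≤ E1 x := fun x => (Real.exp_pos _).le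
  -- the pairing converges
  have hsumle : ∀ (x : M) (a b : Fin n → ℂ), ‖∑ j, a j * conj (b j)‖ ≤ (∑ j, ‖a j‖) * ‖b‖ := by
    intro x a b
    refine (norm_sum_le _ _).trans ?_
    rw [Finset.sum_mul]
    refine Finset.sum_le_sum fun j _ => ?_
    rw [norm_mul, Complex.norm_conj]
    gcongr
    exact norm_le_pi_norm b j
  have hsumle' : ∀ (x : M) (a b : Fin n → ℂ), ‖∑ j, b j * a j‖ ≤ (∑ j, ‖a j‖) * ‖b‖ := by
    intro x a b
    refine (norm_sum_le _ _).trans ?_
    rw [Finset.sum_mul]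
    refine Finset.sum_le_sum fun j _ => ?_
    rw [norm_mul, mul_comm]
    gcongr
    exact norm_le_pi_norm b j
  have mcomp : ∀ {u : M → (Fin n → ℂ)}, AEStronglyMeasurable u μ → ∀ j : Fin n,
      AEStronglyMeasurable (fun x => u x j) μ := fun {u} hu j =>
    (continuous_apply j).comp_aestronglyMeasurable hu
  have mpair : ∀ {u : M → (Fin n → ℂ)}, AEStronglyMeasurable u μ →
      AEStronglyMeasurable (fun x => (∑ j, al x j * conj (u x j)) * (E1 x : ℂ)) μ := by
    intro u hu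
    refine AEStronglyMeasurable.mul ?_
      (Complex.continuous_ofReal.comp hE1c).aestronglyMeasurable
    refine Finset.aestronglyMeasurable_fun_sum _ fun j _ => ?_
    exact (((continuous_apply j).comp hal).aestronglyMeasurable).mul
      (Complex.continuous_conj.comp_aestronglyMeasurable (mcomp hu j))
  have hPb : ∀ (u u' : M → (Fin n → ℂ)), (∀ x ∉ K', u x = 0) → (∀ x ∉ K', u' x = 0) → ∀ x,
      ‖(∑ j, al x j * conj (u x j)) * (E1 x : ℂ) - (∑ j, al x j * conj (u' x j)) * (E1 x : ℂ)‖ ≤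
        |C1| * ‖u x - u' x‖ := by
    intro u u' hu hu' x
    have e : (∑ j, al x j * conj (u x j)) * (E1 x : ℂ) -
        (∑ j, al x j * conj (u' x j)) * (E1 x : ℂ) =
        (∑ j, al x j * conj ((u x - u' x) j)) * (E1 x : ℂ) := by
      rw [← sub_mul, ← Finset.sum_sub_distrib]
      congr 1
      refine Finset.sum_congr rfl fun j _ => ?_
      rw [Pi.sub_apply, map_sub]; ring
    rw [e, norm_mul, Complex.norm_real, Real.norm_of_nonneg (hE1p x)]
    by_cases hx : x ∈ K'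
    · calc ‖∑ j, al x j * conj ((u x - u' x) j)‖ * E1 x
          ≤ ((∑ j, ‖al x j‖) * ‖u x - u' x‖) * E1 x :=
            mul_le_mul_of_nonneg_right (hsumle x (al x) (u x - u' x)) (hE1p x)
        _ = ((∑ j, ‖al x j‖) * E1 x) * ‖u x - u' x‖ := by ring
        _ ≤ |C1| * ‖u x - u' x‖ := mul_le_mul_of_nonneg_right (hC1' x hx) (norm_nonneg _)
    · rw [hu x hx, hu' x hx]
      simp
  have hfin : IsFiniteMeasure (μ.restrict K') :=
    ⟨by rw [Measure.restrict_apply_univ]; exact hK'.measure_lt_top⟩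
  have hu1 : ∀ {u : M → (Fin n → ℂ)}, MemLp u 2 μ → (∀ x ∉ K', u x = 0) → Integrable u μ := by
    intro u hu hu0
    have h1 : IntegrableOn u K' μ :=
      memLp_one_iff_integrable.1 ((hu.restrict K').mono_exponent (by norm_num))
    refine (integrableOn_iff_integrable_of_support_subset ?_).1 h1
    intro x hx
    by_contra hc
    exact hx (hu0 x hc)
  have hPi : ∀ {u : M → (Fin n → ℂ)}, MemLp u 2 μ → (∀ x ∉ K', u x = 0) →
      Integrable (fun x => (∑ j, al x j * conj (u x j)) * (E1 x : ℂ)) μ := by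
    intro u hu hu0
    refine ((hu1 hu hu0).norm.const_mul |C1|).mono' (mpair hu.1) (Eventually.of_forall fun x => ?_)
    have := hPb u 0 hu0 (fun _ _ => rfl) x
    simpa using this
  have hfm : ∀ k, MemLp (f k) 2 μ := fun k =>
    (hfs k).continuous.memLp_of_hasCompactSupport (hfc k)
  have tP : Tendsto (fun k => ∫ x, (∑ j, al x j * conj (f k x j)) * (E1 x : ℂ) ∂μ) atTop
      (𝓝 (∫ x, (∑ j, al x j * conj (v x j)) * (E1 x : ℂ) ∂μ)) := by
    refine tendsto_integral_of_L1' _ (hPi hv hvz).aestronglyMeasurable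
      (Eventually.of_forall fun k => hPi (hfm k) (hfz k)) ?_
    have hle : ∀ k, eLpNorm ((fun x => (∑ j, al x j * conj (f k x j)) * (E1 x : ℂ)) -
        fun x => (∑ j, al x j * conj (v x j)) * (E1 x : ℂ)) 1 μ ≤
        ENNReal.ofReal |C1| * (eLpNorm (f k - v) 2 μ * (μ K') ^ (1 / 2 : ℝ)) := by
      intro k
      refine (eLpNorm_le_mul_eLpNorm_of_ae_le_mul (g := f k - v) (c := |C1|)
        (Eventually.of_forall fun x => hPb (f k) v (hfz k) hvz x) 1).trans ?_
      gcongr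
      have hsup : Function.support (f k - v) ⊆ K' := by
        intro x hx
        by_contra hc
        apply hx
        rw [Pi.sub_apply, hfz k x hc, hvz x hc, sub_zero]
      rw [← eLpNorm_restrict_eq_of_support_subset hsup]
      refine (eLpNorm_le_eLpNorm_mul_rpow_measure_univ (p := 1) (q := 2) (by norm_num)
        (mfv k).restrict).trans ?_
      rw [Measure.restrict_apply_univ]
      have e1 : (1 / ENNReal.toReal 1 - 1 / ENNReal.toReal 2 : ℝ) = 1 / 2 := by
        simp; norm_num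
      rw [e1]
      gcongr
      exact Measure.restrict_le_self
    have hlim : Tendsto (fun k => ENNReal.ofReal |C1| *
        (eLpNorm (f k - v) 2 μ * (μ K') ^ (1 / 2 : ℝ))) atTop (𝓝 0) := by
      have h1 := ENNReal.Tendsto.mul_const (b := (μ K') ^ (1 / 2 : ℝ)) t1
        (Or.inr (ENNReal.rpow_ne_top_of_nonneg (by norm_num) hK'.measure_ne_top))
      have h3 := ENNReal.Tendsto.const_mul (a := ENNReal.ofReal |C1|) h1
        (Or.inr ENNReal.ofReal_ne_top)
      simpa using h3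
    exact tendsto_of_tendsto_of_tendsto_of_le_of_le tendsto_const_nhds hlim (fun _ => zero_le) hle
  -- the divergence term
  have hE2n : ∀ x, ‖((E2 x : ℝ) : ℂ)‖ = E2 x := fun x => by
    rw [Complex.norm_real, Real.norm_of_nonneg (hE2p x)]
  have hE2cc : Continuous fun x => ((E2 x : ℝ) : ℂ) := Complex.continuous_ofReal.comp hE2c
  have hAb : ∀ (w w' : M → ℂ × (Fin n → Fin n → ℂ)) (u u' : M → (Fin n → ℂ)),
      (∀ x ∉ K', w x = 0) → (∀ x ∉ K', w' x = 0) → (∀ x ∉ K', u x = 0) →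
      (∀ x ∉ K', u' x = 0) → ∀ x,
      ‖((E2 x : ℝ) : ℂ) * ((w x).1 - ∑ j, u x j * th j x) -
        ((E2 x : ℝ) : ℂ) * ((w' x).1 - ∑ j, u' x j * th j x)‖ ≤
        (|C2| * (1 + |C3|)) * (‖w x - w' x‖ + ‖u x - u' x‖) := by
    intro w w' u u' hw0 hw0' hu hu' x
    have e : ((E2 x : ℝ) : ℂ) * ((w x).1 - ∑ j, u x j * th j x) -
        ((E2 x : ℝ) : ℂ) * ((w' x).1 - ∑ j, u' x j * th j x) =
        ((E2 x : ℝ) : ℂ) * ((w x - w' x).1 - ∑ j, (u x - u' x) j * th j x) := by
      have : ∑ j, (u x - u' x) j * th j x = ∑ j, u x j * th j x - ∑ j, u' x j * th j x := by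
        rw [← Finset.sum_sub_distrib]
        exact Finset.sum_congr rfl fun j _ => by rw [Pi.sub_apply]; ring
      rw [this, Prod.fst_sub]; ring
    rw [e, norm_mul, hE2n]
    by_cases hx : x ∈ K'
    · have h1 : ‖(w x - w' x).1 - ∑ j, (u x - u' x) j * th j x‖ ≤
          ‖w x - w' x‖ + |C3| * ‖u x - u' x‖ := by
        refine (norm_sub_le _ _).trans (add_le_add (norm_fst_le _) ?_)
        refine (hsumle' x (fun j => th j x) (u x - u' x)).trans ?_
        exact mul_le_mul_of_nonneg_right (hC3' x hx) (norm_nonneg _)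
      calc E2 x * ‖(w x - w' x).1 - ∑ j, (u x - u' x) j * th j x‖
          ≤ |C2| * (‖w x - w' x‖ + |C3| * ‖u x - u' x‖) :=
            mul_le_mul (hC2' x hx) h1 (norm_nonneg _) (abs_nonneg _)
        _ ≤ |C2| * ((1 + |C3|) * (‖w x - w' x‖ + ‖u x - u' x‖)) := by
            refine mul_le_mul_of_nonneg_left ?_ (abs_nonneg _)
            have := abs_nonneg C3
            have h3 := norm_nonneg (w x - w' x)
            have h4 := norm_nonneg (u x - u' x)
            nlinarith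
        _ = _ := by ring
    · rw [hw0 x hx, hw0' x hx, hu x hx, hu' x hx]
      simp
  have hLz : ∀ k, ∀ x ∉ K', Lop n (D (f k) x) = 0 := fun k x hx => by
    rw [hDz k x hx, map_zero]
  have hdsz : ∀ x ∉ K', ((d x, s x) : ℂ × (Fin n → Fin n → ℂ)) = 0 := fun x hx => by
    rw [hdz x hx, hsz x hx]; rfl
  have mAv : AEStronglyMeasurable (fun x => ((E2 x : ℝ) : ℂ) * (d x - ∑ j, v x j * th j x)) μ := by
    refine hE2cc.aestronglyMeasurable.mul (hd.1.sub ?_)
    exact Finset.aestronglyMeasurable_fun_sum _ fun j _ =>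
      (mcomp hv.1 j).mul (hthc j).aestronglyMeasurable
  have hAv : MemLp (fun x => ((E2 x : ℝ) : ℂ) * (d x - ∑ j, v x j * th j x)) 2 μ := by
    refine MemLp.of_le_mul (g := fun x => ‖(d x, s x)‖ + ‖v x‖) (c := |C2| * (1 + |C3|))
      (hwm.norm.add hv.norm) mAv (Eventually.of_forall fun x => ?_)
    have := hAb (fun x => (d x, s x)) 0 v 0 hdsz (fun _ _ => rfl) hvz (fun _ _ => rfl) x
    simp only [Pi.zero_apply, sub_zero, Prod.fst_zero, zero_mul, Finset.sum_const_zero,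
      mul_zero] at this
    rwa [Real.norm_of_nonneg (by positivity)]
  have hAf : ∀ k, MemLp (fun x => ((E2 x : ℝ) : ℂ) * ((Lop n (D (f k) x)).1 -
      ∑ j, f k x j * th j x)) 2 μ := by
    intro k
    refine Continuous.memLp_of_hasCompactSupport ?_ ?_
    · refine hE2cc.mul ((continuous_fst.comp ((Lop n).continuous.comp (hfs k).D.continuous)).sub ?_)
      exact continuous_finsetSum _ fun j _ =>
        ((continuous_apply j).comp (hfs k).continuous).mul (hthc j)
    · refine HasCompactSupport.intro hK' fun x hx => ?_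
      rw [hLz k x hx, hfz k x hx]
      simp
  have tA := tendsto_sq hAf hAv (tendsto_of_bound mw mfv t2 t1 (C := |C2| * (1 + |C3|))
    (by positivity) fun k x => hAb (fun x => Lop n (D (f k) x)) (fun x => (d x, s x)) (f k) v
      (hLz k) hdsz (hfz k) hvz x)
  -- the curl terms
  have hBb : ∀ (w w' : M → ℂ × (Fin n → Fin n → ℂ)) (j i : Fin n),
      (∀ x ∉ K', w x = 0) → (∀ x ∉ K', w' x = 0) → ∀ x,
      ‖((E2 x : ℝ) : ℂ) * (w x).2 j i - ((E2 x : ℝ) : ℂ) * (w' x).2 j i‖ ≤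
        |C2| * (‖w x - w' x‖ + ‖w x - w' x‖) := by
    intro w w' j i hw0 hw0' x
    rw [← mul_sub, norm_mul, hE2n]
    by_cases hx : x ∈ K'
    · have h1 : ‖(w x).2 j i - (w' x).2 j i‖ ≤ ‖w x - w' x‖ :=
        ((norm_le_pi_norm ((w x - w' x).2 j) i).trans
          (norm_le_pi_norm ((w x - w' x).2) j)).trans (norm_snd_le _)
      calc E2 x * ‖(w x).2 j i - (w' x).2 j i‖ ≤ |C2| * ‖w x - w' x‖ :=
            mul_le_mul (hC2' x hx) h1 (norm_nonneg _) (abs_nonneg _)
        _ ≤ |C2| * (‖w x - w' x‖ + ‖w x - w' x‖) :=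
            mul_le_mul_of_nonneg_left (le_add_of_nonneg_left (norm_nonneg _)) (abs_nonneg _)
    · rw [hw0 x hx, hw0' x hx]
      simp
  have tB : ∀ j i : Fin n, Tendsto (fun k => ∫ x, ‖((E2 x : ℝ) : ℂ) *
      (Lop n (D (f k) x)).2 j i‖ ^ 2 ∂μ) atTop (𝓝 (∫ x, ‖((E2 x : ℝ) : ℂ) * s x j i‖ ^ 2 ∂μ)) := by
    intro j i
    have cji : Continuous fun q : Fin n → Fin n → ℂ => q j i :=
      (continuous_apply i).comp (continuous_apply j)
    have m1 : AEStronglyMeasurable (fun x => ((E2 x : ℝ) : ℂ) * s x j i) μ :=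
      hE2cc.aestronglyMeasurable.mul (cji.comp_aestronglyMeasurable hs.1)
    have m2 : MemLp (fun x => ((E2 x : ℝ) : ℂ) * s x j i) 2 μ := by
      refine MemLp.of_le_mul (g := fun x => ‖(d x, s x)‖ + ‖(d x, s x)‖) (c := |C2|)
        (hwm.norm.add hwm.norm) m1 (Eventually.of_forall fun x => ?_)
      have := hBb (fun x => (d x, s x)) 0 j i hdsz (fun _ _ => rfl) x
      simp only [Pi.zero_apply, sub_zero, Prod.snd_zero, mul_zero] at this
      rwa [Real.norm_of_nonneg (by positivity)]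
    have m3 : ∀ k, MemLp (fun x => ((E2 x : ℝ) : ℂ) * (Lop n (D (f k) x)).2 j i) 2 μ := by
      intro k
      refine Continuous.memLp_of_hasCompactSupport ?_ ?_
      · exact hE2cc.mul (cji.comp
          (continuous_snd.comp ((Lop n).continuous.comp (hfs k).D.continuous)))
      · refine HasCompactSupport.intro hK' fun x hx => ?_
        rw [hLz k x hx]
        simp
    exact tendsto_sq m3 m2 (tendsto_of_bound mw mw t2 t2 (C := |C2|) (abs_nonneg _) fun k x =>
      hBb (fun x => Lop n (D (f k) x)) (fun x => (d x, s x)) j i (hLz k) hdsz x)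
  have eA : ∀ (z : M → ℂ), ∫ x, ‖z x‖ ^ 2 * Real.exp (-(Phi x + chi x)) ∂μ =
      ∫ x, ‖((E2 x : ℝ) : ℂ) * z x‖ ^ 2 ∂μ := by
    intro z
    refine integral_congr_ae (Eventually.of_forall fun x => ?_)
    show ‖z x‖ ^ 2 * Real.exp (-(Phi x + chi x)) = ‖((E2 x : ℝ) : ℂ) * z x‖ ^ 2
    rw [norm_mul, hE2n, mul_pow, hE2sq, mul_comm]
  have hineq : ∀ k, ‖∫ x, (∑ j, al x j * conj (f k x j)) * (E1 x : ℂ) ∂μ‖ ^ 2 ≤
      K0 * (2 * ∫ x, ‖((E2 x : ℝ) : ℂ) * ((Lop n (D (f k) x)).1 - ∑ j, f k x j * th j x)‖ ^ 2 ∂μ +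
        (1 / 2) * ∑ j, ∑ i, ∫ x, ‖((E2 x : ℝ) : ℂ) * (Lop n (D (f k) x)).2 j i‖ ^ 2 ∂μ) := by
    intro k
    have h3 := pairing_test hμ hap hPhi hchi hpsi hpos hL h2 hkap0 hkapm hk hK0 hKint (hfs k)
      (hfc k)
    simp only [eA] at h3
    exact h3
  simp only [eA]
  refine le_of_tendsto_of_tendsto' (tP.norm.pow 2) ?_ hineq
  exact ((tA.const_mul 2).add ((tendsto_finsetSum _ fun j _ =>
    tendsto_finsetSum _ fun i _ => tB j i).const_mul (1 / 2))).const_mul K0

end main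

end Crest.Agent.R271.H88
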