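import Crest.Agent.R271.H3_51
import Crest.Agent.R271.Weyl_399

/-!
# Weyl lemma for `∂̄` on a Riemann domain (helper399, row 271, piece T10)
-/

set_option autoImplicit false
set_option linter.unusedSectionVars false

noncomputable section

open Set Filter Topology MeasureTheory Metric

namespace Crest.Agent.R271.WeylM399

open Crest.Agent.R271.Ho51

variable {n : ℕ} {M : Type*} [TopologicalSpace M] [RDom n M]

variable {G' : Type*} [NormedAddCommGroup G'] [NormedSpace ℝ G']

open Classical in
/-- extension by zero of a test function on a chart -/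
def ext (e : OpenPartialHomeomorph M (Fin n → ℂ)) (φ : (Fin n → ℂ) → G') (x : M) : G' :=
  if x ∈ e.source then φ (cp x) else 0

lemma ext_of_mem {e : OpenPartialHomeomorph M (Fin n → ℂ)} (φ : (Fin n → ℂ) → G') {x : M}
    (hx : x ∈ e.source) : ext e φ x = φ (cp x) := by
  classical
  unfold ext; rw [if_pos hx]

lemma ext_of_notMem {e : OpenPartialHomeomorph M (Fin n → ℂ)} (φ : (Fin n → ℂ) → G') {x : M}
    (hx : x ∉ e.source) : ext e φ x = 0 := by
  classical
  unfold ext; rw [if_neg hx]

lemma ext_symm {e : OpenPartialHomeomorph M (Fin n → ℂ)} (he : IsCh e) (φ : (Fin n → ℂ) → G')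
    {z : Fin n → ℂ} (hz : z ∈ e.target) : ext e φ (e.symm z) = φ z := by
  rw [ext_of_mem φ (e.map_target hz), he.cp_symm hz]

section T2
variable [T2Space M]

lemma support_ext {e : OpenPartialHomeomorph M (Fin n → ℂ)} (he : IsCh e)
    (φ : (Fin n → ℂ) → G') : Function.support (ext e φ) ⊆ e.symm '' tsupport φ := by
  intro x hx
  by_cases h : x ∈ e.source
  · rw [Function.mem_support, ext_of_mem φ h] at hx
    exact ⟨cp x, subset_tsupport _ hx, he.symm_cp h⟩
  · exact absurd (ext_of_notMem φ h) hx

lemma isCompact_K {e : OpenPartialHomeomorph M (Fin n → ℂ)}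
    {φ : (Fin n → ℂ) → G'} (hc : HasCompactSupport φ) (ht : tsupport φ ⊆ e.target) :
    IsCompact (e.symm '' tsupport φ) :=
  hc.isCompact.image_of_continuousOn (e.continuousOn_symm.mono ht)

lemma hasCompactSupport_ext {e : OpenPartialHomeomorph M (Fin n → ℂ)} (he : IsCh e)
    {φ : (Fin n → ℂ) → G'} (hc : HasCompactSupport φ) (ht : tsupport φ ⊆ e.target) :
    HasCompactSupport (ext e φ) :=
  HasCompactSupport.of_support_subset_isCompact (isCompact_K hc ht) (support_ext he φ)

lemma tsupport_ext {e : OpenPartialHomeomorph M (Fin n → ℂ)} (he : IsCh e)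
    {φ : (Fin n → ℂ) → G'} (hc : HasCompactSupport φ) (ht : tsupport φ ⊆ e.target) :
    tsupport (ext e φ) ⊆ e.source := by
  refine (closure_minimal (support_ext he φ) (isCompact_K hc ht).isClosed).trans ?_
  rintro x ⟨z, hz, rfl⟩
  exact e.map_target (ht hz)

lemma Sm_ext {e : OpenPartialHomeomorph M (Fin n → ℂ)} (he : IsCh e)
    {φ : (Fin n → ℂ) → G'} (hφ : ContDiff ℝ (⊤ : ℕ∞) φ) (hc : HasCompactSupport φ)
    (ht : tsupport φ ⊆ e.target) : Sm (ext e φ) := by
  apply Sm.of_locally
  intro x
  by_cases h : x ∈ e.source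
  · refine ⟨fun x => φ (cp x), Sm.of_coord hφ, ?_⟩
    filter_upwards [e.open_source.mem_nhds h] with y hy
    exact ext_of_mem φ hy
  · refine ⟨fun _ => 0, Sm.const _, ?_⟩
    have h1 : x ∉ tsupport (ext e φ) := fun h' => h (tsupport_ext he hc ht h')
    exact notMem_tsupport_iff_eventuallyEq.1 h1

end T2

lemma D_ext {e : OpenPartialHomeomorph M (Fin n → ℂ)} (he : IsCh e)
    (φ : (Fin n → ℂ) → G') {z : Fin n → ℂ} (hz : z ∈ e.target) :
    D (ext e φ) (e.symm z) = fderiv ℝ φ z := by
  rw [D_symm he hz]
  apply Filter.EventuallyEq.fderiv_eq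
  filter_upwards [e.open_target.mem_nhds hz] with w hw
  exact ext_symm he φ hw

lemma db_ext {e : OpenPartialHomeomorph M (Fin n → ℂ)} (he : IsCh e)
    (φ : (Fin n → ℂ) → ℂ) {z : Fin n → ℂ} (hz : z ∈ e.target) (j : Fin n) :
    db j (ext e φ) (e.symm z) = Weyl399.dbar j φ z := by
  rw [db, D_ext he φ hz]; rfl

variable [T2Space M] [SecondCountableTopology M] [MeasurableSpace M] [BorelSpace M]

section meas

variable {mu : Measure M}

lemma aemeas (e : OpenPartialHomeomorph M (Fin n → ℂ)) :
    AEMeasurable e.symm (volume.restrict e.target) :=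
  e.continuousOn_symm.aemeasurable e.open_target.measurableSet

lemma isLocallyFinite (hmu : IsLeb mu) : IsLocallyFiniteMeasure mu := by
  refine ⟨fun x => ?_⟩
  have hx := (isCh_ch x).cp_mem (mem_ch x)
  obtain ⟨r, hr, hrs⟩ := nhds_basis_closedBall.mem_iff.1 ((ch x).open_target.mem_nhds hx)
  refine ⟨(ch x).source ∩ cp ⁻¹' (ball (cp x) r), ?_, ?_⟩
  · exact inter_mem ((ch x).open_source.mem_nhds (mem_ch x))
      (cp_cont.continuousAt.preimage_mem_nhds (ball_mem_nhds _ hr))
  · have hms : MeasurableSet ((ch x).source ∩ cp ⁻¹' (ball (cp x) r)) :=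
      ((ch x).open_source.inter (isOpen_ball.preimage cp_cont)).measurableSet
    have h1 : mu ((ch x).source ∩ cp ⁻¹' (ball (cp x) r)) =
        (mu.restrict (ch x).source) ((ch x).source ∩ cp ⁻¹' (ball (cp x) r)) := by
      rw [Measure.restrict_apply hms]
      congr 1
      ext y; simp only [mem_inter_iff]; tauto
    rw [h1, hmu (ch x) (isCh_ch x), Measure.map_apply_of_aemeasurable (aemeas _) hms]
    refine lt_of_le_of_lt ?_ (measure_ball_lt_top (μ := volume) (x := cp x) (r := r))
    rw [Measure.restrict_apply₀' (ch x).open_target.measurableSet.nullMeasurableSet]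
    apply measure_mono
    rintro z ⟨⟨_, hz1⟩, hz2⟩
    have := (isCh_ch x).cp_symm hz2
    simp only [mem_preimage, this] at hz1
    exact hz1

/-- transfer of null sets -/
lemma ae_transfer (hmu : IsLeb mu) {e : OpenPartialHomeomorph M (Fin n → ℂ)}
    (he : IsCh e) {P : M → Prop} (h : ∀ᵐ z ∂(volume.restrict e.target), P (e.symm z)) :
    ∀ᵐ x ∂(mu.restrict e.source), P x := by
  rw [ae_iff] at h ⊢
  set N : Set (Fin n → ℂ) := toMeasurable (volume.restrict e.target) {z | ¬ P (e.symm z)} with hN
  have hN0 : (volume.restrict e.target) N = 0 := by rw [hN, measure_toMeasurable]; exact h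
  have hNm : MeasurableSet N := measurableSet_toMeasurable _ _
  have hT : MeasurableSet (e.source ∩ cp ⁻¹' N) :=
    e.open_source.measurableSet.inter (hNm.preimage cp_cont.measurable)
  have h1 : (mu.restrict e.source) {x | ¬ P x} ≤ (mu.restrict e.source) (e.source ∩ cp ⁻¹' N) := by
    rw [Measure.restrict_apply₀' e.open_source.measurableSet.nullMeasurableSet,
      Measure.restrict_apply₀' e.open_source.measurableSet.nullMeasurableSet]
    apply measure_mono
    rintro x ⟨hx1, hx2⟩
    refine ⟨⟨hx2, ?_⟩, hx2⟩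
    apply subset_toMeasurable
    simp only [mem_ofPred_eq] at *
    rw [he.symm_cp hx2]; exact hx1
  refine le_antisymm (h1.trans ?_) zero_le
  rw [hmu e he, Measure.map_apply_of_aemeasurable (aemeas _) hT,
    Measure.restrict_apply₀' e.open_target.measurableSet.nullMeasurableSet, ← hN0,
    Measure.restrict_apply₀' e.open_target.measurableSet.nullMeasurableSet]
  apply measure_mono
  rintro z ⟨⟨_, hz1⟩, hz2⟩
  have := he.cp_symm hz2
  simp only [mem_preimage, this] at hz1
  exact ⟨hz1, hz2⟩

/-- integrals over a chart -/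
lemma integral_chart (hmu : IsLeb mu) {e : OpenPartialHomeomorph M (Fin n → ℂ)}
    (he : IsCh e) {f : M → ℂ} (hf : AEStronglyMeasurable f mu) (h0 : ∀ x, x ∉ e.source → f x = 0) :
    ∫ x, f x ∂mu = ∫ z in e.target, f (e.symm z) := by
  rw [← setIntegral_eq_integral_of_forall_compl_eq_zero (s := e.source) h0, hmu e he,
    integral_map (aemeas _)]
  rw [← hmu e he]
  exact hf.restrict

lemma locInt_chart (hmu : IsLeb mu) {e : OpenPartialHomeomorph M (Fin n → ℂ)}
    (he : IsCh e) {u : M → ℂ} (hu : LocallyIntegrable u mu) :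
    LocallyIntegrableOn (u ∘ e.symm) e.target volume := by
  rw [locallyIntegrableOn_iff e.open_target.isLocallyClosed]
  intro K hK hKc
  have hKc' : IsCompact (e.symm '' K) := hKc.image_of_continuousOn (e.continuousOn_symm.mono hK)
  have h1 : IntegrableOn u (e.symm '' K) mu := hu.integrableOn_isCompact hKc'
  have hsub : e.symm '' K ⊆ e.source := by
    rintro x ⟨z, hz, rfl⟩; exact e.map_target (hK hz)
  have hm : MeasurableSet (e.symm '' K) := hKc'.isClosed.measurableSet
  have h2 : mu.restrict (e.symm '' K) = ((volume.restrict e.target).restrict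
      (e.symm ⁻¹' (e.symm '' K))).map e.symm := by
    rw [← Measure.restrict_map_of_aemeasurable (aemeas _) hm, ← hmu e he,
      Measure.restrict_restrict hm, inter_eq_self_of_subset_left hsub]
  rw [IntegrableOn, h2] at h1
  have h3 := (integrable_map_measure h1.aestronglyMeasurable
    ((aemeas e).mono_measure Measure.restrict_le_self)).1 h1
  rw [IntegrableOn]
  refine h3.mono_measure ?_
  have h4 : K ⊆ e.symm ⁻¹' (e.symm '' K) := subset_preimage_image _ _
  have h5 : MeasurableSet K := hKc.measurableSet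
  calc volume.restrict K = (volume.restrict e.target).restrict K := by
        rw [Measure.restrict_restrict h5, inter_eq_self_of_subset_left hK]
    _ ≤ _ := Measure.restrict_mono h4 le_rfl

/-- Weyl lemma on `M` (homogeneous form) -/
theorem weylM0 (hmu : IsLeb mu) {v : M → ℂ} (hv : LocallyIntegrable v mu)
    (hw : ∀ j : Fin n, ∀ θ : M → ℝ, Sm θ → HasCompactSupport θ →
      ∫ x, v x * db j (fun y => ((θ y : ℝ) : ℂ)) x ∂mu = 0) :
    ∃ F : M → ℂ, Hol F ∧ v =ᵐ[mu] F := by
  have := isLocallyFinite hmu
  -- the weak equation for complex test functions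
  have hwc : ∀ j : Fin n, ∀ θ : M → ℂ, Sm θ → HasCompactSupport θ →
      ∫ x, v x * db j θ x ∂mu = 0 := by
    intro j θ hθ hc
    have hre : Sm (fun x => (θ x).re) := hθ.clm Complex.reCLM
    have him : Sm (fun x => (θ x).im) := hθ.clm Complex.imCLM
    have hcre : HasCompactSupport (fun x => (θ x).re) := hc.comp_left (g := Complex.re) (by simp)
    have hcim : HasCompactSupport (fun x => (θ x).im) := hc.comp_left (g := Complex.im) (by simp)
    have h1 := hw j _ hre hcre
    have h2 := hw j _ him hcim
    have h3 : ∀ x, db j θ x = db j (fun y => (((θ y).re : ℝ) : ℂ)) x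
        + Complex.I * db j (fun y => (((θ y).im : ℝ) : ℂ)) x := by
      intro x
      rw [← db_const_mul him.ofReal, ← db_add hre.ofReal ((Sm.const _).mul him.ofReal)]
      congr 1
      funext y
      rw [mul_comm]
      exact (Complex.re_add_im _).symm
    have hint : ∀ θ : M → ℝ, Sm θ → HasCompactSupport θ →
        Integrable (fun x => v x * db j (fun y => ((θ y : ℝ) : ℂ)) x) mu := by
      intro θ hθ hc
      have h4 : HasCompactSupport (db j (fun y => ((θ y : ℝ) : ℂ))) := by
        have hc' : HasCompactSupport (fun y => ((θ y : ℝ) : ℂ)) :=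
          hc.comp_left (g := fun r : ℝ => (r : ℂ)) (by simp)
        refine hc'.mono' ?_
        intro x hx
        by_contra hx'
        apply hx
        have h5 := notMem_tsupport_iff_eventuallyEq.1 hx'
        rw [db_congr h5]
        exact db_const 0 j x
      have h5 := hv.integrable_smul_right_of_hasCompactSupport (hθ.ofReal.db j).continuous h4
      simpa [smul_eq_mul] using h5
    simp_rw [h3, mul_add]
    have h4 : ∀ x, v x * (Complex.I * db j (fun y => (((θ y).im : ℝ) : ℂ)) x)
        = Complex.I * (v x * db j (fun y => (((θ y).im : ℝ) : ℂ)) x) := fun x => by ring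
    simp_rw [h4]
    rw [integral_add (hint _ hre hcre) ((hint _ him hcim).const_mul _), integral_const_mul, h1, h2]
    simp
  -- holomorphic representatives in charts
  have hloc : ∀ e : OpenPartialHomeomorph M (Fin n → ℂ), IsCh e →
      ∃ h : (Fin n → ℂ) → ℂ, DifferentiableOn ℂ h e.target ∧
        (v ∘ e.symm) =ᵐ[volume.restrict e.target] h := by
    intro e he
    apply Weyl399.weyl e.open_target (locInt_chart hmu he hv)
    intro j φ hφ hc ht
    have h1 := hwc j (ext e φ) (Sm_ext he hφ hc ht) (hasCompactSupport_ext he hc ht)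
    rw [integral_chart hmu he] at h1
    · rw [← h1, ← setIntegral_eq_integral_of_forall_compl_eq_zero (s := e.target)]
      · apply setIntegral_congr_fun e.open_target.measurableSet
        intro z hz
        simp only [Function.comp_apply]
        rw [db_ext he φ hz]
      · intro z hz
        have h2 : z ∉ tsupport φ := fun h => hz (ht h)
        have h3 : fderiv ℝ φ z = 0 := by
          by_contra h6
          exact h2 (support_fderiv_subset ℝ h6)
        simp [Weyl399.dbar, h3]
    · exact hv.aestronglyMeasurable.mul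
        ((Sm_ext he hφ hc ht).db j).continuous.aestronglyMeasurable
    · intro x hx
      have h2 : x ∉ tsupport (ext e φ) := fun h => hx (tsupport_ext he hc ht h)
      have h5 := notMem_tsupport_iff_eventuallyEq.1 h2
      rw [db_congr h5]
      have : db j (0 : M → ℂ) x = 0 := db_const 0 j x
      rw [this, mul_zero]
  choose! h hh1 hh2 using hloc
  -- the glued function
  set F : M → ℂ := fun x => h (ch x) (cp x) with hF
  have hglue : ∀ e : OpenPartialHomeomorph M (Fin n → ℂ), IsCh e → ∀ x ∈ e.source,
      F x = h e (cp x) := by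
    intro e he x hx
    have hx' := mem_ch x
    have hxt : cp x ∈ e.target := he.cp_mem hx
    have hxt' : cp x ∈ (ch x).target := (isCh_ch x).cp_mem hx'
    -- both functions are a.e. equal near `cp x`
    have hev := he.germ (isCh_ch x) hx hx'
    obtain ⟨r, hr, hrs⟩ := nhds_basis_ball.mem_iff.1 (inter_mem (inter_mem hev
      (e.open_target.mem_nhds hxt)) ((ch x).open_target.mem_nhds hxt'))
    have h1 : h e =ᵐ[volume.restrict (ball (cp x) r)] h (ch x) := by
      have h2 : ∀ᵐ z ∂(volume.restrict (ball (cp x) r)), (v ∘ e.symm) z = h e z :=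
        ae_restrict_of_ae_restrict_of_subset (fun z hz => (hrs hz).1.2) (hh2 e he)
      have h3 : ∀ᵐ z ∂(volume.restrict (ball (cp x) r)), (v ∘ (ch x).symm) z = h (ch x) z :=
        ae_restrict_of_ae_restrict_of_subset (fun z hz => (hrs hz).2) (hh2 (ch x) (isCh_ch x))
      have h4 : ∀ᵐ z ∂(volume.restrict (ball (cp x) r)), z ∈ ball (cp x) r :=
        ae_restrict_mem measurableSet_ball
      filter_upwards [h2, h3, h4] with z hz2 hz3 hz4
      rw [← hz2, ← hz3]
      have hz5 : e.symm z = (ch x).symm z := (hrs hz4).1.1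
      simp only [Function.comp_apply, hz5]
    have hc1 : ContinuousOn (h e) (ball (cp x) r) :=
      (hh1 e he).continuousOn.mono (fun z hz => (hrs hz).1.2)
    have hc2 : ContinuousOn (h (ch x)) (ball (cp x) r) :=
      (hh1 (ch x) (isCh_ch x)).continuousOn.mono (fun z hz => (hrs hz).2)
    have h5 := Measure.eqOn_open_of_ae_eq h1 isOpen_ball hc1 hc2
    exact (h5 (mem_ball_self hr)).symm
  refine ⟨F, ?_, ?_⟩
  · intro e he z hz
    have h1 : (F ∘ e.symm) =ᶠ[𝓝 z] h e := by
      filter_upwards [e.open_target.mem_nhds hz] with w hw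
      simp only [Function.comp_apply]
      rw [hglue e he _ (e.map_target hw), he.cp_symm hw]
    exact (((hh1 e he).differentiableAt (e.open_target.mem_nhds hz)).congr_of_eventuallyEq
      h1).differentiableWithinAt
  · have h1 : ∀ x : M, ∀ᵐ y ∂(mu.restrict (ch x).source), v y = F y := by
      intro x
      apply ae_transfer hmu (isCh_ch x)
      filter_upwards [hh2 (ch x) (isCh_ch x), ae_restrict_mem (ch x).open_target.measurableSet]
        with z hz1 hz2
      rw [hglue _ (isCh_ch x) _ ((ch x).map_target hz2), (isCh_ch x).cp_symm hz2]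
      exact hz1
    obtain ⟨T, hTc, hTU⟩ := TopologicalSpace.isOpen_iUnion_countable
      (fun x : M => (ch x).source) (fun x => (ch x).open_source)
    have hcov : (⋃ x ∈ T, (ch x).source) = univ := by
      rw [hTU]
      exact eq_univ_of_forall fun x => mem_iUnion.2 ⟨x, mem_ch x⟩
    have h2 : ∀ᵐ y ∂(mu.restrict (⋃ x ∈ T, (ch x).source)), v y = F y := by
      rw [ae_restrict_biUnion_iff _ hTc]
      intro x _
      exact h1 x
    rw [hcov, Measure.restrict_univ] at h2
    exact h2

/-- **Weyl lemma on `M`**: if `∂̄u = ∂̄G` weakly then `G - u` is a.e. holomorphic. -/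
theorem weylM (hmu : IsLeb mu) {u : M → ℂ} (hu : LocallyIntegrable u mu) {G : M → ℂ} (hG : Sm G)
    (hw : ∀ j : Fin n, ∀ θ : M → ℝ, Sm θ → HasCompactSupport θ →
      ∫ x, u x * db j (fun y => ((θ y : ℝ) : ℂ)) x ∂mu = - ∫ x, db j G x * ((θ x : ℝ) : ℂ) ∂mu) :
    ∃ F : M → ℂ, Hol F ∧ (fun x => G x - u x) =ᵐ[mu] F := by
  have := isLocallyFinite hmu
  have hGl : LocallyIntegrable G mu := hG.continuous.locallyIntegrable
  apply weylM0 hmu (hGl.sub hu)
  intro j θ hθ hc
  have hc' : HasCompactSupport (fun y => ((θ y : ℝ) : ℂ)) :=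
    hc.comp_left (g := fun r : ℝ => (r : ℂ)) (by simp)
  have h4 : HasCompactSupport (db j (fun y => ((θ y : ℝ) : ℂ))) := by
    refine hc'.mono' ?_
    intro x hx
    by_contra hx'
    apply hx
    have h5 := notMem_tsupport_iff_eventuallyEq.1 hx'
    rw [db_congr h5]
    exact db_const 0 j x
  have hi1 : Integrable (fun x => G x * db j (fun y => ((θ y : ℝ) : ℂ)) x) mu := by
    have h5 := hGl.integrable_smul_right_of_hasCompactSupport (hθ.ofReal.db j).continuous h4
    simpa [smul_eq_mul] using h5
  have hi2 : Integrable (fun x => u x * db j (fun y => ((θ y : ℝ) : ℂ)) x) mu := by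
    have h5 := hu.integrable_smul_right_of_hasCompactSupport (hθ.ofReal.db j).continuous h4
    simpa [smul_eq_mul] using h5
  have hi3 : Integrable (fun x => db j G x * ((θ x : ℝ) : ℂ)) mu := by
    have h5 := (hG.db j).continuous.locallyIntegrable.integrable_smul_right_of_hasCompactSupport
      (μ := mu) hθ.ofReal.continuous hc'
    simpa [smul_eq_mul] using h5
  have h1 : ∀ x, (G x - u x) * db j (fun y => ((θ y : ℝ) : ℂ)) x
      = G x * db j (fun y => ((θ y : ℝ) : ℂ)) x - u x * db j (fun y => ((θ y : ℝ) : ℂ)) x :=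
    fun x => by ring
  simp only [Pi.sub_apply] at *
  simp_rw [h1]
  rw [integral_sub hi1 hi2, hw j θ hθ hc, sub_neg_eq_add, ← integral_add hi1 hi3]
  have h2 : ∀ x, G x * db j (fun y => ((θ y : ℝ) : ℂ)) x + db j G x * ((θ x : ℝ) : ℂ)
      = db j (fun y => G y * ((θ y : ℝ) : ℂ)) x := by
    intro x
    rw [db_mul hG hθ.ofReal]; ring
  simp_rw [h2]
  exact integral_db_eq_zero hmu (hG.mul hθ.ofReal) (hc'.mul_left) j

end meas

end Crest.Agent.R271.WeylM399
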