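import Crest.Agent.R271.H7f_51
import Crest.Agent.R271.H4_88
import Crest.Agent.R271.T7b2_88
import Crest.Agent.R271.T7b1_868
import Crest.Agent.R271.T7a_297
import Crest.Agent.R271.WeylM_399

/-!
# Row 271, analytic engine (H): the engine, from the a priori inequality (helper51)
-/

set_option autoImplicit false
set_option linter.unusedSectionVars false

noncomputable section

open Set Filter Topology MeasureTheory ComplexConjugate
open scoped ENNReal

namespace Crest.Agent.R271.Ho51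

variable {n : ℕ} {M : Type*} [TopologicalSpace M] [T2Space M] [SecondCountableTopology M]
  [RDom n M] [MeasurableSpace M] [BorelSpace M] {μ : Measure M}

lemma wpmul : WPmul (M := M) μ := fun _ _ _ hv hw hb h =>
  H88.WP.smul h hv hv.aestronglyMeasurable hw hb

/-- one weight, one sublevel set -/
theorem engine_step (hμ : IsLeb μ) (hap : H88.Apriori μ) {ρ : M → ℝ} (hρ : Sm ρ)
    (hcpt : ∀ t : ℝ, IsCompact {x | ρ x ≤ t}) (hL : ∀ x w, nsq w ≤ Levi ρ x w) (a : ℝ)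
    {Φ : M → ℝ} (hΦ : Sm Φ) (hpos : ∀ x w, 0 ≤ Levi Φ x w) {G : M → ℂ} (hG : Sm G)
    {κ : M → ℝ} (hκ0 : ∀ x, 0 ≤ κ x) (hκm : Measurable κ)
    (hk : ∀ x (w : Fin n → ℂ), ‖∑ j, db j G x * conj (w j)‖ ^ 2 ≤ κ x * Levi Φ x w)
    {K0 : ℝ} (hK0 : 0 ≤ K0)
    (hKint : ∫⁻ x, ENNReal.ofReal (κ x * Real.exp (-Φ x)) ∂μ ≤ ENNReal.ofReal K0) :
    ∃ F : M → ℂ, Hol F ∧ ∫⁻ x in {x | ρ x ≤ a},
      ENNReal.ofReal (‖F x - G x‖ ^ 2 * Real.exp (-Φ x)) ∂μ ≤ ENNReal.ofReal (2 * K0) := by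
  have hΦc := hΦ.continuous
  have hαc : Continuous (fun x => (fun j => db j G x : Fin n → ℂ)) :=
    continuous_pi fun j => (hG.db j).continuous
  have hnα : Continuous (fun x => nsq (fun j => db j G x)) := continuous_nsq.comp hαc
  have hhc : Continuous (fun x => nsq (fun j => db j G x) * Real.exp (-Φ x)) := by fun_prop
  obtain ⟨ψ, χ, hψ, hχ, hψ0, hsub, h2, hLχ, hint, η, hη, hη1⟩ :=
    H868.exists_weights hμ ρ hρ hcpt hL a _ hhc
  have hψc := hψ.continuous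
  have hχc := hχ.continuous
  have hαi : Integrable (fun x => nsq (fun j => db j G x) *
      Real.exp (-(Φ x + χ x - ψ x))) μ := by
    refine ⟨(by fun_prop : Continuous _).aestronglyMeasurable, ?_⟩
    rw [hasFiniteIntegral_iff_ofReal (Eventually.of_forall fun x => by
      have := nsq_nonneg (fun j => db j G x); positivity)]
    refine lt_of_le_of_lt (le_of_eq ?_) hint
    refine lintegral_congr fun x => ?_
    congr 1
    have h0 : 0 ≤ nsq (fun j => db j G x) * Real.exp (-Φ x) := by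
      have := nsq_nonneg (fun j => db j G x); positivity
    rw [abs_of_nonneg h0, mul_assoc, ← Real.exp_add]
    congr 2; ring
  have hpair : PairC μ Φ χ ψ (fun x j => db j G x) K0 := by
    intro v d s K hv hd hs hK hvK hdK hsK hw
    exact H88.pairing_compact hμ hap hΦ hχ hψ hpos hLχ h2 hαc hκ0 hκm hk hK0 hKint
      hv hd hs hK hvK hdK hsK hw
  obtain ⟨U, hUm, hUi, hUb, hUw⟩ := solve hμ wpmul hΦ hχ hψ hG hK0 hpair hαi η hη hη1
  have hUloc : LocallyIntegrable U μ := by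
    refine locallyIntegrable_of_bound hμ hUm hUi
      (C := fun x => Real.exp (Φ x + χ x - 2 * ψ x)) (by fun_prop) (fun x => by positivity)
      fun x => ?_
    have h1 : Real.exp (Φ x + χ x - 2 * ψ x) * Real.exp (-(Φ x + χ x - 2 * ψ x)) = 1 := by
      rw [← Real.exp_add]; simp
    calc ‖U x‖ ^ 2 = ‖U x‖ ^ 2 *
          (Real.exp (Φ x + χ x - 2 * ψ x) * Real.exp (-(Φ x + χ x - 2 * ψ x))) := by
          rw [h1, mul_one]
      _ = _ := by ring
      _ ≤ _ := le_rfl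
  obtain ⟨F, hF, hFae⟩ := WeylM399.weylM hμ hUloc hG hUw
  refine ⟨F, hF, ?_⟩
  have hmeas : MeasurableSet {x | ρ x ≤ a} :=
    (isClosed_le hρ.continuous continuous_const).measurableSet
  have h1 : ∫⁻ x in {x | ρ x ≤ a}, ENNReal.ofReal (‖F x - G x‖ ^ 2 * Real.exp (-Φ x)) ∂μ =
      ∫⁻ x in {x | ρ x ≤ a},
        ENNReal.ofReal (‖U x‖ ^ 2 * Real.exp (-(Φ x + χ x - 2 * ψ x))) ∂μ := by
    refine lintegral_congr_ae ?_
    filter_upwards [ae_restrict_of_ae hFae, ae_restrict_mem hmeas] with x hx hxa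
    obtain ⟨hp, hc⟩ := hsub x hxa
    have hx' : F x - G x = - U x := by
      have : G x - U x = F x := hx
      rw [← this]; ring
    rw [hx', norm_neg, hp, hc]
    congr 3; ring
  rw [h1]
  calc _ ≤ ∫⁻ x, ENNReal.ofReal (‖U x‖ ^ 2 * Real.exp (-(Φ x + χ x - 2 * ψ x))) ∂μ :=
        setLIntegral_le_lintegral _ _
    _ = ENNReal.ofReal (∫ x, ‖U x‖ ^ 2 * Real.exp (-(Φ x + χ x - 2 * ψ x)) ∂μ) :=
        (ofReal_integral_eq_lintegral_ofReal hUi
          (Eventually.of_forall fun x => by positivity)).symm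
    _ ≤ ENNReal.ofReal (2 * K0) := ENNReal.ofReal_le_ofReal hUb

/-- **the engine**, from the a priori inequality for test forms -/
theorem engine_of (hμ : IsLeb μ) (hap : H88.Apriori μ) {ρ : M → ℝ} (hρ : Sm ρ)
    (hcpt : ∀ t : ℝ, IsCompact {x | ρ x ≤ t}) (hL : ∀ x w, nsq w ≤ Levi ρ x w)
    {φ : ℕ → M → ℝ} (hφ : ∀ k, Sm (φ k)) (hmono : ∀ k x, φ (k + 1) x ≤ φ k x)
    (hpos : ∀ k x w, 0 ≤ Levi (φ k) x w) {G : M → ℂ} (hG : Sm G)
    {κ : ℕ → M → ℝ} (hκ0 : ∀ k x, 0 ≤ κ k x) (hκm : ∀ k, Measurable (κ k))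
    (hk : ∀ k x (w : Fin n → ℂ), ‖∑ j, db j G x * conj (w j)‖ ^ 2 ≤ κ k x * Levi (φ k) x w)
    {K : ℝ≥0∞} (hK : K ≠ ∞)
    (hKint : ∀ k, ∫⁻ x, ENNReal.ofReal (κ k x * Real.exp (-φ k x)) ∂μ ≤ K) :
    ∃ F : M → ℂ, Hol F ∧
      ∫⁻ x, ENNReal.ofReal (‖F x - G x‖ ^ 2) *
        (⨆ k, ENNReal.ofReal (Real.exp (-φ k x))) ∂μ ≤ 2 * K := by
  have hKr : ENNReal.ofReal K.toReal = K := ENNReal.ofReal_toReal hK
  choose F hF hFb using fun k : ℕ => engine_step hμ hap hρ hcpt hL (k : ℝ) (hφ k) (hpos k) hG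
    (hκ0 k) (hκm k) (hk k) (K0 := K.toReal) ENNReal.toReal_nonneg (by rw [hKr]; exact hKint k)
  have h2K : ENNReal.ofReal (2 * K.toReal) = 2 * K := by
    rw [ENNReal.ofReal_mul (by norm_num), hKr]; simp
  simp only [h2K] at hFb
  exact T7a297.engine_limit hμ ρ hρ.continuous hcpt φ (fun k => (hφ k).continuous) hmono G
    hG.continuous F hF (2 * K) (ENNReal.mul_ne_top (by simp) hK) hFb

end Crest.Agent.R271.Ho51
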