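import Crest.Agent.R271.H8_51
import Crest.Agent.R271.BallSolver_399

/-!
# Row 271, analytic engine (H): `EngineP` from the a priori inequality (helper51)
-/

set_option autoImplicit false
set_option linter.unusedSectionVars false

noncomputable section

open Set Filter Topology MeasureTheory ComplexConjugate
open scoped ENNReal

namespace Crest.Agent.R271.Ho51

variable {n : ℕ} {M : Type*} [TopologicalSpace M] [T2Space M] [SecondCountableTopology M]
  [RDom n M] [MeasurableSpace M] [BorelSpace M] {μ : Measure M}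

lemma Levi_cont_w (φ : M → ℝ) (x : M) : Continuous (fun w : Fin n → ℂ => Levi φ x w) := by
  unfold Levi; fun_prop

/-- the best constant -/
def kmin (φ : M → ℝ) (α : M → (Fin n → ℂ)) (x : M) : ℝ :=
  ⨆ i : ℕ, (if 0 < Levi φ x (TopologicalSpace.denseSeq (Fin n → ℂ) i) then
    ‖∑ j, α x j * conj (TopologicalSpace.denseSeq (Fin n → ℂ) i j)‖ ^ 2 /
      Levi φ x (TopologicalSpace.denseSeq (Fin n → ℂ) i) else 0)

lemma kmin_spec {φ : M → ℝ} (hφ : Sm φ) (hpos : ∀ x w, 0 ≤ Levi φ x w)
    {α : M → (Fin n → ℂ)} (hα : Continuous α) {κ : M → ℝ}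
    (hk : ∀ x (w : Fin n → ℂ), ‖∑ j, α x j * conj (w j)‖ ^ 2 ≤ κ x * Levi φ x w) :
    Measurable (kmin φ α) ∧ (∀ x, 0 ≤ kmin φ α x) ∧ (∀ x, kmin φ α x ≤ max (κ x) 0) ∧
      ∀ x (w : Fin n → ℂ), ‖∑ j, α x j * conj (w j)‖ ^ 2 ≤ kmin φ α x * Levi φ x w := by
  set d := TopologicalSpace.denseSeq (Fin n → ℂ) with hd
  have hterm : ∀ x i, (if 0 < Levi φ x (d i) then
      ‖∑ j, α x j * conj (d i j)‖ ^ 2 / Levi φ x (d i) else 0) ≤ max (κ x) 0 := by
    intro x i
    split_ifs with h
    · rw [div_le_iff₀ h]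
      exact (hk x (d i)).trans (mul_le_mul_of_nonneg_right (le_max_left _ _) h.le)
    · exact le_max_right _ _
  have hterm0 : ∀ x i, 0 ≤ (if 0 < Levi φ x (d i) then
      ‖∑ j, α x j * conj (d i j)‖ ^ 2 / Levi φ x (d i) else 0) := by
    intro x i
    split_ifs with h
    · positivity
    · exact le_rfl
  have hbdd : ∀ x, BddAbove (range fun i => (if 0 < Levi φ x (d i) then
      ‖∑ j, α x j * conj (d i j)‖ ^ 2 / Levi φ x (d i) else 0)) := fun x =>
    ⟨max (κ x) 0, by rintro _ ⟨i, rfl⟩; exact hterm x i⟩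
  refine ⟨?_, ?_, ?_, ?_⟩
  · refine Measurable.iSup fun i => ?_
    have h1 : Continuous (fun x => Levi φ x (d i)) := H88.Levi_continuous hφ continuous_const
    have h2 : Continuous (fun x => ‖∑ j, α x j * conj (d i j)‖ ^ 2) := by fun_prop
    exact Measurable.ite (measurableSet_lt measurable_const h1.measurable)
      (h2.measurable.div h1.measurable) measurable_const
  · intro x
    exact Real.iSup_nonneg fun i => hterm0 x i
  · intro x
    exact ciSup_le fun i => hterm x i
  · intro x w
    have hcl : IsClosed {w : Fin n → ℂ | ‖∑ j, α x j * conj (w j)‖ ^ 2 ≤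
        kmin φ α x * Levi φ x w} :=
      isClosed_le (by fun_prop) (continuous_const.mul (Levi_cont_w φ x))
    have hall : closure (range d) ⊆ {w : Fin n → ℂ | ‖∑ j, α x j * conj (w j)‖ ^ 2 ≤
        kmin φ α x * Levi φ x w} := by
      refine closure_minimal ?_ hcl
      rintro _ ⟨i, rfl⟩
      show ‖∑ j, α x j * conj (d i j)‖ ^ 2 ≤ kmin φ α x * Levi φ x (d i)
      rcases (hpos x (d i)).lt_or_eq with h | h
      · have h1 := le_ciSup (hbdd x) i
        simp only [if_pos h] at h1
        rw [div_le_iff₀ h] at h1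
        exact h1
      · rw [← h, mul_zero]
        have h1 := hk x (d i)
        rw [← h, mul_zero] at h1
        exact h1
    exact hall (by rw [(TopologicalSpace.denseRange_denseSeq _).closure_range]; trivial)

/-- `EngineP` from the a priori inequality -/
theorem engineP_of
    (hap : ∀ (n : ℕ) (M : Type) [TopologicalSpace M] [T2Space M] [SecondCountableTopology M]
      [RDom n M] [MeasurableSpace M] [BorelSpace M] (μ : Measure M), IsLeb μ → H88.Apriori μ) :
    Ball399.EngineP := by
  intro n M _ _ _ _ _ _ μ hμ ρ hρ hcpt hL φ hφ hanti hpos G hG kap hk K hK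
  by_cases hKt : K = ∞
  · subst hKt
    refine ⟨fun _ => 0, fun e _ => ?_, ?_⟩
    · exact differentiableOn_const _
    · simp
  · have hαc : Continuous (fun x => (fun j => db j G x : Fin n → ℂ)) :=
      continuous_pi fun j => (hG.db j).continuous
    have hs := fun k => kmin_spec (hφ k) (hpos k) hαc (hk k)
    refine engine_of hμ (hap n M μ hμ) hρ hcpt hL hφ (fun k x => hanti x (Nat.le_succ k)) hpos hG
      (fun k => (hs k).2.1) (fun k => (hs k).1) (fun k => (hs k).2.2.2) hKt fun k => ?_
    refine le_trans (lintegral_mono fun x => ?_) (hK k)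
    rcases le_or_gt 0 (kap k x) with h | h
    · refine ENNReal.ofReal_le_ofReal (mul_le_mul_of_nonneg_right ?_ (Real.exp_pos _).le)
      have := (hs k).2.2.1 x
      rwa [max_eq_left h] at this
    · have h1 := (hs k).2.2.1 x
      rw [max_eq_right h.le] at h1
      have h2 : kmin (φ k) (fun x => (fun j => db j G x : Fin n → ℂ)) x = 0 :=
        le_antisymm h1 ((hs k).2.1 x)
      rw [h2, zero_mul, ENNReal.ofReal_zero]
      exact zero_le

end Crest.Agent.R271.Ho51
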