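import Crest.Agent.R271.Defs_710

/-!
Row 271, team F: structural lemmas for `IInt`, ideals `idl F l` of a filtration, conversion lemma.
-/

set_option autoImplicit false

open scoped ENNReal NNReal Topology BigOperators
open MeasureTheory Crest.Agent.R271.Defs710

noncomputable section

namespace Crest.Agent.R271.F140

/-! ### Structural lemmas, straight from the definition -/

section basic

variable {n : ℕ} {B : Type} [CommRing B] [Algebra ℂ B]

theorem wB_equiv {ι ι' : Type} [Fintype ι] [Fintype ι'] (e : ι ≃ ι') (S : ι' → Finset B)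
    (c : ι' → ℝ) : wB (fun i => S (e i)) (fun i => c (e i)) = wB S c := by
  funext y
  exact Fintype.prod_equiv e _ _ (fun _ => rfl)

/-- reindexing -/
theorem IInt_equiv {ι ι' : Type} [Fintype ι] [Fintype ι'] (z : Fin n → B) (y : B →ₐ[ℂ] ℂ)
    (e : ι ≃ ι') (I : ι' → Ideal B) (c : ι' → ℝ) :
    IInt z y (fun i => I (e i)) (fun i => c (e i)) ↔ IInt z y I c := by
  constructor
  · rintro ⟨S, hS, h⟩
    refine ⟨fun i => S (e.symm i), fun i => by simpa using hS (e.symm i), ?_⟩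
    have h2 := wB_equiv e (fun i => S (e.symm i)) c
    simp only [Equiv.symm_apply_apply] at h2
    rwa [← h2]
  · rintro ⟨S, hS, h⟩
    refine ⟨fun i => S (e i), fun i => hS (e i), ?_⟩
    rwa [wB_equiv e S c]

theorem LInt_mono {g g' : Cn n → ℝ≥0∞} {a : Cn n} (h : ∀ᶠ ζ in 𝓝 a, g' ζ ≤ g ζ)
    (hg : LInt g a) : LInt g' a := by
  obtain ⟨U, hU, hlt⟩ := hg
  obtain ⟨W, hW, hWo, haW⟩ := eventually_nhds_iff.1 (h.and hU)
  refine ⟨W, hWo.mem_nhds haW, lt_of_le_of_lt ?_ hlt⟩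
  calc ∫⁻ ζ in W, g' ζ ≤ ∫⁻ ζ in W, g ζ := by
        refine setLIntegral_mono' hWo.measurableSet fun ζ hζ => (hW ζ hζ).1
    _ ≤ ∫⁻ ζ in U, g ζ := lintegral_mono_set fun ζ hζ => (hW ζ hζ).2

theorem LInt_const_mul {g : Cn n → ℝ≥0∞} {a : Cn n} (C : ℝ≥0∞) (hC : C ≠ ∞)
    (hg : LInt g a) : LInt (fun ζ => C * g ζ) a := by
  obtain ⟨U, hU, hlt⟩ := hg
  refine ⟨U, hU, ?_⟩
  rw [lintegral_const_mul' _ _ hC]
  exact ENNReal.mul_lt_top hC.lt_top hlt

theorem wB_sumElim {ι κ : Type} [Fintype ι] [Fintype κ] (S : ι → Finset B) (T : κ → Finset B)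
    (c : ι → ℝ) (d : κ → ℝ) (y : B →ₐ[ℂ] ℂ) :
    wB (Sum.elim S T) (Sum.elim c d) y = wB S c y * wB T d y := by
  simp [wB, Fintype.prod_sum_type]

theorem wB_zero {κ : Type} [Fintype κ] (T : κ → Finset B) (y : B →ₐ[ℂ] ℂ) :
    wB T (fun _ => (0 : ℝ)) y = 1 := by
  simp [wB]

/-- factors with exponent `0` can be removed -/
theorem IInt_of_zero {ι κ : Type} [Fintype ι] [Fintype κ] (z : Fin n → B) (y : B →ₐ[ℂ] ℂ)
    (I : ι → Ideal B) (J : κ → Ideal B) (c : ι → ℝ)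
    (h : IInt z y (Sum.elim I J) (Sum.elim c (fun _ => (0 : ℝ)))) : IInt z y I c := by
  obtain ⟨S, hS, h⟩ := h
  refine ⟨fun i => S (Sum.inl i), fun i => by simpa using hS (Sum.inl i), ?_⟩
  have : wB (fun i => S (Sum.inl i)) c = wB S (Sum.elim c (fun _ => (0 : ℝ))) := by
    funext y'
    have h1 : S = Sum.elim (fun i => S (Sum.inl i)) (fun j => S (Sum.inr j)) := by
      funext i; cases i <;> rfl
    rw [h1, wB_sumElim, wB_zero, mul_one]
    simp
  rwa [this]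

/-- factors with exponent `0` can be added -/
theorem IInt_add_zero {ι κ : Type} [Fintype ι] [Fintype κ] [IsNoetherianRing B] (z : Fin n → B)
    (y : B →ₐ[ℂ] ℂ) (I : ι → Ideal B) (J : κ → Ideal B) (c : ι → ℝ) (h : IInt z y I c) :
    IInt z y (Sum.elim I J) (Sum.elim c (fun _ => (0 : ℝ))) := by
  obtain ⟨S, hS, h⟩ := h
  have hJ : ∀ j, ∃ T : Finset B, Ideal.span (T : Set B) = J j := fun j =>
    (isNoetherianRing_iff_ideal_fg B).1 inferInstance (J j)
  choose T hT using hJ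
  refine ⟨Sum.elim S T, ?_, ?_⟩
  · rintro (i | j)
    · exact hS i
    · exact hT j
  · have : wB (Sum.elim S T) (Sum.elim c (fun _ => (0 : ℝ))) = wB S c := by
      funext y'
      rw [wB_sumElim, wB_zero, mul_one]
    rwa [this]

theorem IInt_zero_iff {ι κ : Type} [Fintype ι] [Fintype κ] [IsNoetherianRing B] (z : Fin n → B)
    (y : B →ₐ[ℂ] ℂ) (I : ι → Ideal B) (J : κ → Ideal B) (c : ι → ℝ) :
    IInt z y (Sum.elim I J) (Sum.elim c (fun _ => (0 : ℝ))) ↔ IInt z y I c :=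
  ⟨IInt_of_zero z y I J c, IInt_add_zero z y I J c⟩

/-- a single ideal with positive exponent which is integrable is nonzero -/
theorem ne_bot_of_IInt (z : Fin n → B) (y : B →ₐ[ℂ] ℂ) (I : Ideal B) (c : ℝ) (hc : 0 < c)
    (h : IInt z y (fun _ : Unit => I) (fun _ => c)) : I ≠ ⊥ := by
  rintro rfl
  obtain ⟨S, hS, C, U, hU, hlt⟩ := h
  have h0 : ∀ y' : B →ₐ[ℂ] ℂ, wB S (fun _ => c) y' = ∞ := by
    intro y'
    have h1 : wt (S ()) y' = 0 := by
      unfold wt
      refine Finset.sum_eq_zero fun b hb => ?_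
      have : b ∈ Ideal.span (S () : Set B) := Ideal.subset_span hb
      rw [hS ()] at this
      rw [(Submodule.mem_bot B).1 this]; simp
    simp only [wB, Finset.univ_unique, Finset.prod_singleton, PUnit.default_eq_unit, h1,
      ENNReal.ofReal_zero]
    exact ENNReal.zero_rpow_of_neg (by linarith)
  simp only [h0] at hlt
  rw [lintegral_const] at hlt
  have hpos : (0 : ℝ≥0∞) < (volume.restrict U) Set.univ := by
    rw [Measure.restrict_apply_univ]
    exact Measure.measure_pos_of_mem_nhds volume hU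
  rw [ENNReal.top_mul hpos.ne'] at hlt
  exact lt_irrefl _ hlt

end basic

/-! ### The ideals `idl F l` -/

section idl

variable {B : Type} [CommRing B] [Algebra ℂ B] {V : ℕ → Submodule ℂ B}

theorem mem_idl (F : Filt V) {m : ℕ} {l : ℝ} {b : B} (hb : b ∈ F.F m l) : b ∈ idl F l :=
  Ideal.subset_span ⟨m, hb⟩

theorem idl_anti (F : Filt V) : Antitone (idl F) := by
  intro l l' hl
  refine Ideal.span_mono ?_
  rintro b ⟨m, hb⟩
  exact ⟨m, F.anti m hl hb⟩

theorem idl_nonpos (h1 : (1 : B) ∈ V 0) (F : Filt V) {l : ℝ} (hl : l ≤ 0) : idl F l = ⊤ := by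
  rw [Ideal.eq_top_iff_one]
  exact mem_idl F (m := 0) (by rw [F.zero 0 l hl]; exact h1)

theorem idl_mul (F : Filt V) (l l' : ℝ) : idl F l * idl F l' ≤ idl F (l + l') := by
  unfold idl
  rw [Ideal.span_mul_span']
  refine Ideal.span_mono ?_
  rintro _ ⟨a, ⟨m, ha⟩, b, ⟨m', hb⟩, rfl⟩
  exact ⟨m + m', F.mul m l m' l' a b ha hb⟩

theorem idl_pow (h1 : (1 : B) ∈ V 0) (F : Filt V) (l : ℝ) (k : ℕ) :
    idl F l ^ k ≤ idl F (k * l) := by
  induction k with
  | zero => simp [idl_nonpos h1 F (le_refl (0 : ℝ))]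
  | succ k ih =>
    rw [pow_succ]
    have : ((k + 1 : ℕ) : ℝ) * l = k * l + l := by push_cast; ring
    rw [this]
    exact (Ideal.mul_mono ih le_rfl).trans (idl_mul F _ _)

theorem idl_prod (h1 : (1 : B) ∈ V 0) (F : Filt V) {κ : Type} (s : Finset κ) (l : κ → ℝ)
    (p : κ → ℕ) : ∏ j ∈ s, idl F (l j) ^ p j ≤ idl F (∑ j ∈ s, p j * l j) := by
  classical
  induction s using Finset.induction_on with
  | empty => simp [idl_nonpos h1 F (le_refl (0 : ℝ))]
  | insert a s ha ih =>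
    rw [Finset.prod_insert ha, Finset.sum_insert ha]
    exact (Ideal.mul_mono (idl_pow h1 F _ _) ih).trans (idl_mul F _ _)

end idl

/-! ### Consequences of the facts `AFacts` -/

section ctx

variable {n : ℕ} {X : FCtx n}

theorem eq_zero_of_pow_eq_zero' {R : Type} [CommRing R] [IsDomain R] {I : Ideal R} {k : ℕ}
    (h : I ^ k = ⊥) : I = ⊥ := by
  by_contra hne
  obtain ⟨a, ha, ha0⟩ := Submodule.exists_mem_ne_zero_of_ne_bot hne
  have := Ideal.pow_mem_pow ha k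
  rw [h] at this
  exact pow_ne_zero k ha0 ((Submodule.mem_bot R).1 this)

theorem noeth (X : FCtx n) : IsNoetherianRing X.B := by
  have := X.ft
  exact Algebra.FiniteType.isNoetherianRing ℂ X.B

theorem one_mem_V (X : FCtx n) : (1 : X.B) ∈ X.V 0 := by
  rw [X.V_zero]
  exact Submodule.one_le.1 le_rfl

/-- exponents can be lowered -/
theorem IInt_mono_exp (hM : MonoFact X) {y : X.B →ₐ[ℂ] ℂ} {ι : Type} [Fintype ι]
    {I : ι → Ideal X.B} {c c' : ι → ℝ} (hI : ∀ i, I i ≠ ⊥) (hc : ∀ i, c' i ≤ c i)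
    (h : IInt X.z y I c) : IInt X.z y I c' :=
  hM y ι I I c c' hI hI hc (fun _ => Or.inl rfl) h

/-- factors with exponent `≥ 0` can be dropped -/
theorem IInt_drop (hM : MonoFact X) {y : X.B →ₐ[ℂ] ℂ} {ι κ : Type} [Fintype ι] [Fintype κ]
    {I : ι → Ideal X.B} {J : κ → Ideal X.B} {c : ι → ℝ} {d : κ → ℝ}
    (hI : ∀ i, I i ≠ ⊥) (hJ : ∀ j, J j ≠ ⊥) (hd : ∀ j, 0 ≤ d j)
    (h : IInt X.z y (Sum.elim I J) (Sum.elim c d)) : IInt X.z y I c := by
  refine IInt_of_zero X.z y I J c (IInt_mono_exp hM ?_ ?_ h)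
  · rintro (i | j)
    · exact hI i
    · exact hJ j
  · rintro (i | j)
    · exact le_rfl
    · exact hd j

/-- (KEY CONVERSION LEMMA) `Int_y(∏ 𝔞_{l_j}^{d_j} · rest)` and `L < ∑ d_j l_j` imply
`Int_y(𝔞_{ML}^{1/M} · rest)` for some `M ≥ 1`; with an arbitrary lower bound for `M` and `M` a
multiple of a given number. -/
theorem conv_mul (hM : MonoFact X) (hP : ProdFact X) (F : Filt X.V) {y : X.B →ₐ[ℂ] ℂ}
    {ι κ : Type} [Fintype ι] [Fintype κ] {I : ι → Ideal X.B} {c : ι → ℝ} {l : κ → ℝ} {d : κ → ℝ}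
    (hI : ∀ i, I i ≠ ⊥) (hJ : ∀ j, idl F (l j) ≠ ⊥) (hd : ∀ j, 0 ≤ d j)
    (h : IInt X.z y (Sum.elim I (fun j => idl F (l j))) (Sum.elim c d))
    {L : ℝ} (hL : L < ∑ j, d j * l j) (q : ℕ) (hq : 1 ≤ q) :
    ∃ M : ℕ, 1 ≤ M ∧ q ∣ M ∧
      IInt X.z y (Sum.elim I (fun _ : Unit => idl F (M * L))) (Sum.elim c (fun _ => 1 / (M : ℝ))) := by
  obtain ⟨M₀, hM₀⟩ := exists_nat_gt ((∑ j, |l j|) / (∑ j, d j * l j - L))
  have hgap : 0 < ∑ j, d j * l j - L := by linarith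
  set M : ℕ := q * (M₀ + 1) with hMdef
  have hM1 : 1 ≤ M := Nat.mul_pos hq (Nat.succ_pos _)
  have hMM : (M₀ : ℝ) ≤ M := by
    have : M₀ ≤ M := by
      calc M₀ ≤ 1 * (M₀ + 1) := by omega
        _ ≤ q * (M₀ + 1) := Nat.mul_le_mul_right _ hq
    exact_mod_cast this
  have hMpos : (0 : ℝ) < M := by exact_mod_cast hM1
  refine ⟨M, hM1, Dvd.intro _ rfl, ?_⟩
  set p : κ → ℕ := fun j => ⌊(M : ℝ) * d j⌋₊ with hp
  have hple : ∀ j, (p j : ℝ) ≤ M * d j := fun j =>
    Nat.floor_le (mul_nonneg hMpos.le (hd j))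
  have hpgt : ∀ j, (M : ℝ) * d j - 1 < p j := fun j => by
    have := Nat.lt_floor_add_one ((M : ℝ) * d j)
    simp only [hp]; linarith
  -- step 1: lower the exponents
  have h1 : IInt X.z y (Sum.elim I (fun j => idl F (l j)))
      (Sum.elim c (fun j => 1 / (M : ℝ) * p j)) := by
    refine IInt_mono_exp hM ?_ ?_ h
    · rintro (i | j)
      · exact hI i
      · exact hJ j
    · rintro (i | j)
      · exact le_rfl
      · simp only [Sum.elim_inr]
        rw [one_div, inv_mul_le_iff₀ hMpos]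
        exact hple j
  -- step 2: product
  have h2 := (hP y ι κ I c (fun j => idl F (l j)) p (1 / (M : ℝ)) hI hJ).2 h1
  -- step 3: enlarge the ideal
  have hle : ∏ j, idl F (l j) ^ p j ≤ idl F (M * L) := by
    refine (idl_prod (one_mem_V X) F Finset.univ l p).trans (idl_anti F ?_)
    have hterm : ∀ j, M * (d j * l j) - |l j| ≤ p j * l j := by
      intro j
      rcases le_total 0 (l j) with h0 | h0
      · rw [abs_of_nonneg h0]
        nlinarith [hpgt j, h0]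
      · rw [abs_of_nonpos h0]
        nlinarith [hple j, h0]
    have hsum : M * ∑ j, d j * l j - ∑ j, |l j| ≤ ∑ j, (p j : ℝ) * l j := by
      rw [Finset.mul_sum, ← Finset.sum_sub_distrib]
      exact Finset.sum_le_sum fun j _ => hterm j
    have h3 : ∑ j, |l j| ≤ M₀ * (∑ j, d j * l j - L) := by
      rw [div_lt_iff₀ hgap] at hM₀
      exact hM₀.le
    have h4 : (M₀ : ℝ) * (∑ j, d j * l j - L) ≤ M * (∑ j, d j * l j - L) :=
      mul_le_mul_of_nonneg_right hMM hgap.le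
    nlinarith
  have hprodne : ∏ j, idl F (l j) ^ p j ≠ ⊥ := by
    have : IsDomain X.B := X.dom
    intro h0
    have : ∃ j, idl F (l j) ^ p j = ⊥ := by
      have := Finset.prod_eq_zero_iff.1 (h0 : ∏ j, idl F (l j) ^ p j = 0)
      obtain ⟨j, -, hj⟩ := this
      exact ⟨j, hj⟩
    obtain ⟨j, hj⟩ := this
    exact hJ j (eq_zero_of_pow_eq_zero' hj)
  refine hM y (ι ⊕ Unit) _ _ _ _ ?_ ?_ (fun _ => le_rfl) ?_ h2
  · rintro (i | j)
    · exact hI i
    · exact hprodne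
  · rintro (i | j)
    · exact hI i
    · exact ne_bot_of_le_ne_bot hprodne hle
  · rintro (i | j)
    · exact Or.inl rfl
    · exact Or.inr ⟨by simp only [Sum.elim_inr]; positivity, hle⟩

/-- (KEY CONVERSION LEMMA), simple form. -/
theorem conv (hM : MonoFact X) (hP : ProdFact X) (F : Filt X.V) {y : X.B →ₐ[ℂ] ℂ}
    {ι κ : Type} [Fintype ι] [Fintype κ] {I : ι → Ideal X.B} {c : ι → ℝ} {l : κ → ℝ} {d : κ → ℝ}
    (hI : ∀ i, I i ≠ ⊥) (hJ : ∀ j, idl F (l j) ≠ ⊥) (hd : ∀ j, 0 ≤ d j)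
    (h : IInt X.z y (Sum.elim I (fun j => idl F (l j))) (Sum.elim c d))
    {L : ℝ} (hL : L < ∑ j, d j * l j) :
    ∃ M : ℕ, 1 ≤ M ∧
      IInt X.z y (Sum.elim I (fun _ : Unit => idl F (M * L))) (Sum.elim c (fun _ => 1 / (M : ℝ))) := by
  obtain ⟨M, h1, -, h2⟩ := conv_mul hM hP F hI hJ hd h hL 1 le_rfl
  exact ⟨M, h1, h2⟩

/-- a product of `𝔞`'s alone -/
theorem good_of_IInt (hM : MonoFact X) (hP : ProdFact X) (F : Filt X.V) {y : X.B →ₐ[ℂ] ℂ}
    {κ : Type} [Fintype κ] {l : κ → ℝ} {d : κ → ℝ}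
    (hJ : ∀ j, idl F (l j) ≠ ⊥) (hd : ∀ j, 0 ≤ d j)
    (h : IInt X.z y (fun j => idl F (l j)) d)
    {L : ℝ} (hL : L < ∑ j, d j * l j) : Good X.z F y L := by
  have h' : IInt X.z y (Sum.elim (fun e : Empty => e.elim) (fun j => idl F (l j)))
      (Sum.elim (fun e : Empty => e.elim) d) := by
    refine (IInt_equiv X.z y (Equiv.emptySum Empty κ).symm _ _).1 ?_
    simpa using h
  obtain ⟨M, h1, h2⟩ := conv hM hP F (fun e => e.elim) hJ hd h' hL
  refine ⟨M, h1, ?_⟩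
  have := (IInt_equiv X.z y (Equiv.emptySum Empty Unit).symm _ _).2 h2
  simpa using this

end ctx

end Crest.Agent.R271.F140
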