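import Mathlib
import Crest.Agent.R271.Defs_710
import Crest.Agent.R271.Jets_171
import Crest.Agent.R271.Der_171
import Crest.Agent.R271.Deg_171

/-!
Row 271, task B9: from graded integrality over `ℂ[Y₀,…,Yₙ]` to `V 0 = ℂ`, `V_fin`, `ordbd` (C4) and
`FSbd`.
-/

set_option autoImplicit false

open scoped BigOperators TensorProduct
open MvPolynomial

namespace Crest.Agent.R271.Ord171

open Crest.Agent.R271.Defs710 Crest.Agent.R271.Jets171 Crest.Agent.R271.Deg171

variable {B : Type} [CommRing B] [Algebra ℂ B] {n : ℕ}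

/-- graded integrality of `f^k`, `f ∈ V m`, over `ℂ[Y₀,…,Yₙ]`, `Yⱼ ∈ V k` -/
def IntY (V : ℕ → Submodule ℂ B) (k : ℕ) (Y : Fin (n + 1) → B) : Prop :=
  ∀ m, ∀ f ∈ V m, ∃ (r : ℕ) (a : ℕ → MvPolynomial (Fin (n + 1)) ℂ), 1 ≤ r ∧
    (∀ i, (a i).IsHomogeneous (m * i)) ∧
    (f ^ k) ^ r = ∑ i ∈ Finset.range r, aeval Y (a (r - i)) * (f ^ k) ^ i

/-! ### `FSbd` -/

theorem norm_aeval_le (Y : Fin (n + 1) → B) (a : MvPolynomial (Fin (n + 1)) ℂ) (d : ℕ)
    (ha : a.IsHomogeneous d) (y : B →ₐ[ℂ] ℂ) (s : ℝ) (hs : ∀ j, ‖y (Y j)‖ ≤ s) :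
    ‖y (aeval Y a)‖ ≤ (∑ σ ∈ a.support, ‖coeff σ a‖) * s ^ d := by
  have h0 : 0 ≤ s := (norm_nonneg _).trans (hs 0)
  rw [aeval_def, eval₂_eq, map_sum, Finset.sum_mul]
  refine (norm_sum_le _ _).trans (Finset.sum_le_sum fun σ hσ => ?_)
  rw [map_mul, norm_mul, map_prod, norm_prod]
  have h1 : y ((algebraMap ℂ B) (coeff σ a)) = coeff σ a := by simp
  rw [h1]
  refine mul_le_mul_of_nonneg_left ?_ (norm_nonneg _)
  have h2 : d = ∑ i ∈ σ.support, σ i := by
    have := ha (mem_support_iff.1 hσ)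
    rw [← this, Finsupp.weight_apply]
    simp [Finsupp.sum]
  rw [h2, ← Finset.prod_pow_eq_pow_sum]
  refine Finset.prod_le_prod (fun i _ => norm_nonneg _) fun i _ => ?_
  rw [map_pow, norm_pow]
  exact pow_le_pow_left₀ (norm_nonneg _) (hs i) _

theorem root_bound (t σ : ℝ) (hσ : 0 ≤ σ) (r : ℕ) (A : ℕ → ℝ)
    (hA : ∀ i, 0 ≤ A i)
    (h : t ^ r ≤ ∑ i ∈ Finset.range r, A (r - i) * σ ^ (r - i) * t ^ i) :
    t ≤ (1 + ∑ i ∈ Finset.range r, A (r - i)) * σ := by
  set S : ℝ := ∑ i ∈ Finset.range r, A (r - i) with hS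
  have hS0 : 0 ≤ S := Finset.sum_nonneg fun i _ => hA _
  by_contra hcon
  push Not at hcon
  have htpos : 0 < t := lt_of_le_of_lt (by positivity) hcon
  have hσt : σ ≤ t / (1 + S) := by
    rw [le_div_iff₀ (by positivity)]
    nlinarith
  have h1 : ∀ i ∈ Finset.range r, A (r - i) * σ ^ (r - i) * t ^ i ≤ A (r - i) * (t ^ r / (1 + S)) := by
    intro i hi
    rw [mul_assoc]
    refine mul_le_mul_of_nonneg_left ?_ (hA _)
    have hi' : i < r := Finset.mem_range.1 hi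
    have h2 : σ ^ (r - i) ≤ t ^ (r - i) / (1 + S) := by
      calc σ ^ (r - i) ≤ (t / (1 + S)) ^ (r - i) := pow_le_pow_left₀ hσ hσt _
        _ = t ^ (r - i) / (1 + S) ^ (r - i) := div_pow _ _ _
        _ ≤ t ^ (r - i) / (1 + S) := by
          refine div_le_div_of_nonneg_left (by positivity) (by positivity) ?_
          calc (1 + S) = (1 + S) ^ 1 := (pow_one _).symm
            _ ≤ (1 + S) ^ (r - i) := pow_le_pow_right₀ (by linarith) (by omega)
    calc σ ^ (r - i) * t ^ i ≤ t ^ (r - i) / (1 + S) * t ^ i :=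
          mul_le_mul_of_nonneg_right h2 (by positivity)
      _ = t ^ r / (1 + S) := by
          rw [div_mul_eq_mul_div, ← pow_add]
          congr 2
          omega
  have h2 : t ^ r ≤ S * (t ^ r / (1 + S)) := by
    refine h.trans ((Finset.sum_le_sum h1).trans ?_)
    rw [← Finset.sum_mul]
  have h3 : 0 < t ^ r := pow_pos htpos r
  have h4 : S * (t ^ r / (1 + S)) < t ^ r := by
    rw [mul_div_assoc', div_lt_iff₀ (by positivity)]
    nlinarith
  linarith

/-- (B9, FSbd) -/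
theorem FSbd_of_int (V : ℕ → Submodule ℂ B) (k : ℕ) (Y : Fin (n + 1) → B) (hint : IntY V k Y) :
    ∀ m, ∀ f ∈ V m, ∃ C : ℝ, ∀ y : B →ₐ[ℂ] ℂ, ‖y f‖ ^ (2 * k) ≤ C * (∑ j, ‖y (Y j)‖ ^ 2) ^ m := by
  intro m f hf
  obtain ⟨r, a, hr, ha, hfr⟩ := hint m f hf
  set A : ℕ → ℝ := fun i => ∑ σ ∈ (a i).support, ‖coeff σ (a i)‖ with hA
  set S : ℝ := 1 + ∑ i ∈ Finset.range r, A (r - i) with hS
  refine ⟨S ^ 2, fun y => ?_⟩
  set s : ℝ := Real.sqrt (∑ j, ‖y (Y j)‖ ^ 2) with hs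
  have hρ0 : 0 ≤ ∑ j, ‖y (Y j)‖ ^ 2 := Finset.sum_nonneg fun j _ => by positivity
  have hs0 : 0 ≤ s := Real.sqrt_nonneg _
  have hsq : s ^ 2 = ∑ j, ‖y (Y j)‖ ^ 2 := Real.sq_sqrt hρ0
  have hYs : ∀ j, ‖y (Y j)‖ ≤ s := by
    intro j
    rw [hs]
    refine Real.le_sqrt_of_sq_le ?_
    exact Finset.single_le_sum (f := fun j => ‖y (Y j)‖ ^ 2) (fun i _ => by positivity)
      (Finset.mem_univ j)
  have h1 : (‖y f‖ ^ k) ^ r ≤
      ∑ i ∈ Finset.range r, A (r - i) * (s ^ m) ^ (r - i) * (‖y f‖ ^ k) ^ i := by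
    have h2 : (‖y f‖ ^ k) ^ r = ‖y ((f ^ k) ^ r)‖ := by
      rw [map_pow, map_pow, norm_pow, norm_pow]
    rw [h2, hfr, map_sum]
    refine (norm_sum_le _ _).trans (Finset.sum_le_sum fun i _ => ?_)
    rw [map_mul, norm_mul, map_pow, map_pow, norm_pow, norm_pow]
    refine mul_le_mul_of_nonneg_right ?_ (by positivity)
    have h3 := norm_aeval_le Y (a (r - i)) _ (ha (r - i)) y s hYs
    rwa [pow_mul] at h3
  have h4 := root_bound (‖y f‖ ^ k) (s ^ m) (by positivity) r A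
    (fun i => Finset.sum_nonneg fun _ _ => norm_nonneg _) h1
  calc ‖y f‖ ^ (2 * k) = (‖y f‖ ^ k) ^ 2 := by rw [← pow_mul, mul_comm]
    _ ≤ (S * s ^ m) ^ 2 := pow_le_pow_left₀ (by positivity) h4 2
    _ = S ^ 2 * (∑ j, ‖y (Y j)‖ ^ 2) ^ m := by rw [mul_pow, ← hsq]; ring

/-! ### the integral equation as a polynomial -/

/-- `T^r - ∑ p_{r-i} T^i` -/
noncomputable def GP {R : Type} [CommRing R] (r : ℕ) (p : ℕ → R) : Polynomial R :=
  Polynomial.X ^ r - ∑ i ∈ Finset.range r, Polynomial.C (p (r - i)) * Polynomial.X ^ i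

section GP

variable {R : Type} [CommRing R] (r : ℕ) (p : ℕ → R)

theorem GP_degree_aux :
    (∑ i ∈ Finset.range r, Polynomial.C (p (r - i)) * Polynomial.X ^ i).degree <
      (r : WithBot ℕ) := by
  rw [Finset.sum_range (fun i => Polynomial.C (p (r - i)) * Polynomial.X ^ i)]
  exact Polynomial.degree_sum_fin_lt (fun i : Fin r => p (r - i))

theorem GP_monic : (GP r p).Monic := Polynomial.monic_X_pow_sub (GP_degree_aux r p)

theorem GP_natDegree [Nontrivial R] : (GP r p).natDegree = r := by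
  have h : (GP r p).degree = (r : WithBot ℕ) := by
    unfold GP
    rw [Polynomial.degree_sub_eq_left_of_degree_lt]
    · rw [Polynomial.degree_X_pow]
    · rw [Polynomial.degree_X_pow]; exact GP_degree_aux r p
  exact Polynomial.natDegree_eq_of_degree_eq_some h

theorem GP_coeff (i : ℕ) :
    (GP r p).coeff i = (if i = r then 1 else 0) - (if i < r then p (r - i) else 0) := by
  unfold GP
  rw [Polynomial.coeff_sub, Polynomial.coeff_X_pow, Polynomial.finsetSum_coeff]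
  congr 1
  simp only [Polynomial.coeff_C_mul, Polynomial.coeff_X_pow, mul_ite, mul_one, mul_zero]
  by_cases h : i < r
  · rw [if_pos h, Finset.sum_eq_single i]
    · simp
    · intro j _ hj
      rw [if_neg (Ne.symm hj)]
    · intro h'
      exact absurd (Finset.mem_range.2 h) h'
  · rw [if_neg h]
    refine Finset.sum_eq_zero fun j hj => ?_
    rw [if_neg]
    rintro rfl
    exact h (Finset.mem_range.1 hj)

theorem GP_aeval {S : Type} [CommRing S] [Algebra R S] (x : S) :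
    Polynomial.aeval x (GP r p) =
      x ^ r - ∑ i ∈ Finset.range r, algebraMap R S (p (r - i)) * x ^ i := by
  unfold GP
  simp [map_sub, map_sum]

end GP

/-! ### `V 0 = ℂ` -/

theorem const_of_int [IsDomain B] (V : ℕ → Submodule ℂ B) (k : ℕ) (hk : 1 ≤ k)
    (Y : Fin (n + 1) → B) (hint : IntY V k Y) : V 0 ≤ 1 := by
  intro f hf
  obtain ⟨r, a, hr, ha, hfr⟩ := hint 0 f hf
  have hc : ∀ i, ∃ c : ℂ, a i = C c := by
    intro i
    have h1 : (a i).totalDegree = 0 := by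
      have := (ha i).totalDegree_le
      omega
    exact ⟨_, totalDegree_eq_zero_iff_eq_C.1 h1⟩
  choose c hc using hc
  have hint' : IsIntegral ℂ f := by
    refine IsIntegral.of_pow (n := k) (by omega) ⟨GP r c, GP_monic r c, ?_⟩
    rw [← Polynomial.aeval_def, GP_aeval, hfr, sub_eq_zero]
    refine Finset.sum_congr rfl fun i _ => ?_
    rw [hc (r - i), aeval_C]
  have h1 := IsAlgClosed.degree_eq_one_of_irreducible ℂ (minpoly.irreducible hint')
  obtain ⟨w, hw⟩ := minpoly.mem_range_of_degree_eq_one ℂ f h1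
  rw [← hw]
  exact Submodule.algebraMap_mem w

/-! ### integrality over `ℂ[z]` -/

/-- the polynomial equation over `ℂ[z]` of `φ = f^k u^m` -/
theorem eq_of_int (V : ℕ → Submodule ℂ B) (k : ℕ)
    (Y : Fin (n + 1) → B) (hint : IntY V k Y) (z : Fin n → B) (u : B) (hu : Y 0 * u = 1)
    (hz : ∀ i, Y (Fin.succ i) * u = z i) (m : ℕ) (f : B) (hf : f ∈ V m) :
    ∃ (r : ℕ) (p : ℕ → MvPolynomial (Fin n) ℂ), (∀ i, (p i).totalDegree ≤ m * i) ∧
      (f ^ k * u ^ m) ^ r = ∑ i ∈ Finset.range r, aeval z (p (r - i)) * (f ^ k * u ^ m) ^ i := by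
  obtain ⟨r, a, hr, ha, hfr⟩ := hint m f hf
  refine ⟨r, fun i => deh (a i), fun i => (deh_degree _).trans (ha i).totalDegree_le, ?_⟩
  rw [mul_pow, hfr, Finset.sum_mul]
  refine Finset.sum_congr rfl fun i hi => ?_
  have hi' : i < r := Finset.mem_range.1 hi
  rw [← aeval_deh Y z u hu hz (a (r - i)) _ (ha (r - i)), mul_pow]
  have h1 : (u ^ m) ^ r = u ^ (m * (r - i)) * (u ^ m) ^ i := by
    rw [← pow_mul, ← pow_mul, ← pow_add, ← mul_add]
    congr 2
    omega
  rw [h1]; ring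

/-- elements `a = f u^j`, `f ∈ V (k j)`, are integral over `ℂ[z]` -/
theorem isIntegral_adjoin (V : ℕ → Submodule ℂ B) (k : ℕ) (hk : 1 ≤ k)
    (Y : Fin (n + 1) → B) (hint : IntY V k Y) (z : Fin n → B) (u : B) (hu : Y 0 * u = 1)
    (hz : ∀ i, Y (Fin.succ i) * u = z i) (j : ℕ) (f : B) (hf : f ∈ V (k * j)) :
    IsIntegral (Algebra.adjoin ℂ (Set.range z)) (f * u ^ j) := by
  obtain ⟨r, p, hp, hfr⟩ := eq_of_int V k Y hint z u hu hz (k * j) f hf
  have hmem : ∀ i, aeval z (p i) ∈ Algebra.adjoin ℂ (Set.range z) := by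
    intro i
    rw [Algebra.adjoin_range_eq_range_aeval]
    exact ⟨p i, rfl⟩
  refine IsIntegral.of_pow (n := k) (by omega)
    ⟨GP r (fun i => (⟨aeval z (p i), hmem i⟩ : Algebra.adjoin ℂ (Set.range z))),
      GP_monic _ _, ?_⟩
  rw [← Polynomial.aeval_def, GP_aeval]
  have h1 : (f * u ^ j) ^ k = f ^ k * u ^ (k * j) := by rw [mul_pow, ← pow_mul, mul_comm j k]
  rw [h1, hfr, sub_eq_zero]
  rfl

/-! ### `ordbd` -/

section ordbd

variable [IsDomain B]

/-- the uniform bound for the degree of the minimal polynomials -/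
theorem exists_degree_bound (z : Fin n → B)
    (het : RingHom.Etale ((MvPolynomial.aeval z : MvPolynomial (Fin n) ℂ →ₐ[ℂ] B) :
      MvPolynomial (Fin n) ℂ →+* B))
    (hinj : Function.Injective (MvPolynomial.aeval z : MvPolynomial (Fin n) ℂ →ₐ[ℂ] B)) :
    ∃ D : ℕ, ∀ (φ : B) (r : ℕ) (p : ℕ → MvPolynomial (Fin n) ℂ) (m : ℕ), 0 < m → φ ≠ 0 →
      (∀ i, (p i).totalDegree ≤ m * i) →
      φ ^ r = ∑ i ∈ Finset.range r, aeval z (p (r - i)) * φ ^ i →
      ∃ c : MvPolynomial (Fin n) ℂ, c ≠ 0 ∧ c.totalDegree ≤ m * D ∧ φ ∣ aeval z c := by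
  classical
  let _ : Algebra (MvPolynomial (Fin n) ℂ) B :=
    ((MvPolynomial.aeval z : MvPolynomial (Fin n) ℂ →ₐ[ℂ] B) :
      MvPolynomial (Fin n) ℂ →+* B).toAlgebra
  have : IsScalarTower ℂ (MvPolynomial (Fin n) ℂ) B :=
    IsScalarTower.of_algebraMap_eq (fun c => ((MvPolynomial.aeval z).commutes c).symm)
  have : Algebra.Etale (MvPolynomial (Fin n) ℂ) B := het
  have halg : ∀ p : MvPolynomial (Fin n) ℂ,
      algebraMap (MvPolynomial (Fin n) ℂ) B p = aeval z p := fun p => rfl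
  have : FaithfulSMul (MvPolynomial (Fin n) ℂ) B :=
    (faithfulSMul_iff_algebraMap_injective _ _).2 hinj
  let K := FractionRing (MvPolynomial (Fin n) ℂ)
  let L := FractionRing B
  let _ : Algebra K L := FractionRing.liftAlgebra (MvPolynomial (Fin n) ℂ) L
  have : Algebra.EssFiniteType (MvPolynomial (Fin n) ℂ) L :=
    Algebra.EssFiniteType.comp (MvPolynomial (Fin n) ℂ) B L
  have : Algebra.FormallyUnramified B L :=
    Algebra.FormallyUnramified.of_isLocalization (nonZeroDivisors B)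
  have : Algebra.FormallyUnramified (MvPolynomial (Fin n) ℂ) L :=
    Algebra.FormallyUnramified.comp (MvPolynomial (Fin n) ℂ) B L
  have : IsScalarTower (MvPolynomial (Fin n) ℂ) K L := inferInstance
  have : Algebra.EssFiniteType K L := Algebra.EssFiniteType.of_comp (MvPolynomial (Fin n) ℂ) K L
  have : Algebra.FormallyUnramified K L :=
    Algebra.FormallyUnramified.of_restrictScalars (MvPolynomial (Fin n) ℂ) K L
  have : Module.Finite K L := Algebra.FormallyUnramified.finite_of_free K L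
  refine ⟨Module.finrank K L, ?_⟩
  intro φ r p m hm hφ hp hφr
  have haev : Polynomial.aeval φ (GP r p) = 0 := by
    rw [GP_aeval, hφr, sub_eq_zero]
    rfl
  have hφint : IsIntegral (MvPolynomial (Fin n) ℂ) φ := ⟨GP r p, GP_monic _ _, haev⟩
  obtain ⟨M', hM'⟩ := minpoly.isIntegrallyClosed_dvd hφint haev
  have hMm : (minpoly (MvPolynomial (Fin n) ℂ) φ).Monic := minpoly.monic hφint
  have hM'm : M'.Monic := hMm.of_mul_monic_left (by rw [← hM']; exact GP_monic _ _)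
  have hc0 : (minpoly (MvPolynomial (Fin n) ℂ) φ).coeff 0 ≠ 0 := by
    intro h
    have hφL : algebraMap B L φ ≠ 0 := by
      intro h'
      exact hφ (IsFractionRing.injective B L (by rw [h', map_zero]))
    have hφK : IsIntegral K (algebraMap B L φ) := Algebra.IsIntegral.isIntegral _
    refine minpoly.coeff_zero_ne_zero hφK hφL ?_
    rw [minpoly.isIntegrallyClosed_eq_field_fractions K L hφint, Polynomial.coeff_map, h, map_zero]
  refine ⟨(minpoly (MvPolynomial (Fin n) ℂ) φ).coeff 0, hc0, ?_, ?_⟩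
  · have h1 := coeff_zero_degree m hm (GP r p) _ M' hM' hMm hM'm (by
      intro i hi
      rw [GP_natDegree]
      rw [GP_coeff] at hi ⊢
      by_cases h : i = r
      · subst h
        simp
      · by_cases h' : i < r
        · rw [if_neg h, if_pos h', zero_sub, totalDegree_neg]
          calc (p (r - i)).totalDegree + m * i ≤ m * (r - i) + m * i :=
                Nat.add_le_add_right (hp _) _
            _ = m * r := by rw [← mul_add]; congr 1; omega
        · rw [if_neg h, if_neg h'] at hi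
          simp at hi) hc0
    refine h1.trans (Nat.mul_le_mul_left _ ?_)
    have h2 := minpoly.isIntegrallyClosed_eq_field_fractions K L hφint
    have h3 := minpoly.natDegree_le (A := K) (algebraMap B L φ)
    rw [h2, hMm.natDegree_map] at h3
    exact h3
  · rw [← halg]
    have h1 := minpoly.aeval (MvPolynomial (Fin n) ℂ) φ
    rw [← Polynomial.divX_mul_X_add (minpoly (MvPolynomial (Fin n) ℂ) φ)] at h1
    simp only [map_add, map_mul, Polynomial.aeval_X, Polynomial.aeval_C] at h1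
    refine ⟨-(Polynomial.aeval φ (minpoly (MvPolynomial (Fin n) ℂ) φ).divX), ?_⟩
    linear_combination h1

/-- (B9, C4): vanishing orders are linearly bounded. -/
theorem ordbd_of_int (V : ℕ → Submodule ℂ B) (k : ℕ) (hk : 1 ≤ k)
    (Y : Fin (n + 1) → B) (hint : IntY V k Y) (z : Fin n → B)
    (het : RingHom.Etale ((MvPolynomial.aeval z : MvPolynomial (Fin n) ℂ →ₐ[ℂ] B) :
      MvPolynomial (Fin n) ℂ →+* B))
    (hY : IsUnit (Y 0)) (hYz : ∀ i : Fin n, z i * Y 0 = Y i.succ) :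
    ∃ C₁ : ℕ, ∀ m, ∀ f ∈ V m, f ≠ 0 → ∀ (y : B →ₐ[ℂ] ℂ) (e : ℕ), f ∈ mI y ^ e → e ≤ C₁ * m := by
  obtain ⟨u, hu⟩ := hY.exists_right_inv
  have hz : ∀ i, Y (Fin.succ i) * u = z i := by
    intro i
    rw [← hYz i, mul_assoc, hu, mul_one]
  by_cases hne : Nonempty (B →ₐ[ℂ] ℂ)
  swap
  · exact ⟨0, fun m f _ _ y => (hne ⟨y⟩).elim⟩
  obtain ⟨y₀⟩ := hne
  have hinj : Function.Injective (MvPolynomial.aeval z : MvPolynomial (Fin n) ℂ →ₐ[ℂ] B) := by
    rw [injective_iff_map_eq_zero]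
    intro p hp
    by_contra hne
    have h1 := order_le_totalDegree z het y₀ p hne (p.totalDegree + 1) (by
      have : (aeval z : MvPolynomial (Fin n) ℂ →ₐ[ℂ] B) p = 0 := hp
      rw [this]
      exact Ideal.zero_mem _)
    omega
  obtain ⟨D, hD⟩ := exists_degree_bound z het hinj
  refine ⟨D, ?_⟩
  intro m f hf hf0 y e he
  rcases Nat.eq_zero_or_pos m with rfl | hm
  · obtain ⟨c, hc⟩ := Submodule.mem_one.1 (const_of_int V k hk Y hint hf)
    by_contra hcon
    have h1 : f ∈ mI y := Ideal.pow_le_self (by omega) he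
    rw [mem_mI, ← hc] at h1
    apply hf0
    rw [← hc]
    have : c = 0 := by simpa using h1
    rw [this, map_zero]
  · obtain ⟨r, p, hp, hfr⟩ := eq_of_int V k Y hint z u hu hz m f hf
    have hu0 : u ≠ 0 := by
      rintro rfl
      rw [mul_zero] at hu
      exact zero_ne_one hu
    have hφ : f ^ k * u ^ m ≠ 0 := mul_ne_zero (pow_ne_zero _ hf0) (pow_ne_zero _ hu0)
    obtain ⟨c, hc0, hcd, w, hw⟩ := hD (f ^ k * u ^ m) r p m hm hφ hp hfr
    have h1 : aeval z c ∈ mI y ^ e := by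
      rw [hw]
      refine Ideal.mul_mem_right _ _ (Ideal.mul_mem_right _ _ ?_)
      obtain ⟨k', rfl⟩ : ∃ k', k = k' + 1 := ⟨k - 1, by omega⟩
      rw [pow_succ]
      exact Ideal.mul_mem_left _ _ he
    have h2 := order_le_totalDegree z het y c hc0 e h1
    rw [mul_comm]
    exact h2.trans hcd

/-- `B/m_y^{e+1}` is finite dimensional, in the form: `B = W + m_y^{e+1}` -/
theorem fin_of_ordbd (ft : Algebra.FiniteType ℂ B) (V : ℕ → Submodule ℂ B) (y : B →ₐ[ℂ] ℂ)
    (hord : ∃ C₁ : ℕ, ∀ m, ∀ f ∈ V m, f ≠ 0 → ∀ (y : B →ₐ[ℂ] ℂ) (e : ℕ),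
      f ∈ mI y ^ e → e ≤ C₁ * m) (m : ℕ) : FiniteDimensional ℂ (V m) := by
  obtain ⟨C₁, hC⟩ := hord
  obtain ⟨S, hS⟩ := ft.out
  set e := C₁ * m with he
  set W : Submodule ℂ B := (Submodule.span ℂ (insert 1 (S : Set B))) ^ e with hW
  have hWfg : W.FG := by
    refine Submodule.FG.pow ?_ _
    exact Submodule.fg_span (by
      exact (Set.Finite.insert _ (Finset.finite_toSet S)))
  have hWfin : FiniteDimensional ℂ W := Module.Finite.iff_fg.2 hWfg
  let I : Submodule ℂ B := (mI y ^ (e + 1)).restrictScalars ℂ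
  have hquot : FiniteDimensional ℂ (B ⧸ I) := by
    refine Module.Finite.of_surjective (I.mkQ.comp W.subtype) ?_
    intro q
    obtain ⟨b, rfl⟩ := Submodule.mkQ_surjective I q
    obtain ⟨g, hg, hbg⟩ := jet_full S hS y e b
    refine ⟨⟨g, hg⟩, ?_⟩
    simp only [LinearMap.comp_apply, Submodule.subtype_apply, Submodule.mkQ_apply]
    rw [Submodule.Quotient.eq]
    have : g - b = -(b - g) := by ring
    rw [this]
    exact Submodule.neg_mem _ hbg
  refine Module.Finite.of_injective (I.mkQ.comp (V m).subtype) ?_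
  rw [injective_iff_map_eq_zero]
  intro f hf
  simp only [LinearMap.comp_apply, Submodule.subtype_apply, Submodule.mkQ_apply,
    Submodule.Quotient.mk_eq_zero] at hf
  by_contra hne
  have hne' : (f : B) ≠ 0 := fun h => hne (Subtype.ext h)
  have := hC m f f.2 hne' y (e + 1) hf
  omega

/-- (B9) everything that follows from graded integrality over `ℂ[Y₀,…,Yₙ]`: the fields `V_zero`,
`V_fin`, `ordbd`, `FSbd` of `FCtx`. -/
theorem B9 (ft : Algebra.FiniteType ℂ B) (V : ℕ → Submodule ℂ B) (hone : (1 : B) ∈ V 0) (k : ℕ)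
    (hk : 1 ≤ k) (Y : Fin (n + 1) → B) (hint : IntY V k Y) (z : Fin n → B)
    (het : RingHom.Etale ((MvPolynomial.aeval z : MvPolynomial (Fin n) ℂ →ₐ[ℂ] B) :
      MvPolynomial (Fin n) ℂ →+* B))
    (hY : IsUnit (Y 0)) (hYz : ∀ i : Fin n, z i * Y 0 = Y i.succ) (y : B →ₐ[ℂ] ℂ) :
    V 0 = 1 ∧ (∀ m, FiniteDimensional ℂ (V m)) ∧
    (∃ C₁ : ℕ, ∀ m, ∀ f ∈ V m, f ≠ 0 → ∀ (y : B →ₐ[ℂ] ℂ) (e : ℕ),
      f ∈ mI y ^ e → e ≤ C₁ * m) ∧
    (∀ m, ∀ f ∈ V m, ∃ C : ℝ, ∀ y : B →ₐ[ℂ] ℂ,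
      ‖y f‖ ^ (2 * k) ≤ C * (∑ j, ‖y (Y j)‖ ^ 2) ^ m) := by
  have hord := ordbd_of_int V k hk Y hint z het hY hYz
  refine ⟨le_antisymm (const_of_int V k hk Y hint) ?_, fin_of_ordbd ft V y hord, hord,
    FSbd_of_int V k Y hint⟩
  rw [Submodule.one_le]
  exact hone

end ordbd

end Crest.Agent.R271.Ord171

#print axioms Crest.Agent.R271.Ord171.B9
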