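import Crest.Agent.R271.Ctx1_728
import Crest.Agent.R271.Ord_171

/-!
Row 271: `JetsProp` and `OrdFSProp` of `Ctx1_728`.
-/

set_option autoImplicit false

open scoped BigOperators

namespace Crest.Agent.R271.JetsOrd171

open Crest.Agent.R271.Defs710 Crest.Agent.R271.Ctx728 Crest.Agent.R271.Jets171
  Crest.Agent.R271.Ord171

theorem jetsProp : JetsProp := by
  intro B _ _ _ V k₀ hG
  refine jets V ?_ hG.mul k₀ ?_ hG.gen
  · rw [hG.zero]
    exact Submodule.one_le.1 le_rfl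
  · intro m hm y
    obtain ⟨f, hf, hf'⟩ := hG.bpf m hm (mI y) (RingHom.ker_isPrime _)
    exact ⟨f, hf, fun h => hf' ((mem_mI y f).2 h)⟩

theorem pow_mem_V {B : Type} [CommRing B] [Algebra ℂ B] (V : ℕ → Submodule ℂ B) (h0 : V 0 = 1)
    (hmul : ∀ m l a b, a ∈ V m → b ∈ V l → a * b ∈ V (m + l)) (m k : ℕ) (f : B) (hf : f ∈ V m) :
    f ^ k ∈ V (m * k) := by
  induction k with
  | zero =>
    rw [pow_zero, mul_zero, h0]
    exact Submodule.one_le.1 le_rfl
  | succ k ih =>
    rw [pow_succ, mul_add, mul_one]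
    exact hmul _ _ _ _ ih hf

theorem ordFSProp : OrdFSProp := by
  intro n B _ _ _ V z k Y hn hft het h0 hmul hfin hk hYV hY hYz hG
  have hint : IntY V k Y := by
    intro m f hf
    obtain ⟨r, hr, p, hp, he⟩ := hG m (f ^ k) (pow_mem_V V h0 hmul m k f hf)
    exact ⟨r, p, hr, hp, he⟩
  exact ⟨ordbd_of_int V k hk Y hint z het hY hYz, FSbd_of_int V k Y hint⟩

end Crest.Agent.R271.JetsOrd171

#print axioms Crest.Agent.R271.JetsOrd171.jetsProp
#print axioms Crest.Agent.R271.JetsOrd171.ordFSProp
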