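import Mathlib
import Crest.Agent.R271.Defs_710

/-!
Row 271, field `jets` of `FCtx` (C3): uniform jets from generators (helper769).
-/

set_option autoImplicit false

open scoped BigOperators

namespace Crest.Agent.R271.Jets769

open Crest.Agent.R271.Defs710

variable {B : Type} [CommRing B] [Algebra ℂ B]

/-- `mI y` is generated by `b - y b`, `b` in a generating set of the algebra. -/
theorem mI_le_span (S : Set B) (hS : Algebra.adjoin ℂ S = ⊤) (y : B →ₐ[ℂ] ℂ) :
    mI y ≤ Ideal.span ((fun b => b - algebraMap ℂ B (y b)) '' S) := by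
  set I : Ideal B := Ideal.span ((fun b => b - algebraMap ℂ B (y b)) '' S) with hI
  have key : ∀ a : B, a - algebraMap ℂ B (y a) ∈ I := by
    intro a
    have ha : a ∈ Algebra.adjoin ℂ S := by rw [hS]; trivial
    induction ha using Algebra.adjoin_induction with
    | mem x hx => exact Ideal.subset_span ⟨x, hx, rfl⟩
    | algebraMap r => simp
    | add a b _ _ ha hb =>
      have : a + b - algebraMap ℂ B (y (a + b)) =
          (a - algebraMap ℂ B (y a)) + (b - algebraMap ℂ B (y b)) := by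
        rw [map_add, map_add]; ring
      rw [this]; exact I.add_mem ha hb
    | mul a b _ _ ha hb =>
      have : a * b - algebraMap ℂ B (y (a * b)) =
          (a - algebraMap ℂ B (y a)) * b + algebraMap ℂ B (y a) * (b - algebraMap ℂ B (y b)) := by
        rw [map_mul, map_mul]; ring
      rw [this]; exact I.add_mem (I.mul_mem_right _ ha) (I.mul_mem_left _ hb)
  intro a ha
  have h0 : y a = 0 := ha
  have := key a
  rwa [h0, map_zero, sub_zero] at this

theorem sub_mem_mI (y : B →ₐ[ℂ] ℂ) (a : B) : a - algebraMap ℂ B (y a) ∈ mI y := by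
  show (y : B →+* ℂ) _ = 0
  simp

/-- linear jets -/
theorem lin_jets (V : ℕ → Submodule ℂ B) (Q : ℕ) (S : Finset B)
    (hS : Algebra.adjoin ℂ (S : Set B) = ⊤)
    (hg : ∀ b ∈ S, ∃ g ∈ V Q, IsUnit g ∧ b * g ∈ V Q) (y : B →ₐ[ℂ] ℂ) (a : B) (ha : a ∈ mI y) :
    ∃ f ∈ V Q, f ∈ mI y ∧ f - a ∈ mI y ^ 2 := by
  have h1 := mI_le_span (S : Set B) hS y ha
  have : ∀ a ∈ Ideal.span ((fun b => b - algebraMap ℂ B (y b)) '' (S : Set B)),
      ∃ f ∈ V Q, f ∈ mI y ∧ f - a ∈ mI y ^ 2 := by
    intro a ha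
    induction ha using Submodule.span_induction with
    | mem x hx =>
      obtain ⟨b, hb, rfl⟩ := hx
      obtain ⟨g, hgV, hgu, hbg⟩ := hg b hb
      have hy : y g ≠ 0 := (hgu.map y).ne_zero
      refine ⟨(y g)⁻¹ • (b * g - (y b) • g), ?_, ?_, ?_⟩
      · exact (V Q).smul_mem _ ((V Q).sub_mem hbg ((V Q).smul_mem _ hgV))
      · show (y : B →+* ℂ) _ = 0
        simp
      · have e1 : (y g)⁻¹ • (b * g - (y b) • g) - (b - algebraMap ℂ B (y b)) =
            (b - algebraMap ℂ B (y b)) * (algebraMap ℂ B (y g)⁻¹ * (g - algebraMap ℂ B (y g))) := by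
          have : algebraMap ℂ B (y g)⁻¹ * algebraMap ℂ B (y g) = 1 := by
            rw [← map_mul, inv_mul_cancel₀ hy, map_one]
          simp only [Algebra.smul_def]
          linear_combination (b - algebraMap ℂ B (y b)) * this
        rw [e1, pow_two]
        exact Ideal.mul_mem_mul (sub_mem_mI y b) (Ideal.mul_mem_left _ _ (sub_mem_mI y g))
    | zero => exact ⟨0, (V Q).zero_mem, (mI y).zero_mem, by simp⟩
    | add a b _ _ iha ihb =>
      obtain ⟨f, hf, hfm, hf2⟩ := iha
      obtain ⟨f', hf', hfm', hf2'⟩ := ihb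
      refine ⟨f + f', (V Q).add_mem hf hf', (mI y).add_mem hfm hfm', ?_⟩
      have : f + f' - (a + b) = (f - a) + (f' - b) := by ring
      rw [this]; exact Ideal.add_mem _ hf2 hf2'
    | smul c a hmem iha =>
      obtain ⟨f, hf, hfm, hf2⟩ := iha
      refine ⟨(y c) • f, (V Q).smul_mem _ hf, ?_, ?_⟩
      · rw [Algebra.smul_def]; exact (mI y).mul_mem_left _ hfm
      · have : (y c) • f - c • a = algebraMap ℂ B (y c) * (f - a) -
            (c - algebraMap ℂ B (y c)) * a := by
          rw [smul_eq_mul, Algebra.smul_def]; ring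
        rw [this]
        refine Ideal.sub_mem _ (Ideal.mul_mem_left _ _ hf2) ?_
        rw [pow_two]
        refine Ideal.mul_mem_mul (sub_mem_mI y c) ?_
        have : Ideal.span ((fun b => b - algebraMap ℂ B (y b)) '' (S : Set B)) ≤ mI y := by
          rw [Ideal.span_le]
          rintro _ ⟨b, _, rfl⟩
          exact sub_mem_mI y b
        exact this hmem
  exact this a h1

/-- (C3): jets, uniformly in the point. -/
theorem jets_of_gen (V : ℕ → Submodule ℂ B)
    (hmul : ∀ m l a b, a ∈ V m → b ∈ V l → a * b ∈ V (m + l))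
    (k₀ : ℕ) (hbpf : ∀ m, k₀ ≤ m → ∀ y : B →ₐ[ℂ] ℂ, ∃ f ∈ V m, y f ≠ 0)
    (Q : ℕ) (S : Finset B) (hS : Algebra.adjoin ℂ (S : Set B) = ⊤)
    (hg : ∀ b ∈ S, ∃ g ∈ V Q, IsUnit g ∧ b * g ∈ V Q) :
    ∀ e : ℕ, ∃ j₀ : ℕ, ∀ j, j₀ ≤ j → ∀ (y : B →ₐ[ℂ] ℂ) (b : B),
      ∃ f ∈ V j, f - b ∈ mI y ^ (e + 1) := by
  -- graded step
  have hP : ∀ (l j : ℕ), k₀ + l * Q ≤ j → ∀ (y : B →ₐ[ℂ] ℂ) (a : B), a ∈ mI y ^ l →
      ∃ f ∈ V j, f ∈ mI y ^ l ∧ f - a ∈ mI y ^ (l + 1) := by
    intro l
    induction l with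
    | zero =>
      intro j hj y a _
      obtain ⟨v, hv, hyv⟩ := hbpf j (by simpa using hj) y
      refine ⟨(y a / y v) • v, (V j).smul_mem _ hv, by simp, ?_⟩
      rw [zero_add, pow_one]
      show (y : B →+* ℂ) _ = 0
      simp [hyv]
    | succ l ih =>
      intro j hj y a ha
      have hj' : k₀ + l * Q ≤ j - Q := by
        have : (l + 1) * Q = l * Q + Q := by ring
        omega
      have hjQ : j - Q + Q = j := by
        have : (l + 1) * Q = l * Q + Q := by ring
        omega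
      rw [pow_succ] at ha
      refine Submodule.mul_induction_on ha ?_ ?_
      · intro a₁ ha₁ a₂ ha₂
        obtain ⟨f₁, hf₁, hm₁, hd₁⟩ := ih (j - Q) hj' y a₁ ha₁
        obtain ⟨f₂, hf₂, hm₂, hd₂⟩ := lin_jets V Q S hS hg y a₂ ha₂
        refine ⟨f₁ * f₂, ?_, ?_, ?_⟩
        · have := hmul (j - Q) Q f₁ f₂ hf₁ hf₂
          rwa [hjQ] at this
        · rw [pow_succ]; exact Ideal.mul_mem_mul hm₁ hm₂
        · have e1 : f₁ * f₂ - a₁ * a₂ = f₁ * (f₂ - a₂) + (f₁ - a₁) * a₂ := by ring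
          rw [e1]
          refine Ideal.add_mem _ ?_ ?_
          · have := Ideal.mul_mem_mul hm₁ hd₂
            rwa [← pow_add] at this
          · have := Ideal.mul_mem_mul hd₁ ha₂
            rwa [← pow_succ] at this
      · intro a b ⟨f, hf, hm, hd⟩ ⟨f', hf', hm', hd'⟩
        refine ⟨f + f', (V j).add_mem hf hf', Ideal.add_mem _ hm hm', ?_⟩
        have : f + f' - (a + b) = (f - a) + (f' - b) := by ring
        rw [this]; exact Ideal.add_mem _ hd hd'
  intro e
  refine ⟨k₀ + e * Q, fun j hj y b => ?_⟩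
  have hstep : ∀ l, l ≤ e + 1 → ∃ f ∈ V j, f - b ∈ mI y ^ l := by
    intro l
    induction l with
    | zero => intro _; exact ⟨0, (V j).zero_mem, by simp⟩
    | succ l ih =>
      intro hl
      obtain ⟨f, hf, hfd⟩ := ih (by omega)
      have hle : k₀ + l * Q ≤ j := by
        have : l * Q ≤ e * Q := Nat.mul_le_mul_right Q (by omega)
        omega
      obtain ⟨f', hf', _, hd'⟩ := hP l j hle y (f - b) hfd
      refine ⟨f - f', (V j).sub_mem hf hf', ?_⟩
      have : f - f' - b = -(f' - (f - b)) := by ring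
      rw [this]; exact Ideal.neg_mem_iff _ |>.mpr hd'
  exact hstep (e + 1) le_rfl

end Crest.Agent.R271.Jets769
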