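import Crest.Agent.R271.Ctx0_728
import Crest.Agent.R271.Et_960

/-!
Row 271, bridge (helper735): what it means that a `PCtx` comes from the scheme `X`, the divisor `L`
and the point `x`.
-/

set_option autoImplicit false

open AlgebraicGeometry Crest.AlgGeometry.Divisors Order CategoryTheory

noncomputable section

namespace Crest.Agent.R271.Kx735

open Crest.Agent.R271.Defs710 Crest.Agent.R271.Ctx728

/-- `P` is the projective context of `(X, L)` at the point `x`. -/
structure Realises (X : Scheme.{0}) [Algebra ℂ Γ(X, ⊤)] [IsIntegral X] [IsLocallyNoetherian X]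
    (L : WeilDiv X) (x : X) {n : ℕ} (P : PCtx n) where
  /-- `K` is the function field of `X` -/
  ι : P.K ≃+* X.functionField
  /-- `ι` is `ℂ`-linear -/
  ι_alg : ∀ c : ℂ, ι (algebraMap ℂ P.K c) =
    X.presheaf.germ ⊤ (genericPoint X) trivial (algebraMap ℂ Γ(X, ⊤) c)
  R_iff : ∀ (m : ℕ) (f : P.K), f ∈ P.R m ↔ ι f = 0 ∨ IsSection (m • L) (ι f)
  /-- `s` does not vanish at `x` -/
  s_nv : NonvanishingAt (P.q • L) (ι P.s) x
  /-- the affine open set `X_s` -/
  U : X.Opens
  U_affine : IsAffineOpen U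
  x_mem : x ∈ U
  A_iff : letI : Nonempty U := ⟨⟨x, x_mem⟩⟩
    ∀ f : P.K, f ∈ P.A ↔ ∃ a : Γ(X, U), X.germToFunctionField U a = ι f
  x_iff : letI : Nonempty U := ⟨⟨x, x_mem⟩⟩
    ∀ (a : P.A) (b : Γ(X, U)), X.germToFunctionField U b = ι a → P.x a ≠ 0 → x ∈ X.basicOpen b

end Crest.Agent.R271.Kx735
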