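import Crest.Agent.R271.Br1_958
import Crest.Agent.R271.Fr_960

/-!
Row 271, bridge (helper735): closed point reduction, canonical divisors, section criterion.
-/

set_option autoImplicit false
set_option linter.unusedSectionVars false

open AlgebraicGeometry Crest.AlgGeometry.Divisors Order CategoryTheory TopologicalSpace

noncomputable section

namespace Crest.Agent.R271.Kx735

set_option warn.classDefReducibility false in
attribute [local instance] fnFieldAlgebra

open Crest.Agent.R271.Br958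

variable {X : Scheme.{0}} [IsIntegral X] [IsLocallyNoetherian X]

/-- non-vanishing passes to generisations -/
lemma nonvanishingAt_of_specializes {D : WeilDiv X} {f : X.functionField} {x x₀ : X}
    (h : x ⤳ x₀) (hf : NonvanishingAt D f x₀) : NonvanishingAt D f x :=
  fun z hz => hf z (hz.trans h)

/-- (K1) closed points suffice -/
theorem isBasepointFree_of_closed [CompactSpace X] (D : WeilDiv X)
    (h : ∀ x : X, IsClosed ({x} : Set X) → ∃ f, IsSection D f ∧ NonvanishingAt D f x) :
    IsBasepointFree D := by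
  intro x
  obtain ⟨x₀, hx₀, hcl⟩ := IsClosed.exists_closed_singleton (isClosed_closure (s := ({x} : Set X)))
    ⟨x, subset_closure rfl⟩
  obtain ⟨f, hf1, hf2⟩ := h x₀ hcl
  exact ⟨f, hf1, nonvanishingAt_of_specializes (specializes_iff_mem_closure.2 hx₀) hf2⟩

lemma det_toMatrix_ne_zero {K V ι : Type*} [Field K] [AddCommGroup V] [Module K V] [Fintype ι]
    [DecidableEq ι] (b b' : Module.Basis ι K V) : (b.toMatrix b').det ≠ 0 := by
  have h1 := congrArg Matrix.det (b.toMatrix_mul_toMatrix_flip b')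
  rw [Matrix.det_mul, Matrix.det_one] at h1
  exact left_ne_zero_of_mul_eq_one h1

variable [Algebra ℂ Γ(X, ⊤)]

/-- (K2) the order formula for a canonical divisor against an arbitrary basis -/
theorem canonical_ord {n : ℕ} {K : WeilDiv X} (hK : IsCanonicalDivisor ℂ X n K)
    (b' : Module.Basis (Fin n) X.functionField (Ω[X.functionField⁄ℂ])) :
    ∃ c : X.functionField, c ≠ 0 ∧ ∀ (z : PrimeDivisor X)
      (b : Module.Basis (Fin n) X.functionField (Ω[X.functionField⁄ℂ])),
      IsLocalFrameAt ℂ X z.1 ⇑b →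
        K z = Scheme.ord c z.1 + Scheme.ord (b.toMatrix b').det z.1 := by
  obtain ⟨ω, ⟨b₀, hb₀⟩, hω⟩ := hK
  have hc : ω.coef b' ≠ 0 := by
    intro h0
    have := ω.law b₀ b'
    rw [h0, zero_mul] at this
    exact hb₀ this.symm
  refine ⟨ω.coef b', hc, fun z b hb => ?_⟩
  rw [hω z b hb, ← ω.law b b', Scheme.ord_mul hc (det_toMatrix_ne_zero b b')]

/-- two local frames differ by a matrix with determinant of order zero -/
theorem ord_det_frames {n : ℕ} {K : WeilDiv X} (hK : IsCanonicalDivisor ℂ X n K)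
    (b b' : Module.Basis (Fin n) X.functionField (Ω[X.functionField⁄ℂ])) (z : PrimeDivisor X)
    (hb : IsLocalFrameAt ℂ X z.1 ⇑b) (hb' : IsLocalFrameAt ℂ X z.1 ⇑b') :
    Scheme.ord (b.toMatrix b').det z.1 = 0 := by
  obtain ⟨c, hc, h⟩ := canonical_ord hK b'
  have h1 := h z b hb
  have h2 := h z b' hb'
  rw [Module.Basis.toMatrix_self, Matrix.det_one, ord_one] at h2
  omega

/-- (K3) the section criterion -/
theorem section_crit {n : ℕ} {K : WeilDiv X} (hK : IsCanonicalDivisor ℂ X n K) (L : WeilDiv X)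
    (m : ℕ) (b' : Module.Basis (Fin n) X.functionField (Ω[X.functionField⁄ℂ]))
    (F g : X.functionField) (hF : F ≠ 0) (hg : g ≠ 0)
    (hsec : ∀ z : PrimeDivisor X,
      ∃ b : Module.Basis (Fin n) X.functionField (Ω[X.functionField⁄ℂ]),
        IsLocalFrameAt ℂ X z.1 ⇑b ∧
        0 ≤ Scheme.ord F z.1 + Scheme.ord (b.toMatrix b').det z.1 +
          m * (Scheme.ord g z.1 + L z)) (x : X)
    (hnv : ∀ z : PrimeDivisor X, z.1 ⤳ x → Scheme.ord F z.1 = 0 ∧ Scheme.ord g z.1 = - L z ∧
      IsLocalFrameAt ℂ X z.1 ⇑b') :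
    ∃ f : X.functionField, IsSection (K + m • L) f ∧ NonvanishingAt (K + m • L) f x := by
  obtain ⟨c, hc, h⟩ := canonical_ord hK b'
  have hord : ∀ z : X, Scheme.ord (F * g ^ m / c) z =
      Scheme.ord F z + m * Scheme.ord g z - Scheme.ord c z := by
    intro z
    rw [ord_div (mul_ne_zero hF (pow_ne_zero m hg)) hc, Scheme.ord_mul hF (pow_ne_zero m hg),
      ord_pow hg]
  refine ⟨F * g ^ m / c, ⟨div_ne_zero (mul_ne_zero hF (pow_ne_zero m hg)) hc, fun z => ?_⟩,
    fun z hz => ?_⟩
  · obtain ⟨b, hb, h0⟩ := hsec z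
    have h1 := h z b hb
    rw [hord, Finsupp.add_apply, Finsupp.smul_apply, h1, nsmul_eq_mul]
    linarith
  · obtain ⟨h1, h2, h3⟩ := hnv z hz
    have h4 := h z b' h3
    rw [Module.Basis.toMatrix_self, Matrix.det_one, ord_one] at h4
    rw [hord, Finsupp.add_apply, Finsupp.smul_apply, nsmul_eq_mul, h1, h2, h4]
    ring

end Crest.Agent.R271.Kx735
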