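import Crest.Agent.R271.Defs_710

/-!
# Row 271, sub-team L: transfer of (AF5) to `B` (helper934)

`ordFact_of` : (AF5) for germs + "analytic order = algebraic order" ⟹ `OrdFact X`.
-/

set_option autoImplicit false
open MeasureTheory Filter Topology Set Metric
open scoped ENNReal NNReal

namespace Crest.Agent.R271.L934

open Crest.Agent.R271.Defs710

/-- (AF5) for germs (helper785) -/
def AF5Germ (n : ℕ) : Prop :=
  ∀ (f : Cn n → ℂ) (q : ℕ) (c : ℝ), AnalyticAt ℂ f 0 →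
    (∃ k ≤ q, iteratedFDeriv ℂ k f 0 ≠ 0) → 0 ≤ c → c * q < 1 →
    LInt (fun ζ => (ENNReal.ofReal (‖f ζ‖ ^ 2)) ^ (-c)) 0

/-- analytic vanishing order bounds the algebraic one (helper692/969) -/
def OrdAlg {n : ℕ} (X : FCtx n) : Prop :=
  ∀ (y : X.B →ₐ[ℂ] ℂ) (C : Chart X.z y) (f : X.B) (e : ℕ),
    (∀ k < e, iteratedFDeriv ℂ k (fun ζ => C.s ζ f) 0 = 0) → f ∈ mI y ^ e

theorem ordFact_of {n : ℕ} (X : FCtx n) (h5 : AF5Germ n) (hO : OrdAlg X) (hC : ChartEx X) :
    OrdFact X := by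
  intro y f e c hf hc hce
  obtain ⟨C⟩ := hC y
  have hne : ∃ k ≤ e, iteratedFDeriv ℂ k (fun ζ => C.s ζ f) 0 ≠ 0 := by
    by_contra hcon
    push Not at hcon
    exact hf (hO y C f (e + 1) fun k hk => hcon k (by omega))
  have h := h5 (fun ζ => C.s ζ f) e c (C.anal f 0 (mem_ball_self C.r_pos)) hne hc hce
  refine ⟨fun _ => {f}, fun _ => by simp, C, ?_⟩
  convert h using 2 with ζ
  simp [wB, wt]

/-- vanishing of the derivatives of order `< e` gives `O(‖ζ‖ᵉ)` -/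
theorem isBigO_of_iteratedFDeriv {V : Type} [NormedAddCommGroup V] [NormedSpace ℂ V]
    {f : V → ℂ} {a : V} (hf : AnalyticAt ℂ f a) {e : ℕ}
    (h : ∀ k < e, iteratedFDeriv ℂ k f a = 0) :
    (fun ζ => f (a + ζ)) =O[𝓝 0] fun ζ => ‖ζ‖ ^ e := by
  obtain ⟨p, r, hp⟩ := hf
  have h1 := hp.hasFPowerSeriesAt.isBigO_sub_partialSum_pow e
  refine h1.congr_left fun y => ?_
  have h2 : p.partialSum e y = 0 := by
    unfold FormalMultilinearSeries.partialSum
    apply Finset.sum_eq_zero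
    intro k hk
    have h3 := hp.factorial_smul y k
    rw [h k (Finset.mem_range.1 hk)] at h3
    simp only [ContinuousMultilinearMap.zero_apply, nsmul_eq_mul, mul_eq_zero, Nat.cast_eq_zero] at h3
    exact h3.resolve_left (Nat.factorial_ne_zero k)
  rw [h2, sub_zero]

/-- `OrdAlg` from the big-O form of the dictionary (helper969, R3.1) -/
theorem ordAlg_of_isBigO {n : ℕ} (X : FCtx n)
    (H : ∀ (y : X.B →ₐ[ℂ] ℂ) (C : Chart X.z y) (f : X.B) (e : ℕ),
      (fun ζ => C.s ζ f) =O[𝓝 0] (fun ζ : Cn n => ‖ζ‖ ^ e) → f ∈ mI y ^ e) : OrdAlg X := by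
  intro y C f e h
  apply H y C f e
  have h1 := isBigO_of_iteratedFDeriv (C.anal f 0 (mem_ball_self C.r_pos)) h
  simpa using h1

end Crest.Agent.R271.L934
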