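import Mathlib

/-!
Row 271, team N, piece N5c: kernels of analytic families of matrices have analytic bases.
-/

set_option autoImplicit false

open Filter Topology

namespace Crest.Agent.R271.N91

/-- the linear map `w ↦ insertNth j₀ (-∑ r_l w_l) w` -/
noncomputable def Phi {M : ℕ} (j₀ : Fin (M + 1)) (r : Fin M → ℂ) :
    (Fin M → ℂ) →ₗ[ℂ] (Fin (M + 1) → ℂ) where
  toFun w := Fin.insertNth (α := fun _ => ℂ) j₀ (-∑ l, r l * w l) w
  map_add' w w' := by
    ext j
    refine Fin.succAboveCases j₀ ?_ (fun l => ?_) j
    · simp [mul_add, Finset.sum_add_distrib]; ring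
    · simp
  map_smul' c w := by
    ext j
    refine Fin.succAboveCases j₀ ?_ (fun l => ?_) j
    · simp only [Fin.insertNth_apply_same, Pi.smul_apply, smul_eq_mul, RingHom.id_apply,
        mul_neg, Finset.mul_sum]
      congr 1
      exact Finset.sum_congr rfl (fun l _ => by ring)
    · simp

theorem Phi_same {M : ℕ} (j₀ : Fin (M + 1)) (r : Fin M → ℂ) (w : Fin M → ℂ) :
    Phi j₀ r w j₀ = -∑ l, r l * w l := by simp [Phi]

theorem Phi_succAbove {M : ℕ} (j₀ : Fin (M + 1)) (r : Fin M → ℂ) (w : Fin M → ℂ) (l : Fin M) :
    Phi j₀ r w (j₀.succAbove l) = w l := by simp [Phi]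

theorem Phi_inj {M : ℕ} (j₀ : Fin (M + 1)) (r : Fin M → ℂ) : Function.Injective (Phi j₀ r) := by
  intro w w' h
  ext l
  have := congrFun h (j₀.succAbove l)
  rwa [Phi_succAbove, Phi_succAbove] at this

theorem mem_range_Phi {M : ℕ} (j₀ : Fin (M + 1)) (r : Fin M → ℂ) (v : Fin (M + 1) → ℂ)
    (h : v j₀ = -∑ l, r l * v (j₀.succAbove l)) :
    Phi j₀ r (fun l => v (j₀.succAbove l)) = v := by
  ext j
  refine Fin.succAboveCases j₀ ?_ (fun l => ?_) j
  · rw [Phi_same, h]
  · rw [Phi_succAbove]

/-- **(N5c)** Kernels of an analytic family of matrices near `0` have an analytic basis. -/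
theorem exists_analytic_kernel (M : ℕ) : ∀ (N : ℕ) (L : Fin N → Fin M → ℂ → ℂ),
    (∀ i j, AnalyticAt ℂ (L i j) 0) →
    ∃ (k : ℕ) (u : Fin k → Fin M → ℂ → ℂ), (∀ i j, AnalyticAt ℂ (u i j) 0) ∧
      (∀ᶠ τ in 𝓝 (0 : ℂ), LinearIndependent ℂ (fun i : Fin k => fun j : Fin M => u i j τ)) ∧
      ∀ᶠ τ in 𝓝[≠] (0 : ℂ), ∀ v : Fin M → ℂ, ((∀ i, ∑ j, L i j τ * v j = 0) ↔
        v ∈ Submodule.span ℂ (Set.range (fun i : Fin k => fun j : Fin M => u i j τ))) := by
  induction M with
  | zero =>
    intro N L hL
    refine ⟨0, fun i => i.elim0, fun i => i.elim0, Filter.Eventually.of_forall (fun τ => ?_),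
      Filter.Eventually.of_forall (fun τ v => ?_)⟩
    · exact linearIndependent_empty_type
    · have : v = 0 := Subsingleton.elim _ _
      subst this
      simp
  | succ M ih =>
    intro N L hL
    by_cases hall : ∀ i j, analyticOrderAt (L i j) 0 = ⊤
    · refine ⟨M + 1, fun i j _ => if i = j then 1 else 0, fun i j => analyticAt_const,
        Filter.Eventually.of_forall (fun τ => ?_), ?_⟩
      · have h : (fun i : Fin (M + 1) => fun j : Fin (M + 1) => if i = j then (1 : ℂ) else 0) =
            fun i => Pi.single i 1 := by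
          ext i j; simp [Pi.single_apply, eq_comm]
        rw [h]
        exact Pi.linearIndependent_single_one (Fin (M + 1)) ℂ
      · have hz : ∀ᶠ τ in 𝓝 (0 : ℂ), ∀ i j, L i j τ = 0 := by
          rw [Filter.eventually_all]; intro i
          rw [Filter.eventually_all]; intro j
          exact analyticOrderAt_eq_top.1 (hall i j)
        filter_upwards [hz.filter_mono nhdsWithin_le_nhds] with τ hτ v
        have h : (fun i : Fin (M + 1) => fun j : Fin (M + 1) => if i = j then (1 : ℂ) else 0) =
            fun i => Pi.single i 1 := by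
          ext i j; simp [Pi.single_apply, eq_comm]
        simp only [hτ, zero_mul, Finset.sum_const_zero, implies_true, true_iff]
        rw [h]
        have : v = ∑ i, v i • (Pi.single i (1 : ℂ) : Fin (M + 1) → ℂ) := by
          ext j; simp [Finset.sum_apply, Pi.single_apply]
        rw [this]
        exact Submodule.sum_mem _ (fun i _ => Submodule.smul_mem _ _
          (Submodule.subset_span ⟨i, rfl⟩))
    · push Not at hall
      obtain ⟨i1, j1, h1⟩ := hall
      haveI : Nonempty (Fin N) := ⟨i1⟩
      -- minimal order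
      obtain ⟨⟨i₀, j₀⟩, hmin⟩ := Finite.exists_min
        (fun p : Fin N × Fin (M + 1) => analyticOrderAt (L p.1 p.2) 0)
      simp only [Prod.forall] at hmin
      have hp : analyticOrderAt (L i₀ j₀) 0 ≠ ⊤ := by
        intro h
        have := hmin i1 j1
        rw [h, top_le_iff] at this
        exact h1 this
      obtain ⟨p, hp'⟩ := ENat.ne_top_iff_exists.1 hp
      have hg : ∀ i j, ∃ g : ℂ → ℂ, AnalyticAt ℂ g 0 ∧
          ∀ᶠ z in 𝓝 (0 : ℂ), L i j z = (z - 0) ^ p • g z := fun i j =>
        (natCast_le_analyticOrderAt (hL i j)).1 (by rw [hp']; exact hmin i j)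
      choose g hga hgL using hg
      have hg0 : g i₀ j₀ 0 ≠ 0 := by
        intro h0
        obtain ⟨g', hg'a, hg'0, hg'L⟩ := ((hL i₀ j₀).analyticOrderAt_eq_natCast (n := p)).1 hp'.symm
        have : ∀ᶠ z in 𝓝[≠] (0 : ℂ), g i₀ j₀ z = g' z := by
          filter_upwards [(hgL i₀ j₀).filter_mono nhdsWithin_le_nhds,
            hg'L.filter_mono nhdsWithin_le_nhds, self_mem_nhdsWithin] with z h2 h3 h4
          rw [h2] at h3
          have h5 : (z - 0) ^ p ≠ 0 := pow_ne_zero _ (by simpa using h4)
          exact mul_left_cancel₀ h5 (by simpa [smul_eq_mul] using h3)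
        have heq := ((hga i₀ j₀).frequently_eq_iff_eventually_eq hg'a).1 this.frequently
        have := heq.self_of_nhds
        rw [h0] at this
        exact hg'0 this.symm
      set r : Fin M → ℂ → ℂ := fun l τ => g i₀ (j₀.succAbove l) τ / g i₀ j₀ τ with hr
      have hra : ∀ l, AnalyticAt ℂ (r l) 0 := fun l => (hga _ _).div (hga _ _) hg0
      obtain ⟨k, u', hu'a, hu'i, hu's⟩ := ih N
        (fun i l τ => g i (j₀.succAbove l) τ - g i j₀ τ * r l τ)
        (fun i l => (hga _ _).sub ((hga _ _).mul (hra l)))
      refine ⟨k, fun i j τ => Phi j₀ (fun l => r l τ) (fun l => u' i l τ) j, ?_, ?_, ?_⟩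
      · intro i j
        refine Fin.succAboveCases j₀ ?_ (fun l => ?_) j
        · simp only [Phi_same]
          refine AnalyticAt.neg ?_
          refine Finset.analyticAt_fun_sum _ (fun l _ => (hra l).mul (hu'a i l))
        · simp only [Phi_succAbove]
          exact hu'a i l
      · filter_upwards [hu'i] with τ hτ
        exact hτ.map' (Phi j₀ (fun l => r l τ)) (LinearMap.ker_eq_bot.2 (Phi_inj _ _))
      · have hgL' : ∀ᶠ z in 𝓝 (0 : ℂ), ∀ i j, L i j z = z ^ p * g i j z := by
          rw [Filter.eventually_all]; intro i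
          rw [Filter.eventually_all]; intro j
          filter_upwards [hgL i j] with z hz
          rw [hz, sub_zero, smul_eq_mul]
        have hne : ∀ᶠ z in 𝓝 (0 : ℂ), g i₀ j₀ z ≠ 0 :=
          (hga i₀ j₀).continuousAt.eventually_ne hg0
        filter_upwards [hu's, hgL'.filter_mono nhdsWithin_le_nhds,
          hne.filter_mono nhdsWithin_le_nhds, self_mem_nhdsWithin] with τ h1 h2 h3 h4 v
        have hτ : τ ≠ 0 := h4
        have hstep1 : (∀ i, ∑ j, L i j τ * v j = 0) ↔ ∀ i, ∑ j, g i j τ * v j = 0 := by
          refine forall_congr' (fun i => ?_)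
          have : ∑ j, L i j τ * v j = τ ^ p * ∑ j, g i j τ * v j := by
            rw [Finset.mul_sum]
            exact Finset.sum_congr rfl (fun j _ => by rw [h2]; ring)
          rw [this, mul_eq_zero]
          simp [pow_ne_zero p hτ]
        have hstep2 : (∀ i, ∑ j, g i j τ * v j = 0) ↔
            (v j₀ = -∑ l, r l τ * v (j₀.succAbove l)) ∧
            ∀ i, ∑ l, (g i (j₀.succAbove l) τ - g i j₀ τ * r l τ) * v (j₀.succAbove l) = 0 := by
          have hexp : ∀ i, ∑ j, g i j τ * v j =
              g i j₀ τ * v j₀ + ∑ l, g i (j₀.succAbove l) τ * v (j₀.succAbove l) :=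
            fun i => Fin.sum_univ_succAbove _ j₀
          have hrr : ∀ l, g i₀ j₀ τ * r l τ = g i₀ (j₀.succAbove l) τ := fun l => by
            rw [hr]; field_simp
          have hexp2 : ∀ i, ∑ l, (g i (j₀.succAbove l) τ - g i j₀ τ * r l τ) *
              v (j₀.succAbove l) = ∑ l, g i (j₀.succAbove l) τ * v (j₀.succAbove l)
                - g i j₀ τ * ∑ l, r l τ * v (j₀.succAbove l) := by
            intro i
            rw [Finset.mul_sum, ← Finset.sum_sub_distrib]
            exact Finset.sum_congr rfl (fun l _ => by ring)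
          constructor
          · intro h
            have h5 : v j₀ = -∑ l, r l τ * v (j₀.succAbove l) := by
              have h6 := h i₀
              rw [hexp] at h6
              have h7 : ∑ l, g i₀ (j₀.succAbove l) τ * v (j₀.succAbove l) =
                  g i₀ j₀ τ * ∑ l, r l τ * v (j₀.succAbove l) := by
                rw [Finset.mul_sum]
                exact Finset.sum_congr rfl (fun l _ => by rw [← hrr l]; ring)
              rw [h7, ← mul_add] at h6
              rcases mul_eq_zero.1 h6 with h8 | h8
              · exact absurd h8 h3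
              · exact eq_neg_of_add_eq_zero_left h8
            refine ⟨h5, fun i => ?_⟩
            have h6 := h i
            rw [hexp, h5] at h6
            rw [hexp2]
            linear_combination h6
          · rintro ⟨h5, h6⟩ i
            have h7 := h6 i
            rw [hexp2] at h7
            rw [hexp, h5]
            linear_combination h7
        rw [hstep1, hstep2, h1 (fun l => v (j₀.succAbove l))]
        have hspan : Submodule.span ℂ (Set.range (fun i : Fin k => fun j : Fin (M + 1) =>
            Phi j₀ (fun l => r l τ) (fun l => u' i l τ) j)) =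
            (Submodule.span ℂ (Set.range (fun i : Fin k => fun l : Fin M => u' i l τ))).map
              (Phi j₀ (fun l => r l τ)) := by
          rw [Submodule.map_span, ← Set.range_comp]
          rfl
        rw [hspan]
        constructor
        · rintro ⟨h5, h6⟩
          exact ⟨_, h6, mem_range_Phi j₀ _ v h5⟩
        · rintro ⟨w, hw, rfl⟩
          refine ⟨?_, ?_⟩
          · rw [Phi_same]
            simp only [Phi_succAbove]
          · simp only [Phi_succAbove]
            exact hw

end Crest.Agent.R271.N91
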