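import Mathlib
import Crest.Agent.R271.NSpec_647
import Crest.Agent.R271.N5c_91

/-!
Row 271, team N: `KernelLimitStmt` from `exists_analytic_kernel`.
-/

set_option autoImplicit false

open Filter Topology

namespace Crest.Agent.R271.N91

open Crest.Agent.R271.N647

theorem finrank_ker_mulVec {N q : ℕ} (A : Matrix (Fin N) (Fin q) ℂ) :
    Module.finrank ℂ (LinearMap.ker A.mulVecLin) = q - A.rank := by
  have h := LinearMap.finrank_range_add_finrank_ker A.mulVecLin
  rw [Module.finrank_fin_fun] at h
  rw [Matrix.rank]
  omega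

theorem kernelLimit : KernelLimitStmt := by
  intro N q ρ c hc hρ
  obtain ⟨k, u, hu, hui, hus⟩ := exists_analytic_kernel q N c hc
  have hk : k = q - ρ := by
    obtain ⟨τ, h1, h2, h3⟩ := ((hρ.and (hus.and (hui.filter_mono nhdsWithin_le_nhds))).exists)
    have h4 : LinearMap.ker (Matrix.of fun i j => c i j τ).mulVecLin =
        Submodule.span ℂ (Set.range (fun i : Fin k => fun j : Fin q => u i j τ)) := by
      ext v
      rw [LinearMap.mem_ker, ← h2 v, Matrix.mulVecLin_apply, funext_iff]
      rfl
    have h5 := finrank_ker_mulVec (Matrix.of fun i j => c i j τ)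
    rw [h4, h1, finrank_span_eq_card h3, Fintype.card_fin] at h5
    exact h5
  subst hk
  refine ⟨u, hu, hui.self_of_nhds, ?_⟩
  filter_upwards [hus] with τ h i
  have := (h (fun j => u i j τ)).2 (Submodule.subset_span ⟨i, rfl⟩)
  funext i'
  exact this i'

end Crest.Agent.R271.N91
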