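import Mathlib
import Crest.Agent.R271.NSpec_647
import Crest.Agent.R271.N5k_91

/-!
Row 271, team N: `LimitStmt` from `MatrixStmt` (and `KernelLimitStmt`).
-/

set_option autoImplicit false

open scoped Topology BigOperators
open Filter

noncomputable section

namespace Crest.Agent.R271.Limit647

open Crest.Agent.R271.Defs710 Crest.Agent.R271.N647

variable {n : ℕ}

/-- the dimension of a subspace `W ≤ span b` described by a matrix -/
theorem finrank_of_matrix {B : Type} [CommRing B] [Algebra ℂ B] {q N : ℕ} (b : Fin q → B)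
    (hb : LinearIndependent ℂ b) (W : Submodule ℂ B)
    (hW : W ≤ Submodule.span ℂ (Set.range b)) (A : Matrix (Fin N) (Fin q) ℂ)
    (h : ∀ v : Fin q → ℂ, (∑ j, v j • b j ∈ W ↔ A.mulVec v = 0)) :
    Module.finrank ℂ W = q - A.rank := by
  rw [← N91.finrank_ker_mulVec]
  have hinj : Function.Injective (Fintype.linearCombination ℂ b) :=
    linearIndependent_iff_injective_fintypeLinearCombination.1 hb
  have h1 : (LinearMap.ker A.mulVecLin).map (Fintype.linearCombination ℂ b) = W := by
    ext f
    rw [Submodule.mem_map]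
    constructor
    · rintro ⟨v, hv, rfl⟩
      rw [Fintype.linearCombination_apply, h]
      simpa using hv
    · intro hf
      have h2 := hW hf
      rw [← Fintype.range_linearCombination] at h2
      obtain ⟨v, rfl⟩ := h2
      refine ⟨v, ?_, rfl⟩
      rw [Fintype.linearCombination_apply, h] at hf
      simpa using hf
  rw [← h1]
  exact (LinearEquiv.finrank_eq (Submodule.equivMapOfInjective _ hinj _)).symm

theorem limitStmt_of (X : FCtx n) (hM : MatrixStmt X) : LimitStmt X := by
  intro F P hP ι _ m a e
  classical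
  -- bases
  have hfd : ∀ i, FiniteDimensional ℂ (F.F (m i) (a i)) := by
    intro i
    have := X.V_fin (m i)
    exact Submodule.finiteDimensional_of_le (F.le_V (m i) (a i))
  have hbas : ∀ i, ∃ (q : ℕ) (b : Fin q → X.B), LinearIndependent ℂ b ∧
      Submodule.span ℂ (Set.range b) = F.F (m i) (a i) := by
    intro i
    have := hfd i
    let bs := Module.finBasis ℂ (F.F (m i) (a i))
    refine ⟨_, fun j => (bs j : X.B), ?_, ?_⟩
    · exact bs.linearIndependent.map' (F.F (m i) (a i)).subtype (Submodule.ker_subtype _)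
    · have h1 : Set.range (fun j => (bs j : X.B)) = (F.F (m i) (a i)).subtype '' Set.range bs := by
        rw [← Set.range_comp]; rfl
      rw [h1, Submodule.span_image, bs.span_eq, Submodule.map_top, Submodule.range_subtype]
  choose q b hb hspan using hbas
  choose hh N c ρ hh1 hh2 using fun i => hM F P hP (m i) (a i) (e i) (q i) (b i) (hb i) (hspan i)
  refine ⟨∏ i, hh i, fun i => q i - ρ i, ?_, ?_, ?_⟩
  · intro hmem
    obtain ⟨i, -, hi⟩ := (Ideal.IsPrime.prod_mem_iff (hp := hP)).1 hmem
    exact hh1 i hi
  · intro y hy hyh i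
    have hyi : y (hh i) ≠ 0 := by
      intro h0
      apply hyh
      rw [map_prod]
      exact Finset.prod_eq_zero (Finset.mem_univ i) h0
    have h1 := hh2 i y hy hyi
    rw [finrank_of_matrix (b i) (hb i) _ ?_ ((c i).map y) h1.2, h1.1]
    rw [hspan i]
    exact inf_le_left
  · intro γ hγ hev
    have hev' : ∀ i, ∀ᶠ τ in 𝓝[≠] (0 : ℂ), P ≤ mI (γ τ) ∧ γ τ (hh i) ≠ 0 := by
      intro i
      filter_upwards [hev] with τ hτ
      refine ⟨?_, ?_⟩
      · intro f hf
        exact (RingHom.mem_ker).2 (hτ.1 f hf)
      · intro h0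
        apply hτ.2
        rw [map_prod]
        exact Finset.prod_eq_zero (Finset.mem_univ i) h0
    have hker : ∀ i, ∃ (co : Fin (q i - ρ i) → Fin (q i) → ℂ → ℂ),
        (∀ j k, AnalyticAt ℂ (co j k) 0) ∧ LinearIndependent ℂ (fun j => fun k => co j k 0) ∧
        ∀ᶠ τ in 𝓝[≠] (0 : ℂ), ∀ j,
          (Matrix.of fun i' j' => γ τ (c i i' j')).mulVec (fun k => co j k τ) = 0 := by
      intro i
      refine N91.kernelLimit (N i) (q i) (ρ i) (fun i' j' τ => γ τ (c i i' j'))
        (fun i' j' => hγ _) ?_
      filter_upwards [hev' i] with τ hτ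
      exact (hh2 i (γ τ) hτ.1 hτ.2).1
    choose co hco1 hco2 hco3 using hker
    refine ⟨q, b, co, ?_, fun i j k => hco1 i j k, ?_, ?_⟩
    · intro i j
      rw [← hspan i]
      exact Submodule.subset_span ⟨j, rfl⟩
    · intro i
      have hinj : LinearMap.ker (Fintype.linearCombination ℂ (b i)) = ⊥ :=
        LinearMap.ker_eq_bot.2
          (linearIndependent_iff_injective_fintypeLinearCombination.1 (hb i))
      have := (hco2 i).map' (Fintype.linearCombination ℂ (b i)) hinj
      exact this
    · rw [eventually_all]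
      intro i
      filter_upwards [hev' i, hco3 i] with τ h1 h2 j
      rw [(hh2 i (γ τ) h1.1 h1.2).2]
      exact h2 j

end Crest.Agent.R271.Limit647
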