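import Crest.Agent.R271.Model_728
import Crest.Agent.R271.Growth_756
import Crest.Agent.R271.Bridge0_713

/-!
Row 271, team B (helper728): `modelProp : ModelProp`, unconditional.
-/

set_option autoImplicit false

open Crest.Agent.R271.Defs710

namespace Crest.Agent.R271.Ctx728

theorem modelProp : Crest.Agent.R271.Bridge713.ModelProp := fun n P hn =>
  model_of_growth Crest.Agent.R271.Growth756.growthProp n P hn

end Crest.Agent.R271.Ctx728

#print axioms Crest.Agent.R271.Ctx728.modelProp
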