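import Crest.Agent.R271.N2_161
import Crest.Agent.R271.NSpec_647

/-!
Row 271, team N, piece N2: Claim (8.1) and `P2Stmt`.
-/

set_option autoImplicit false

open scoped ENNReal NNReal Topology BigOperators
open MeasureTheory

noncomputable section

namespace Crest.Agent.R271.N2x161

open Crest.Agent.R271.Defs710

variable {n : ℕ} {X : FCtx n}

lemma Wl_eq (F : Filt X.V) (P : Ideal X.B) (y : X.B →ₐ[ℂ] ℂ) (σ s l : ℝ) :
    N647.Wl F P y σ s l = Wl X F P y σ s l := by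
  unfold N647.Wl Wl
  rw [iSup_prod]

lemma lt_of_adapted {P : Ideal X.B} {d : ℕ} {y : X.B →ₐ[ℂ] ℂ} (hP : P ≠ ⊥)
    (hA : Adapted d P y n) : d < n := by
  by_contra hcon
  push Not at hcon
  obtain ⟨w, _, _, g, hg, h1, _⟩ := hA
  apply hP
  rw [eq_bot_iff]
  intro f hf
  have h2 := h1 f hf
  have : (w '' {i : Fin n | d ≤ i.1}) = ∅ := by
    rw [Set.image_eq_empty, Set.eq_empty_iff_forall_notMem]
    intro i hi
    have := i.2
    simp only [Set.mem_ofPred_eq] at hi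
    omega
  rw [this, Ideal.span_empty, Ideal.mem_bot] at h2
  have hg0 : g ≠ 0 := by
    rintro rfl
    exact hg (map_zero y)
  rw [Ideal.mem_bot]
  exact (mul_eq_zero.1 h2).resolve_left hg0

/-- the Hölder step of (8.1) with a rational weight `p/q` -/
theorem claim_rat (hX : AFacts X) (F : Filt X.V) (P : Ideal X.B) (hP : P ≠ ⊥)
    (hne : ∀ l : ℝ, idl F l ≠ ⊥) (y : X.B →ₐ[ℂ] ℂ) (A l₁ : ℝ) (k₁ K : ℕ) (hk1 : 1 ≤ k₁)
    (hgood : ∀ l : ℝ, Good X.z F y l → l ≤ A)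
    (hl : IInt X.z y ![idl F (k₁ * l₁), P] ![1 / (k₁ : ℝ), -(K : ℝ)])
    (k : ℕ) (α β : ℝ) (hk : 1 ≤ k)
    (hI : IInt X.z y ![idl F (k * α), P] ![1 / (k : ℝ), β]) (p q : ℕ) (hq : 1 ≤ q) (hpq : p ≤ q)
    (hθ : 0 ≤ (p : ℝ) / q * β - (1 - (p : ℝ) / q) * K) :
    (p : ℝ) / q * α + (1 - (p : ℝ) / q) * l₁ ≤ A := by
  have hk0 : (0 : ℝ) < k := by exact_mod_cast hk
  have hk10 : (0 : ℝ) < k₁ := by exact_mod_cast hk1
  have hq0 : (0 : ℝ) < q := by exact_mod_cast hq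
  have hpq' : (p : ℝ) / q ≤ 1 := by
    rw [div_le_one hq0]; exact_mod_cast hpq
  have ha := hne (k * α)
  have hb := hne (k₁ * l₁)
  have hI3 : ∀ i : Fin 3, (![idl F (k * α), idl F (k₁ * l₁), P] : Fin 3 → Ideal X.B) i ≠ ⊥ := by
    intro i; fin_cases i
    · exact ha
    · exact hb
    · exact hP
  have h1 : IInt X.z y ![idl F (k * α), idl F (k₁ * l₁), P] ![1 / (k : ℝ), 0, β] := by
    refine (iint_congr hX.gens y ?_).1 hI
    intro y'
    simp [Fin.prod_univ_three, Fin.prod_univ_two]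
  have h2 : IInt X.z y ![idl F (k * α), idl F (k₁ * l₁), P] ![0, 1 / (k₁ : ℝ), -(K : ℝ)] := by
    refine (iint_congr hX.gens y ?_).1 hl
    intro y'
    simp [Fin.prod_univ_three, Fin.prod_univ_two]
  have h3 := hX.holder y (Fin 3) _ _ _ ((p : ℝ) / q) hI3 (by positivity) hpq' h1 h2
  set a : ℝ := (p : ℝ) / q with haq
  have h4 : IInt X.z y ![idl F (k * α), idl F (k₁ * l₁), P] ![a / k, (1 - a) / k₁, 0] := by
    refine hX.mono y (Fin 3) _ _ _ _ hI3 hI3 ?_ (fun i => Or.inl rfl) h3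
    intro i; fin_cases i
    · show a / k ≤ a * (1 / (k : ℝ)) + (1 - a) * 0
      apply le_of_eq; ring
    · show (1 - a) / k₁ ≤ a * 0 + (1 - a) * (1 / (k₁ : ℝ))
      apply le_of_eq; ring
    · show (0 : ℝ) ≤ a * β + (1 - a) * (-(K : ℝ))
      linarith
  set M : ℕ := q * k * k₁ with hM
  have hMpos : 1 ≤ M := Nat.mul_pos (Nat.mul_pos hq hk) hk1
  have hM0 : (0 : ℝ) < M := by exact_mod_cast hMpos
  have h5 : IInt X.z y (Sum.elim (fun e : Empty => e.elim) ![idl F (k * α), idl F (k₁ * l₁)])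
      (Sum.elim (fun e : Empty => e.elim)
        (fun j => 1 / (M : ℝ) * ((![p * k₁, (q - p) * k] j : ℕ) : ℝ))) := by
    refine (iint_congr hX.gens y ?_).1 h4
    intro y'
    have e1 : 1 / (M : ℝ) * ((p * k₁ : ℕ) : ℝ) = a / k := by
      rw [hM, haq]; push_cast; field_simp
    have e2 : 1 / (M : ℝ) * (((q - p) * k : ℕ) : ℝ) = (1 - a) / k₁ := by
      rw [hM, haq]; push_cast [Nat.cast_sub hpq]; field_simp
    simp only [Fin.prod_univ_three, Fintype.prod_sum_type, Fin.prod_univ_two, Sum.elim_inr,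
      Matrix.cons_val_zero, Matrix.cons_val_one, e1, e2]
    simp
  have h6 := (hX.prod y Empty (Fin 2) (fun e => e.elim) (fun e => e.elim)
    ![idl F (k * α), idl F (k₁ * l₁)] ![p * k₁, (q - p) * k] (1 / (M : ℝ)) (fun e => e.elim) (by
      intro i; fin_cases i
      · exact ha
      · exact hb)).2 h5
  have hle : ∏ j, (![idl F (k * α), idl F (k₁ * l₁)] j : Ideal X.B) ^ (![p * k₁, (q - p) * k] j) ≤
      idl F (M * (a * α + (1 - a) * l₁)) := by
    rw [Fin.prod_univ_two]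
    simp only [Matrix.cons_val_zero, Matrix.cons_val_one]
    refine (Ideal.mul_mono (idl_pow F _ _) (idl_pow F _ _)).trans ?_
    refine (idl_mul F _ _).trans (le_of_eq ?_)
    congr 1
    rw [hM, haq]; push_cast [Nat.cast_sub hpq]; field_simp
  have hpr0 : ∏ j, (![idl F (k * α), idl F (k₁ * l₁)] j : Ideal X.B) ^ (![p * k₁, (q - p) * k] j)
      ≠ ⊥ := by
    apply prod_ne_bot
    intro i _
    fin_cases i
    · exact ha
    · exact hb
  apply hgood
  refine ⟨M, hMpos, ?_⟩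
  have h7 : IInt X.z y (fun _ : Unit => ∏ j, (![idl F (k * α), idl F (k₁ * l₁)] j : Ideal X.B) ^
      (![p * k₁, (q - p) * k] j)) (fun _ => 1 / (M : ℝ)) := by
    refine (iint_congr hX.gens y ?_).1 h6
    intro y'
    simp
  exact hX.mono y Unit _ _ _ _ (fun _ => hpr0) (fun _ => hne _) (fun _ => le_rfl)
    (fun _ => Or.inr ⟨by positivity, hle⟩) h7

/-- **Claim (8.1)** -/
theorem claim81 (hX : AFacts X) (F : Filt X.V) (P : Ideal X.B) (hP : P ≠ ⊥)
    (hne : ∀ l : ℝ, idl F l ≠ ⊥) (y : X.B →ₐ[ℂ] ℂ) (A l₁ : ℝ) (k₁ K : ℕ) (hk1 : 1 ≤ k₁)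
    (hK : 1 ≤ K)
    (hgood : ∀ l : ℝ, Good X.z F y l → l ≤ A)
    (hl : IInt X.z y ![idl F (k₁ * l₁), P] ![1 / (k₁ : ℝ), -(K : ℝ)]) :
    Claim81 X F P y ((l₁ - A) / K) A := by
  intro k α β hk hα hβ hI
  have hK0 : (0 : ℝ) < K := by exact_mod_cast hK
  have hKβ : (0 : ℝ) < K + β := by linarith
  set θ : ℝ := K / (K + β) with hθ
  have hθ0 : 0 ≤ θ := by positivity
  have hθ1 : θ ≤ 1 := by rw [hθ, div_le_one hKβ]; linarith
  have key : θ * α + (1 - θ) * l₁ ≤ A := by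
    by_contra hcon
    push Not at hcon
    set δ : ℝ := θ * α + (1 - θ) * l₁ - A with hδ
    have hδ0 : 0 < δ := by linarith
    obtain ⟨q', hq'⟩ := exists_nat_gt (|α - l₁| / δ)
    set q := q' + 1 with hqdef
    have hq : 1 ≤ q := by omega
    have hq0 : (0 : ℝ) < q := by exact_mod_cast hq
    have hqδ : |α - l₁| < δ * q := by
      rw [div_lt_iff₀ hδ0] at hq'
      have : ((q' : ℕ) : ℝ) ≤ q := by rw [hqdef]; push_cast; linarith
      nlinarith
    set p : ℕ := ⌈(q : ℝ) * θ⌉₊ with hp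
    have hpq : p ≤ q := by
      rw [hp, Nat.ceil_le]
      nlinarith
    have hp1 : (q : ℝ) * θ ≤ p := Nat.le_ceil _
    have hp2 : (p : ℝ) < (q : ℝ) * θ + 1 := Nat.ceil_lt_add_one (by positivity)
    have ha1 : θ ≤ (p : ℝ) / q := by rw [le_div_iff₀ hq0]; linarith
    have ha2 : (p : ℝ) / q - θ < 1 / q := by
      rw [lt_div_iff₀ hq0, sub_mul, div_mul_cancel₀ _ hq0.ne']; linarith
    have hcond : 0 ≤ (p : ℝ) / q * β - (1 - (p : ℝ) / q) * K := by
      have h1 : θ * (K + β) = K := by rw [hθ]; field_simp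
      have h2 : θ * (K + β) ≤ (p : ℝ) / q * (K + β) := mul_le_mul_of_nonneg_right ha1 hKβ.le
      nlinarith
    have h1 := claim_rat hX F P hP hne y A l₁ k₁ K hk1 hgood hl k α β hk hI p q hq hpq hcond
    have h2 : (p : ℝ) / q * α + (1 - (p : ℝ) / q) * l₁ =
        θ * α + (1 - θ) * l₁ + ((p : ℝ) / q - θ) * (α - l₁) := by ring
    have h3 : -(((p : ℝ) / q - θ) * (α - l₁)) ≤ (1 / q) * |α - l₁| := by
      have h4 : -(((p : ℝ) / q - θ) * (α - l₁)) = ((p : ℝ) / q - θ) * (-(α - l₁)) := by ring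
      rw [h4]
      calc ((p : ℝ) / q - θ) * (-(α - l₁)) ≤ ((p : ℝ) / q - θ) * |α - l₁| :=
            mul_le_mul_of_nonneg_left (neg_le_abs _) (by linarith)
        _ ≤ (1 / q) * |α - l₁| := mul_le_mul_of_nonneg_right ha2.le (abs_nonneg _)
    have h5 : (1 / (q : ℝ)) * |α - l₁| < δ := by
      rw [one_div, inv_mul_lt_iff₀ hq0]; linarith
    linarith
  have h1 : θ * (K + β) = K := by rw [hθ]; field_simp
  have h2 : (1 - θ) * (K + β) = β := by
    have : (1 - θ) * (K + β) = (K + β) - θ * (K + β) := by ring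
    rw [this, h1]; ring
  have h3 : (θ * α + (1 - θ) * l₁) * (K + β) ≤ A * (K + β) :=
    mul_le_mul_of_nonneg_right key hKβ.le
  have h4 : (θ * α + (1 - θ) * l₁) * (K + β) = K * α + β * l₁ := by
    calc (θ * α + (1 - θ) * l₁) * (K + β) = θ * (K + β) * α + (1 - θ) * (K + β) * l₁ := by ring
      _ = K * α + β * l₁ := by rw [h1, h2]
  rw [h4] at h3
  have h5 : (l₁ - A) / K * β = (l₁ - A) * β / K := by ring
  rw [h5, ← le_sub_iff_add_le', div_le_iff₀ hK0]
  linarith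

/-- **`P2Stmt`** -/
theorem p2Stmt (hX : AFacts X) : N647.P2Stmt X := by
  intro F A P d y l₁ k₁ K σ s hP hne hA0 hAl hk1 hK hPy hAd hgood hl hs hsσ hσ k l hk hI
  have hdn := lt_of_adapted hP hAd
  rw [Wl_eq] at hI
  exact P2 hX (by omega) F P hP y d hdn.le hAd ((l₁ - A) / K) A
    (claim81 hX F P hP hne y A l₁ k₁ K hk1 hK hgood hl) σ s hs hsσ hσ k l hk hI

end Crest.Agent.R271.N2x161
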