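import Crest.Agent.R271.NSpec_647

/-!
# Row 271, team N, piece N3: generated filtrations (Blueprint (8.3), (8.4))

`gen F0 mi lam U` is the multiplicative family generated by `F0` and the subspaces `U i`
(of degree `mi i`) put at the level `lam i`.
-/

set_option autoImplicit false

open Submodule

namespace Crest.Agent.R271.N593

variable {B : Type*} [CommRing B] [Algebra ℂ B]

section Gen

variable {ι : Type*} [Fintype ι]

/-- total degree of a multi-index -/
def dg (mi : ι → ℕ) (ν : ι → ℕ) : ℕ := ∑ i, ν i * mi i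

/-- total level of a multi-index -/
def lv (lam : ι → ℝ) (ν : ι → ℕ) : ℝ := ∑ i, (ν i : ℝ) * lam i

/-- product of powers -/
def Upow (U : ι → Submodule ℂ B) (ν : ι → ℕ) : Submodule ℂ B := ∏ i, U i ^ ν i

lemma dg_zero (mi : ι → ℕ) : dg mi 0 = 0 := by simp [dg]

lemma lv_zero (lam : ι → ℝ) : lv lam 0 = 0 := by simp [lv]

lemma Upow_zero (U : ι → Submodule ℂ B) : Upow U 0 = 1 := by simp [Upow]

lemma dg_add (mi : ι → ℕ) (ν μ : ι → ℕ) : dg mi (ν + μ) = dg mi ν + dg mi μ := by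
  simp [dg, add_mul, Finset.sum_add_distrib]

lemma lv_add (lam : ι → ℝ) (ν μ : ι → ℕ) : lv lam (ν + μ) = lv lam ν + lv lam μ := by
  simp [lv, add_mul, Finset.sum_add_distrib]

lemma Upow_add (U : ι → Submodule ℂ B) (ν μ : ι → ℕ) :
    Upow U (ν + μ) = Upow U ν * Upow U μ := by
  simp [Upow, pow_add, Finset.prod_mul_distrib]

variable [DecidableEq ι]

lemma dg_single (mi : ι → ℕ) (i : ι) : dg mi (Pi.single i 1) = mi i := by
  simp [dg, Pi.single_apply]

lemma lv_single (lam : ι → ℝ) (i : ι) : lv lam (Pi.single i 1) = lam i := by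
  simp [lv, Pi.single_apply]

lemma Upow_single (U : ι → Submodule ℂ B) (i : ι) : Upow U (Pi.single i 1) = U i := by
  unfold Upow
  rw [Finset.prod_eq_single i]
  · simp
  · intro j _ hj; simp [hj]
  · intro h; exact absurd (Finset.mem_univ i) h

omit [DecidableEq ι] in
/-- a level of a multi-index is bounded below by its degree etc. -/
lemma le_dg (mi : ι → ℕ) (h1 : ∀ i, 1 ≤ mi i) (ν : ι → ℕ) (i : ι) : ν i ≤ dg mi ν := by
  unfold dg
  calc ν i ≤ ν i * mi i := Nat.le_mul_of_pos_right _ (h1 i)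
    _ ≤ ∑ j, ν j * mi j := Finset.single_le_sum (f := fun j => ν j * mi j)
        (fun _ _ => Nat.zero_le _) (Finset.mem_univ i)

/-- the generated family -/
def gen (F0 : ℕ → ℝ → Submodule ℂ B) (mi : ι → ℕ) (lam : ι → ℝ) (U : ι → Submodule ℂ B)
    (m : ℕ) (l : ℝ) : Submodule ℂ B :=
  ⨆ ν : ι → ℕ, ⨆ _ : dg mi ν ≤ m, F0 (m - dg mi ν) (l - lv lam ν) * Upow U ν

variable {F0 : ℕ → ℝ → Submodule ℂ B} {mi : ι → ℕ} {lam : ι → ℝ} {U : ι → Submodule ℂ B}

omit [DecidableEq ι] in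
lemma term_le_gen (ν : ι → ℕ) {m : ℕ} {l : ℝ} (h : dg mi ν ≤ m) :
    F0 (m - dg mi ν) (l - lv lam ν) * Upow U ν ≤ gen F0 mi lam U m l :=
  le_iSup₂_of_le ν h le_rfl

omit [DecidableEq ι] in
lemma term_le_gen' (ν : ι → ℕ) (m0 : ℕ) (l0 : ℝ) :
    F0 m0 l0 * Upow U ν ≤ gen F0 mi lam U (m0 + dg mi ν) (l0 + lv lam ν) := by
  have := term_le_gen (F0 := F0) (mi := mi) (lam := lam) (U := U) ν
    (m := m0 + dg mi ν) (l := l0 + lv lam ν) (Nat.le_add_left _ _)
  simpa using this

omit [DecidableEq ι] in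
lemma F0_le_gen (m : ℕ) (l : ℝ) : F0 m l ≤ gen F0 mi lam U m l := by
  have := term_le_gen' (F0 := F0) (mi := mi) (lam := lam) (U := U) 0 m l
  simpa [dg_zero, lv_zero, Upow_zero] using this

lemma U_le_gen (h1 : (1 : B) ∈ F0 0 0) (i : ι) : U i ≤ gen F0 mi lam U (mi i) (lam i) := by
  have := term_le_gen' (F0 := F0) (mi := mi) (lam := lam) (U := U) (Pi.single i 1) 0 0
  rw [dg_single, lv_single, Upow_single, zero_add, zero_add] at this
  refine le_trans ?_ this
  intro u hu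
  simpa using Submodule.mul_mem_mul h1 hu

omit [DecidableEq ι] in
lemma gen_anti (hanti : ∀ m l l', l ≤ l' → F0 m l' ≤ F0 m l) (m : ℕ) {l l' : ℝ} (h : l ≤ l') :
    gen F0 mi lam U m l' ≤ gen F0 mi lam U m l := by
  refine iSup₂_le fun ν hν => ?_
  refine le_trans (mul_le_mul_left ?_ _) (term_le_gen ν hν)
  exact hanti _ _ _ (by linarith)

omit [DecidableEq ι] in
lemma gen_mul (hmul : ∀ m l m' l', F0 m l * F0 m' l' ≤ F0 (m + m') (l + l'))
    (m : ℕ) (l : ℝ) (m' : ℕ) (l' : ℝ) :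
    gen F0 mi lam U m l * gen F0 mi lam U m' l' ≤ gen F0 mi lam U (m + m') (l + l') := by
  unfold gen
  simp only [Submodule.iSup_mul, Submodule.mul_iSup]
  refine iSup₂_le fun μ hμ => iSup₂_le fun ν hν => ?_
  have h1 : F0 (m - dg mi ν) (l - lv lam ν) * Upow U ν * (F0 (m' - dg mi μ) (l' - lv lam μ) * Upow U μ)
      = (F0 (m - dg mi ν) (l - lv lam ν) * F0 (m' - dg mi μ) (l' - lv lam μ)) * Upow U (ν + μ) := by
    rw [Upow_add]; ring
  rw [h1]
  have h2 := hmul (m - dg mi ν) (l - lv lam ν) (m' - dg mi μ) (l' - lv lam μ)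
  have h3 : m - dg mi ν + (m' - dg mi μ) = m + m' - dg mi (ν + μ) := by rw [dg_add]; omega
  have h4 : l - lv lam ν + (l' - lv lam μ) = l + l' - lv lam (ν + μ) := by rw [lv_add]; ring
  rw [h3, h4] at h2
  exact le_trans (mul_le_mul_left h2 _)
    (term_le_gen (ν + μ) (by rw [dg_add]; omega))

omit [DecidableEq ι] in
/-- UNIVERSAL PROPERTY: a multiplicative family which contains `F0` and the generators contains
the generated family. -/
theorem gen_le {W : ℕ → ℝ → Submodule ℂ B}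
    (hW1 : (1 : B) ∈ W 0 0)
    (hWmul : ∀ m l m' l', W m l * W m' l' ≤ W (m + m') (l + l'))
    (hF : ∀ m l, F0 m l ≤ W m l) (hU : ∀ i, U i ≤ W (mi i) (lam i)) (m : ℕ) (l : ℝ) :
    gen F0 mi lam U m l ≤ W m l := by
  classical
  have hpow : ∀ (i : ι) (k : ℕ), U i ^ k ≤ W (k * mi i) (k * lam i) := by
    intro i k
    induction k with
    | zero =>
      simp only [pow_zero, Nat.cast_zero, zero_mul]
      rw [Submodule.one_le]
      exact hW1
    | succ k ih =>
      rw [pow_succ]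
      refine le_trans (mul_le_mul' ih (hU i)) (le_trans (hWmul _ _ _ _) (le_of_eq ?_))
      congr 1
      · ring
      · push_cast; ring
  have hprod : ∀ (ν : ι → ℕ) (s : Finset ι),
      (∏ i ∈ s, U i ^ ν i) ≤ W (∑ i ∈ s, ν i * mi i) (∑ i ∈ s, (ν i : ℝ) * lam i) := by
    intro ν s
    induction s using Finset.induction_on with
    | empty =>
      simp only [Finset.prod_empty, Finset.sum_empty]
      rw [Submodule.one_le]
      exact hW1
    | insert a s ha ih =>
      rw [Finset.prod_insert ha, Finset.sum_insert ha, Finset.sum_insert ha]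
      exact le_trans (mul_le_mul' (hpow a (ν a)) ih) (hWmul _ _ _ _)
  refine iSup₂_le fun ν hν => ?_
  refine le_trans (mul_le_mul' (hF _ _) (hprod ν Finset.univ)) ?_
  refine le_trans (hWmul _ _ _ _) (le_of_eq ?_)
  congr 1
  · exact Nat.sub_add_cancel hν
  · simp [lv]

omit [DecidableEq ι] in
/-- finiteness: only finitely many multi-indices occur in degree `m` -/
lemma finite_dg (h1 : ∀ i, 1 ≤ mi i) (m : ℕ) : {ν : ι → ℕ | dg mi ν ≤ m}.Finite := by
  refine (Set.Finite.pi' (fun _ : ι => Set.finite_Iic m)).subset ?_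
  intro ν hν i
  exact (le_dg mi h1 ν i).trans hν

omit [DecidableEq ι] in
/-- left-continuity of the generated family -/
theorem gen_leftCont (h1 : ∀ i, 1 ≤ mi i)
    (hanti : ∀ m l l', l ≤ l' → F0 m l' ≤ F0 m l)
    (hlc : ∀ m l, ∃ δ : ℝ, 0 < δ ∧ F0 m (l - δ) = F0 m l) (m : ℕ) (l : ℝ) :
    ∃ δ : ℝ, 0 < δ ∧ gen F0 mi lam U m (l - δ) = gen F0 mi lam U m l := by
  classical
  have hfin := finite_dg (ι := ι) h1 m
  choose δ hδ0 hδ using fun ν : ι → ℕ => hlc (m - dg mi ν) (l - lv lam ν)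
  obtain ⟨δ0, h0, hle⟩ : ∃ δ0 : ℝ, 0 < δ0 ∧ ∀ ν ∈ {ν : ι → ℕ | dg mi ν ≤ m}, δ0 ≤ δ ν := by
    rcases hfin.toFinset.eq_empty_or_nonempty with he | hne
    · refine ⟨1, one_pos, fun ν hν => ?_⟩
      have : ν ∈ hfin.toFinset := by simpa using hν
      rw [he] at this; simp at this
    · obtain ⟨ν0, hν0, hmin⟩ := hfin.toFinset.exists_min_image δ hne
      exact ⟨δ ν0, hδ0 ν0, fun ν hν => hmin ν (by simpa using hν)⟩
  refine ⟨δ0, h0, le_antisymm ?_ (gen_anti hanti m (by linarith))⟩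
  refine iSup₂_le fun ν hν => ?_
  refine le_trans (mul_le_mul_left ?_ _) (term_le_gen ν hν)
  rw [← hδ ν]
  exact hanti _ _ _ (by have := hle ν hν; linarith)

omit [DecidableEq ι] in
/-- `d(F0, gen) ≤ σ` (upper half) -/
theorem gen_le_shift (hmul : ∀ m l m' l', F0 m l * F0 m' l' ≤ F0 (m + m') (l + l'))
    (h1 : (1 : B) ∈ F0 0 0) (hanti : ∀ m l l', l ≤ l' → F0 m l' ≤ F0 m l)
    {σ : ℝ} (hσ : 0 ≤ σ) (hU : ∀ i, U i ≤ F0 (mi i) (lam i - σ * mi i)) (m : ℕ) (l : ℝ) :
    gen F0 mi lam U m l ≤ F0 m (l - σ * m) := by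
  refine gen_le (W := fun m l => F0 m (l - σ * m)) ?_ ?_ ?_ ?_ m l
  · simpa using h1
  · intro m l m' l'
    refine le_trans (hmul _ _ _ _) (le_of_eq ?_)
    congr 1; push_cast; ring
  · intro m l
    exact hanti _ _ _ (by have : 0 ≤ σ * m := by positivity
                          linarith)
  · exact hU

end Gen

/-! ### Filtrations of `Defs_710` -/

section FiltPart

open Crest.Agent.R271.Defs710

variable {B : Type} [CommRing B] [Algebra ℂ B] {V : ℕ → Submodule ℂ B}

/-- for each `l` there is a left neighbourhood on which `F m` is constant -/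
lemma exists_left (F : Filt V) (hV : ∀ m, FiniteDimensional ℂ (V m)) (m : ℕ) (l : ℝ) :
    ∃ δ : ℝ, 0 < δ ∧ F.F m (l - δ) = F.F m l := by
  classical
  have := hV m
  have hfd : ∀ l', FiniteDimensional ℂ (F.F m l') := fun l' =>
    Submodule.finiteDimensional_of_le (F.le_V m l')
  -- minimal dimension to the left of `l`
  let S : Set ℕ := {k | ∃ l' < l, Module.finrank ℂ (F.F m l') = k}
  have hS : S.Nonempty := ⟨_, l - 1, by linarith, rfl⟩
  obtain ⟨l', hl', hk⟩ := Nat.sInf_mem hS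
  refine ⟨l - l', by linarith, ?_⟩
  have e1 : l - (l - l') = l' := by ring
  rw [e1]
  refine le_antisymm ?_ (F.anti m hl'.le)
  intro b hb
  refine F.cont m l b fun l'' hl'' => ?_
  rcases le_total l'' l' with h | h
  · exact F.anti m h hb
  · have hle : F.F m l'' ≤ F.F m l' := F.anti m h
    have hmin : Module.finrank ℂ (F.F m l') ≤ Module.finrank ℂ (F.F m l'') := by
      rw [hk]; exact Nat.sInf_le ⟨l'', hl'', rfl⟩
    have := hfd l'
    have : F.F m l'' = F.F m l' := Submodule.eq_of_le_of_finrank_le hle hmin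
    rw [this]; exact hb

lemma one_mem_zero (F : Filt V) (h1 : (1 : B) ∈ V 0) : (1 : B) ∈ F.F 0 0 := by
  rw [F.zero 0 0 le_rfl]; exact h1

lemma filt_mul (F : Filt V) (m : ℕ) (l : ℝ) (m' : ℕ) (l' : ℝ) :
    F.F m l * F.F m' l' ≤ F.F (m + m') (l + l') :=
  Submodule.mul_le.mpr fun a ha b hb => F.mul m l m' l' a b ha hb

variable {ι : Type*} [Fintype ι]

/-- the filtration generated by `F` and the subspaces `U i` at level `lam i` -/
def genFilt (F : Filt V) (mi : ι → ℕ) (lam : ι → ℝ) (U : ι → Submodule ℂ B)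
    (hV : ∀ m, FiniteDimensional ℂ (V m)) (h1 : (1 : B) ∈ V 0) (hmi : ∀ i, 1 ≤ mi i)
    (σ : ℝ) (hσ : 0 ≤ σ) (hU : ∀ i, U i ≤ F.F (mi i) (lam i - σ * mi i)) : Filt V where
  F := gen F.F mi lam U
  le_V m l := (gen_le_shift (filt_mul F) (one_mem_zero F h1) (fun m l l' h => F.anti m h) hσ hU m l).trans
    (F.le_V _ _)
  zero m l hl := by
    refine le_antisymm ((gen_le_shift (filt_mul F) (one_mem_zero F h1)
      (fun m l l' h => F.anti m h) hσ hU m l).trans (F.le_V _ _)) ?_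
    rw [← F.zero m l hl]
    exact F0_le_gen m l
  anti m _ _ h := gen_anti (fun m l l' h => F.anti m h) m h
  cont m l b hb := by
    obtain ⟨δ, hδ, he⟩ := gen_leftCont (U := U) (lam := lam) hmi (fun m l l' h => F.anti m h)
      (exists_left F hV) m l
    rw [← he]
    exact hb _ (by linarith)
  mul m l m' l' a b ha hb :=
    gen_mul (filt_mul F) m l m' l' (Submodule.mul_mem_mul ha hb)
  bdd := by
    obtain ⟨C, hC⟩ := F.bdd
    refine ⟨C + σ, fun m l hl => ?_⟩
    have h := gen_le_shift (filt_mul F) (one_mem_zero F h1) (fun m l l' h => F.anti m h) hσ hU m l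
    rw [hC m (l - σ * m) (by linarith)] at h
    exact le_bot_iff.mp h

section props

variable (F : Filt V) (mi : ι → ℕ) (lam : ι → ℝ) (U : ι → Submodule ℂ B)
    (hV : ∀ m, FiniteDimensional ℂ (V m)) (h1 : (1 : B) ∈ V 0) (hmi : ∀ i, 1 ≤ mi i)
    (σ : ℝ) (hσ : 0 ≤ σ) (hU : ∀ i, U i ≤ F.F (mi i) (lam i - σ * mi i))

theorem genFilt_F (m : ℕ) (l : ℝ) :
    (genFilt F mi lam U hV h1 hmi σ hσ hU).F m l = gen F.F mi lam U m l := rfl

theorem le_genFilt (m : ℕ) (l : ℝ) : F.F m l ≤ (genFilt F mi lam U hV h1 hmi σ hσ hU).F m l :=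
  F0_le_gen m l

theorem U_le_genFilt (i : ι) :
    U i ≤ (genFilt F mi lam U hV h1 hmi σ hσ hU).F (mi i) (lam i) := by
  classical
  exact U_le_gen (one_mem_zero F h1) i

theorem genFilt_le_shift (m : ℕ) (l : ℝ) :
    (genFilt F mi lam U hV h1 hmi σ hσ hU).F m l ≤ F.F m (l - σ * m) :=
  gen_le_shift (filt_mul F) (one_mem_zero F h1) (fun m l l' h => F.anti m h) hσ hU m l

theorem fdist_genFilt_le : fdist F (genFilt F mi lam U hV h1 hmi σ hσ hU) ≤ σ := by
  refine csInf_le ⟨0, fun e he => he.1⟩ ⟨hσ, fun m l => ⟨?_, ?_⟩⟩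
  · refine (le_genFilt F mi lam U hV h1 hmi σ hσ hU m l).trans
      ((genFilt F mi lam U hV h1 hmi σ hσ hU).anti m ?_)
    have : 0 ≤ σ * m := by positivity
    linarith
  · exact genFilt_le_shift F mi lam U hV h1 hmi σ hσ hU m l

/-- UNIVERSAL PROPERTY -/
theorem genFilt_le {W : ℕ → ℝ → Submodule ℂ B}
    (hW1 : (1 : B) ∈ W 0 0)
    (hWmul : ∀ m l m' l', W m l * W m' l' ≤ W (m + m') (l + l'))
    (hF : ∀ m l, F.F m l ≤ W m l) (hUW : ∀ i, U i ≤ W (mi i) (lam i)) (m : ℕ) (l : ℝ) :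
    (genFilt F mi lam U hV h1 hmi σ hσ hU).F m l ≤ W m l :=
  gen_le hW1 hWmul hF hUW m l

/-- universal property for families of ideals -/
theorem idl_genFilt_le {W : ℝ → Ideal B}
    (hW1 : (1 : B) ∈ W 0) (hWmul : ∀ l l', W l * W l' ≤ W (l + l'))
    (hF : ∀ l, idl F l ≤ W l) (hUW : ∀ i, ∀ u ∈ U i, u ∈ W (lam i)) (l : ℝ) :
    idl (genFilt F mi lam U hV h1 hmi σ hσ hU) l ≤ W l := by
  unfold idl
  rw [Ideal.span_le]
  rintro b ⟨m, hb⟩
  have := genFilt_le F mi lam U hV h1 hmi σ hσ hU (W := fun _ l => (W l).restrictScalars ℂ)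
    hW1 ?_ ?_ ?_ m l hb
  · exact this
  · intro m l m' l'
    rw [Submodule.mul_le]
    intro a ha b hb
    exact hWmul l l' (Ideal.mul_mem_mul ha hb)
  · intro m l b hb
    exact hF l (Ideal.subset_span ⟨m, hb⟩)
  · intro i u hu
    exact hUW i u hu

end props

/-! ### The ideals of the generated filtration -/

section IdealPart

/-- `S ↦` the ideal generated by `S`, as a monoid homomorphism -/
def spanHom (B : Type*) [CommRing B] [Algebra ℂ B] : Submodule ℂ B →* Ideal B where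
  toFun S := Ideal.span (S : Set B)
  map_one' := by
    rw [Ideal.one_eq_top, Ideal.eq_top_iff_one]
    exact Ideal.subset_span (Submodule.one_le.mp le_rfl)
  map_mul' S T := by
    refine le_antisymm (Ideal.span_le.mpr ?_) ?_
    · intro b hb
      have h : S * T ≤ (Ideal.span (S : Set B) * Ideal.span (T : Set B)).restrictScalars ℂ := by
        rw [Submodule.mul_le]
        intro a ha b hb
        exact Ideal.mul_mem_mul (Ideal.subset_span ha) (Ideal.subset_span hb)
      exact h hb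
    · rw [Ideal.span_mul_span']
      refine Ideal.span_mono ?_
      rintro _ ⟨a, ha, b, hb, rfl⟩
      exact Submodule.mul_mem_mul ha hb

lemma spanHom_mono {S T : Submodule ℂ B} (h : S ≤ T) :
    Ideal.span (S : Set B) ≤ Ideal.span (T : Set B) := Ideal.span_mono h

lemma span_iSup' {κ : Sort*} (S : κ → Submodule ℂ B) :
    Ideal.span ((⨆ i, S i : Submodule ℂ B) : Set B) = ⨆ i, Ideal.span (S i : Set B) := by
  refine le_antisymm (Ideal.span_le.mpr ?_) (iSup_le fun i => Ideal.span_mono (le_iSup S i))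
  intro b hb
  have h : (⨆ i, S i) ≤ (⨆ i, Ideal.span (S i : Set B) : Ideal B).restrictScalars ℂ :=
    iSup_le fun i b hb => (le_iSup (fun i => Ideal.span (S i : Set B)) i) (Ideal.subset_span hb)
  exact h hb

lemma idl_eq_iSup (F : Filt V) (l : ℝ) : idl F l = ⨆ m, Ideal.span (F.F m l : Set B) := by
  unfold idl
  refine le_antisymm (Ideal.span_le.mpr ?_) (iSup_le fun m => Ideal.span_mono fun b hb => ⟨m, hb⟩)
  rintro b ⟨m, hb⟩
  exact (le_iSup (fun m => Ideal.span (F.F m l : Set B)) m) (Ideal.subset_span hb)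

lemma span_Upow (U : ι → Submodule ℂ B) (ν : ι → ℕ) :
    Ideal.span (Upow U ν : Set B) = ∏ i, Ideal.span (U i : Set B) ^ ν i := by
  have h := map_prod (spanHom B) (fun i => U i ^ ν i) Finset.univ
  have h2 : ∀ i, spanHom B (U i ^ ν i) = (Ideal.span (U i : Set B)) ^ ν i := fun i => by
    rw [map_pow]; rfl
  simp only [h2] at h
  exact h

/-- the ideals of the generated filtration -/
theorem idl_genFilt (F : Filt V) (mi : ι → ℕ) (lam : ι → ℝ) (U : ι → Submodule ℂ B)
    (hV : ∀ m, FiniteDimensional ℂ (V m)) (h1 : (1 : B) ∈ V 0) (hmi : ∀ i, 1 ≤ mi i)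
    (σ : ℝ) (hσ : 0 ≤ σ) (hU : ∀ i, U i ≤ F.F (mi i) (lam i - σ * mi i)) (l : ℝ) :
    idl (genFilt F mi lam U hV h1 hmi σ hσ hU) l =
      ⨆ ν : ι → ℕ, idl F (l - ∑ i, (ν i : ℝ) * lam i) * ∏ i, (Ideal.span (U i : Set B)) ^ ν i := by
  rw [idl_eq_iSup]
  refine le_antisymm (iSup_le fun m => ?_) (iSup_le fun ν => ?_)
  · rw [genFilt_F]
    unfold gen
    rw [span_iSup']
    refine iSup_le fun ν => ?_
    rw [span_iSup']
    refine iSup_le fun hν => ?_
    refine le_trans (le_of_eq ((spanHom B).map_mul _ _)) ?_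
    refine le_trans ?_ (le_iSup _ ν)
    refine Ideal.mul_mono ?_ (le_of_eq (span_Upow U ν))
    rw [idl_eq_iSup]
    exact le_iSup (fun m => Ideal.span (F.F m (l - lv lam ν) : Set B)) (m - dg mi ν)
  · rw [idl_eq_iSup, Ideal.iSup_mul]
    refine iSup_le fun m => ?_
    rw [← span_Upow]
    refine le_trans (le_of_eq ((spanHom B).map_mul _ _).symm) ?_
    refine le_trans ?_ (le_iSup _ (m + dg mi ν))
    refine Ideal.span_mono ?_
    have h := term_le_gen' (F0 := F.F) (mi := mi) (lam := lam) (U := U) ν m (l - lv lam ν)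
    rw [sub_add_cancel] at h
    exact h

end IdealPart

end FiltPart

open Crest.Agent.R271.Defs710 in
/-- **(8.4)**, the exact statement of `NSpec_647` -/
theorem genFiltStmt : Crest.Agent.R271.N647.GenFiltStmt := by
  intro B _ _ V F hV hV0 _ ι _ m a lev σ W hm _ _ hlev hσ hW
  have h1 : (1 : B) ∈ V 0 := by rw [hV0]; exact Submodule.one_le.mp le_rfl
  have hU : ∀ i, W i ≤ F.F (m i) (lev i - σ * m i) := fun i =>
    (hW i).trans (F.anti _ (by
      have h3 : (1 : ℝ) ≤ (m i : ℝ) := by exact_mod_cast hm i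
      nlinarith [mul_le_mul_of_nonneg_left h3 hσ, hlev i]))
  exact ⟨genFilt F m lev W hV h1 hm σ hσ hU, le_genFilt F m lev W hV h1 hm σ hσ hU,
    U_le_genFilt F m lev W hV h1 hm σ hσ hU, genFilt_le_shift F m lev W hV h1 hm σ hσ hU,
    idl_genFilt F m lev W hV h1 hm σ hσ hU⟩

end Crest.Agent.R271.N593
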