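import Mathlib

/-!
Row 271, team N, piece N5a: for general points `y` of `V(P)`, the condition
`f ∈ m_y^e I + P I + J` on `f ∈ I` is given by finitely many regular functions, linear in `f`
(principal parts module and generic freeness).
-/

set_option autoImplicit false

open TensorProduct

namespace Crest.Agent.R271.N91

/-! ### generic coordinates on a finite module over a domain -/

/-- Generic freeness in coordinates: for a finite module `Q` over a domain `A` there is a linear
map `S : Q → A^N` and `H ≠ 0` such that for all maximal ideals `𝔪` with `H ∉ 𝔪` we have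
`S q ∈ 𝔪^N ↔ q ∈ 𝔪 Q`. -/
theorem generic_coords (A Q : Type*) [CommRing A] [IsDomain A] [AddCommGroup Q] [Module A Q]
    [Module.Finite A Q] :
    ∃ (N : ℕ) (S : Q →ₗ[A] (Fin N → A)) (H : A), H ≠ 0 ∧
      ∀ 𝔪 : Ideal A, 𝔪.IsMaximal → H ∉ 𝔪 → ∀ q : Q,
        (∀ i, S q i ∈ 𝔪) ↔ q ∈ 𝔪 • (⊤ : Submodule A Q) := by
  classical
  obtain ⟨n, v, hv⟩ := Module.Finite.exists_fin (R := A) (M := Q)
  obtain ⟨s, hs, hs'⟩ := exists_maximal_linearIndepOn A v
  -- scalars
  choose! a ha0 ha using hs'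
  set H : A := ∏ i : Fin n, (if i ∈ s then 1 else a i) with hH
  have hH0 : H ≠ 0 := by
    rw [hH, Finset.prod_ne_zero_iff]
    intro i _
    split_ifs with h
    · exact one_ne_zero
    · exact ha0 i h
  set F : Submodule A Q := Submodule.span A (v '' s) with hF
  have hHv : ∀ i, H • v i ∈ F := by
    intro i
    by_cases hi : i ∈ s
    · exact F.smul_mem _ (Submodule.subset_span ⟨i, hi, rfl⟩)
    · have h1 : H = (∏ j ∈ Finset.univ.erase i, (if j ∈ s then 1 else a j)) * a i := by
        rw [hH, ← Finset.prod_erase_mul _ _ (Finset.mem_univ i), if_neg hi]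
      rw [h1, mul_smul]
      exact F.smul_mem _ (ha i hi)
  have hHq : ∀ q : Q, H • q ∈ F := by
    intro q
    have hq : q ∈ Submodule.span A (Set.range v) := by rw [hv]; trivial
    induction hq using Submodule.span_induction with
    | mem x hx => obtain ⟨i, rfl⟩ := hx; exact hHv i
    | zero => simp
    | add x y _ _ hx hy => rw [smul_add]; exact F.add_mem hx hy
    | smul c x _ hx => rw [smul_comm]; exact F.smul_mem _ hx
  have hFr : Submodule.span A (Set.range (fun i : s => v i)) = F := by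
    rw [hF, ← Set.image_eq_range]
  -- basis of `F`
  let b0 : Module.Basis s A (Submodule.span A (Set.range (fun i : s => v i))) :=
    Module.Basis.span hs
  have : Fintype s := Fintype.ofFinite s
  let N := Fintype.card s
  let es : s ≃ Fin N := Fintype.equivFin s
  let b : Module.Basis (Fin N) A (Submodule.span A (Set.range (fun i : s => v i))) :=
    b0.reindex es
  let mulH : Q →ₗ[A] (Submodule.span A (Set.range (fun i : s => v i))) :=
    LinearMap.codRestrict _ (H • LinearMap.id) (fun q => by rw [hFr]; exact hHq q)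
  refine ⟨N, (b.equivFun : _ →ₗ[A] _) ∘ₗ mulH, H, hH0, fun 𝔪 h𝔪 hH𝔪 q => ?_⟩
  have hsum : H • q = ∑ i, (b.equivFun (mulH q)) i • ((b i : _) : Q) := by
    have h1 := b.sum_equivFun (mulH q)
    have h2 := congrArg (Submodule.subtype _) h1
    rw [map_sum] at h2
    simp only [map_smul, Submodule.subtype_apply] at h2
    rw [h2]
    rfl
  constructor
  · intro h
    have h1 : H • q ∈ 𝔪 • (⊤ : Submodule A Q) := by
      rw [hsum]
      exact Submodule.sum_mem _ (fun i _ => Submodule.smul_mem_smul (h i) trivial)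
    obtain ⟨c, d, hd, hcd⟩ : ∃ c d : A, d ∈ 𝔪 ∧ c * H + d = 1 := by
      have h2 : Ideal.span {H} ⊔ 𝔪 = ⊤ := by
        rw [sup_comm]
        refine h𝔪.1.2 _ (lt_of_le_of_ne le_sup_left (fun h3 => hH𝔪 ?_))
        rw [h3]
        exact Ideal.mem_sup_right (Ideal.mem_span_singleton_self H)
      have h3 : (1 : A) ∈ Ideal.span {H} ⊔ 𝔪 := by rw [h2]; trivial
      obtain ⟨x, hx, d, hd, hxd⟩ := Submodule.mem_sup.1 h3
      obtain ⟨c, rfl⟩ := Ideal.mem_span_singleton'.1 hx
      exact ⟨c, d, hd, hxd⟩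
    have h4 : q = c • (H • q) + d • q := by
      rw [← mul_smul, ← add_smul, hcd, one_smul]
    rw [h4]
    exact Submodule.add_mem _ (Submodule.smul_mem _ _ h1)
      (Submodule.smul_mem_smul hd trivial)
  · intro h i
    clear hsum
    induction h using Submodule.smul_induction_on' with
    | smul r hr n hn =>
      rw [map_smul]
      exact 𝔪.mul_mem_right _ hr
    | add x hx y hy hx' hy' =>
      rw [map_add]
      exact 𝔪.add_mem hx' hy'

/-- Relative version of `generic_coords`, for a quotient `L / K` of submodules of `W`. -/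
theorem generic_coords_rel {A W : Type*} [CommRing A] [IsDomain A] [AddCommGroup W] [Module A W]
    (L K : Submodule A W) (G : Finset W) (hG : ∀ g ∈ G, g ∈ L)
    (hLG : L ≤ Submodule.span A (G : Set W) ⊔ K) (hKL : K ≤ L) :
    ∃ (N : ℕ) (S : L →ₗ[A] (Fin N → A)) (H : A), H ≠ 0 ∧
      ∀ 𝔪 : Ideal A, 𝔪.IsMaximal → H ∉ 𝔪 → ∀ q : L,
        (∀ i, S q i ∈ 𝔪) ↔ (q : W) ∈ 𝔪 • L ⊔ K := by
  classical
  set K' : Submodule A L := K.comap L.subtype with hK'
  have hfin : Module.Finite A (L ⧸ K') := by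
    refine ⟨⟨(G.attach.image (fun g => K'.mkQ ⟨g.1, hG g.1 g.2⟩)), ?_⟩⟩
    rw [eq_top_iff]
    rintro x -
    obtain ⟨⟨x, hx⟩, rfl⟩ := K'.mkQ_surjective x
    obtain ⟨g, hg, k, hk, hgk⟩ := Submodule.mem_sup.1 (hLG hx)
    have hgL : g ∈ L := by
      have : g = x - k := by rw [← hgk]; abel
      rw [this]
      exact L.sub_mem hx (hKL hk)
    have h1 : K'.mkQ ⟨x, hx⟩ = K'.mkQ ⟨g, hgL⟩ := by
      rw [Submodule.mkQ_apply, Submodule.mkQ_apply, Submodule.Quotient.eq, hK', Submodule.mem_comap]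
      change x - g ∈ K
      have : x - g = k := by rw [← hgk]; abel
      rw [this]
      exact hk
    rw [h1]
    have h2 : ∀ g' (_ : g' ∈ Submodule.span A (G : Set W)) (hg' : g' ∈ L), K'.mkQ ⟨g', hg'⟩ ∈
        Submodule.span A ((G.attach.image (fun g => K'.mkQ ⟨g.1, hG g.1 g.2⟩) : Finset _) :
          Set (L ⧸ K')) := by
      intro g' hg'
      have hGL : Submodule.span A (G : Set W) ≤ L := Submodule.span_le.2 (fun g hg => hG g hg)
      induction hg' using Submodule.span_induction with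
      | mem x hx =>
        intro hx'
        refine Submodule.subset_span ?_
        simp only [Finset.coe_image, Set.mem_image, Finset.mem_coe, Finset.mem_attach, true_and,
          Subtype.exists]
        exact ⟨x, hx, rfl⟩
      | zero =>
        intro _
        have : K'.mkQ ⟨0, L.zero_mem⟩ = 0 := map_zero _
        rw [this]
        exact Submodule.zero_mem _
      | add x y hx hy ihx ihy =>
        intro hxy
        have : K'.mkQ ⟨x + y, hxy⟩ = K'.mkQ ⟨x, hGL hx⟩ + K'.mkQ ⟨y, hGL hy⟩ := by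
          rw [← map_add]; rfl
        rw [this]
        exact Submodule.add_mem _ (ihx _) (ihy _)
      | smul c x hx ihx =>
        intro hcx
        have : K'.mkQ ⟨c • x, hcx⟩ = c • K'.mkQ ⟨x, hGL hx⟩ := by
          rw [← map_smul]; rfl
        rw [this]
        exact Submodule.smul_mem _ _ (ihx _)
    exact h2 g hg hgL
  obtain ⟨N, S, H, hH, hS⟩ := generic_coords A (L ⧸ K')
  refine ⟨N, S ∘ₗ K'.mkQ, H, hH, fun 𝔪 h𝔪 hH𝔪 q => ?_⟩
  have h1 := hS 𝔪 h𝔪 hH𝔪 (K'.mkQ q)
  rw [LinearMap.comp_apply, h1]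
  have h2 : (𝔪 • (⊤ : Submodule A (L ⧸ K'))) = (𝔪 • (⊤ : Submodule A L)).map K'.mkQ := by
    rw [Submodule.map_smul'', Submodule.map_top, Submodule.range_mkQ]
  rw [h2, ← Submodule.mem_comap, Submodule.comap_map_mkQ]
  have h3 : q ∈ K' ⊔ 𝔪 • (⊤ : Submodule A L) ↔
      (q : W) ∈ (K' ⊔ 𝔪 • (⊤ : Submodule A L)).map L.subtype := by
    constructor
    · intro h; exact ⟨q, h, rfl⟩
    · rintro ⟨q', hq', h⟩
      have : q' = q := Subtype.ext h
      rw [← this]
      exact hq'
  rw [h3, Submodule.map_sup, Submodule.map_smul'', Submodule.map_top, Submodule.range_subtype,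
    hK', Submodule.map_comap_subtype, inf_eq_right.2 hKL, sup_comm]

/-! ### finiteness of thickenings of the diagonal -/

theorem finite_quot_pow {A R : Type*} [CommRing A] [CommRing R] [Algebra A R] [IsNoetherianRing R]
    (I : Ideal R) [Module.Finite A (R ⧸ I)] (e : ℕ) : Module.Finite A (R ⧸ I ^ e) := by
  rcases Nat.eq_zero_or_pos e with rfl | he
  · rw [pow_zero, Ideal.one_eq_top]
    infer_instance
  · have hle : I ^ e ≤ I := Ideal.pow_le_self he.ne'
    refine Module.finite_of_surjective_of_ker_le_nilradical (R := A) (S := R ⧸ I ^ e) (T := R ⧸ I)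
      (Ideal.Quotient.factorₐ A hle) (Ideal.Quotient.factor_surjective hle) ?_
      (IsNoetherian.noetherian _)
    intro x hx
    obtain ⟨x, rfl⟩ := Ideal.Quotient.mk_surjective x
    rw [mem_nilradical]
    refine ⟨e, ?_⟩
    have hx' : x ∈ I := Ideal.Quotient.eq_zero_iff_mem.1 hx
    rw [← map_pow]
    exact Ideal.Quotient.eq_zero_iff_mem.2 (Ideal.pow_mem_pow hx' e)

/-- `L` is generated over `A` by a finite subset modulo `K ⊇ I^e L`. -/
theorem exists_finset_gen {A R : Type*} [CommRing A] [CommRing R] [Algebra A R] [IsNoetherianRing R]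
    (I : Ideal R) [Module.Finite A (R ⧸ I)] (e : ℕ) (L K : Ideal R) (hK : I ^ e * L ≤ K) :
    ∃ G : Finset R, (∀ g ∈ G, g ∈ L) ∧
      L.restrictScalars A ≤ Submodule.span A (G : Set R) ⊔ K.restrictScalars A := by
  classical
  have := finite_quot_pow (A := A) I e
  obtain ⟨T, hT⟩ := (Module.Finite.fg_top : (⊤ : Submodule A (R ⧸ I ^ e)).FG)
  obtain ⟨U, hU⟩ := (IsNoetherian.noetherian L)
  choose! r hr using (Ideal.Quotient.mk_surjective (I := I ^ e))
  refine ⟨Finset.image (fun p : (R ⧸ I ^ e) × R => r p.1 * p.2) (T ×ˢ U), ?_, ?_⟩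
  · intro g hg
    obtain ⟨⟨t, u⟩, h, rfl⟩ := Finset.mem_image.1 hg
    exact L.mul_mem_left _ (hU ▸ Submodule.subset_span (Finset.mem_product.1 h).2)
  · set G := Finset.image (fun p : (R ⧸ I ^ e) × R => r p.1 * p.2) (T ×ˢ U) with hG
    have key : ∀ u ∈ U, ∀ c : R, c * u ∈
        Submodule.span A (G : Set R) ⊔ K.restrictScalars A := by
      intro u hu c
      have hc : Ideal.Quotient.mk (I ^ e) c ∈ Submodule.span A (T : Set (R ⧸ I ^ e)) := by
        rw [hT]; trivial
      have hgen : ∀ c' : R ⧸ I ^ e, c' ∈ Submodule.span A (T : Set (R ⧸ I ^ e)) → ∀ c : R,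
          Ideal.Quotient.mk (I ^ e) c = c' → c * u ∈
            Submodule.span A (G : Set R) ⊔ K.restrictScalars A := by
        have hz : ∀ z ∈ I ^ e, z * u ∈ Submodule.span A (G : Set R) ⊔ K.restrictScalars A := by
          intro z hz
          refine Submodule.mem_sup_right (hK (Ideal.mul_mem_mul hz ?_))
          rw [← hU]
          exact Submodule.subset_span hu
        intro c' hc'
        induction hc' using Submodule.span_induction with
        | mem x hx =>
          intro c hc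
          have h1 : c - r x ∈ I ^ e := by
            rw [← Ideal.Quotient.eq, hc, hr]
          have h2 : c * u = r x * u + (c - r x) * u := by ring
          rw [h2]
          refine Submodule.add_mem _ (Submodule.mem_sup_left (Submodule.subset_span ?_)) (hz _ h1)
          rw [hG]
          simp only [Finset.coe_image, Set.mem_image, Finset.mem_coe, Finset.mem_product, Prod.exists]
          exact ⟨x, u, ⟨hx, hu⟩, rfl⟩
        | zero =>
          intro c hc
          exact hz c (Ideal.Quotient.eq_zero_iff_mem.1 hc)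
        | add x y _ _ hx hy =>
          intro c hc
          obtain ⟨x', rfl⟩ := Ideal.Quotient.mk_surjective x
          obtain ⟨y', rfl⟩ := Ideal.Quotient.mk_surjective y
          have h1 : c - (x' + y') ∈ I ^ e := by
            rw [← Ideal.Quotient.eq, hc, map_add]
          have h2 : c * u = x' * u + y' * u + (c - (x' + y')) * u := by ring
          rw [h2]
          exact Submodule.add_mem _ (Submodule.add_mem _ (hx _ rfl) (hy _ rfl)) (hz _ h1)
        | smul a x _ hx =>
          intro c hc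
          obtain ⟨x', rfl⟩ := Ideal.Quotient.mk_surjective x
          have h1 : c - a • x' ∈ I ^ e := by
            rw [← Ideal.Quotient.eq, hc]
            exact (map_smul (Ideal.Quotient.mkₐ A (I ^ e)) a x').symm
          have h2 : c * u = a • (x' * u) + (c - a • x') * u := by
            rw [sub_mul, smul_mul_assoc]; ring
          rw [h2]
          exact Submodule.add_mem _ (Submodule.smul_mem _ _ (hx _ rfl)) (hz _ h1)
      exact hgen _ hc c rfl
    intro x hx
    have hx' : x ∈ Submodule.span R (U : Set R) := by rw [hU]; exact hx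
    suffices h : ∀ c : R, c * x ∈ Submodule.span A (G : Set R) ⊔ K.restrictScalars A by
      simpa using h 1
    clear hx
    induction hx' using Submodule.span_induction with
    | mem x hx => exact fun c => key x hx c
    | zero => intro c; rw [mul_zero]; exact Submodule.zero_mem _
    | add x y _ _ hx hy => intro c; rw [mul_add]; exact Submodule.add_mem _ (hx c) (hy c)
    | smul c' x _ hx =>
      intro c
      rw [smul_eq_mul, ← mul_assoc]
      exact hx _

/-! ### principal parts -/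

theorem sup_pow_le {R : Type*} [CommRing R] (I J : Ideal R) (e : ℕ) : (I ⊔ J) ^ e ≤ I ^ e ⊔ J := by
  induction e with
  | zero => simp
  | succ e ih =>
    rw [pow_succ]
    refine (Ideal.mul_mono_left ih).trans ?_
    rw [Ideal.sup_mul, Ideal.mul_sup, ← pow_succ]
    refine sup_le (sup_le le_sup_left ?_) ?_
    · exact Ideal.mul_le_right.trans le_sup_right
    · exact Ideal.mul_le_left.trans le_sup_right

section pp

variable {B : Type} [CommRing B] [Algebra ℂ B] (P : Ideal B)

/-- the multiplication map `(B/P) ⊗ B → B/P` -/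
noncomputable def mu : (B ⧸ P) ⊗[ℂ] B →ₐ[B ⧸ P] B ⧸ P :=
  Algebra.TensorProduct.lift (AlgHom.id (B ⧸ P) (B ⧸ P)) (Ideal.Quotient.mkₐ ℂ P)
    (fun _ _ => Commute.all _ _)

theorem mu_tmul (a : B ⧸ P) (b : B) : mu P (a ⊗ₜ b) = a * Ideal.Quotient.mk P b := rfl

theorem mu_surj : Function.Surjective (mu P) := fun a => ⟨a ⊗ₜ 1, by rw [mu_tmul]; simp⟩

/-- evaluation of a point of `V(P)` on `B/P` -/
noncomputable def ybar (y : B →ₐ[ℂ] ℂ) (hy : ∀ f ∈ P, y f = 0) : (B ⧸ P) →ₐ[ℂ] ℂ :=
  Ideal.Quotient.liftₐ P y hy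

theorem ybar_mk (y : B →ₐ[ℂ] ℂ) (hy : ∀ f ∈ P, y f = 0) (b : B) :
    ybar P y hy (Ideal.Quotient.mk P b) = y b := rfl

/-- partial evaluation `(B/P) ⊗ B → B` -/
noncomputable def ev (y : B →ₐ[ℂ] ℂ) (hy : ∀ f ∈ P, y f = 0) : (B ⧸ P) ⊗[ℂ] B →ₐ[ℂ] B :=
  Algebra.TensorProduct.lift ((Algebra.ofId ℂ B).comp (ybar P y hy)) (AlgHom.id ℂ B)
    (fun _ _ => Commute.all _ _)

theorem ev_tmul (y : B →ₐ[ℂ] ℂ) (hy : ∀ f ∈ P, y f = 0) (a : B ⧸ P) (b : B) :
    ev P y hy (a ⊗ₜ b) = algebraMap ℂ B (ybar P y hy a) * b := rfl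

theorem y_ev (y : B →ₐ[ℂ] ℂ) (hy : ∀ f ∈ P, y f = 0) (r : (B ⧸ P) ⊗[ℂ] B) :
    y (ev P y hy r) = ybar P y hy (mu P r) := by
  induction r using TensorProduct.induction_on with
  | zero => simp
  | tmul a b =>
    rw [ev_tmul, mu_tmul, map_mul, map_mul, AlgHom.commutes, ybar_mk]
    rfl
  | add x y hx hy => rw [map_add, map_add, map_add, map_add, hx, hy]

/-- **Principal parts.** The condition `f ∈ m_y^e I + P I + J`, for `f ∈ I`, is given for general
`y ∈ V(P)` by finitely many functions. -/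
theorem principal_parts [Algebra.FiniteType ℂ B] [P.IsPrime] (I J : Ideal B) (hJI : J ≤ I) (e : ℕ) :
    ∃ (N : ℕ) (S : I →ₗ[ℂ] (Fin N → B ⧸ P)) (H : B ⧸ P), H ≠ 0 ∧
      ∀ (y : B →ₐ[ℂ] ℂ) (hy : ∀ f ∈ P, y f = 0), ybar P y hy H ≠ 0 → ∀ f : I,
        (∀ i, ybar P y hy (S f i) = 0) ↔
          (f : B) ∈ (RingHom.ker (y : B →+* ℂ)) ^ e * I ⊔ P * I ⊔ J := by
  have : IsNoetherianRing B := Algebra.FiniteType.isNoetherianRing ℂ B
  have : IsNoetherianRing ((B ⧸ P) ⊗[ℂ] B) :=
    Algebra.FiniteType.isNoetherianRing (B ⧸ P) ((B ⧸ P) ⊗[ℂ] B)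
  set I1 : Ideal ((B ⧸ P) ⊗[ℂ] B) := RingHom.ker (mu P) with hI1
  have hfin : Module.Finite (B ⧸ P) (((B ⧸ P) ⊗[ℂ] B) ⧸ I1) :=
    let e := Ideal.quotientKerAlgEquivOfSurjective (mu_surj P)
    .of_surjective e.symm.toLinearMap e.symm.surjective
  set inc : B →ₐ[ℂ] (B ⧸ P) ⊗[ℂ] B := Algebra.TensorProduct.includeRight with hinc
  set L : Ideal ((B ⧸ P) ⊗[ℂ] B) := I.map inc with hL
  set K : Ideal ((B ⧸ P) ⊗[ℂ] B) := I1 ^ e * L ⊔ (P * I ⊔ J).map inc with hK
  have hKL : K ≤ L := sup_le Ideal.mul_le_right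
    (Ideal.map_mono (sup_le Ideal.mul_le_right hJI))
  obtain ⟨G, hG, hLG⟩ := exists_finset_gen (A := B ⧸ P) I1 e L K le_sup_left
  obtain ⟨N, S, H, hH, hS⟩ := generic_coords_rel (A := B ⧸ P) (L.restrictScalars (B ⧸ P))
    (K.restrictScalars (B ⧸ P)) G hG hLG hKL
  have hincL : ∀ f : I, inc (f : B) ∈ L := fun f => Ideal.mem_map_of_mem _ f.2
  refine ⟨N, ⟨⟨fun f => S ⟨inc (f : B), hincL f⟩, ?_⟩, ?_⟩, H, hH, ?_⟩
  · intro x y
    rw [← map_add]
    congr 1
    exact Subtype.ext (map_add inc (x : B) (y : B))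
  · intro c x
    change S ⟨inc ((c • x : I) : B), hincL (c • x)⟩ = c • S ⟨inc (x : B), hincL x⟩
    rw [← algebraMap_smul (B ⧸ P) c (S ⟨inc (x : B), hincL x⟩), ← map_smul]
    congr 1
    refine Subtype.ext ?_
    change inc (c • (x : B)) = algebraMap ℂ (B ⧸ P) c • inc (x : B)
    rw [map_smul, algebraMap_smul]
  · intro y hy hyH f
    set 𝔪 : Ideal (B ⧸ P) := RingHom.ker (ybar P y hy) with h𝔪
    have hmax : 𝔪.IsMaximal := RingHom.ker_isMaximal_of_surjective (ybar P y hy : (B ⧸ P) →+* ℂ)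
      (fun c => ⟨algebraMap ℂ _ c, by exact (ybar P y hy).commutes c⟩)
    have h1 := hS 𝔪 hmax hyH ⟨inc (f : B), hincL f⟩
    have h2 : (𝔪 • L.restrictScalars (B ⧸ P)) ⊔ K.restrictScalars (B ⧸ P) =
        (𝔪.map (algebraMap (B ⧸ P) ((B ⧸ P) ⊗[ℂ] B)) * L ⊔ K).restrictScalars (B ⧸ P) := by
      rw [← Ideal.smul_restrictScalars]
      exact (map_sup (Submodule.restrictScalarsLatticeHom (B ⧸ P) ((B ⧸ P) ⊗[ℂ] B)
        ((B ⧸ P) ⊗[ℂ] B)) _ _).symm
    rw [h2] at h1
    refine Iff.trans (forall_congr' fun i => (RingHom.mem_ker (f := ybar P y hy)).symm)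
      (h1.trans ?_)
    rw [Submodule.restrictScalars_mem]
    change inc (f : B) ∈ _ ↔ _
    constructor
    · intro h
      have h3 := Ideal.mem_map_of_mem (ev P y hy) h
      have h4 : ev P y hy (inc (f : B)) = (f : B) := by
        rw [hinc, Algebra.TensorProduct.includeRight_apply, ev_tmul]
        simp
      rw [h4] at h3
      have h5 : ∀ X : Ideal B, (X.map inc).map (ev P y hy) ≤ X := by
        intro X
        rw [Ideal.map_le_iff_le_comap, Ideal.map_le_iff_le_comap]
        intro b hb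
        change ev P y hy (inc b) ∈ X
        rw [hinc, Algebra.TensorProduct.includeRight_apply, ev_tmul]
        simpa using hb
      have h6 : I1.map (ev P y hy) ≤ RingHom.ker (y : B →+* ℂ) := by
        rw [Ideal.map_le_iff_le_comap]
        intro r hr
        change y (ev P y hy r) = 0
        rw [y_ev, (RingHom.mem_ker).1 hr, map_zero]
      have h7 : (𝔪.map (algebraMap (B ⧸ P) ((B ⧸ P) ⊗[ℂ] B))).map (ev P y hy) ≤ ⊥ := by
        rw [Ideal.map_le_iff_le_comap, Ideal.map_le_iff_le_comap]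
        intro a ha
        change ev P y hy (a ⊗ₜ 1) = 0
        rw [ev_tmul, (RingHom.mem_ker).1 ha, map_zero, zero_mul]
      have h8 : (𝔪.map (algebraMap (B ⧸ P) ((B ⧸ P) ⊗[ℂ] B)) * L ⊔ K).map (ev P y hy) ≤
          (RingHom.ker (y : B →+* ℂ)) ^ e * I ⊔ P * I ⊔ J := by
        rw [Ideal.map_sup, Ideal.map_mul, hK, Ideal.map_sup, Ideal.map_mul, Ideal.map_pow]
        refine sup_le ?_ (sup_le ?_ ?_)
        · refine (Ideal.mul_mono_left h7).trans ?_
          rw [Ideal.bot_mul]
          exact bot_le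
        · exact (Ideal.mul_mono (Ideal.pow_right_mono h6 e) (h5 I)).trans
            (le_sup_left.trans le_sup_left)
        · refine (h5 _).trans ?_
          exact sup_le (le_sup_right.trans le_sup_left) le_sup_right
      exact h8 h3
    · intro h
      have h3 := Ideal.mem_map_of_mem inc h
      have h4 : (RingHom.ker (y : B →+* ℂ)).map inc ≤
          I1 ⊔ 𝔪.map (algebraMap (B ⧸ P) ((B ⧸ P) ⊗[ℂ] B)) := by
        rw [Ideal.map_le_iff_le_comap]
        intro b hb
        rw [Ideal.mem_comap]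
        have h5 : inc b = ((1 : B ⧸ P) ⊗ₜ b - (Ideal.Quotient.mk P b) ⊗ₜ 1) +
            algebraMap (B ⧸ P) ((B ⧸ P) ⊗[ℂ] B) (Ideal.Quotient.mk P b) := by
          rw [Algebra.TensorProduct.algebraMap_apply]
          simp [hinc]
        rw [h5]
        refine Ideal.add_mem _ (Ideal.mem_sup_left ?_)
          (Ideal.mem_sup_right (Ideal.mem_map_of_mem _ ?_))
        · rw [hI1, RingHom.mem_ker, map_sub, mu_tmul, mu_tmul]
          simp
        · exact hb
      refine (?_ : Ideal.map inc _ ≤ _) h3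
      rw [Ideal.map_sup, Ideal.map_sup, Ideal.map_mul, Ideal.map_pow, sup_assoc, ← Ideal.map_sup]
      refine sup_le ?_ (le_sup_right.trans le_sup_right)
      refine (Ideal.mul_mono_left ((Ideal.pow_right_mono h4 e).trans (sup_pow_le _ _ e))).trans ?_
      rw [Ideal.sup_mul]
      exact sup_le (le_sup_left.trans le_sup_right) le_sup_left

end pp

end Crest.Agent.R271.N91
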