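import Mathlib
import Crest.Agent.R271.NSpec_647
import Crest.Agent.R271.N5a_91
import Crest.Agent.R271.N5k_91

/-!
Row 271, team N: `MatrixStmt` (8.3).
-/

set_option autoImplicit false

open Filter Topology

namespace Crest.Agent.R271.N91

open Crest.Agent.R271.N647 Crest.Agent.R271.Defs710

/-- The dimension of the kernel of a matrix over a domain is generically constant. -/
theorem generic_ker {A : Type*} [CommRing A] [IsDomain A] (q : ℕ) : ∀ (N : ℕ)
    (c : Fin N → Fin q → A), ∃ (H : A) (k : ℕ), H ≠ 0 ∧ ∀ φ : A →+* ℂ, φ H ≠ 0 →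
      Module.finrank ℂ (LinearMap.ker (Matrix.of fun i j => φ (c i j)).mulVecLin) = k := by
  induction q with
  | zero =>
    intro N c
    exact ⟨1, 0, one_ne_zero, fun φ _ => Module.finrank_zero_of_subsingleton⟩
  | succ M ih =>
    intro N c
    by_cases hall : ∀ i j, c i j = 0
    · refine ⟨1, M + 1, one_ne_zero, fun φ _ => ?_⟩
      have h : LinearMap.ker (Matrix.of fun i j => φ (c i j)).mulVecLin = ⊤ := by
        rw [eq_top_iff]
        intro v _
        rw [LinearMap.mem_ker, Matrix.mulVecLin_apply]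
        funext i
        simp [Matrix.mulVec, dotProduct, hall]
      rw [h, finrank_top, Module.finrank_fin_fun]
    · push Not at hall
      obtain ⟨i₀, j₀, h0⟩ := hall
      obtain ⟨H, k, hH, hk⟩ := ih N
        (fun i l => c i₀ j₀ * c i (j₀.succAbove l) - c i j₀ * c i₀ (j₀.succAbove l))
      refine ⟨c i₀ j₀ * H, k, mul_ne_zero h0 hH, fun φ hφ => ?_⟩
      rw [map_mul] at hφ
      have h1 : φ (c i₀ j₀) ≠ 0 := left_ne_zero_of_mul hφ
      have h2 := hk φ (right_ne_zero_of_mul hφ)
      set r : Fin M → ℂ := fun l => φ (c i₀ (j₀.succAbove l)) / φ (c i₀ j₀) with hr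
      have hrr : ∀ l, φ (c i₀ j₀) * r l = φ (c i₀ (j₀.succAbove l)) := fun l => by
        rw [hr]; field_simp
      have h3 : LinearMap.ker (Matrix.of fun i j => φ (c i j)).mulVecLin =
          (LinearMap.ker (Matrix.of fun i l => φ (c i₀ j₀ * c i (j₀.succAbove l) -
            c i j₀ * c i₀ (j₀.succAbove l))).mulVecLin).map (Phi j₀ r) := by
        ext v
        rw [LinearMap.mem_ker, Matrix.mulVecLin_apply, funext_iff, Submodule.mem_map]
        simp only [LinearMap.mem_ker, Matrix.mulVecLin_apply, funext_iff (f := Matrix.mulVec _ _)]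
        simp only [Matrix.mulVec, dotProduct, Matrix.of_apply, Pi.zero_apply, map_sub, map_mul]
        have hexp : ∀ i, ∑ j, φ (c i j) * v j = φ (c i j₀) * v j₀ +
            ∑ l, φ (c i (j₀.succAbove l)) * v (j₀.succAbove l) :=
          fun i => Fin.sum_univ_succAbove _ j₀
        have hexp2 : ∀ (i) (w : Fin M → ℂ), ∑ l, (φ (c i₀ j₀) * φ (c i (j₀.succAbove l)) -
            φ (c i j₀) * φ (c i₀ (j₀.succAbove l))) * w l =
            φ (c i₀ j₀) * (∑ l, φ (c i (j₀.succAbove l)) * w l
              - φ (c i j₀) * ∑ l, r l * w l) := by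
          intro i w
          rw [Finset.mul_sum, ← Finset.sum_sub_distrib, Finset.mul_sum]
          exact Finset.sum_congr rfl (fun l _ => by rw [← hrr l]; ring)
        constructor
        · intro h
          have h5 : v j₀ = -∑ l, r l * v (j₀.succAbove l) := by
            have h6 := h i₀
            rw [hexp] at h6
            have h7 : ∑ l, φ (c i₀ (j₀.succAbove l)) * v (j₀.succAbove l) =
                φ (c i₀ j₀) * ∑ l, r l * v (j₀.succAbove l) := by
              rw [Finset.mul_sum]
              exact Finset.sum_congr rfl (fun l _ => by rw [← hrr l]; ring)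
            rw [h7, ← mul_add] at h6
            rcases mul_eq_zero.1 h6 with h8 | h8
            · exact absurd h8 h1
            · exact eq_neg_of_add_eq_zero_left h8
          refine ⟨fun l => v (j₀.succAbove l), fun i => ?_, mem_range_Phi j₀ _ v h5⟩
          have h6 := h i
          rw [hexp, h5] at h6
          rw [hexp2, mul_eq_zero]
          right
          linear_combination h6
        · rintro ⟨w, hw, rfl⟩ i
          have h7 := hw i
          rw [hexp2, mul_eq_zero] at h7
          have h8 := h7.resolve_left h1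
          rw [hexp, Phi_same]
          simp only [Phi_succAbove]
          linear_combination h8
      rw [h3, ← h2]
      exact (Submodule.equivMapOfInjective (Phi j₀ r) (Phi_inj _ _) _).symm.finrank_eq

theorem idl_anti' {B : Type} [CommRing B] [Algebra ℂ B] {V : ℕ → Submodule ℂ B} (F : Filt V)
    {l l' : ℝ} (h : l ≤ l') : idl F l' ≤ idl F l :=
  Ideal.span_mono (fun _ ⟨m, hm⟩ => ⟨m, F.anti m h hm⟩)

theorem idlGt_le' {B : Type} [CommRing B] [Algebra ℂ B] {V : ℕ → Submodule ℂ B} (F : Filt V)
    (a : ℝ) : idlGt F a ≤ idl F a :=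
  iSup_le (fun l => idl_anti' F (le_of_lt l.2))

/-- (8.3): matrix description and constancy of the rank of `U_{m,a,e}(y)`. -/
theorem matrixStmt {n : ℕ} (X : FCtx n) : MatrixStmt X := by
  intro F P hP m a e q b hb hspan
  have hft := X.ft
  obtain ⟨N, S, H, hH, hS⟩ := principal_parts P (idl F a) (idlGt F a) (idlGt_le' F a) e
  have hbF : ∀ j, b j ∈ F.F m a := fun j => by
    rw [← hspan]; exact Submodule.subset_span ⟨j, rfl⟩
  have hbm : ∀ j, b j ∈ idl F a := fun j => Ideal.subset_span ⟨m, hbF j⟩
  choose c hc using fun (i : Fin N) (j : Fin q) =>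
    Ideal.Quotient.mk_surjective (S ⟨b j, hbm j⟩ i)
  obtain ⟨H', k, hH', hk⟩ := generic_ker q N (fun i j => Ideal.Quotient.mk P (c i j))
  obtain ⟨h, hh⟩ := Ideal.Quotient.mk_surjective (H * H')
  refine ⟨h, N, Matrix.of c, q - k, ?_, fun y hy hyh => ?_⟩
  · intro hP'
    have : H * H' = 0 := by rw [← hh]; exact Ideal.Quotient.eq_zero_iff_mem.2 hP'
    exact mul_ne_zero hH hH' this
  · have hy' : ∀ f ∈ P, y f = 0 := fun f hf => hy hf
    have h1 : ybar P y hy' (H * H') ≠ 0 := by
      rw [← hh, ybar_mk]; exact hyh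
    rw [map_mul] at h1
    refine ⟨?_, fun v => ?_⟩
    · have h2 := hk (ybar P y hy' : (X.B ⧸ P) →+* ℂ) (right_ne_zero_of_mul h1)
      have h3 : (Matrix.of fun i j => (ybar P y hy' : (X.B ⧸ P) →+* ℂ)
          (Ideal.Quotient.mk P (c i j))) = (Matrix.of c).map y := by
        ext i j
        rfl
      rw [h3] at h2
      have h4 := LinearMap.finrank_range_add_finrank_ker ((Matrix.of c).map y).mulVecLin
      rw [Module.finrank_fin_fun, h2] at h4
      rw [Matrix.rank]
      omega
    · have hsumF : ∑ j, v j • b j ∈ F.F m a :=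
        Submodule.sum_mem _ (fun j _ => Submodule.smul_mem _ _ (hbF j))
      have h2 := hS y hy' (left_ne_zero_of_mul h1) (∑ j, v j • ⟨b j, hbm j⟩)
      have h3 : ((∑ j, v j • (⟨b j, hbm j⟩ : idl F a) : idl F a) : X.B) = ∑ j, v j • b j := by
        rw [AddSubmonoidClass.coe_finsetSum]
        rfl
      rw [h3] at h2
      have h4 : ∑ j, v j • b j ∈ U F P y m a e ↔ ∑ j, v j • b j ∈
          (RingHom.ker (y : X.B →+* ℂ)) ^ e * idl F a ⊔ P * idl F a ⊔ idlGt F a := by
        constructor
        · intro h; exact h.2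
        · intro h; exact ⟨hsumF, h⟩
      rw [h4, ← h2, funext_iff]
      refine forall_congr' (fun i => ?_)
      rw [map_sum, Finset.sum_apply, map_sum]
      simp only [map_smul, Pi.smul_apply, smul_eq_mul, ← hc, ybar_mk]
      simp only [Matrix.mulVec, dotProduct, Matrix.map_apply, Matrix.of_apply, Pi.zero_apply]
      have h5 : ∑ j, v j * y (c i j) = ∑ j, y (c i j) * v j :=
        Finset.sum_congr rfl (fun j _ => mul_comm _ _)
      rw [h5]

end Crest.Agent.R271.N91
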