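import Mathlib
import Crest.Agent.R271.Defs_710
import Crest.Agent.R271.NSpec_647

/-!
Row 271, team N: elementary lemmas on filtrations, the ideals `idl`, `idlGt`, the spaces `Fgt`, `U`.
-/

set_option autoImplicit false
set_option linter.style.haveILetI false

open scoped ENNReal NNReal Topology BigOperators
open MeasureTheory

noncomputable section

namespace Crest.Agent.R271.N647

open Crest.Agent.R271.Defs710

section filt

variable {B : Type} [CommRing B] [Algebra ℂ B] {V : ℕ → Submodule ℂ B}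

lemma idl_anti (F : Filt V) {l l' : ℝ} (h : l ≤ l') : idl F l' ≤ idl F l := by
  refine Ideal.span_mono ?_
  rintro b ⟨m, hb⟩
  exact ⟨m, F.anti m h hb⟩

lemma mem_idl (F : Filt V) {m : ℕ} {l : ℝ} {b : B} (h : b ∈ F.F m l) : b ∈ idl F l :=
  Ideal.subset_span ⟨m, h⟩

lemma idl_of_nonpos (F : Filt V) (h1 : (1 : B) ∈ V 0) {l : ℝ} (hl : l ≤ 0) : idl F l = ⊤ := by
  rw [Ideal.eq_top_iff_one]
  refine mem_idl F (m := 0) ?_
  rw [F.zero 0 l hl]
  exact h1

lemma idl_mul_le (F : Filt V) (l l' : ℝ) : idl F l * idl F l' ≤ idl F (l + l') := by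
  unfold idl
  rw [Ideal.span_mul_span']
  refine Ideal.span_mono ?_
  rintro _ ⟨a, ⟨m, ha⟩, b, ⟨m', hb⟩, rfl⟩
  exact ⟨m + m', F.mul m l m' l' a b ha hb⟩

lemma idl_pow_le (F : Filt V) (h1 : (1 : B) ∈ V 0) (l : ℝ) (k : ℕ) :
    idl F l ^ k ≤ idl F (k * l) := by
  induction k with
  | zero => simp [idl_of_nonpos F h1 (le_refl (0 : ℝ))]
  | succ k ih =>
    rw [pow_succ]
    refine (Ideal.mul_mono_left ih).trans ?_
    refine (idl_mul_le F _ _).trans ?_
    apply le_of_eq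
    congr 1
    push_cast
    ring

lemma idl_le_idlGt (F : Filt V) {a l : ℝ} (h : a < l) : idl F l ≤ idlGt F a :=
  le_iSup (fun l : Set.Ioi a => idl F l) ⟨l, h⟩

lemma idlGt_le_idl (F : Filt V) (a : ℝ) : idlGt F a ≤ idl F a :=
  iSup_le fun l => idl_anti F (le_of_lt l.2)

lemma F_le_Fgt (F : Filt V) {m : ℕ} {a l : ℝ} (h : a < l) : F.F m l ≤ Fgt F m a :=
  le_iSup (fun l : Set.Ioi a => F.F m l) ⟨l, h⟩

lemma Fgt_le (F : Filt V) (m : ℕ) (a : ℝ) : Fgt F m a ≤ F.F m a :=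
  iSup_le fun l => F.anti m (le_of_lt l.2)

lemma U_le (F : Filt V) (P : Ideal B) (y : B →ₐ[ℂ] ℂ) (m : ℕ) (a : ℝ) (e : ℕ) :
    U F P y m a e ≤ F.F m a := inf_le_left

lemma Fgt_le_U (F : Filt V) (P : Ideal B) (y : B →ₐ[ℂ] ℂ) (m : ℕ) (a : ℝ) (e : ℕ) :
    Fgt F m a ≤ U F P y m a e := by
  refine le_inf (Fgt_le F m a) ?_
  refine iSup_le ?_
  rintro ⟨l, hl⟩ b hb
  exact (le_sup_right : idlGt F a ≤ mI y ^ e * idl F a ⊔ P * idl F a ⊔ idlGt F a)
    (idl_le_idlGt F hl (mem_idl F hb))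

lemma U_anti (F : Filt V) (P : Ideal B) (y : B →ₐ[ℂ] ℂ) (m : ℕ) (a : ℝ) {e e' : ℕ} (h : e ≤ e') :
    U F P y m a e' ≤ U F P y m a e := by
  refine inf_le_inf le_rfl ?_
  intro b hb
  have : mI y ^ e' * idl F a ⊔ P * idl F a ⊔ idlGt F a ≤
      mI y ^ e * idl F a ⊔ P * idl F a ⊔ idlGt F a :=
    sup_le_sup (sup_le_sup (Ideal.mul_mono_left (Ideal.pow_le_pow_right h)) le_rfl) le_rfl
  exact this hb

lemma U_zero (F : Filt V) (P : Ideal B) (y : B →ₐ[ℂ] ℂ) (m : ℕ) (a : ℝ) :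
    U F P y m a 0 = F.F m a := by
  refine le_antisymm inf_le_left (le_inf le_rfl ?_)
  intro b hb
  have h2 : idl F a ≤ mI y ^ 0 * idl F a ⊔ P * idl F a ⊔ idlGt F a := by
    refine le_sup_of_le_left (le_sup_of_le_left ?_)
    simp
  exact h2 (mem_idl F hb)

lemma finrank_mono' {S T : Submodule ℂ B} [FiniteDimensional ℂ T] (h : S ≤ T) :
    Module.finrank ℂ S ≤ Module.finrank ℂ T := Submodule.finrank_mono h

lemma fd_of_le {S T : Submodule ℂ B} (hT : FiniteDimensional ℂ T) (h : S ≤ T) :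
    FiniteDimensional ℂ S := Submodule.finiteDimensional_of_le h

/-- directed union of a decreasing family to the right of `a` is attained -/
lemma exists_delta_Fgt (F : Filt V) (m : ℕ) (hV : FiniteDimensional ℂ (V m)) (a : ℝ) :
    ∃ δ : ℝ, 0 < δ ∧ ∀ l, a < l → l ≤ a + δ → F.F m l = Fgt F m a := by
  classical
  haveI : FiniteDimensional ℂ (V m) := hV
  -- choose `l₀ > a` with maximal dimension
  have hbound : ∀ l, Module.finrank ℂ (F.F m l) ≤ Module.finrank ℂ (V m) := fun l =>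
    Submodule.finrank_mono (F.le_V m l)
  obtain ⟨l₀, hl₀, hmax⟩ : ∃ l₀, a < l₀ ∧ ∀ l, a < l →
      Module.finrank ℂ (F.F m l) ≤ Module.finrank ℂ (F.F m l₀) := by
    by_contra hcon
    push Not at hcon
    have : ∀ k : ℕ, ∃ l, a < l ∧ k ≤ Module.finrank ℂ (F.F m l) := by
      intro k
      induction k with
      | zero => exact ⟨a + 1, by linarith, Nat.zero_le _⟩
      | succ k ih =>
        obtain ⟨l, hl, hk⟩ := ih
        obtain ⟨l', hl', hk'⟩ := hcon l hl
        exact ⟨l', hl', by omega⟩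
    obtain ⟨l, _, hk⟩ := this (Module.finrank ℂ (V m) + 1)
    have := hbound l
    omega
  refine ⟨l₀ - a, by linarith, ?_⟩
  intro l hl hle
  have hl' : l ≤ l₀ := by linarith
  have key : ∀ l', a < l' → F.F m l' ≤ F.F m l := by
    intro l' hl''
    rcases le_total l' l with h | h
    · -- l' ≤ l ≤ l₀ : dimensions agree
      have h1 : F.F m l ≤ F.F m l' := F.anti m h
      have h2 : F.F m l₀ ≤ F.F m l := F.anti m hl'
      haveI : FiniteDimensional ℂ (F.F m l') := fd_of_le hV (F.le_V m l')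
      haveI : FiniteDimensional ℂ (F.F m l) := fd_of_le hV (F.le_V m l)
      have h3 := Submodule.finrank_mono h2
      have h4 := hmax l' hl''
      have : F.F m l = F.F m l' := Submodule.eq_of_le_of_finrank_le h1 (h4.trans h3)
      exact this.ge
    · exact F.anti m h
  exact le_antisymm (F_le_Fgt F hl) (iSup_le fun l' => key l' l'.2)

/-- `𝔞_{>a} = 𝔞_{a+δ}` -/
lemma exists_delta_idl [IsNoetherianRing B] (F : Filt V) (a : ℝ) :
    ∃ δ : ℝ, 0 < δ ∧ ∀ l, a < l → l ≤ a + δ → idl F l = idlGt F a := by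
  classical
  -- the family `idl F l`, `l > a`, has a maximal member
  have hne : (Set.range (fun l : Set.Ioi a => idl F l)).Nonempty :=
    ⟨idl F (a + 1), ⟨⟨a + 1, by simp⟩, rfl⟩⟩
  obtain ⟨I, ⟨⟨l₀, hl₀⟩, rfl⟩, hmax⟩ :=
    set_has_maximal_iff_noetherian.mpr (inferInstance : IsNoetherian B B) _ hne
  refine ⟨l₀ - a, by simpa using hl₀, ?_⟩
  intro l hl hle
  have hl' : l ≤ l₀ := by linarith
  have key : ∀ l', a < l' → idl F l' ≤ idl F l := by
    intro l' hl''
    rcases le_total l' l with h | h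
    · have h1 : idl F l₀ ≤ idl F l' := idl_anti F (h.trans hl')
      have h2 : ¬ idl F l₀ < idl F l' := hmax _ ⟨⟨l', hl''⟩, rfl⟩
      have h3 : idl F l' ≤ idl F l₀ := by
        by_contra hcon
        exact h2 (lt_of_le_not_ge h1 hcon)
      exact h3.trans (idl_anti F hl')
    · exact idl_anti F h
  exact le_antisymm (idl_le_idlGt F hl) (iSup_le fun l' => key l' l'.2)

/-- the jumps of `F m` are finite in number -/
lemma jumps_finite (F : Filt V) (m : ℕ) (hV : FiniteDimensional ℂ (V m)) :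
    {a : ℝ | Fgt F m a ≠ F.F m a}.Finite := by
  classical
  haveI : FiniteDimensional ℂ (V m) := hV
  -- the map `a ↦ finrank (F m a)` is injective on the set of jumps
  have hfd : ∀ l, FiniteDimensional ℂ (F.F m l) := fun l => fd_of_le hV (F.le_V m l)
  have hinj : Set.InjOn (fun a => Module.finrank ℂ (F.F m a)) {a : ℝ | Fgt F m a ≠ F.F m a} := by
    intro a ha b hb hab
    simp only at hab
    by_contra hne
    wlog hlt : a < b generalizing a b
    · exact this hb ha hab.symm (Ne.symm hne) (lt_of_le_of_ne (not_lt.mp hlt) (Ne.symm hne))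
    have h1 : F.F m b ≤ Fgt F m a := F_le_Fgt F hlt
    have h2 : Fgt F m a ≤ F.F m a := Fgt_le F m a
    have : Fgt F m a = F.F m a := by
      haveI := hfd a
      refine Submodule.eq_of_le_of_finrank_le h2 ?_
      haveI : FiniteDimensional ℂ (Fgt F m a) := fd_of_le (hfd a) h2
      rw [hab]
      exact Submodule.finrank_mono h1
    exact ha this
  refine Set.Finite.of_finite_image (f := fun a => Module.finrank ℂ (F.F m a)) ?_ hinj
  refine (Set.finite_Iic (Module.finrank ℂ (V m))).subset ?_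
  rintro _ ⟨a, _, rfl⟩
  exact Submodule.finrank_mono (F.le_V m a)

lemma jump_nonneg (F : Filt V) (m : ℕ) {a : ℝ} (ha : Fgt F m a ≠ F.F m a) : 0 ≤ a := by
  by_contra hneg
  push Not at hneg
  apply ha
  refine le_antisymm (Fgt_le F m a) ?_
  rw [F.zero m a hneg.le, ← F.zero m 0 le_rfl]
  exact F_le_Fgt F hneg

lemma one_mem_V {n : ℕ} (X : FCtx n) : (1 : X.B) ∈ X.V 0 := by
  rw [X.V_zero]
  exact Submodule.one_le.mp le_rfl

instance noeth {n : ℕ} (X : FCtx n) : IsNoetherianRing X.B :=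
  haveI := X.ft
  Algebra.FiniteType.isNoetherianRing ℂ X.B

end filt

section pts

variable {n : ℕ}

lemma mem_mI {B : Type} [CommRing B] [Algebra ℂ B] {y : B →ₐ[ℂ] ℂ} {f : B} :
    f ∈ mI y ↔ y f = 0 := Iff.rfl

lemma mI_isPrime {B : Type} [CommRing B] [Algebra ℂ B] (y : B →ₐ[ℂ] ℂ) : (mI y).IsPrime :=
  RingHom.ker_isPrime _

lemma mI_isMaximal {B : Type} [CommRing B] [Algebra ℂ B] (y : B →ₐ[ℂ] ℂ) : (mI y).IsMaximal := by
  refine RingHom.ker_isMaximal_of_surjective (y : B →+* ℂ) ?_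
  intro c
  exact ⟨algebraMap ℂ B c, by simp⟩

lemma mI_ne_bot (X : FCtx n) (hn : 1 ≤ n) (hc : ChartEx X) (y : X.B →ₐ[ℂ] ℂ) : mI y ≠ ⊥ := by
  obtain ⟨C⟩ := hc y
  intro hbot
  have hz : X.z ⟨0, hn⟩ = algebraMap ℂ X.B (y (X.z ⟨0, hn⟩)) := by
    have h1 : X.z ⟨0, hn⟩ - algebraMap ℂ X.B (y (X.z ⟨0, hn⟩)) ∈ mI y := by
      rw [mem_mI]; simp
    rw [hbot, Ideal.mem_bot, sub_eq_zero] at h1
    exact h1
  set ζ : Cn n := fun _ => ((C.r / 2 : ℝ) : ℂ) with hζ
  have hr := C.r_pos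
  have hmem : ζ ∈ Metric.ball (0 : Cn n) C.r := by
    rw [mem_ball_zero_iff]
    have h2 : ‖ζ‖ ≤ C.r / 2 := by
      refine (pi_norm_le_iff_of_nonneg (by positivity)).mpr ?_
      intro i
      simp only [hζ, Complex.norm_real, Real.norm_eq_abs]
      rw [abs_of_pos (by positivity)]
    linarith
  have h3 := C.s_z ζ hmem ⟨0, hn⟩
  rw [hz] at h3
  simp only [AlgHom.commutes, Algebra.algebraMap_self, RingHom.id_apply] at h3
  have h4 : ζ ⟨0, hn⟩ = 0 := by
    have := h3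
    simpa using this
  simp only [hζ] at h4
  have : C.r / 2 = 0 := by exact_mod_cast h4
  linarith

/-- an adapted nonzero ideal has dimension `< n` -/
lemma adapted_lt {B : Type} [CommRing B] [IsDomain B] [Algebra ℂ B] {d : ℕ} {P : Ideal B}
    {y : B →ₐ[ℂ] ℂ} (h : Adapted d P y n) (hP : P ≠ ⊥) : d < n := by
  by_contra hcon
  push Not at hcon
  obtain ⟨w, _, _, g, hg, hgP, _⟩ := h
  have hempty : w '' {i : Fin n | d ≤ i.1} = ∅ := by
    rw [Set.image_eq_empty]
    ext i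
    simp only [Set.mem_setOf_eq, Set.mem_empty_iff_false, iff_false, not_le]
    exact lt_of_lt_of_le i.2 hcon
  apply hP
  rw [eq_bot_iff]
  intro f hf
  have h1 := hgP f hf
  rw [hempty, Ideal.span_empty, Ideal.mem_bot] at h1
  rcases mul_eq_zero.mp h1 with h2 | h2
  · exact absurd (by rw [h2]; simp) hg
  · simpa using h2

lemma ne_mI_of_dim {B : Type} [CommRing B] [Algebra ℂ B] {d : ℕ} {P : Ideal B}
    (y : B →ₐ[ℂ] ℂ) (hd : 1 ≤ d) (h : ringKrullDim (B ⧸ P) = d) : P ≠ mI y := by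
  rintro rfl
  haveI := mI_isMaximal y
  have hf : IsField (B ⧸ mI y) := Ideal.Quotient.maximal_ideal_iff_isField_quotient _ |>.mp
    (mI_isMaximal y)
  have := ringKrullDim_eq_zero_of_isField hf
  rw [h] at this
  have h2 : (d : WithBot ℕ∞) = ((0 : ℕ) : WithBot ℕ∞) := by simpa using this
  have h3 : d = 0 := by exact_mod_cast h2
  omega

end pts

end Crest.Agent.R271.N647
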