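import Mathlib
import Crest.Agent.R271.N0_647
import Crest.Agent.R271.N3_593

/-!
Row 271, team N, piece N6 (part a): dimension functions of a filtration in one degree, the integral
`Zm`, the telescoping estimates and the gain of a perturbation.
-/

set_option autoImplicit false

open scoped ENNReal NNReal Topology BigOperators
open MeasureTheory

noncomputable section

namespace Crest.Agent.R271.N6x241

open Crest.Agent.R271.Defs710 Crest.Agent.R271.N647

section onem

variable {B : Type} [CommRing B] [Algebra ℂ B] {V : ℕ → Submodule ℂ B}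

/-- `dim F(m,l)` -/
def fd (F : Filt V) (m : ℕ) (l : ℝ) : ℝ := (Module.finrank ℂ (F.F m l) : ℝ)

/-- `dim F(m,>a)` -/
def fg (F : Filt V) (m : ℕ) (a : ℝ) : ℝ := (Module.finrank ℂ (Fgt F m a) : ℝ)

/-- `dim V m` -/
def NV (V : ℕ → Submodule ℂ B) (m : ℕ) : ℝ := (Module.finrank ℂ (V m) : ℝ)

lemma NV_nonneg (m : ℕ) : 0 ≤ NV V m := Nat.cast_nonneg _

lemma fd_nonneg (F : Filt V) (m : ℕ) (l : ℝ) : 0 ≤ fd F m l := Nat.cast_nonneg _

lemma fg_nonneg (F : Filt V) (m : ℕ) (l : ℝ) : 0 ≤ fg F m l := Nat.cast_nonneg _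

lemma fd_of_nonpos (F : Filt V) (m : ℕ) {l : ℝ} (h : l ≤ 0) : fd F m l = NV V m := by
  unfold fd NV
  rw [F.zero m l h]

variable (hV : ∀ m, FiniteDimensional ℂ (V m))

include hV

lemma fdF (F : Filt V) (m : ℕ) (l : ℝ) : FiniteDimensional ℂ (F.F m l) :=
  fd_of_le (hV m) (F.le_V m l)

lemma fd_anti (F : Filt V) (m : ℕ) : Antitone (fd F m) := by
  intro a b h
  have := fdF hV F m a
  exact Nat.cast_le.2 <| Submodule.finrank_mono (F.anti m h)

lemma fd_le (F : Filt V) (m : ℕ) (l : ℝ) : fd F m l ≤ NV V m := by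
  have := hV m
  exact Nat.cast_le.2 <| Submodule.finrank_mono (F.le_V m l)

lemma fd_mono {F G : Filt V} {m : ℕ} {l : ℝ} (h : F.F m l ≤ G.F m l) : fd F m l ≤ fd G m l := by
  have := fdF hV G m l
  exact Nat.cast_le.2 <| Submodule.finrank_mono h

lemma fg_le (F : Filt V) (m : ℕ) (a : ℝ) : fg F m a ≤ fd F m a := by
  have := fdF hV F m a
  exact Nat.cast_le.2 <| Submodule.finrank_mono (Fgt_le F m a)

lemma le_fg (F : Filt V) (m : ℕ) {a l : ℝ} (h : a < l) : fd F m l ≤ fg F m a := by
  have : FiniteDimensional ℂ (Fgt F m a) := fd_of_le (fdF hV F m a) (Fgt_le F m a)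
  exact Nat.cast_le.2 <| Submodule.finrank_mono (F_le_Fgt F h)

lemma fd_right (F : Filt V) (m : ℕ) (a : ℝ) :
    ∃ δ : ℝ, 0 < δ ∧ ∀ l, a < l → l ≤ a + δ → fd F m l = fg F m a := by
  obtain ⟨δ, hδ, h⟩ := exists_delta_Fgt F m (hV m) a
  refine ⟨δ, hδ, fun l hl hl' => ?_⟩
  unfold fd fg
  rw [h l hl hl']

lemma fd_left (F : Filt V) (m : ℕ) (a : ℝ) :
    ∃ δ : ℝ, 0 < δ ∧ ∀ l, a - δ ≤ l → l ≤ a → fd F m l = fd F m a := by
  obtain ⟨δ, hδ, h⟩ := N593.exists_left F hV m a
  refine ⟨δ, hδ, fun l hl hl' => le_antisymm ?_ (fd_anti hV F m hl')⟩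
  have h1 : fd F m (a - δ) = fd F m a := by
    unfold fd
    rw [h]
  rw [← h1]
  exact fd_anti hV F m hl

/-- telescoping upper bound -/
lemma sum_jumps_le_fg (F : Filt V) (m : ℕ) (S : Finset ℝ) :
    ∀ b : ℝ, (∀ x ∈ S, b < x) → ∑ a ∈ S, (fd F m a - fg F m a) ≤ fg F m b := by
  refine Finset.induction_on_min S ?_ ?_
  · intro b _; simpa using fg_nonneg F m b
  · intro a s ha ih b hb
    rw [Finset.sum_insert (fun hmem => lt_irrefl a (ha a hmem))]
    have h1 := ih a ha
    have h2 : fd F m a ≤ fg F m b := le_fg hV F m (hb a (Finset.mem_insert_self a s))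
    linarith

lemma fg_le_NV (F : Filt V) (m : ℕ) (a : ℝ) : fg F m a ≤ NV V m :=
  (fg_le hV F m a).trans (fd_le hV F m a)

lemma sum_jumps_le (F : Filt V) (m : ℕ) (S : Finset ℝ) :
    ∑ a ∈ S, (fd F m a - fg F m a) ≤ NV V m := by
  obtain ⟨b, hb⟩ : ∃ b : ℝ, ∀ x ∈ S, b < x := by
    obtain ⟨b, hb⟩ := S.bddBelow
    exact ⟨b - 1, fun x hx => by
      have := hb (Finset.mem_coe.2 hx)
      linarith⟩
  exact (sum_jumps_le_fg hV F m S b hb).trans (fg_le_NV hV F m b)

/-- the finite set of jumps -/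
def jmp (F : Filt V) (m : ℕ) : Finset ℝ := (jumps_finite F m (hV m)).toFinset

lemma mem_jmp (F : Filt V) (m : ℕ) (a : ℝ) : a ∈ jmp hV F m ↔ Fgt F m a ≠ F.F m a := by
  unfold jmp
  rw [Set.Finite.mem_toFinset]
  rfl

lemma jmp_nonneg (F : Filt V) {m : ℕ} {a : ℝ} (h : a ∈ jmp hV F m) : 0 ≤ a :=
  jump_nonneg F m ((mem_jmp hV F m a).1 h)

lemma fd_eq_fg_of_not_mem (F : Filt V) {m : ℕ} {a : ℝ} (h : a ∉ jmp hV F m) :
    fd F m a = fg F m a := by
  rw [mem_jmp, not_not] at h
  unfold fd fg
  rw [h]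

lemma mem_jmp' (F : Filt V) {m : ℕ} {a : ℝ} (h : fd F m a ≠ fg F m a) : a ∈ jmp hV F m := by
  by_contra hcon
  exact h (fd_eq_fg_of_not_mem hV F hcon)

/-- `N - f(l) = ∑_{a<l} (f(a) - f(a+))` -/
lemma step_formula (F : Filt V) (m : ℕ) (l : ℝ) :
    fd F m l + ∑ a ∈ jmp hV F m, (if a < l then fd F m a - fg F m a else 0) = NV V m := by
  classical
  set J := jmp hV F m with hJ
  set c : ℝ → ℝ := fun a => fd F m a - fg F m a with hc
  set g : ℝ → ℝ := fun l => fd F m l + ∑ a ∈ J, (if a < l then c a else 0) with hg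
  have hloc : IsLocallyConstant g := by
    rw [IsLocallyConstant.iff_eventually_eq]
    intro x
    obtain ⟨δ, hδ, hr⟩ := fd_right hV F m x
    obtain ⟨δ', hδ', hl⟩ := fd_left hV F m x
    have h1 : ∀ᶠ y in 𝓝 x, ∀ a ∈ J, a ≠ x → ((a < y) ↔ (a < x)) := by
      rw [Filter.eventually_all_finset]
      intro a _
      by_cases hax : a = x
      · filter_upwards with y h
        exact absurd hax h
      · rcases lt_or_gt_of_ne hax with h | h
        · filter_upwards [lt_mem_nhds h] with y hy _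
          exact ⟨fun _ => h, fun _ => hy⟩
        · filter_upwards [gt_mem_nhds h] with y hy _
          exact ⟨fun h' => absurd (hy.trans h') (lt_irrefl _), fun h' => absurd (h.trans h')
            (lt_irrefl _)⟩
    have h2 : ∀ᶠ y in 𝓝 x, y < x + δ := gt_mem_nhds (by linarith)
    have h3 : ∀ᶠ y in 𝓝 x, x - δ' < y := lt_mem_nhds (by linarith)
    filter_upwards [h1, h2, h3] with y hy1 hy2 hy3
    rcases le_or_gt y x with hyx | hyx
    · -- left
      have e1 : fd F m y = fd F m x := hl y hy3.le hyx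
      have e2 : ∑ a ∈ J, (if a < y then c a else 0) = ∑ a ∈ J, (if a < x then c a else 0) := by
        refine Finset.sum_congr rfl fun a ha => ?_
        by_cases hax : a = x
        · subst hax
          rw [if_neg (not_lt.2 hyx), if_neg (lt_irrefl _)]
        · rw [if_congr (hy1 a ha hax) rfl rfl]
      simp only [hg, e1, e2]
    · -- right
      have e1 : fd F m y = fg F m x := hr y hyx hy2.le
      have e2 : ∑ a ∈ J, (if a < y then c a else 0) =
          ∑ a ∈ J, (if a < x then c a else 0) + ∑ a ∈ J, (if a = x then c a else 0) := by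
        rw [← Finset.sum_add_distrib]
        refine Finset.sum_congr rfl fun a ha => ?_
        by_cases hax : a = x
        · subst hax
          rw [if_pos hyx, if_neg (lt_irrefl _), if_pos rfl, zero_add]
        · rw [if_congr (hy1 a ha hax) rfl rfl, if_neg hax, add_zero]
      have e3 : ∑ a ∈ J, (if a = x then c a else 0) = c x := by
        rw [Finset.sum_ite_eq' J x c]
        split_ifs with hx
        · rfl
        · simp only [hc]
          rw [fd_eq_fg_of_not_mem hV F hx, sub_self]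
      have e4 : g y = fd F m y + ∑ a ∈ J, (if a < y then c a else 0) := rfl
      have e5 : g x = fd F m x + ∑ a ∈ J, (if a < x then c a else 0) := rfl
      rw [e4, e5, e1, e2, e3]
      simp only [hc]
      ring
  have h0 : g 0 = NV V m := by
    simp only [hg]
    rw [fd_of_nonpos F m le_rfl, Finset.sum_eq_zero, add_zero]
    intro a ha
    rw [if_neg (not_lt.2 (jmp_nonneg hV F ha))]
  have := hloc.apply_eq_of_preconnectedSpace l 0
  rw [h0] at this
  exact this

/-! ### the integral `Zm` -/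

omit hV in
lemma integrable_exp {t : ℝ} (ht : 0 < t) (c : ℝ) :
    IntegrableOn (fun l : ℝ => t * Real.exp (-t * l)) (Set.Ioi c) :=
  (integrableOn_exp_mul_Ioi (by linarith : -t < 0) c).const_mul t

omit hV in
lemma integral_exp {t : ℝ} (ht : 0 < t) (c : ℝ) :
    ∫ l in Set.Ioi c, t * Real.exp (-t * l) = Real.exp (-t * c) := by
  rw [integral_const_mul, integral_exp_mul_Ioi (by linarith : -t < 0) c]
  field_simp

lemma integrable_fd (F : Filt V) (m : ℕ) {t : ℝ} (ht : 0 < t) (c : ℝ) :
    IntegrableOn (fun l : ℝ => t * Real.exp (-t * l) * fd F m l) (Set.Ioi c) := by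
  have hmeas : Measurable (fd F m) := (fd_anti hV F m).measurable
  refine Integrable.mono' ((integrable_exp ht c).mul_const (NV V m)) ?_ ?_
  · exact ((by fun_prop : Measurable fun l : ℝ => t * Real.exp (-t * l)).mul
      hmeas).aestronglyMeasurable
  · filter_upwards with l
    rw [Real.norm_eq_abs, abs_of_nonneg (mul_nonneg (by positivity) (fd_nonneg F m l))]
    exact mul_le_mul_of_nonneg_left (fd_le hV F m l) (by positivity)

lemma integrable_Zm (F : Filt V) (m : ℕ) {t : ℝ} (ht : 0 < t) (c : ℝ) :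
    IntegrableOn (fun l : ℝ => t * Real.exp (-t * l) * (NV V m - fd F m l)) (Set.Ioi c) := by
  have h := ((integrable_exp ht c).mul_const (NV V m)).sub (integrable_fd hV F m ht c)
  refine h.congr ?_
  filter_upwards with l
  simp only [Pi.sub_apply]
  ring

omit hV in
lemma Zm_def (F : Filt V) (t : ℝ) (m : ℕ) :
    Zm F t m = ∫ l in Set.Ioi (0 : ℝ), t * Real.exp (-t * l) * (NV V m - fd F m l) := rfl

lemma Zm_nonneg (F : Filt V) (m : ℕ) {t : ℝ} (ht : 0 < t) : 0 ≤ Zm F t m := by
  rw [Zm_def]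
  refine integral_nonneg fun l => ?_
  exact mul_nonneg (by positivity) (sub_nonneg.2 (fd_le hV F m l))

lemma Zm_le_NV (F : Filt V) (m : ℕ) {t : ℝ} (ht : 0 < t) : Zm F t m ≤ NV V m := by
  rw [Zm_def]
  have h1 : ∫ l in Set.Ioi (0 : ℝ), t * Real.exp (-t * l) * NV V m = NV V m := by
    rw [integral_mul_const, integral_exp ht]; simp
  refine le_trans ?_ h1.le
  refine integral_mono (integrable_Zm hV F m ht 0) ((integrable_exp ht 0).mul_const _) fun l => ?_
  refine mul_le_mul_of_nonneg_left ?_ (by positivity)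
  linarith [fd_nonneg F m l]

lemma Zm_mono {F G : Filt V} {m : ℕ} (h : ∀ l, F.F m l ≤ G.F m l) {t : ℝ} (ht : 0 < t) :
    Zm G t m ≤ Zm F t m := by
  rw [Zm_def, Zm_def]
  refine integral_mono (integrable_Zm hV G m ht 0) (integrable_Zm hV F m ht 0) fun l => ?_
  refine mul_le_mul_of_nonneg_left ?_ (by positivity)
  linarith [fd_mono hV (h l)]

/-- if `F m l = 0` for `l > L` then `Zm ≥ e^{-tL} dim V m` -/
lemma Zm_ge (F : Filt V) (m : ℕ) {t : ℝ} (ht : 0 < t) {L : ℝ} (hL : 0 ≤ L)
    (h : ∀ l, L < l → F.F m l = ⊥) : Real.exp (-t * L) * NV V m ≤ Zm F t m := by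
  rw [Zm_def]
  have h1 : ∫ l in Set.Ioi L, t * Real.exp (-t * l) * (NV V m - fd F m l) =
      Real.exp (-t * L) * NV V m := by
    rw [← integral_exp ht L, ← integral_mul_const]
    refine setIntegral_congr_fun measurableSet_Ioi fun l hl => ?_
    have : fd F m l = 0 := by
      unfold fd
      rw [h l hl]; simp
    simp only [this, sub_zero]
  rw [← h1]
  refine setIntegral_mono_set (integrable_Zm hV F m ht 0) ?_ ?_
  · filter_upwards with l
    exact mul_nonneg (by positivity) (sub_nonneg.2 (fd_le hV F m l))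
  · exact (Set.Ioi_subset_Ioi hL).eventuallyLE

/-- `Zm ≤ ∑_a e^{-ta} (f(a) - f(a+))` -/
lemma Zm_le_sum (F : Filt V) (m : ℕ) {t : ℝ} (ht : 0 < t) :
    Zm F t m ≤ ∑ a ∈ jmp hV F m, Real.exp (-t * a) * (fd F m a - fg F m a) := by
  rw [Zm_def]
  have h1 : ∀ a ∈ jmp hV F m, ∫ l in Set.Ioi (0 : ℝ), (Set.Ioi a).indicator
      (fun l => t * Real.exp (-t * l) * (fd F m a - fg F m a)) l =
        Real.exp (-t * a) * (fd F m a - fg F m a) := by
    intro a ha
    rw [setIntegral_indicator measurableSet_Ioi, Set.inter_eq_self_of_subset_right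
      (Set.Ioi_subset_Ioi (jmp_nonneg hV F ha)), integral_mul_const, integral_exp ht]
  rw [← Finset.sum_congr rfl h1, ← integral_finsetSum]
  · refine le_of_eq (setIntegral_congr_fun measurableSet_Ioi fun l _ => ?_)
    have h2 := step_formula hV F m l
    have h3 : NV V m - fd F m l =
        ∑ a ∈ jmp hV F m, (if a < l then fd F m a - fg F m a else 0) := by linarith
    rw [h3, Finset.mul_sum]
    refine Finset.sum_congr rfl fun a _ => ?_
    rw [Set.indicator_apply]
    simp only [Set.mem_Ioi]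
    split_ifs <;> simp
  · intro a _
    exact ((integrable_exp ht 0).mul_const _).indicator measurableSet_Ioi

/-- the gain in one degree -/
lemma Zm_gain {F G : Filt V} {m : ℕ} (hFG : ∀ l, F.F m l ≤ G.F m l) {t : ℝ} (ht : 0 < t)
    {s : ℝ} (hs : 0 < s) (p : ℕ) (r : ℝ → ℕ → ℝ)
    (hδ : ∀ a ∈ jmp hV F m, ∀ l, a < l → l ≤ a + s * p → fd F m l = fg F m a)
    (hr : ∀ a ∈ jmp hV F m, ∀ e ∈ Finset.Icc 1 p, r a e ≤ fd G m (a + s * e))
    (hr0 : ∀ a ∈ jmp hV F m, ∀ e ∈ Finset.Icc 1 p, fg F m a ≤ r a e) :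
    ∑ a ∈ jmp hV F m, ∑ e ∈ Finset.Icc 1 p,
      s * (t * Real.exp (-t * (a + s * p)) * (r a e - fg F m a)) ≤ Zm F t m - Zm G t m := by
  classical
  -- the difference as an integral
  have h1 : Zm F t m - Zm G t m =
      ∫ l in Set.Ioi (0 : ℝ), t * Real.exp (-t * l) * (fd G m l - fd F m l) := by
    rw [Zm_def, Zm_def, ← integral_sub (integrable_Zm hV F m ht 0) (integrable_Zm hV G m ht 0)]
    refine integral_congr_ae (Filter.Eventually.of_forall fun l => ?_)
    simp only
    ring
  have hint : IntegrableOn (fun l => t * Real.exp (-t * l) * (fd G m l - fd F m l))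
      (Set.Ioi (0 : ℝ)) := by
    refine ((integrable_fd hV G m ht 0).sub (integrable_fd hV F m ht 0)).congr ?_
    filter_upwards with l
    simp only [Pi.sub_apply]
    ring
  rw [h1]
  set I : Finset (ℝ × ℕ) := jmp hV F m ×ˢ Finset.Icc 1 p with hI
  set S : ℝ × ℕ → Set ℝ := fun q => Set.Ioc (q.1 + s * (q.2 - 1 : ℝ)) (q.1 + s * q.2) with hS
  have hsub : ∀ q ∈ I, ∀ l ∈ S q, q.1 < l ∧ l ≤ q.1 + s * p := by
    intro q hq l hl
    rw [hI, Finset.mem_product, Finset.mem_Icc] at hq
    have e1 : (1 : ℝ) ≤ q.2 := by exact_mod_cast hq.2.1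
    have e2 : (q.2 : ℝ) ≤ p := by exact_mod_cast hq.2.2
    have e3 : 0 ≤ s * (q.2 - 1 : ℝ) := mul_nonneg hs.le (by linarith)
    have e4 : s * (q.2 : ℝ) ≤ s * p := mul_le_mul_of_nonneg_left e2 hs.le
    exact ⟨by linarith [hl.1], by linarith [hl.2]⟩
  have hjump : ∀ a ∈ jmp hV F m, ∀ a' ∈ jmp hV F m, a < a' → a + s * p ≤ a' := by
    intro a ha a' ha' haa
    by_contra hcon
    push Not at hcon
    have e1 : fd F m a' = fg F m a := hδ a ha a' haa hcon.le
    have e2 : fd F m (a + s * p) = fg F m a := hδ a ha _ (haa.trans hcon) le_rfl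
    have e3 : fd F m (a + s * p) ≤ fg F m a' := le_fg hV F m hcon
    have e4 : fg F m a' ≤ fd F m a' := fg_le hV F m a'
    rw [mem_jmp] at ha'
    apply ha'
    have := fdF hV F m a'
    have hfd : FiniteDimensional ℂ (Fgt F m a') := fd_of_le (fdF hV F m a') (Fgt_le F m a')
    refine Submodule.eq_of_le_of_finrank_le (Fgt_le F m a') ?_
    have e5 : fd F m a' ≤ fg F m a' := by linarith
    exact Nat.cast_le.1 e5
  have hdisj : Set.Pairwise (I : Set (ℝ × ℕ)) (Function.onFun Disjoint S) := by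
    intro q hq q' hq' hne
    rw [Function.onFun, Set.disjoint_left]
    intro l hl hl'
    have h2 := hsub q hq l hl
    have h3 := hsub q' hq' l hl'
    have hq1 : q.1 ∈ jmp hV F m := by
      have := hq
      rw [hI, Finset.mem_coe, Finset.mem_product] at this
      exact this.1
    have hq1' : q'.1 ∈ jmp hV F m := by
      have := hq'
      rw [hI, Finset.mem_coe, Finset.mem_product] at this
      exact this.1
    have heq : q.1 = q'.1 := by
      rcases lt_trichotomy q.1 q'.1 with h | h | h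
      · have := hjump _ hq1 _ hq1' h
        linarith
      · exact h
      · have := hjump _ hq1' _ hq1 h
        linarith
    have hne2 : q.2 ≠ q'.2 := fun h => hne (Prod.ext heq h)
    simp only [hS, Set.mem_Ioc, heq] at hl hl'
    rcases lt_or_gt_of_ne hne2 with h | h
    · have e1 : (q.2 : ℝ) ≤ q'.2 - 1 := by
        have : (q.2 : ℝ) + 1 ≤ q'.2 := by exact_mod_cast h
        linarith
      have e2 : s * (q.2 : ℝ) ≤ s * (q'.2 - 1) := mul_le_mul_of_nonneg_left e1 hs.le
      linarith [hl.2, hl'.1]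
    · have e1 : (q'.2 : ℝ) ≤ q.2 - 1 := by
        have : (q'.2 : ℝ) + 1 ≤ q.2 := by exact_mod_cast h
        linarith
      have e2 : s * (q'.2 : ℝ) ≤ s * (q.2 - 1) := mul_le_mul_of_nonneg_left e1 hs.le
      linarith [hl'.2, hl.1]
  have hsubset : (⋃ q ∈ I, S q) ⊆ Set.Ioi (0 : ℝ) := by
    intro l hl
    rw [Set.mem_iUnion₂] at hl
    obtain ⟨q, hq, hlq⟩ := hl
    have h2 := hsub q hq l hlq
    have hq1 : q.1 ∈ jmp hV F m := by
      have := hq
      rw [hI, Finset.mem_product] at this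
      exact this.1
    have := jmp_nonneg hV F hq1
    exact lt_of_le_of_lt this h2.1
  have hnn : ∀ l, 0 ≤ t * Real.exp (-t * l) * (fd G m l - fd F m l) := fun l =>
    mul_nonneg (by positivity) (sub_nonneg.2 (fd_mono hV (hFG l)))
  calc ∑ a ∈ jmp hV F m, ∑ e ∈ Finset.Icc 1 p,
        s * (t * Real.exp (-t * (a + s * p)) * (r a e - fg F m a))
      = ∑ q ∈ I, s * (t * Real.exp (-t * (q.1 + s * p)) * (r q.1 q.2 - fg F m q.1)) := by
        rw [hI, Finset.sum_product]
    _ ≤ ∑ q ∈ I, ∫ l in S q, t * Real.exp (-t * l) * (fd G m l - fd F m l) := by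
        refine Finset.sum_le_sum fun q hq => ?_
        have hq' := hq
        rw [hI, Finset.mem_product] at hq'
        have hvol : (volume : Measure ℝ).real (S q) = s := by
          simp only [hS]
          rw [Real.volume_real_Ioc]
          rw [max_eq_left]
          · ring
          · have : q.1 + s * (q.2 : ℝ) - (q.1 + s * (q.2 - 1 : ℝ)) = s := by ring
            rw [this]; exact hs.le
        have h4 := setIntegral_ge_of_const_le_real (μ := volume) (s := S q)
          (f := fun l => t * Real.exp (-t * l) * (fd G m l - fd F m l))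
          (c := t * Real.exp (-t * (q.1 + s * p)) * (r q.1 q.2 - fg F m q.1))
          measurableSet_Ioc (by simp only [hS]; rw [Real.volume_Ioc]; exact ENNReal.ofReal_ne_top)
          ?_ (hint.mono_set ((Set.subset_biUnion_of_mem (u := S) hq).trans hsubset))
        · rw [hvol] at h4
          linarith
        · intro l hl
          have h5 := hsub q hq l hl
          have h6 : fd F m l = fg F m q.1 := hδ q.1 hq'.1 l h5.1 h5.2
          have h7 : r q.1 q.2 ≤ fd G m l :=
            (hr q.1 hq'.1 q.2 hq'.2).trans (fd_anti hV G m hl.2)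
          have h8 : Real.exp (-t * (q.1 + s * p)) ≤ Real.exp (-t * l) := by
            apply Real.exp_le_exp.2
            nlinarith [h5.2]
          have h9 : 0 ≤ r q.1 q.2 - fg F m q.1 := sub_nonneg.2 (hr0 q.1 hq'.1 q.2 hq'.2)
          rw [h6]
          exact mul_le_mul (mul_le_mul_of_nonneg_left h8 ht.le) (by linarith) h9 (by positivity)
    _ = ∫ l in ⋃ q ∈ I, S q, t * Real.exp (-t * l) * (fd G m l - fd F m l) := by
        rw [integral_biUnion_finset I (fun q _ => measurableSet_Ioc) hdisj]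
        intro q hq
        exact hint.mono_set ((Set.subset_biUnion_of_mem (u := S) hq).trans hsubset)
    _ ≤ ∫ l in Set.Ioi (0 : ℝ), t * Real.exp (-t * l) * (fd G m l - fd F m l) := by
        refine setIntegral_mono_set hint ?_ hsubset.eventuallyLE
        filter_upwards with l
        exact hnn l

end onem

end Crest.Agent.R271.N6x241
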