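import Crest.Agent.R271.Growth_302
import Crest.Agent.R271.Filt_140
import Crest.Agent.R271.N0b_710
import Crest.Agent.R271.IIntLib_140
import Crest.Agent.R271.ZZ_593

/-!
Row 271, team N, piece N6 (second half): "the partition function is large".
-/

set_option autoImplicit false

open Module

namespace Crest.Agent.R271.N6b593

open Crest.Agent.R271.Defs710 Crest.Agent.R271.N647

variable {n : ℕ}

/-- (S) summability of `exp (-τ m) dim V m` -/
theorem summable_V (X : FCtx n) (τ : ℝ) (h : 0 < τ) :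
    Summable (fun m : ℕ => Real.exp (-τ * m) * (Module.finrank ℂ (X.V m) : ℝ)) := by
  obtain ⟨C, hC, hb⟩ := Growth302.finrank_V_le X
  refine Summable.of_nonneg_of_le (fun m => by positivity) (fun m => ?_)
    ((Gibbs302.summable_pow_exp n h).mul_left C)
  have h1 : Real.exp (-τ * m) = Real.exp (-(τ * m)) := by congr 1; ring
  rw [h1, mul_comm, ← mul_assoc]
  exact mul_le_mul_of_nonneg_right (hb m) (Real.exp_pos _).le

/-- the trivial filtration -/
noncomputable def trivF (X : FCtx n) : Filt X.V where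
  F m l := if l ≤ 0 then X.V m else ⊥
  le_V m l := by split_ifs; exacts [le_rfl, bot_le]
  zero m l hl := if_pos hl
  anti m l l' h := by
    by_cases h' : l' ≤ 0
    · simp only [if_pos h', if_pos (h.trans h')]; exact le_rfl
    · simp only [if_neg h']; exact bot_le
  cont m l b hb := by
    by_cases h : l ≤ 0
    · rw [if_pos h]
      have := hb (l - 1) (by linarith)
      rwa [if_pos (by linarith)] at this
    · rw [if_neg h]
      push Not at h
      have := hb (l / 2) (by linarith)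
      rwa [if_neg (by push Not; linarith)] at this
  mul m l m' l' a b ha hb := by
    by_cases h : l ≤ 0
    · by_cases h' : l' ≤ 0
      · rw [if_pos h] at ha
        rw [if_pos h'] at hb
        rw [if_pos (add_nonpos h h')]
        exact X.V_mul m m' a b ha hb
      · rw [if_neg h', Submodule.mem_bot] at hb
        rw [hb, mul_zero]
        exact Submodule.zero_mem _
    · rw [if_neg h, Submodule.mem_bot] at ha
      rw [ha, zero_mul]
      exact Submodule.zero_mem _
  bdd := ⟨0, fun m l hl => if_neg (by push Not; simpa using hl)⟩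

lemma trivF_of_nonpos (X : FCtx n) {m : ℕ} {l : ℝ} (h : l ≤ 0) : (trivF X).F m l = X.V m :=
  if_pos h

lemma trivF_of_pos (X : FCtx n) {m : ℕ} {l : ℝ} (h : 0 < l) : (trivF X).F m l = ⊥ :=
  if_neg (not_le.mpr h)

/-- the threshold of the trivial filtration is `0` -/
lemma good_trivF (X : FCtx n) (y : X.B →ₐ[ℂ] ℂ) {l : ℝ} (h : Good X.z (trivF X) y l) : l ≤ 0 := by
  by_contra hcon
  push Not at hcon
  obtain ⟨k, hk, hI⟩ := h
  have hk0 : (0 : ℝ) < k := by exact_mod_cast hk
  refine F140.ne_bot_of_IInt X.z y _ _ (by positivity) hI ?_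
  unfold idl
  rw [Ideal.span_eq_bot]
  rintro b ⟨m, hb⟩
  rw [trivF_of_pos X (by positivity)] at hb
  simpa using hb

open Jump302

/-- upper bound of the partition function -/
lemma ZZ_le (X : FCtx n) {c C : ℝ}
    (hG : Gibbs302.Growth (deg : Idx X.V → ℝ) n c C) (F : Filt X.V) {t κ : ℝ} (ht : 0 < t)
    (hκ : 0 < κ) (htκ : t * κ ≤ 1) : ZZ F t κ ≤ C / (t * κ) ^ (n + 1) := by
  have := X.V_fin
  have hs := Gibbs302.summable_w hG ht hκ (LL_nonneg F)
  rw [ZZ593.ZZ_eq F ht hs]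
  refine le_trans ?_ (hG.upper (t * κ) (mul_pos ht hκ) htκ)
  exact hs.tsum_le_tsum (fun p => Gibbs302.w_le ht (LL_nonneg F) p)
    (hG.summable (t * κ) (mul_pos ht hκ))

/-- numerical lemma -/
lemma small_t (κ C c₁ δ : ℝ) (hκ : 0 < κ) (hC : 0 < C) (n : ℕ) (hδ : 0 < δ) :
    ∃ t₀ : ℝ, 0 < t₀ ∧ ∀ t, 0 < t → t ≤ t₀ → t * κ ≤ 1 ∧
      t * κ + 2 * t * Real.log (C / (t * κ) ^ (n + 1)) * c₁ ≤ δ := by
  set g : ℝ → ℝ := fun t => t * κ + 2 * c₁ * (t * Real.log C - (n + 1) * (t * Real.log t +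
    t * Real.log κ)) with hg
  have hcont : Continuous g := by
    have h1 := Real.continuous_mul_log
    fun_prop
  have h0 : g 0 = 0 := by simp [hg]
  have h1 : ∀ᶠ t in nhds (0 : ℝ), g t < δ := by
    have : g 0 < δ := by rw [h0]; exact hδ
    exact hcont.continuousAt.eventually_lt continuousAt_const this
  have h2 : ∀ᶠ t in nhds (0 : ℝ), t * κ < 1 := by
    have : (fun t : ℝ => t * κ) 0 < 1 := by simp
    exact (by fun_prop : Continuous fun t : ℝ => t * κ).continuousAt.eventually_lt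
      continuousAt_const this
  obtain ⟨r, hr, hball⟩ := Metric.eventually_nhds_iff.mp (h1.and h2)
  refine ⟨r / 2, by positivity, fun t ht htr => ?_⟩
  have hd : dist t 0 < r := by
    rw [Real.dist_eq, sub_zero, abs_of_pos ht]; linarith
  obtain ⟨h3, h4⟩ := hball hd
  refine ⟨h4.le, ?_⟩
  have h5 : Real.log (C / (t * κ) ^ (n + 1)) = Real.log C - (n + 1) * (Real.log t + Real.log κ) := by
    rw [Real.log_div hC.ne' (by positivity), Real.log_pow, Real.log_mul ht.ne' hκ.ne']
    push_cast; ring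
  rw [h5]
  have h6 : t * κ + 2 * t * (Real.log C - (n + 1) * (Real.log t + Real.log κ)) * c₁ = g t := by
    simp only [hg]; ring
  rw [h6]
  exact h3.le

/-- **(L)** the partition function of the Ekeland point is large for small `t` -/
theorem zz_large (X : FCtx n) (_hn : 1 ≤ n) (af : AFacts X) (κ : ℝ) (hκ : 0 < κ) (K : ℝ) :
    ∃ t0 e0 : ℝ, 0 < t0 ∧ 0 < e0 ∧ ∀ t, 0 < t → t ≤ t0 → ∀ ε, 0 < ε → ε ≤ e0 →
      ∀ (F : Filt X.V) (A : ℝ), 0 < A → (∀ l : ℝ, Good X.z F X.x l → l ≤ A) →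
        EkelandAt X F A ε t κ → K < ZZ F t κ := by
  have := X.V_fin
  obtain ⟨c, C, hG⟩ := Growth302.growth_V X
  replace hG : Gibbs302.Growth (deg : Idx X.V → ℝ) n c C := hG
  obtain ⟨C₁, hC₁⟩ := X.ordbd
  obtain ⟨j₀, hj₀⟩ := Growth302.exists_nonvanishing X
  -- `dim V m ≥ 1` for `m ≥ j₀`
  have hdim : ∀ m, j₀ ≤ m → 1 ≤ finrank ℂ (X.V m) := by
    intro m hm
    obtain ⟨f, hf, hfx⟩ := hj₀ m hm X.x
    rw [Nat.one_le_iff_ne_zero]
    intro h0
    rw [Submodule.finrank_eq_zero] at h0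
    rw [h0, Submodule.mem_bot] at hf
    rw [hf, map_zero] at hfx
    exact hfx rfl
  have hdim0 : 1 ≤ finrank ℂ (X.V 0) := by
    rw [Nat.one_le_iff_ne_zero]
    intro h0
    rw [Submodule.finrank_eq_zero] at h0
    have h1 := Growth302.V_one_mem X
    rw [h0, Submodule.mem_bot] at h1
    exact one_ne_zero h1
  obtain ⟨M, hM⟩ := exists_nat_gt (2 * K)
  have hCpos : 0 < C := by
    have h1 := hG.upper 1 one_pos le_rfl
    have h2 := hG.lower 1 one_pos
    have h3 := hG.c_pos
    simp only [one_pow, div_one] at h1 h2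
    linarith
  set δ : ℝ := Real.log 2 / (j₀ + M + 1) with hδ
  have hlog2 : 0 < Real.log 2 := Real.log_pos (by norm_num)
  have hδ0 : 0 < δ := by positivity
  obtain ⟨t₀, ht₀, hsmall⟩ := small_t κ C C₁ δ hκ hCpos n hδ0
  refine ⟨t₀, 1 / (2 * (C₁ + 1)), ht₀, by positivity, fun t ht htt ε hε hεe F A hA hAgood hEk => ?_⟩
  obtain ⟨htκ, hsm⟩ := hsmall t ht htt
  have hthr : thr X.z F X.x ≤ ENNReal.ofReal A := (F140.thr_le_ofReal_iff hA.le).mpr hAgood
  have hbot : ∀ (m : ℕ) (l : ℝ), A * (C₁ * m) < l → F.F m l = ⊥ := fun m l hl =>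
    F140.F_eq_bot af hC₁ F hA.le hthr hl
  -- comparison with the trivial filtration
  have hE := hEk (trivF X) (A * C₁) 0 (by positivity) le_rfl (fun m l => ⟨?_, ?_⟩)
    (fun l hl => good_trivF X X.x hl)
  rotate_left
  · rcases le_or_gt (l - A * C₁ * m) 0 with h | h
    · rw [trivF_of_nonpos X h]; exact F.le_V m l
    · rw [hbot m l (by linarith)]; exact bot_le
  · rcases le_or_gt l 0 with h | h
    · rw [trivF_of_nonpos X h, F.zero m _ (by
        have : 0 ≤ A * C₁ * m := by positivity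
        linarith)]
    · rw [trivF_of_pos X h]; exact bot_le
  -- lower bound of all terms
  have hs := Gibbs302.summable_w hG ht hκ (LL_nonneg F)
  have hZeq := ZZ593.ZZ_eq F ht hs
  have hjump : ∀ p : Idx X.V, LL F p ≤ A * C₁ * deg p := fun p =>
    jump_le F p.2.2 (fun l hl => hbot p.1 l (by
      have : A * C₁ * deg p = A * (C₁ * p.1) := by simp only [deg]; ring
      linarith))
  -- `1 ≤ ZZ F`
  have hZ1 : 1 ≤ ZZ F t κ := by
    rw [hZeq]
    set p₀ : Idx X.V := ⟨0, ⟨0, hdim0⟩⟩ with hp₀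
    have h1 : Gibbs302.w (deg : Idx X.V → ℝ) κ t (LL F) p₀ ≤ Gibbs302.Z (deg : Idx X.V → ℝ) κ t (LL F) :=
      hs.le_tsum p₀ (fun p _ => (Gibbs302.w_pos p).le)
    refine le_trans ?_ h1
    have h2 : deg p₀ = 0 := by simp [deg, hp₀]
    have h3 : LL F p₀ ≤ 0 := by
      have := hjump p₀
      rw [h2, mul_zero] at this
      exact this
    unfold Gibbs302.w
    rw [h2, mul_zero, zero_add]
    refine Real.one_le_exp ?_
    have := mul_nonneg ht.le (neg_nonneg.mpr h3)
    linarith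
  have hJ : ZZ (trivF X) t κ ≤ C / (t * κ) ^ (n + 1) := ZZ_le X hG _ ht hκ htκ
  have hJ1 : 0 < ZZ (trivF X) t κ := by
    have hs' := Gibbs302.summable_w hG ht hκ (LL_nonneg (trivF X))
    rw [ZZ593.ZZ_eq _ ht hs']
    exact Gibbs302.Z_pos hG ht hκ (LL_nonneg _)
  -- `A ≤ 2 log (C / (t κ)^(n+1))`
  have hA2 : A ≤ 2 * Real.log (C / (t * κ) ^ (n + 1)) := by
    have h1 : 0 ≤ Real.log (ZZ F t κ) := Real.log_nonneg hZ1
    have h2 : Real.log (ZZ (trivF X) t κ) ≤ Real.log (C / (t * κ) ^ (n + 1)) :=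
      Real.log_le_log hJ1 hJ
    have h3 : ε * (A * C₁) ≤ A / 2 := by
      have hC₁0 : (0 : ℝ) ≤ C₁ := Nat.cast_nonneg _
      have h4 : ε * C₁ ≤ 1 / 2 := by
        calc ε * C₁ ≤ 1 / (2 * (C₁ + 1)) * (C₁ + 1) :=
              mul_le_mul hεe (by linarith) hC₁0 (by positivity)
          _ = 1 / 2 := by field_simp
      nlinarith
    linarith
  -- sum over `j₀ ≤ m ≤ j₀ + M`
  have hlarge : (M + 1 : ℝ) / 2 ≤ ZZ F t κ := by
    rw [hZeq]
    let φ : Fin (M + 1) ↪ Idx X.V :=
      ⟨fun i => ⟨j₀ + i, ⟨0, hdim (j₀ + i) (Nat.le_add_right _ _)⟩⟩, fun i j hij => by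
        have h1 := congrArg Sigma.fst hij
        simp only at h1
        exact Fin.ext (by omega)⟩
    have h1 : ∑ p ∈ Finset.univ.map φ, Gibbs302.w (deg : Idx X.V → ℝ) κ t (LL F) p ≤
        Gibbs302.Z (deg : Idx X.V → ℝ) κ t (LL F) :=
      hs.sum_le_tsum _ (fun p _ => (Gibbs302.w_pos p).le)
    refine le_trans ?_ h1
    rw [Finset.sum_map]
    have h2 : ∀ i : Fin (M + 1), (1 : ℝ) / 2 ≤ Gibbs302.w (deg : Idx X.V → ℝ) κ t (LL F) (φ i) := by
      intro i
      have hdeg : deg (φ i) = (j₀ : ℝ) + (i : ℕ) := by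
        change (((j₀ + (i : ℕ) : ℕ)) : ℝ) = _
        push_cast; rfl
      have hi : ((i : ℕ) : ℝ) ≤ M := by
        have := i.2
        exact_mod_cast (by omega : (i : ℕ) ≤ M)
      have h3 := hjump (φ i)
      have hAC : t * (A * C₁) ≤ 2 * t * Real.log (C / (t * κ) ^ (n + 1)) * C₁ := by
        have hC₁0 : (0 : ℝ) ≤ C₁ := Nat.cast_nonneg _
        have := mul_le_mul_of_nonneg_right hA2 (mul_nonneg ht.le hC₁0)
        linarith
      have h4 : t * (κ * deg (φ i) + LL F (φ i)) ≤ Real.log 2 := by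
        have h5 : t * (κ * deg (φ i) + LL F (φ i)) ≤ (t * κ + t * (A * C₁)) * deg (φ i) := by
          have := mul_le_mul_of_nonneg_left h3 ht.le
          linarith
        refine h5.trans ?_
        have h6 : t * κ + t * (A * C₁) ≤ δ := by linarith
        have h7 : 0 ≤ deg (φ i) := deg_nonneg _
        have h8 : deg (φ i) ≤ j₀ + M + 1 := by rw [hdeg]; linarith
        calc (t * κ + t * (A * C₁)) * deg (φ i) ≤ δ * (j₀ + M + 1) :=
              mul_le_mul h6 h8 h7 hδ0.le
          _ = Real.log 2 := by rw [hδ]; field_simp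
      unfold Gibbs302.w
      have h9 : (1 : ℝ) / 2 = Real.exp (-Real.log 2) := by
        rw [Real.exp_neg, Real.exp_log (by norm_num)]; norm_num
      rw [h9]
      exact Real.exp_le_exp.mpr (by linarith)
    calc (M + 1 : ℝ) / 2 = ∑ _i : Fin (M + 1), (1 : ℝ) / 2 := by
          rw [Finset.sum_const, Finset.card_univ, Fintype.card_fin, nsmul_eq_mul]
          push_cast; ring
      _ ≤ _ := Finset.sum_le_sum fun i _ => h2 i
  linarith

end Crest.Agent.R271.N6b593
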