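import Mathlib
import Crest.Agent.R271.N6a_241
import Crest.Agent.R271.N6b_593
import Crest.Agent.R271.N0_710

/-!
Row 271, team N, piece N6 (part c): summation over the degrees; counting and gain.
-/

set_option autoImplicit false

open scoped ENNReal NNReal Topology BigOperators
open MeasureTheory

noncomputable section

namespace Crest.Agent.R271.N6x241

open Crest.Agent.R271.Defs710 Crest.Agent.R271.N647

variable {n : ℕ} (X : FCtx n)

/-- Nullstellensatz: a point of `V(P)` outside `{h = 0}` -/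
lemma exists_general (P : Ideal X.B) (hP : P.IsPrime) (h : X.B) (hh : h ∉ P) :
    ∃ y : X.B →ₐ[ℂ] ℂ, P ≤ mI y ∧ y h ≠ 0 := by
  by_contra hcon
  push Not at hcon
  have h1 : h ∈ P.radical := (N0x710.mem_radical P h).2 hcon
  rw [hP.radical] at h1
  exact hh h1

lemma dim_lt (hg : GenFact X) (P : Ideal X.B) (hP : P.IsPrime) (hb : P ≠ ⊥) (d : ℕ)
    (hd : ringKrullDim (X.B ⧸ P) = d) : d < n := by
  obtain ⟨h₁, hh₁, hA⟩ := hg P d hP hd
  obtain ⟨y, hy, hyh⟩ := exists_general X P hP h₁ hh₁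
  exact adapted_lt (hA y (fun f hf => hy hf) hyh) hb

lemma NV_zero : NV X.V 0 = 1 := by
  unfold NV
  rw [X.V_zero, Submodule.one_eq_span, finrank_span_singleton one_ne_zero]
  simp

/-- weight -/
def w (τ : ℝ) (m : ℕ) : ℝ := Real.exp (-τ * (m : ℝ))

lemma w_pos (τ : ℝ) (m : ℕ) : 0 < w τ m := Real.exp_pos _

lemma w_zero (τ : ℝ) : w τ 0 = 1 := by simp [w]

lemma summable_NV {τ : ℝ} (h : 0 < τ) : Summable (fun m : ℕ => w τ m * NV X.V m) :=
  N6b593.summable_V X τ h

lemma summable_of_le {τ : ℝ} (h : 0 < τ) {u : ℕ → ℝ} {c : ℝ} (h0 : ∀ m, 0 ≤ u m)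
    (h1 : ∀ m, u m ≤ c * NV X.V m) : Summable (fun m : ℕ => w τ m * u m) := by
  refine Summable.of_nonneg_of_le (fun m => mul_nonneg (w_pos τ m).le (h0 m)) (fun m => ?_)
    ((summable_NV X h).mul_left c)
  calc w τ m * u m ≤ w τ m * (c * NV X.V m) := mul_le_mul_of_nonneg_left (h1 m) (w_pos τ m).le
    _ = c * (w τ m * NV X.V m) := by ring

/-- the tail -/
def tailN (τ : ℝ) (D : ℕ) : ℝ := ∑' k : ℕ, w τ (k + (D + 1)) * NV X.V (k + (D + 1))

lemma tailN_tendsto (τ : ℝ) : Filter.Tendsto (tailN X τ) Filter.atTop (𝓝 0) := by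
  have h1 := tendsto_sum_nat_add (fun m : ℕ => w τ m * NV X.V m)
  exact h1.comp (Filter.tendsto_add_atTop_nat 1)

lemma tailN_nonneg (τ : ℝ) (D : ℕ) : 0 ≤ tailN X τ D :=
  tsum_nonneg fun _ => mul_nonneg (w_pos τ _).le (NV_nonneg _)

/-- splitting of a sum over the degrees -/
lemma tsum_split {τ : ℝ} (h : 0 < τ) {u : ℕ → ℝ} {c : ℝ} (h0 : ∀ m, 0 ≤ u m)
    (h1 : ∀ m, u m ≤ c * NV X.V m) (D : ℕ) :
    ∑' m : ℕ, w τ m * u m = u 0 + ∑ k ∈ Finset.range D, w τ (k + 1) * u (k + 1) +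
      ∑' k : ℕ, w τ (k + (D + 1)) * u (k + (D + 1)) := by
  have hs := summable_of_le X h h0 h1
  rw [← hs.sum_add_tsum_nat_add (D + 1), Finset.sum_range_succ', w_zero]
  ring

section counting

variable (F : Filt X.V) (P : Ideal X.B) (y : X.B →ₐ[ℂ] ℂ)

/-- `dim U_{m,a,e}(y)` -/
def uu (m : ℕ) (a : ℝ) (e : ℕ) : ℝ := (Module.finrank ℂ (U F P y m a e) : ℝ)

lemma uu_le (m : ℕ) (a : ℝ) (e : ℕ) : uu X F P y m a e ≤ fd F m a := by
  have := fdF X.V_fin F m a
  exact Nat.cast_le.2 <| Submodule.finrank_mono (U_le F P y m a e)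

lemma fg_le_uu (m : ℕ) (a : ℝ) (e : ℕ) : fg F m a ≤ uu X F P y m a e := by
  have : FiniteDimensional ℂ (U F P y m a e) := fd_of_le (fdF X.V_fin F m a) (U_le F P y m a e)
  exact Nat.cast_le.2 <| Submodule.finrank_mono (Fgt_le_U F P y m a e)

/-- `∑_{e=1}^p (dim U_{m,a,e} - dim F(m,>a))` -/
def um (p m : ℕ) (a : ℝ) : ℝ := ∑ e ∈ Finset.Icc 1 p, (uu X F P y m a e - fg F m a)

lemma um_nonneg (p m : ℕ) (a : ℝ) : 0 ≤ um X F P y p m a :=
  Finset.sum_nonneg fun e _ => sub_nonneg.2 (fg_le_uu X F P y m a e)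

lemma um_le (p m : ℕ) (a : ℝ) : um X F P y p m a ≤ p * (fd F m a - fg F m a) := by
  unfold um
  calc ∑ e ∈ Finset.Icc 1 p, (uu X F P y m a e - fg F m a)
      ≤ ∑ e ∈ Finset.Icc 1 p, (fd F m a - fg F m a) :=
        Finset.sum_le_sum fun e _ => sub_le_sub_right (uu_le X F P y m a e) _
    _ = p * (fd F m a - fg F m a) := by
        rw [Finset.sum_const, Nat.card_Icc, nsmul_eq_mul]; simp

lemma um_eq_zero (p m : ℕ) {a : ℝ} (ha : a ∉ jmp X.V_fin F m) : um X F P y p m a = 0 := by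
  have h1 := um_nonneg X F P y p m a
  have h2 := um_le X F P y p m a
  rw [fd_eq_fg_of_not_mem X.V_fin F ha, sub_self, mul_zero] at h2
  exact le_antisymm h2 h1

/-- the gain functional -/
def Gam (t τ : ℝ) (p D : ℕ) : ℝ := ∑ k ∈ Finset.range D, w τ (k + 1) *
  ∑ a ∈ jmp X.V_fin F (k + 1), Real.exp (-t * a) * um X F P y p (k + 1) a

lemma cm_nonneg (m : ℕ) (a : ℝ) : 0 ≤ fd F m a - fg F m a := sub_nonneg.2 (fg_le X.V_fin F m a)

lemma cm_le (m : ℕ) (a : ℝ) : fd F m a - fg F m a ≤ 1 * NV X.V m := by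
  rw [one_mul]
  linarith [fd_le X.V_fin F m a, fg_nonneg F m a]

theorem count_bound {t τ : ℝ} (ht : 0 < t) (hτ : 0 < τ) (p D : ℕ) {c : ℝ} (hc : 0 ≤ c)
    (AA : Finset ℝ) (hAA0 : ∀ a ∈ AA, 0 ≤ a)
    (hAA : ∀ k < D, jmp X.V_fin F (k + 1) ⊆ AA)
    (hcount : ∀ a ∈ AA, c * ∑' m : ℕ, w τ m * (fd F m a - fg F m a) ≤
      ∑' m : ℕ, w τ m * um X F P y p m a) :
    c * ∑ k ∈ Finset.range D, w τ (k + 1) * Zm F t (k + 1) ≤
      Gam X F P y t τ p D + p * (1 + tailN X τ D) := by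
  have hexp : ∀ a ∈ AA, 0 ≤ Real.exp (-t * a) ∧ Real.exp (-t * a) ≤ 1 := by
    intro a ha
    refine ⟨(Real.exp_pos _).le, Real.exp_le_one_iff.2 ?_⟩
    have := hAA0 a ha
    nlinarith
  -- weighted jump sums
  have hJ : ∀ m, ∑ a ∈ AA, Real.exp (-t * a) * (fd F m a - fg F m a) ≤ NV X.V m := by
    intro m
    refine le_trans ?_ (sum_jumps_le X.V_fin F m AA)
    refine Finset.sum_le_sum fun a ha => ?_
    calc Real.exp (-t * a) * (fd F m a - fg F m a) ≤ 1 * (fd F m a - fg F m a) :=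
          mul_le_mul_of_nonneg_right (hexp a ha).2 (cm_nonneg X F m a)
      _ = _ := one_mul _
  -- lower bound of the left hand sides
  have hL : ∀ a ∈ AA, ∑ k ∈ Finset.range D, w τ (k + 1) * (fd F (k + 1) a - fg F (k + 1) a) ≤
      ∑' m : ℕ, w τ m * (fd F m a - fg F m a) := by
    intro a _
    rw [tsum_split X hτ (fun m => cm_nonneg X F m a) (fun m => cm_le X F m a) D]
    have h1 : 0 ≤ ∑' k : ℕ, w τ (k + (D + 1)) * (fd F (k + (D + 1)) a - fg F (k + (D + 1)) a) :=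
      tsum_nonneg fun k => mul_nonneg (w_pos τ _).le (cm_nonneg X F _ a)
    linarith [cm_nonneg X F 0 a]
  -- upper bound of the right hand sides
  have hR : ∀ a ∈ AA, ∑' m : ℕ, w τ m * um X F P y p m a ≤
      p * (fd F 0 a - fg F 0 a) + ∑ k ∈ Finset.range D, w τ (k + 1) * um X F P y p (k + 1) a +
        p * ∑' k : ℕ, w τ (k + (D + 1)) * (fd F (k + (D + 1)) a - fg F (k + (D + 1)) a) := by
    intro a _
    have hb : ∀ m, um X F P y p m a ≤ p * NV X.V m := fun m =>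
      (um_le X F P y p m a).trans (mul_le_mul_of_nonneg_left
        (by have := cm_le X F m a; rwa [one_mul] at this) (Nat.cast_nonneg p))
    rw [tsum_split X hτ (fun m => um_nonneg X F P y p m a) hb D]
    have h1 : ∑' k : ℕ, w τ (k + (D + 1)) * um X F P y p (k + (D + 1)) a ≤
        p * ∑' k : ℕ, w τ (k + (D + 1)) * (fd F (k + (D + 1)) a - fg F (k + (D + 1)) a) := by
      rw [← tsum_mul_left]
      have s1 := (summable_nat_add_iff (D + 1)).2
        (summable_of_le X hτ (fun m => um_nonneg X F P y p m a) hb)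
      have s2 := ((summable_nat_add_iff (D + 1)).2
        (summable_of_le X hτ (fun m => cm_nonneg X F m a) (fun m => cm_le X F m a))).mul_left
          (p : ℝ)
      refine Summable.tsum_le_tsum (fun k => ?_) s1 s2
      calc w τ (k + (D + 1)) * um X F P y p (k + (D + 1)) a
          ≤ w τ (k + (D + 1)) * (p * (fd F (k + (D + 1)) a - fg F (k + (D + 1)) a)) :=
            mul_le_mul_of_nonneg_left (um_le X F P y p _ a) (w_pos τ _).le
        _ = _ := by ring
    have h2 := um_le X F P y p 0 a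
    linarith
  -- sum over `a`
  have hsum : c * ∑ a ∈ AA, Real.exp (-t * a) *
      ∑ k ∈ Finset.range D, w τ (k + 1) * (fd F (k + 1) a - fg F (k + 1) a) ≤
      ∑ a ∈ AA, Real.exp (-t * a) * (p * (fd F 0 a - fg F 0 a) +
        ∑ k ∈ Finset.range D, w τ (k + 1) * um X F P y p (k + 1) a +
        p * ∑' k : ℕ, w τ (k + (D + 1)) * (fd F (k + (D + 1)) a - fg F (k + (D + 1)) a)) := by
    rw [Finset.mul_sum]
    refine Finset.sum_le_sum fun a ha => ?_
    have h1 : c * ∑ k ∈ Finset.range D, w τ (k + 1) * (fd F (k + 1) a - fg F (k + 1) a) ≤ _ :=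
      (mul_le_mul_of_nonneg_left (hL a ha) hc).trans ((hcount a ha).trans (hR a ha))
    have h2 := mul_le_mul_of_nonneg_left h1 (hexp a ha).1
    calc c * (Real.exp (-t * a) *
          ∑ k ∈ Finset.range D, w τ (k + 1) * (fd F (k + 1) a - fg F (k + 1) a))
        = Real.exp (-t * a) *
          (c * ∑ k ∈ Finset.range D, w τ (k + 1) * (fd F (k + 1) a - fg F (k + 1) a)) := by ring
      _ ≤ _ := h2
  -- the left side
  have hleft : ∑ k ∈ Finset.range D, w τ (k + 1) * Zm F t (k + 1) ≤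
      ∑ a ∈ AA, Real.exp (-t * a) *
        ∑ k ∈ Finset.range D, w τ (k + 1) * (fd F (k + 1) a - fg F (k + 1) a) := by
    have h1 : ∑ a ∈ AA, Real.exp (-t * a) *
        ∑ k ∈ Finset.range D, w τ (k + 1) * (fd F (k + 1) a - fg F (k + 1) a) =
        ∑ k ∈ Finset.range D, w τ (k + 1) *
          ∑ a ∈ AA, Real.exp (-t * a) * (fd F (k + 1) a - fg F (k + 1) a) := by
      simp_rw [Finset.mul_sum]
      rw [Finset.sum_comm]
      refine Finset.sum_congr rfl fun k _ => Finset.sum_congr rfl fun a _ => ?_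
      ring
    rw [h1]
    refine Finset.sum_le_sum fun k hk => mul_le_mul_of_nonneg_left ?_ (w_pos τ _).le
    refine (Zm_le_sum X.V_fin F (k + 1) ht).trans ?_
    refine Finset.sum_le_sum_of_subset_of_nonneg (hAA k (Finset.mem_range.1 hk)) ?_
    intro a _ _
    exact mul_nonneg (Real.exp_pos _).le (cm_nonneg X F _ a)
  -- the right side
  have hright : ∑ a ∈ AA, Real.exp (-t * a) * (p * (fd F 0 a - fg F 0 a) +
        ∑ k ∈ Finset.range D, w τ (k + 1) * um X F P y p (k + 1) a +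
        p * ∑' k : ℕ, w τ (k + (D + 1)) * (fd F (k + (D + 1)) a - fg F (k + (D + 1)) a)) ≤
      Gam X F P y t τ p D + p * (1 + tailN X τ D) := by
    have h1 : ∑ a ∈ AA, Real.exp (-t * a) * (p * (fd F 0 a - fg F 0 a)) ≤ p * 1 := by
      have h2 := hJ 0
      rw [NV_zero] at h2
      calc ∑ a ∈ AA, Real.exp (-t * a) * (p * (fd F 0 a - fg F 0 a))
          = p * ∑ a ∈ AA, Real.exp (-t * a) * (fd F 0 a - fg F 0 a) := by
            rw [Finset.mul_sum]
            refine Finset.sum_congr rfl fun a _ => ?_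
            ring
        _ ≤ p * 1 := mul_le_mul_of_nonneg_left h2 (Nat.cast_nonneg p)
    have h2 : ∑ a ∈ AA, Real.exp (-t * a) *
        ∑ k ∈ Finset.range D, w τ (k + 1) * um X F P y p (k + 1) a = Gam X F P y t τ p D := by
      unfold Gam
      simp_rw [Finset.mul_sum]
      rw [Finset.sum_comm]
      refine Finset.sum_congr rfl fun k hk => ?_
      rw [Finset.sum_subset (hAA k (Finset.mem_range.1 hk))]
      · refine Finset.sum_congr rfl fun a _ => ?_
        ring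
      · intro a _ ha
        rw [um_eq_zero X F P y p _ ha]; ring
    have h3 : ∑ a ∈ AA, Real.exp (-t * a) *
        (p * ∑' k : ℕ, w τ (k + (D + 1)) * (fd F (k + (D + 1)) a - fg F (k + (D + 1)) a)) ≤
        p * tailN X τ D := by
      have e1 : ∑ a ∈ AA, Real.exp (-t * a) *
          (p * ∑' k : ℕ, w τ (k + (D + 1)) * (fd F (k + (D + 1)) a - fg F (k + (D + 1)) a)) =
          p * ∑ a ∈ AA, ∑' k : ℕ, Real.exp (-t * a) *
            (w τ (k + (D + 1)) * (fd F (k + (D + 1)) a - fg F (k + (D + 1)) a)) := by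
        rw [Finset.mul_sum]
        refine Finset.sum_congr rfl fun a _ => ?_
        rw [tsum_mul_left]
        ring
      have s2 : ∀ a ∈ AA, Summable fun k : ℕ => Real.exp (-t * a) *
          (w τ (k + (D + 1)) * (fd F (k + (D + 1)) a - fg F (k + (D + 1)) a)) := fun a _ =>
        ((summable_nat_add_iff (D + 1)).2
          (summable_of_le X hτ (fun m => cm_nonneg X F m a) (fun m => cm_le X F m a))).mul_left _
      rw [e1, ← Summable.tsum_finsetSum s2]
      refine mul_le_mul_of_nonneg_left ?_ (Nat.cast_nonneg p)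
      unfold tailN
      refine Summable.tsum_le_tsum (fun k => ?_) (summable_sum s2)
        ((summable_nat_add_iff (D + 1)).2 (summable_NV X hτ))
      calc ∑ a ∈ AA, Real.exp (-t * a) *
            (w τ (k + (D + 1)) * (fd F (k + (D + 1)) a - fg F (k + (D + 1)) a))
          = w τ (k + (D + 1)) *
            ∑ a ∈ AA, Real.exp (-t * a) * (fd F (k + (D + 1)) a - fg F (k + (D + 1)) a) := by
            rw [Finset.mul_sum]
            refine Finset.sum_congr rfl fun a _ => ?_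
            ring
        _ ≤ _ := mul_le_mul_of_nonneg_left (hJ _) (w_pos τ _).le
    calc ∑ a ∈ AA, Real.exp (-t * a) * (p * (fd F 0 a - fg F 0 a) +
          ∑ k ∈ Finset.range D, w τ (k + 1) * um X F P y p (k + 1) a +
          p * ∑' k : ℕ, w τ (k + (D + 1)) * (fd F (k + (D + 1)) a - fg F (k + (D + 1)) a))
        = ∑ a ∈ AA, Real.exp (-t * a) * (p * (fd F 0 a - fg F 0 a)) +
          ∑ a ∈ AA, Real.exp (-t * a) *
            ∑ k ∈ Finset.range D, w τ (k + 1) * um X F P y p (k + 1) a +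
          ∑ a ∈ AA, Real.exp (-t * a) *
            (p * ∑' k : ℕ, w τ (k + (D + 1)) *
              (fd F (k + (D + 1)) a - fg F (k + (D + 1)) a)) := by
          rw [← Finset.sum_add_distrib, ← Finset.sum_add_distrib]
          refine Finset.sum_congr rfl fun a _ => ?_
          ring
      _ ≤ _ := by rw [h2]; linarith
  calc c * ∑ k ∈ Finset.range D, w τ (k + 1) * Zm F t (k + 1)
      ≤ c * ∑ a ∈ AA, Real.exp (-t * a) *
        ∑ k ∈ Finset.range D, w τ (k + 1) * (fd F (k + 1) a - fg F (k + 1) a) :=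
        mul_le_mul_of_nonneg_left hleft hc
    _ ≤ _ := hsum.trans hright

end counting

/-! ### the partition function -/

lemma w_eq (t κ : ℝ) (m : ℕ) : Real.exp (-t * κ * m) = w (t * κ) m := by
  unfold w
  congr 1
  ring

lemma ZZ_eq (F : Filt X.V) (t κ : ℝ) : ZZ F t κ = ∑' m : ℕ, w (t * κ) m * Zm F t m := by
  unfold ZZ
  simp_rw [w_eq]

lemma summable_Zm (F : Filt X.V) {t τ : ℝ} (ht : 0 < t) (hτ : 0 < τ) :
    Summable (fun m : ℕ => w τ m * Zm F t m) :=
  summable_of_le X hτ (c := 1) (fun m => Zm_nonneg X.V_fin F m ht)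
    (fun m => by rw [one_mul]; exact Zm_le_NV X.V_fin F m ht)

lemma ZZ_split (F : Filt X.V) {t κ : ℝ} (ht : 0 < t) (hκ : 0 < κ) (D : ℕ) :
    ZZ F t κ ≤ 1 + ∑ k ∈ Finset.range D, w (t * κ) (k + 1) * Zm F t (k + 1) +
      tailN X (t * κ) D := by
  have hτ : 0 < t * κ := mul_pos ht hκ
  rw [ZZ_eq, tsum_split X hτ (c := 1) (fun m => Zm_nonneg X.V_fin F m ht)
    (fun m => by rw [one_mul]; exact Zm_le_NV X.V_fin F m ht) D]
  have h1 : Zm F t 0 ≤ 1 := by
    rw [← NV_zero X]; exact Zm_le_NV X.V_fin F 0 ht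
  have h2 : ∑' k : ℕ, w (t * κ) (k + (D + 1)) * Zm F t (k + (D + 1)) ≤ tailN X (t * κ) D := by
    refine Summable.tsum_le_tsum (fun k => ?_) ((summable_nat_add_iff (D + 1)).2
      (summable_Zm X F ht hτ)) ((summable_nat_add_iff (D + 1)).2 (summable_NV X hτ))
    exact mul_le_mul_of_nonneg_left (Zm_le_NV X.V_fin F _ ht) (w_pos _ _).le
  linarith

/-- the gain of the partition function -/
theorem ZZ_gain {F G : Filt X.V} (P : Ideal X.B) (y : X.B →ₐ[ℂ] ℂ)
    (hFG : ∀ m l, F.F m l ≤ G.F m l) {t κ : ℝ} (ht : 0 < t) (hκ : 0 < κ)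
    {s : ℝ} (hs : 0 < s) (p D : ℕ)
    (hδ : ∀ k < D, ∀ a ∈ jmp X.V_fin F (k + 1), ∀ l, a < l → l ≤ a + s * p →
      fd F (k + 1) l = fg F (k + 1) a)
    (hr : ∀ k < D, ∀ a ∈ jmp X.V_fin F (k + 1), ∀ e ∈ Finset.Icc 1 p,
      uu X F P y (k + 1) a e ≤ fd G (k + 1) (a + s * e)) :
    s * (t * Real.exp (-t * (s * p)) * Gam X F P y t (t * κ) p D) ≤ ZZ F t κ - ZZ G t κ := by
  have hτ : 0 < t * κ := mul_pos ht hκ
  have sF := summable_Zm X F ht hτ
  have sG := summable_Zm X G ht hτ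
  have hnn : ∀ m, 0 ≤ w (t * κ) m * (Zm F t m - Zm G t m) := fun m =>
    mul_nonneg (w_pos _ _).le (sub_nonneg.2 (Zm_mono X.V_fin (hFG m) ht))
  have e1 : ZZ F t κ - ZZ G t κ = ∑' m : ℕ, w (t * κ) m * (Zm F t m - Zm G t m) := by
    rw [ZZ_eq, ZZ_eq, ← Summable.tsum_sub sF sG]
    refine tsum_congr fun m => ?_
    ring
  have sD : Summable fun m : ℕ => w (t * κ) m * (Zm F t m - Zm G t m) := by
    refine (sF.sub sG).congr fun m => ?_
    ring
  rw [e1]
  have e2 : ∑ k ∈ Finset.range D, w (t * κ) (k + 1) * (Zm F t (k + 1) - Zm G t (k + 1)) ≤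
      ∑' m : ℕ, w (t * κ) m * (Zm F t m - Zm G t m) := by
    rw [← sD.sum_add_tsum_nat_add (D + 1), Finset.sum_range_succ']
    have h1 : 0 ≤ ∑' k : ℕ, w (t * κ) (k + (D + 1)) *
        (Zm F t (k + (D + 1)) - Zm G t (k + (D + 1))) := tsum_nonneg fun k => hnn _
    linarith [hnn 0]
  refine le_trans ?_ e2
  unfold Gam
  rw [Finset.mul_sum, Finset.mul_sum]
  refine Finset.sum_le_sum fun k hk => ?_
  rw [Finset.mem_range] at hk
  have h1 := Zm_gain X.V_fin (m := k + 1) (hFG (k + 1)) ht hs p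
    (fun a e => uu X F P y (k + 1) a e) (hδ k hk) (hr k hk)
    (fun a _ e _ => fg_le_uu X F P y (k + 1) a e)
  have h2 := mul_le_mul_of_nonneg_left h1 (w_pos (t * κ) (k + 1)).le
  refine le_trans (le_of_eq ?_) h2
  simp only [um, Finset.mul_sum]
  refine Finset.sum_congr rfl fun a _ => Finset.sum_congr rfl fun e _ => ?_
  have e3 : Real.exp (-t * (a + s * p)) = Real.exp (-t * (s * p)) * Real.exp (-t * a) := by
    rw [← Real.exp_add]; congr 1; ring
  rw [e3]
  ring

end Crest.Agent.R271.N6x241
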