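import Mathlib
import Crest.Agent.R271.N6c_241

/-!
Row 271, team N, piece N6: `NonIsoStmt` from `PerturbStmt`, `CountStmt` and "the partition function
is large" (`ZLarge`, helper593).
-/

set_option autoImplicit false

open scoped ENNReal NNReal Topology BigOperators
open MeasureTheory

noncomputable section

namespace Crest.Agent.R271.N6x241

open Crest.Agent.R271.Defs710 Crest.Agent.R271.N647

variable {n : ℕ} (X : FCtx n)

/-- the partition function is large (statement of `N6b593.zz_large`) -/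
def ZLarge : Prop := ∀ κ : ℝ, 0 < κ → ∀ K : ℝ, ∃ t₀ ε₀ : ℝ, 0 < t₀ ∧ 0 < ε₀ ∧
  ∀ t : ℝ, 0 < t → t ≤ t₀ → ∀ ε : ℝ, 0 < ε → ε ≤ ε₀ → ∀ (F : Filt X.V) (A : ℝ), 0 < A →
    (∀ l : ℝ, Good X.z F X.x l → l ≤ A) → EkelandAt X F A ε t κ → K < ZZ F t κ

/-- the conclusion of `CountStmt` for given parameters -/
def CountAt (d : ℕ) (e₁ τ : ℝ) (p : ℕ) : Prop :=
  ∀ (F : Filt X.V) (P : Ideal X.B), P.IsPrime → ringKrullDim (X.B ⧸ P) = d →
    ∀ a : ℝ, ∃ h : X.B, h ∉ P ∧ ∀ y : X.B →ₐ[ℂ] ℂ, P ≤ mI y → y h ≠ 0 →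
      (1 - e₁) * (d / τ) * ∑' m : ℕ, w τ m * (fd F m a - fg F m a) ≤
        ∑' m : ℕ, w τ m * um X F P y p m a

lemma uniform_count (hC : CountStmt X) {e₁ : ℝ} (he₁ : 0 < e₁) (N : ℕ) :
    ∃ τ₀ C₁ : ℝ, 0 < τ₀ ∧ 0 < C₁ ∧ ∀ d : ℕ, 1 ≤ d → d ≤ N → ∀ τ : ℝ, 0 < τ → τ ≤ τ₀ →
      ∀ p : ℕ, C₁ / τ ≤ p → CountAt X d e₁ τ p := by
  induction N with
  | zero => exact ⟨1, 1, one_pos, one_pos, fun d h1 h2 => by omega⟩
  | succ N ih =>
    obtain ⟨τ₀, C₁, hτ₀, hC₁, h⟩ := ih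
    obtain ⟨τ₀', C₁', hτ₀', hC₁', h'⟩ := hC (N + 1) e₁ (by omega) he₁
    refine ⟨min τ₀ τ₀', max C₁ C₁', lt_min hτ₀ hτ₀', lt_max_of_lt_left hC₁, ?_⟩
    intro d hd hdN τ hτ hττ p hp
    rcases Nat.lt_or_ge N d with hlt | hge
    · have hd' : d = N + 1 := by omega
      subst hd'
      refine h' τ hτ (hττ.trans (min_le_right _ _)) p (le_trans ?_ hp)
      exact div_le_div_of_nonneg_right (le_max_right _ _) hτ.le
    · refine h d hd hge τ hτ (hττ.trans (min_le_left _ _)) p (le_trans ?_ hp)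
      exact div_le_div_of_nonneg_right (le_max_left _ _) hτ.le

lemma one_le_ZZ (F : Filt X.V) {t κ : ℝ} (ht : 0 < t) (hκ : 0 < κ) : 1 ≤ ZZ F t κ := by
  have hτ : 0 < t * κ := mul_pos ht hκ
  have h1 : 1 ≤ Zm F t 0 := by
    have h := Zm_ge X.V_fin F 0 ht le_rfl (fun l hl => by
      obtain ⟨C, hC⟩ := F.bdd
      exact hC 0 l (by simpa using hl))
    rw [NV_zero] at h
    simpa using h
  rw [ZZ_eq]
  have h2 := (summable_Zm X F ht hτ).le_tsum 0
    (fun m _ => mul_nonneg (w_pos _ m).le (Zm_nonneg X.V_fin F m ht))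
  simp only [w_zero, one_mul] at h2
  exact h1.trans h2

/-- Ekeland + gain at one perturbation -/
lemma ekeland_gain {F G : Filt X.V} {A ε t κ : ℝ} (hE : EkelandAt X F A ε t κ) (hA : 0 < A)
    (ht : 0 < t) (hκ : 0 < κ) {s : ℝ} (hs : 0 < s) (p d : ℕ)
    (hFG : ∀ m l, F.F m l ≤ G.F m l) (hGF : ∀ m l, G.F m l ≤ F.F m (l - (s * p) * m))
    (hgood : ∀ l : ℝ, Good X.z G X.x l → l ≤ A + s * d) :
    ZZ F t κ - ZZ G t κ ≤ s * (ZZ F t κ * (d + ε * p)) := by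
  have hZF : 0 < ZZ F t κ := lt_of_lt_of_le one_pos (one_le_ZZ X F ht hκ)
  have hZG : 0 < ZZ G t κ := lt_of_lt_of_le one_pos (one_le_ZZ X G ht hκ)
  have hsp : 0 ≤ s * p := by positivity
  have h1 := hE G (s * p) (A + s * d) hsp (by positivity) (fun m l => ⟨?_, hGF m l⟩) hgood
  · have h2 : Real.log (ZZ F t κ) - Real.log (ZZ G t κ) ≤ s * (d + ε * p) := by
      have : s * (d + ε * p) = s * d + ε * (s * p) := by ring
      rw [this]; linarith
    have h3 := Real.one_sub_inv_le_log_of_pos (div_pos hZF hZG)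
    rw [Real.log_div hZF.ne' hZG.ne', inv_div] at h3
    have h4 : 1 - ZZ G t κ / ZZ F t κ ≤ s * (d + ε * p) := h3.trans h2
    have h5 : ZZ F t κ * (1 - ZZ G t κ / ZZ F t κ) ≤ ZZ F t κ * (s * (d + ε * p)) :=
      mul_le_mul_of_nonneg_left h4 hZF.le
    have h6 : ZZ F t κ * (1 - ZZ G t κ / ZZ F t κ) = ZZ F t κ - ZZ G t κ := by
      field_simp
    rw [h6] at h5
    linarith
  · refine (hFG m l).trans (G.anti m ?_)
    have : 0 ≤ (s * p) * (m : ℝ) := by positivity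
    linarith

/-- the inequality for sections of degree `≤ D` -/
theorem ineq_D (hP : PerturbStmt X) {F : Filt X.V} {A : ℝ} {P : Ideal X.B} {d : ℕ} (hd : 1 ≤ d)
    (hcen : Center X F A P d) {t κ ε e₁ : ℝ} (ht : 0 < t) (hκ : 0 < κ)
    (he₁' : e₁ ≤ 1) (hE : EkelandAt X F A ε t κ) {p : ℕ} (hp : 1 ≤ p)
    (hcount : CountAt X d e₁ (t * κ) p) (D : ℕ) :
    (1 - e₁) * (d / κ) * (ZZ F t κ - 1 - tailN X (t * κ) D) ≤
      ZZ F t κ * (d + ε * p) + t * p * (1 + tailN X (t * κ) D) := by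
  classical
  have hτ : 0 < t * κ := mul_pos ht hκ
  set AA : Finset ℝ := (Finset.range D).biUnion (fun k => jmp X.V_fin F (k + 1)) with hAAdef
  have hAAsub : ∀ k < D, jmp X.V_fin F (k + 1) ⊆ AA := fun k hk =>
    Finset.subset_biUnion_of_mem (fun k => jmp X.V_fin F (k + 1)) (Finset.mem_range.2 hk)
  have hAA0 : ∀ a ∈ AA, 0 ≤ a := by
    intro a ha
    rw [hAAdef, Finset.mem_biUnion] at ha
    obtain ⟨k, _, hk⟩ := ha
    exact jmp_nonneg X.V_fin F hk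
  obtain ⟨h, r, hh, hr, s₀, hs₀, hG⟩ := hP F A P d hd hcen (Fin D × ↥AA × Fin p)
    (fun i => i.1.1 + 1) (fun i => (i.2.1 : ℝ)) (fun i => i.2.2.1 + 1) p
    (fun i => ⟨by omega, hAA0 _ i.2.1.2, i.2.2.2⟩) hp
  choose ha hha hcount' using hcount F P hcen.prime hcen.dim
  -- a general point
  have hprod : h * ∏ a ∈ AA, ha a ∉ P := by
    intro hmem
    rcases hcen.prime.mem_or_mem hmem with h1 | h1
    · exact hh h1
    · obtain ⟨a, _, ha2⟩ := (hcen.prime.prod_mem_iff).1 h1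
      exact hha a ha2
  obtain ⟨y, hy, hyh⟩ := exists_general X P hcen.prime _ hprod
  rw [map_mul, map_prod] at hyh
  have hyh1 : y h ≠ 0 := left_ne_zero_of_mul hyh
  have hyh2 : ∀ a ∈ AA, y (ha a) ≠ 0 := Finset.prod_ne_zero_iff.1 (right_ne_zero_of_mul hyh)
  -- counting
  have hcb := count_bound X F P y ht hτ p D (c := (1 - e₁) * (d / (t * κ)))
    (mul_nonneg (by linarith) (by positivity)) AA hAA0 hAAsub
    (fun a haA => hcount' a y hy (hyh2 a haA))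
  -- gain
  have hev : ∀ᶠ s in 𝓝[>] (0 : ℝ), t * Real.exp (-t * (s * p)) * Gam X F P y t (t * κ) p D ≤
      ZZ F t κ * (d + ε * p) := by
    have hppos : (0 : ℝ) < p := by exact_mod_cast hp
    have e1 : ∀ᶠ s in 𝓝[>] (0 : ℝ), ∀ k ∈ Finset.range D, ∀ a ∈ jmp X.V_fin F (k + 1),
        ∀ l, a < l → l ≤ a + s * p → fd F (k + 1) l = fg F (k + 1) a := by
      rw [Filter.eventually_all_finset]
      intro k _
      rw [Filter.eventually_all_finset]
      intro a _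
      obtain ⟨δ, hδ, hδ'⟩ := fd_right X.V_fin F (k + 1) a
      have h1 : ∀ᶠ s in 𝓝[>] (0 : ℝ), s < δ / p :=
        (gt_mem_nhds (div_pos hδ hppos)).filter_mono nhdsWithin_le_nhds
      filter_upwards [h1] with s hs l hl hl'
      refine hδ' l hl (hl'.trans ?_)
      rw [lt_div_iff₀ hppos] at hs
      linarith
    have e2 : ∀ᶠ s in 𝓝[>] (0 : ℝ), s < s₀ :=
      (gt_mem_nhds hs₀).filter_mono nhdsWithin_le_nhds
    have e3 : ∀ᶠ s in 𝓝[>] (0 : ℝ), 0 < s := self_mem_nhdsWithin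
    filter_upwards [e1, e2, e3] with s hs1 hs2 hs3
    obtain ⟨G, hFG, hGF, hGr, hgood⟩ := hG s hs3 hs2.le
    have h1 := ZZ_gain X P y hFG ht hκ hs3 p D
      (fun k hk a haJ l hl hl' => hs1 k (Finset.mem_range.2 hk) a haJ l hl hl')
      (fun k hk a haJ e he => by
        rw [Finset.mem_Icc] at he
        have haA : a ∈ AA := hAAsub k hk haJ
        obtain ⟨e', rfl⟩ : ∃ e', e = e' + 1 := ⟨e - 1, by omega⟩
        have hepf : e' < p := by omega
        have h2 := hGr (⟨k, hk⟩, ⟨a, haA⟩, ⟨e', hepf⟩)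
        have h3 := hr y hy hyh1 (⟨k, hk⟩, ⟨a, haA⟩, ⟨e', hepf⟩)
        rw [← h3] at h2
        exact Nat.cast_le.2 h2)
    have h2 := ekeland_gain X hE hcen.A_pos ht hκ hs3 p d hFG hGF hgood
    exact le_of_mul_le_mul_left (h1.trans h2) hs3
  have hlim : t * Gam X F P y t (t * κ) p D ≤ ZZ F t κ * (d + ε * p) := by
    have hcont : Filter.Tendsto (fun s : ℝ => t * Real.exp (-t * (s * p)) *
        Gam X F P y t (t * κ) p D) (𝓝[>] (0 : ℝ)) (𝓝 (t * Real.exp (-t * (0 * p)) *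
        Gam X F P y t (t * κ) p D)) := by
      have : Continuous (fun s : ℝ => t * Real.exp (-t * (s * p)) *
        Gam X F P y t (t * κ) p D) := by fun_prop
      exact this.continuousAt.tendsto.mono_left nhdsWithin_le_nhds
    have h1 := le_of_tendsto hcont hev
    simpa using h1
  -- combination
  have hsplit := ZZ_split X F ht hκ D
  have h1 : (1 - e₁) * (d / (t * κ)) * (ZZ F t κ - 1 - tailN X (t * κ) D) ≤
      Gam X F P y t (t * κ) p D + p * (1 + tailN X (t * κ) D) := by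
    refine le_trans (mul_le_mul_of_nonneg_left ?_
      (mul_nonneg (by linarith) (by positivity))) hcb
    linarith
  have h2 := mul_le_mul_of_nonneg_left h1 ht.le
  have h3 : t * ((1 - e₁) * (d / (t * κ)) * (ZZ F t κ - 1 - tailN X (t * κ) D)) =
      (1 - e₁) * (d / κ) * (ZZ F t κ - 1 - tailN X (t * κ) D) := by
    field_simp
  rw [h3] at h2
  linarith

/-- the limit inequality -/
theorem ineq_lim (hP : PerturbStmt X) {F : Filt X.V} {A : ℝ} {P : Ideal X.B} {d : ℕ}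
    (hd : 1 ≤ d) (hcen : Center X F A P d) {t κ ε e₁ : ℝ} (ht : 0 < t) (hκ : 0 < κ)
    (he₁' : e₁ ≤ 1) (hE : EkelandAt X F A ε t κ) {p : ℕ} (hp : 1 ≤ p)
    (hcount : CountAt X d e₁ (t * κ) p) :
    (1 - e₁) * (d / κ) * (ZZ F t κ - 1) ≤ ZZ F t κ * (d + ε * p) + t * p := by
  have h1 := tailN_tendsto X (t * κ)
  have h2 : Filter.Tendsto (fun D => (1 - e₁) * (d / κ) * (ZZ F t κ - 1 - tailN X (t * κ) D))
      Filter.atTop (𝓝 ((1 - e₁) * (d / κ) * (ZZ F t κ - 1 - 0))) :=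
    (h1.const_sub _).const_mul _
  have h3 : Filter.Tendsto (fun D => ZZ F t κ * (d + ε * p) + t * p * (1 + tailN X (t * κ) D))
      Filter.atTop (𝓝 (ZZ F t κ * (d + ε * p) + t * p * (1 + 0))) :=
    ((h1.const_add _).const_mul _).const_add _
  have h4 := le_of_tendsto_of_tendsto' h2 h3
    (fun D => ineq_D X hP hd hcen ht hκ he₁' hE hp hcount D)
  simpa using h4

theorem nonIsoStmt' (hg : GenFact X) (hP : PerturbStmt X) (hC : CountStmt X)
    (hL : ZLarge X) : NonIsoStmt X := by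
  intro κ hκ1 hκ2
  have hκ : 0 < κ := by linarith
  set e₁ : ℝ := (1 - κ) / 2 with he₁def
  have he₁ : 0 < e₁ := by rw [he₁def]; linarith
  have he₁' : e₁ ≤ 1 := by rw [he₁def]; linarith
  set g₀ : ℝ := (1 - e₁) / κ - 1 with hg₀def
  have hg₀ : 0 < g₀ := by
    rw [hg₀def, sub_pos, lt_div_iff₀ hκ, he₁def]
    linarith
  obtain ⟨τ₀, C₁, hτ₀, hC₁, hcount⟩ := uniform_count X hC he₁ n
  set Q : ℝ := C₁ / κ + 1 with hQ
  set K : ℝ := (2 / g₀) * ((1 + g₀) * n + Q) with hK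
  obtain ⟨t₁, ε₁, ht₁, hε₁, hlarge⟩ := hL κ hκ K
  refine ⟨min t₁ (min (τ₀ / κ) 1), lt_min ht₁ (lt_min (div_pos hτ₀ hκ) one_pos), ?_⟩
  intro t ht htt
  have htt1 : t ≤ t₁ := htt.trans (min_le_left _ _)
  have htt2 : t ≤ τ₀ / κ := htt.trans ((min_le_right _ _).trans (min_le_left _ _))
  have htt3 : t ≤ 1 := htt.trans ((min_le_right _ _).trans (min_le_right _ _))
  have hτ : 0 < t * κ := mul_pos ht hκ
  have hττ : t * κ ≤ τ₀ := by rwa [le_div_iff₀ hκ] at htt2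
  set p : ℕ := ⌈C₁ / (t * κ)⌉₊ with hpdef
  have hp : 1 ≤ p := Nat.one_le_iff_ne_zero.2 (Nat.ceil_pos.2 (div_pos hC₁ hτ)).ne'
  have hppos : (0 : ℝ) < p := by exact_mod_cast hp
  have hp1 : C₁ / (t * κ) ≤ p := Nat.le_ceil _
  have hp2 : (p : ℝ) < C₁ / (t * κ) + 1 := Nat.ceil_lt_add_one (div_pos hC₁ hτ).le
  have htp : t * p ≤ Q := by
    have h1 := mul_le_mul_of_nonneg_left hp2.le ht.le
    have h2 : t * (C₁ / (t * κ) + 1) = C₁ / κ + t := by field_simp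
    rw [h2] at h1
    rw [hQ]; linarith
  refine ⟨min ε₁ (g₀ / (2 * p)), lt_min hε₁ (by positivity), ?_⟩
  intro ε hε hεε F A hE P d hd hcen
  have hε1 : ε ≤ ε₁ := hεε.trans (min_le_left _ _)
  have hε2 : ε * p ≤ g₀ / 2 := by
    have h1 : ε ≤ g₀ / (2 * p) := hεε.trans (min_le_right _ _)
    have h2 := mul_le_mul_of_nonneg_right h1 hppos.le
    have h3 : g₀ / (2 * p) * p = g₀ / 2 := by field_simp
    rwa [h3] at h2
  have hdn : d < n := dim_lt X hg P hcen.prime hcen.ne_bot d hcen.dim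
  have hgood : ∀ l : ℝ, Good X.z F X.x l → l ≤ A := hcen.good_le X.x hcen.le
  have hZK := hlarge t ht htt1 ε hε hε1 F A hcen.A_pos hgood hE
  have hineq := ineq_lim X hP hd hcen ht hκ he₁' hE hp
    (hcount d hd hdn.le (t * κ) hτ hττ p hp1)
  set Z := ZZ F t κ with hZdef
  have hd1 : (1 : ℝ) ≤ d := by exact_mod_cast hd
  have hdn' : (d : ℝ) ≤ n := by exact_mod_cast hdn.le
  have hZ1 : 1 ≤ Z := one_le_ZZ X F ht hκ
  have h1 : (1 - e₁) * (d / κ) = (1 + g₀) * d := by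
    rw [hg₀def]; field_simp; ring
  rw [h1] at hineq
  -- `g₀ d Z ≤ (1+g₀) d + ε p Z + t p`
  have h2 : (g₀ / 2) * Z ≤ (1 + g₀) * n + Q := by
    have h3 : ε * p * Z ≤ g₀ / 2 * Z := mul_le_mul_of_nonneg_right hε2 (by linarith)
    have h4 : g₀ * Z ≤ g₀ * d * Z := by
      have : g₀ * 1 ≤ g₀ * d := mul_le_mul_of_nonneg_left hd1 hg₀.le
      have := mul_le_mul_of_nonneg_right this (by linarith : (0 : ℝ) ≤ Z)
      linarith
    have h5 : (1 + g₀) * d ≤ (1 + g₀) * n := mul_le_mul_of_nonneg_left hdn' (by linarith)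
    nlinarith
  have h3 : K < Z := hZK
  have h4 : (g₀ / 2) * K = (1 + g₀) * n + Q := by
    rw [hK]; field_simp
  have h5 : (g₀ / 2) * K < (g₀ / 2) * Z := mul_lt_mul_of_pos_left h3 (by positivity)
  linarith

end Crest.Agent.R271.N6x241
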