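import Crest.Agent.R271.NSpec_647

/-!
Row 271, N5b: the perturbed filtration (8.4)-(8.5): `PerturbStmt` from `AFacts`, `P2Stmt`,
`GenFiltStmt`, `LimitStmt`.
-/

set_option autoImplicit false

open scoped ENNReal NNReal Topology BigOperators
open MeasureTheory Filter

noncomputable section

namespace Crest.Agent.R271.Perturb969

open Crest.Agent.R271.Defs710 Crest.Agent.R271.N647

section alg

variable {n : ℕ} {B : Type} [CommRing B] [Algebra ℂ B] {V : ℕ → Submodule ℂ B}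

theorem idl_anti (F : Filt V) {l l' : ℝ} (h : l ≤ l') : idl F l' ≤ idl F l :=
  Ideal.span_mono fun _ hb => ⟨hb.choose, F.anti _ h hb.choose_spec⟩

theorem idl_mul (F : Filt V) (l l' : ℝ) : idl F l * idl F l' ≤ idl F (l + l') := by
  rw [idl, idl, Ideal.span_mul_span', Ideal.span_le]
  rintro _ ⟨a, ⟨m, ha⟩, b, ⟨m', hb⟩, rfl⟩
  exact Ideal.subset_span ⟨m + m', F.mul m l m' l' a b ha hb⟩

theorem idl_le_Wl (F : Filt V) (P : Ideal B) (y : B →ₐ[ℂ] ℂ) (σ s l : ℝ) :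
    idl F l ≤ Wl F P y σ s l := by
  refine le_trans ?_ (le_iSup₂_of_le (f := fun (b : ℕ) (e : ℕ) =>
    idl F (l - σ * b - s * e) * P ^ b * mI y ^ e) 0 0 le_rfl)
  simp

theorem term_le_Wl (F : Filt V) (P : Ideal B) (y : B →ₐ[ℂ] ℂ) (σ s l : ℝ) (b e : ℕ) :
    idl F (l - σ * b - s * e) * P ^ b * mI y ^ e ≤ Wl F P y σ s l :=
  le_iSup₂_of_le (f := fun (b : ℕ) (e : ℕ) =>
    idl F (l - σ * b - s * e) * P ^ b * mI y ^ e) b e le_rfl

theorem Wl_mul (F : Filt V) (P : Ideal B) (y : B →ₐ[ℂ] ℂ) (σ s l l' : ℝ) :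
    Wl F P y σ s l * Wl F P y σ s l' ≤ Wl F P y σ s (l + l') := by
  rw [Wl, Ideal.iSup_mul]
  refine iSup_le fun b => ?_
  rw [Ideal.iSup_mul]
  refine iSup_le fun e => ?_
  rw [Wl, Ideal.mul_iSup]
  refine iSup_le fun b' => ?_
  rw [Ideal.mul_iSup]
  refine iSup_le fun e' => ?_
  refine le_trans ?_ (term_le_Wl F P y σ s (l + l') (b + b') (e + e'))
  have h1 : idl F (l - σ * b - s * e) * P ^ b * mI y ^ e *
      (idl F (l' - σ * b' - s * e') * P ^ b' * mI y ^ e') =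
      (idl F (l - σ * b - s * e) * idl F (l' - σ * b' - s * e')) * P ^ (b + b') *
        mI y ^ (e + e') := by
    rw [pow_add, pow_add]; ring
  rw [h1]
  refine Ideal.mul_mono (Ideal.mul_mono ?_ le_rfl) le_rfl
  refine (idl_mul F _ _).trans (idl_anti F (le_of_eq ?_))
  push_cast; ring

theorem Wl_pow (F : Filt V) (P : Ideal B) (y : B →ₐ[ℂ] ℂ) (σ s l : ℝ) (N : ℕ) (hN : 1 ≤ N) :
    Wl F P y σ s l ^ N ≤ Wl F P y σ s (N * l) := by
  induction N, hN using Nat.le_induction with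
  | base => simp
  | succ N hN ih =>
    rw [pow_succ]
    refine (Ideal.mul_mono ih le_rfl).trans ((Wl_mul F P y σ s _ _).trans (le_of_eq ?_))
    congr 1
    push_cast; ring

theorem U_le_Wl (F : Filt V) (P : Ideal B) (y : B →ₐ[ℂ] ℂ) (σ s a δ : ℝ) (m e : ℕ)
    (hse : s * e ≤ σ) (hδ : s * e ≤ δ) (hgt : idlGt F a ≤ idl F (a + δ)) {f : B}
    (hf : f ∈ U F P y m a e) : f ∈ Wl F P y σ s (a + s * e) := by
  have h2 : f ∈ mI y ^ e * idl F a ⊔ P * idl F a ⊔ idlGt F a := hf.2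
  refine (sup_le (sup_le ?_ ?_) ?_ : mI y ^ e * idl F a ⊔ P * idl F a ⊔ idlGt F a ≤ _) h2
  · refine le_trans ?_ (term_le_Wl F P y σ s (a + s * e) 0 e)
    rw [pow_zero, mul_one, mul_comm]
    refine Ideal.mul_mono (idl_anti F ?_) le_rfl
    simp
  · refine le_trans ?_ (term_le_Wl F P y σ s (a + s * e) 1 0)
    rw [pow_one, pow_zero, mul_one, mul_comm]
    refine Ideal.mul_mono (idl_anti F ?_) le_rfl
    simp; linarith
  · refine hgt.trans ((idl_anti F ?_).trans (idl_le_Wl F P y σ s _))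
    linarith

/-- a jump gap at `a` -/
theorem exists_gap [IsNoetherianRing B] (F : Filt V) (a : ℝ) :
    ∃ δ : ℝ, 0 < δ ∧ idlGt F a ≤ idl F (a + δ) := by
  have hfg : (idlGt F a).FG := IsNoetherian.noetherian _
  have hdir : Directed (· ≤ ·) fun l : Set.Ioi a => idl F l.1 := by
    intro l l'
    exact ⟨⟨min l.1 l'.1, Set.mem_Ioi.2 (lt_min l.2 l'.2)⟩, idl_anti F (min_le_left _ _),
      idl_anti F (min_le_right _ _)⟩
  have hne : Nonempty (Set.Ioi a) := ⟨⟨a + 1, by simp⟩⟩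
  obtain ⟨T, hT⟩ := hfg
  -- each generator lies in one of the ideals
  have h1 : ∀ t ∈ T, ∃ l : Set.Ioi a, t ∈ idl F l.1 := by
    intro t ht
    have : t ∈ idlGt F a := by rw [← hT]; exact Ideal.subset_span ht
    exact (Submodule.mem_iSup_of_directed _ hdir).1 this
  have h3 : ∀ T' : Finset B, (∀ t ∈ T', ∃ l : Set.Ioi a, t ∈ idl F l.1) →
      ∃ l : Set.Ioi a, ∀ t ∈ T', t ∈ idl F l.1 := by
    classical
    intro T'
    induction T' using Finset.induction_on with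
    | empty => intro _; exact ⟨hne.some, by simp⟩
    | insert t T' _ ih =>
      intro h
      obtain ⟨l, hl⟩ := ih fun t' ht' => h t' (Finset.mem_insert_of_mem ht')
      obtain ⟨l', hl'⟩ := h t (Finset.mem_insert_self _ _)
      obtain ⟨l'', h₁, h₂⟩ := hdir l l'
      refine ⟨l'', fun t' ht' => ?_⟩
      rcases Finset.mem_insert.1 ht' with rfl | ht'
      · exact h₂ hl'
      · exact h₁ (hl t' ht')
  obtain ⟨l, hl⟩ := h3 T h1
  refine ⟨l.1 - a, sub_pos.2 l.2, ?_⟩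
  rw [← hT, Ideal.span_le]
  intro t ht
  have := hl t ht
  simpa using this

/-! ### Analytic families of elements of `B` -/

/-- `f τ = ∑ c_k(τ) b_k`, `c_k` analytic at `0` -/
def AnFam (f : ℂ → B) : Prop :=
  ∃ (κ : Type) (_ : Fintype κ) (b : κ → B) (c : κ → ℂ → ℂ), (∀ k, AnalyticAt ℂ (c k) 0) ∧
    ∀ τ, f τ = ∑ k, c k τ • b k

theorem AnFam.const (x : B) : AnFam (fun _ : ℂ => x) :=
  ⟨Unit, inferInstance, fun _ => x, fun _ _ => 1, fun _ => analyticAt_const, fun τ => by simp⟩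

theorem AnFam.add {f g : ℂ → B} (hf : AnFam f) (hg : AnFam g) : AnFam (fun τ => f τ + g τ) := by
  obtain ⟨κ, _, b, c, hc, hf⟩ := hf
  obtain ⟨κ', _, b', c', hc', hg⟩ := hg
  refine ⟨κ ⊕ κ', inferInstance, Sum.elim b b', Sum.elim c c', ?_, ?_⟩
  · rintro (k | k)
    · exact hc k
    · exact hc' k
  · intro τ
    simp [hf, hg]

theorem AnFam.mul {f g : ℂ → B} (hf : AnFam f) (hg : AnFam g) : AnFam (fun τ => f τ * g τ) := by
  obtain ⟨κ, _, b, c, hc, hf⟩ := hf
  obtain ⟨κ', _, b', c', hc', hg⟩ := hg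
  refine ⟨κ × κ', inferInstance, fun k => b k.1 * b' k.2, fun k τ => c k.1 τ * c' k.2 τ, ?_, ?_⟩
  · intro k
    exact (hc k.1).mul (hc' k.2)
  · intro τ
    change f τ * g τ = _
    rw [hf, hg, Finset.sum_mul_sum, Fintype.sum_prod_type]
    simp only [smul_mul_smul_comm]

/-- limits at `τ = 0` of analytic families with `f τ ∈ Wf τ` for small `τ ≠ 0` -/
def SS (Wf : ℂ → Ideal B) : Ideal B where
  carrier := {x | ∃ f : ℂ → B, AnFam f ∧ f 0 = x ∧ ∀ᶠ τ in 𝓝[≠] (0 : ℂ), f τ ∈ Wf τ}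
  add_mem' := by
    rintro x x' ⟨f, hf, rfl, hfW⟩ ⟨g, hg, rfl, hgW⟩
    exact ⟨_, hf.add hg, rfl, (hfW.and hgW).mono fun τ h => Ideal.add_mem _ h.1 h.2⟩
  zero_mem' := ⟨_, AnFam.const 0, rfl, Eventually.of_forall fun τ => Ideal.zero_mem _⟩
  smul_mem' := by
    rintro c x ⟨f, hf, rfl, hfW⟩
    exact ⟨_, (AnFam.const c).mul hf, rfl, hfW.mono fun τ h => Ideal.mul_mem_left _ _ h⟩

theorem mem_SS {Wf : ℂ → Ideal B} {x : B} :
    x ∈ SS Wf ↔ ∃ f : ℂ → B, AnFam f ∧ f 0 = x ∧ ∀ᶠ τ in 𝓝[≠] (0 : ℂ), f τ ∈ Wf τ := Iff.rfl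

theorem mem_SS_of_const {Wf : ℂ → Ideal B} {x : B} (h : ∀ᶠ τ in 𝓝[≠] (0 : ℂ), x ∈ Wf τ) :
    x ∈ SS Wf := ⟨_, AnFam.const x, rfl, h⟩

theorem SS_mul {Wf Wf' Wf'' : ℂ → Ideal B}
    (h : ∀ᶠ τ in 𝓝[≠] (0 : ℂ), Wf τ * Wf' τ ≤ Wf'' τ) : SS Wf * SS Wf' ≤ SS Wf'' := by
  rw [Ideal.mul_le]
  rintro x ⟨f, hf, rfl, hfW⟩ x' ⟨g, hg, rfl, hgW⟩
  refine ⟨_, hf.mul hg, rfl, ?_⟩
  filter_upwards [hfW, hgW, h] with τ h1 h2 h3
  exact h3 (Ideal.mul_mem_mul h1 h2)

theorem SS_mono {Wf Wf' : ℂ → Ideal B} (h : ∀ᶠ τ in 𝓝[≠] (0 : ℂ), Wf τ ≤ Wf' τ) :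
    SS Wf ≤ SS Wf' := by
  rintro x ⟨f, hf, rfl, hfW⟩
  exact ⟨f, hf, rfl, (hfW.and h).mono fun τ h => h.2 h.1⟩

/-- finitely many analytic families have a common system of coefficients -/
theorem AnFam.common {J : Type} [Fintype J] {f : J → ℂ → B} (hf : ∀ j, AnFam (f j)) :
    ∃ (nb : ℕ) (b : Fin nb → B) (c : J → Fin nb → ℂ → ℂ), (∀ j k, AnalyticAt ℂ (c j k) 0) ∧
      ∀ j τ, f j τ = ∑ k, c j k τ • b k := by
  classical
  choose κ hκ b c hc hf' using hf
  let e := Fintype.equivFin (Σ j, κ j)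
  refine ⟨Fintype.card (Σ j, κ j), fun k => b (e.symm k).1 (e.symm k).2,
    fun j k τ => if h : (e.symm k).1 = j then c (e.symm k).1 (e.symm k).2 τ else 0, ?_, ?_⟩
  · intro j k
    by_cases h : (e.symm k).1 = j
    · simp only [h, dite_true]
      exact hc _ _
    · simp only [h, dite_false]
      exact analyticAt_const
  · intro j τ
    rw [hf' j τ]
    have h1 : ∑ k, (if h : (e.symm k).1 = j then c (e.symm k).1 (e.symm k).2 τ else 0) •
        b (e.symm k).1 (e.symm k).2 =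
        ∑ q : (Σ j, κ j), (if h : q.1 = j then c q.1 q.2 τ else 0) • b q.1 q.2 :=
      Equiv.sum_comp e.symm (fun q : (Σ j, κ j) =>
        (if h : q.1 = j then c q.1 q.2 τ else 0) • b q.1 q.2)
    rw [h1, Fintype.sum_sigma]
    rw [Finset.sum_eq_single j]
    · simp
    · intro j' _ hj'
      simp [hj']
    · intro h; exact absurd (Finset.mem_univ j) h

end alg

section integrability

variable {n : ℕ} {B : Type} [CommRing B] [Algebra ℂ B] {z : Fin n → B} {y : B →ₐ[ℂ] ℂ}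

theorem LIntB_mono_mul {g g' : (B →ₐ[ℂ] ℂ) → ℝ≥0∞} (K : ℝ≥0∞) (hK : K ≠ ∞)
    (h : ∀ y', g' y' ≤ K * g y') (hg : LIntB z y g) : LIntB z y g' := by
  obtain ⟨C, U, hU, hint⟩ := hg
  refine ⟨C, U, hU, ?_⟩
  calc ∫⁻ ζ in U, g' (C.s ζ) ≤ ∫⁻ ζ in U, K * g (C.s ζ) := lintegral_mono fun ζ => h _
    _ = K * ∫⁻ ζ in U, g (C.s ζ) := lintegral_const_mul' _ _ hK
    _ < ∞ := ENNReal.mul_lt_top hK.lt_top hint

theorem LIntB_mono {g g' : (B →ₐ[ℂ] ℂ) → ℝ≥0∞} (h : ∀ y', g' y' ≤ g y') (hg : LIntB z y g) :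
    LIntB z y g' := LIntB_mono_mul 1 ENNReal.one_ne_top (by simpa using h) hg

theorem neg_rpow_anti {a b : ℝ≥0∞} (h : a ≤ b) {c : ℝ} (hc : 0 ≤ c) : b ^ (-c) ≤ a ^ (-c) := by
  rw [ENNReal.rpow_neg, ENNReal.rpow_neg]
  exact ENNReal.inv_le_inv.2 (ENNReal.rpow_le_rpow h hc)

theorem neg_rpow_le_mul {a b k : ℝ≥0∞} (hk0 : k ≠ 0) (hk : k ≠ ∞) (h : b ≤ k * a) {c : ℝ}
    (hc : 0 ≤ c) : a ^ (-c) ≤ k ^ c * b ^ (-c) := by
  have hkc0 : k ^ c ≠ 0 := by
    simp [ENNReal.rpow_eq_zero_iff, hk0, hk]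
  have hkc : k ^ c ≠ ∞ := ENNReal.rpow_ne_top_of_nonneg hc hk
  have h1 : (k * a) ^ (-c) ≤ b ^ (-c) := neg_rpow_anti h hc
  have h2 : k ^ c * (k * a) ^ (-c) = a ^ (-c) := by
    rw [ENNReal.rpow_neg, ENNReal.rpow_neg, ENNReal.mul_rpow_of_nonneg _ _ hc,
      ENNReal.mul_inv (Or.inl hkc0) (Or.inl hkc), ← mul_assoc, ENNReal.mul_inv_cancel hkc0 hkc,
      one_mul]
  rw [← h2]
  gcongr

theorem wB_unit (S : Finset B) (c : ℝ) (y' : B →ₐ[ℂ] ℂ) :
    wB (fun _ : Unit => S) (fun _ => c) y' = (ENNReal.ofReal (wt S y')) ^ (-c) := by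
  simp [wB]

/-- reindexing -/
theorem iint_reindex {ι κ : Type} [Fintype ι] [Fintype κ] (e : κ ≃ ι) {I : ι → Ideal B}
    {c : ι → ℝ} (h : IInt z y I c) : IInt z y (fun k => I (e k)) (fun k => c (e k)) := by
  obtain ⟨S, hS, hint⟩ := h
  refine ⟨fun k => S (e k), fun k => hS (e k), ?_⟩
  have : wB (fun k => S (e k)) (fun k => c (e k)) = wB S c := funext fun y' =>
    Equiv.prod_comp e (fun i => (ENNReal.ofReal (wt (S i) y')) ^ (-(c i)))
  rw [this]
  exact hint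

/-- `I^N` with exponent `θ` from `I` with exponent `N θ` -/
theorem iint_pow {n : ℕ} (X : FCtx n) (hprod : ProdFact X) (y : X.B →ₐ[ℂ] ℂ) (I : Ideal X.B)
    (hI : I ≠ ⊥) (N : ℕ) (θ : ℝ) (h : IInt X.z y (fun _ : Unit => I) (fun _ => θ * N)) :
    IInt X.z y (fun _ : Unit => I ^ N) (fun _ => θ) := by
  have h1 := (hprod y Empty Unit (fun e => e.elim) (fun e => e.elim) (fun _ => I) (fun _ => N) θ
    (fun e => e.elim) (fun _ => hI)).2 ?_
  · have h2 := iint_reindex (Equiv.emptySum Empty Unit).symm h1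
    have e1 : (fun k => Sum.elim (fun e : Empty => (e.elim : Ideal X.B))
        (fun _ : Unit => ∏ _j : Unit, I ^ N) ((Equiv.emptySum Empty Unit).symm k)) =
        fun _ : Unit => I ^ N := by
      funext k; simp
    have e2 : (fun k => Sum.elim (fun e : Empty => (e.elim : ℝ)) (fun _ : Unit => θ)
        ((Equiv.emptySum Empty Unit).symm k)) = fun _ : Unit => θ := by
      funext k; simp
    rw [e1, e2] at h2
    exact h2
  · have h2 := iint_reindex (Equiv.emptySum Empty Unit) h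
    have e1 : (fun _ : Empty ⊕ Unit => I) = Sum.elim (fun e : Empty => (e.elim : Ideal X.B))
        (fun _ : Unit => I) := by
      funext k
      rcases k with k | k
      · exact k.elim
      · rfl
    have e2 : (fun _ : Empty ⊕ Unit => θ * (N : ℝ)) = Sum.elim (fun e : Empty => (e.elim : ℝ))
        (fun _ : Unit => θ * (N : ℝ)) := by
      funext k
      rcases k with k | k
      · exact k.elim
      · rfl
    rw [e1, e2] at h2
    exact h2

/-- specialisation of the integrability of an ideal of limits -/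
theorem iint_frequently {n : ℕ} (X : FCtx n) (hgens : GensFact X) (hspec : SpecFact X)
    (hmono : MonoFact X) {y : X.B →ₐ[ℂ] ℂ} {γ : ℂ → (X.B →ₐ[ℂ] ℂ)} (hγ0 : γ 0 = y)
    (hγ : ∀ f : X.B, AnalyticAt ℂ (fun τ => γ τ f) 0) (Wf : ℂ → Ideal X.B) (I : Ideal X.B)
    (hI : I ≤ SS Wf) (g₀ : X.B) (hg₀ : g₀ ≠ 0)
    (hg₀W : ∀ᶠ τ in 𝓝[≠] (0 : ℂ), g₀ ∈ Wf τ) (c : ℝ) (hc : 0 ≤ c)
    (h : IInt X.z y (fun _ : Unit => I) (fun _ => c)) (ε : ℝ) (hε : 0 < ε) (hε1 : ε < 1) :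
    ∃ᶠ τ in 𝓝[≠] (0 : ℂ), IInt X.z (γ τ) (fun _ : Unit => Wf τ) (fun _ => (1 - ε) * c) := by
  classical
  have := X.ft
  have : IsNoetherianRing X.B := Algebra.FiniteType.isNoetherianRing ℂ X.B
  obtain ⟨T, hT⟩ := (IsNoetherian.noetherian I : I.FG)
  have h' : LIntB X.z y (wB (fun _ : Unit => T) (fun _ => c)) :=
    (hgens y Unit (fun _ => I) (fun _ => c) (fun _ => T) (fun _ => hT)).1 h
  have hfam : ∀ t : {x // x ∈ T}, ∃ f : ℂ → X.B, AnFam f ∧ f 0 = t.1 ∧
      ∀ᶠ τ in 𝓝[≠] (0 : ℂ), f τ ∈ Wf τ := by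
    intro t
    apply hI
    rw [← hT]
    exact Ideal.subset_span t.2
  choose f hf hf0 hfW using hfam
  let fam : Option {x // x ∈ T} → ℂ → X.B := fun o τ => o.elim g₀ (fun t => f t τ)
  have hfamA : ∀ o, AnFam (fam o) := by
    rintro (_ | t)
    · exact AnFam.const g₀
    · exact hf t
  have hfamW : ∀ᶠ τ in 𝓝[≠] (0 : ℂ), ∀ o, fam o τ ∈ Wf τ := by
    rw [eventually_all]
    rintro (_ | t)
    · exact hg₀W
    · exact hfW t
  obtain ⟨nb, b, co, hco, hfamE⟩ := AnFam.common hfamA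
  let e := Fintype.equivFin (Option {x // x ∈ T})
  have hsum : ∀ (τ : ℂ) (y' : X.B →ₐ[ℂ] ℂ),
      ∑ i, ‖∑ j, co (e.symm i) j τ * y' (b j)‖ ^ 2 = ∑ o, ‖y' (fam o τ)‖ ^ 2 := by
    intro τ y'
    rw [← Equiv.sum_comp e.symm (fun o => ‖y' (fam o τ)‖ ^ 2)]
    refine Finset.sum_congr rfl fun i _ => ?_
    rw [hfamE]
    simp [map_sum]
  have hspec' := hspec y _ nb b (fun i => co (e.symm i)) c γ hγ0 hγ (fun i j => hco _ _) hc ?_ ε
    hε hε1
  · refine (hspec'.and_eventually hfamW).mono ?_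
    rintro τ ⟨hint, hW⟩
    simp only [hsum] at hint
    set S : Finset X.B := Finset.univ.image (fun o => fam o τ) with hS
    have hSW : Ideal.span (S : Set X.B) ≤ Wf τ := by
      rw [Ideal.span_le]
      intro x hx
      rw [hS, Finset.coe_image] at hx
      obtain ⟨o, _, rfl⟩ := hx
      exact hW o
    have hSg : g₀ ∈ Ideal.span (S : Set X.B) := by
      apply Ideal.subset_span
      rw [hS, Finset.coe_image]
      exact ⟨none, by simp, rfl⟩
    have hSne : Ideal.span (S : Set X.B) ≠ ⊥ := by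
      intro h0
      rw [h0] at hSg
      exact hg₀ (by simpa using hSg)
    have hWne : Wf τ ≠ ⊥ := by
      intro h0
      rw [h0, le_bot_iff] at hSW
      exact hSne hSW
    have h1 : IInt X.z (γ τ) (fun _ : Unit => Ideal.span (S : Set X.B)) (fun _ => (1 - ε) * c) := by
      refine ⟨fun _ => S, fun _ => rfl, ?_⟩
      have hc' : 0 ≤ (1 - ε) * c := mul_nonneg (by linarith) hc
      set k : ℝ≥0∞ := (Fintype.card (Option {x // x ∈ T}) : ℝ≥0∞) with hk
      have hk0 : k ≠ 0 := by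
        rw [hk]; exact_mod_cast Fintype.card_ne_zero
      have hkt : k ≠ ∞ := by rw [hk]; exact ENNReal.natCast_ne_top _
      refine LIntB_mono_mul (k ^ ((1 - ε) * c)) (ENNReal.rpow_ne_top_of_nonneg hc' hkt) ?_ hint
      intro y'
      rw [wB_unit]
      refine neg_rpow_le_mul hk0 hkt ?_ hc'
      rw [hk, ← ENNReal.ofReal_natCast, ← ENNReal.ofReal_mul (Nat.cast_nonneg _)]
      apply ENNReal.ofReal_le_ofReal
      calc ∑ o, ‖y' (fam o τ)‖ ^ 2 ≤ ∑ o : Option {x // x ∈ T}, wt S y' := by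
            refine Finset.sum_le_sum fun o _ => ?_
            have : fam o τ ∈ S := by rw [hS]; exact Finset.mem_image_of_mem _ (Finset.mem_univ o)
            exact Finset.single_le_sum (f := fun b => ‖y' b‖ ^ 2) (fun _ _ => by positivity) this
        _ = _ := by simp
    exact hmono (γ τ) Unit _ _ _ _ (fun _ => hSne) (fun _ => hWne) (fun _ => le_rfl)
      (fun _ => Or.inr ⟨mul_nonneg (by linarith) hc, hSW⟩) h1
  · simp only [hsum]
    refine LIntB_mono ?_ h'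
    intro y'
    rw [wB_unit]
    refine neg_rpow_anti (ENNReal.ofReal_le_ofReal ?_) hc
    rw [Fintype.sum_option, wt, ← Finset.sum_coe_sort]
    have : ∀ t : {x // x ∈ T}, fam (some t) 0 = t.1 := fun t => hf0 t
    simp only [this]
    have h0 : 0 ≤ ‖y' (fam none 0)‖ ^ 2 := by positivity
    linarith

end integrability

section main

variable {n : ℕ}

theorem ne_mI_of_dim {B : Type} [CommRing B] [Algebra ℂ B] (P : Ideal B) (y : B →ₐ[ℂ] ℂ) (d : ℕ)
    (hd : 1 ≤ d) (hdim : ringKrullDim (B ⧸ P) = d) : P ≠ mI y := by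
  intro h
  have hsurj : Function.Surjective (y : B →+* ℂ) := fun c => ⟨algebraMap ℂ B c, by simp⟩
  have hmax : (mI y).IsMaximal := RingHom.ker_isMaximal_of_surjective _ hsurj
  rw [h, ringKrullDim_eq_zero_of_isField
    ((Ideal.Quotient.maximal_ideal_iff_isField_quotient _).1 hmax)] at hdim
  have : (0 : WithBot ℕ∞) = ((0 : ℕ) : WithBot ℕ∞) := rfl
  rw [this] at hdim
  have h2 : (0 : ℕ) = d := by exact_mod_cast hdim
  omega

theorem perturb (X : FCtx n) (af : AFacts X) (hP2 : P2Stmt X) (hGen : GenFiltStmt)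
    (hLim : LimitStmt X) : PerturbStmt X := by
  classical
  intro F A P d hd hC ι _ m a e p hme hp
  have hprime := hC.prime
  have hft := X.ft
  have : IsNoetherianRing X.B := Algebra.FiniteType.isNoetherianRing ℂ X.B
  obtain ⟨l₁, k₁, K, h₀, hAl₁, hk₁, hK, hh₀, hcomp⟩ := hC.comp
  obtain ⟨h₁, hh₁, hadapt⟩ := af.gen P d hC.prime hC.dim
  obtain ⟨h₂, r, hh₂, hconst, hlim⟩ := hLim F P hC.prime ι m a e
  refine ⟨h₂, r, hh₂, hconst, ?_⟩
  choose δ hδ hgap using fun i => exists_gap F (a i)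
  have hpR : (0 : ℝ) < p := by exact_mod_cast hp
  have hKR : (0 : ℝ) < K := by exact_mod_cast hK
  obtain ⟨δ₀, hδ₀, hδ₀i, hδ₀K⟩ : ∃ δ₀ : ℝ, 0 < δ₀ ∧ (∀ i, δ₀ ≤ δ i) ∧ δ₀ ≤ (l₁ - A) / K := by
    have h1 : ∀ᶠ x in 𝓝[>] (0 : ℝ), ∀ i, x ≤ δ i := by
      rw [eventually_all]
      intro i
      filter_upwards [Ioc_mem_nhdsGT (hδ i)] with x hx using hx.2
    have h2 : ∀ᶠ x in 𝓝[>] (0 : ℝ), x ≤ (l₁ - A) / K := by
      have : 0 < (l₁ - A) / K := div_pos (sub_pos.2 hAl₁) hKR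
      filter_upwards [Ioc_mem_nhdsGT this] with x hx using hx.2
    have h3 : ∀ᶠ x in 𝓝[>] (0 : ℝ), 0 < x := self_mem_nhdsWithin
    obtain ⟨x, hx⟩ := (h1.and (h2.and h3)).exists
    exact ⟨x, hx.2.2, hx.1, hx.2.1⟩
  refine ⟨δ₀ / p, div_pos hδ₀ hpR, fun s hs hss => ?_⟩
  have hsp : s * p ≤ δ₀ := (le_div_iff₀ hpR).1 hss
  have hep : ∀ i, (e i : ℝ) ≤ p := fun i => by exact_mod_cast (hme i).2.2
  have hse : ∀ i, s * e i ≤ s * p := fun i => mul_le_mul_of_nonneg_left (hep i) hs.le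
  have hse0 : ∀ i, 0 ≤ s * e i := fun i => mul_nonneg hs.le (Nat.cast_nonneg _)
  have hssp : s ≤ s * p := by
    have : (1 : ℝ) ≤ p := by exact_mod_cast hp
    nlinarith
  -- the disc
  have hh : h₀ * h₁ * h₂ ∉ P := by
    intro h
    rcases hprime.mem_or_mem h with h | h
    · rcases hprime.mem_or_mem h with h | h
      · exact hh₀ h
      · exact hh₁ h
    · exact hh₂ h
  obtain ⟨γ, hγ0, hγ, hγev⟩ := af.disc X.x P (h₀ * h₁ * h₂) hC.prime hC.le
    (ne_mI_of_dim P X.x d hd hC.dim) hh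
  obtain ⟨q, b, co, hb, hco, hli, hU⟩ := hlim γ hγ
    (hγev.mono fun τ h => ⟨h.1, fun h0 => h.2 (by rw [map_mul, h0, mul_zero])⟩)
  set W : ι → Submodule ℂ X.B := fun i =>
    Submodule.span ℂ (Set.range fun j => ∑ k, co i j k 0 • b i k) with hWdef
  have hWF : ∀ i, W i ≤ F.F (m i) (a i) := by
    intro i
    rw [hWdef]
    simp only
    rw [Submodule.span_le]
    rintro _ ⟨j, rfl⟩
    exact Submodule.sum_mem _ fun k _ => Submodule.smul_mem _ _ (hb i k)
  obtain ⟨G, hFG, hWG, hGF, hidl⟩ := hGen X.B X.V F X.V_fin X.V_zero X.V_mul ι m a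
    (fun i => a i + s * e i) (s * p) W (fun i => (hme i).1) (fun i => (hme i).2.1)
    (fun i => le_add_of_nonneg_right (hse0 i)) (fun i => by linarith [hse i])
    (mul_nonneg hs.le hpR.le) hWF
  refine ⟨G, hFG, hGF, fun i => ?_, ?_⟩
  · have h1 : Module.finrank ℂ (W i) = r i := by
      rw [hWdef]
      simpa using finrank_span_eq_card (hli i)
    rw [← h1]
    have h2 : FiniteDimensional ℂ (X.V (m i)) := X.V_fin (m i)
    have h3 : FiniteDimensional ℂ (G.F (m i) (a i + s * e i)) :=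
      Submodule.finiteDimensional_of_le (G.le_V _ _)
    exact Submodule.finrank_mono (hWG i)
  · rintro l ⟨k, hk, hint⟩
    have hkR : (0 : ℝ) < k := by exact_mod_cast hk
    let Wf : ℝ → ℂ → Ideal X.B := fun l τ => Wl F P (γ τ) (s * p) s l
    have hSSidl : ∀ l, idl F l ≤ SS (Wf l) := fun l x hx =>
      mem_SS_of_const (Eventually.of_forall fun τ => idl_le_Wl _ _ _ _ _ _ hx)
    have hSSmul : ∀ l l', SS (Wf l) * SS (Wf l') ≤ SS (Wf (l + l')) := fun l l' =>
      SS_mul (Eventually.of_forall fun τ => Wl_mul _ _ _ _ _ _ _)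
    have hSSW : ∀ i, Ideal.span (W i : Set X.B) ≤ SS (Wf (a i + s * e i)) := by
      intro i
      rw [Ideal.span_le]
      have : W i ≤ (SS (Wf (a i + s * e i))).restrictScalars ℂ := by
        rw [hWdef]
        simp only
        rw [Submodule.span_le]
        rintro _ ⟨j, rfl⟩
        refine ⟨fun τ => ∑ k, co i j k τ • b i k, ⟨Fin (q i), inferInstance, b i, co i j, hco i j,
          fun _ => rfl⟩, rfl, hU.mono fun τ h => ?_⟩
        exact U_le_Wl F P (γ τ) (s * p) s (a i) (δ i) (m i) (e i) (hse i)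
          ((hse i).trans (hsp.trans (hδ₀i i))) (hgap i) (h i j)
      exact this
    have hSSpow : ∀ (l l' : ℝ) (I : Ideal X.B), I ≤ SS (Wf l') → ∀ N : ℕ,
        SS (Wf l) * I ^ N ≤ SS (Wf (l + N * l')) := by
      intro l l' I hI N
      induction N with
      | zero => simp
      | succ N ih =>
        rw [pow_succ, ← mul_assoc]
        refine (Ideal.mul_mono ih hI).trans ((hSSmul _ _).trans (le_of_eq ?_))
        congr 2
        push_cast; ring
    have hSSterm : ∀ (ν : ι → ℕ) (S : Finset ι) (u : ℝ),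
        idl F u * ∏ i ∈ S, (Ideal.span (W i : Set X.B)) ^ ν i ≤
          SS (Wf (u + ∑ i ∈ S, (ν i : ℝ) * (a i + s * e i))) := by
      intro ν S u
      induction S using Finset.induction_on with
      | empty => simpa using hSSidl u
      | insert i S hi ih =>
        rw [Finset.prod_insert hi, Finset.sum_insert hi]
        have h1 : idl F u * (Ideal.span (W i : Set X.B) ^ ν i *
            ∏ x ∈ S, Ideal.span (W x : Set X.B) ^ ν x) =
            (idl F u * ∏ x ∈ S, Ideal.span (W x : Set X.B) ^ ν x) *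
              Ideal.span (W i : Set X.B) ^ ν i := by ring
        rw [h1]
        refine (Ideal.mul_mono ih le_rfl).trans ((hSSpow _ _ _ (hSSW i) (ν i)).trans
          (le_of_eq ?_))
        congr 2
        ring
    have hSSG : ∀ L, idl G L ≤ SS (Wf L) := by
      intro L
      rw [hidl L]
      refine iSup_le fun ν => ?_
      refine (hSSterm ν Finset.univ _).trans (le_of_eq ?_)
      congr 2
      ring
    obtain ⟨g₀, hg₀, hg₀ne⟩ := Submodule.exists_mem_ne_zero_of_ne_bot (hC.idl_ne (k * l))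
    have key : ∀ M : ℕ, 2 ≤ M → (1 - 1 / (M : ℝ)) * l ≤ A + s * d := by
      intro M hM
      have hMR : (2 : ℝ) ≤ M := by exact_mod_cast hM
      have hM0 : (0 : ℝ) < M := by linarith
      have hfr := iint_frequently X af.gens af.spec af.mono hγ0 hγ (Wf (k * l)) (idl G (k * l))
        (hSSG _) g₀ hg₀ne (Eventually.of_forall fun τ => idl_le_Wl _ _ _ _ _ _ hg₀) (1 / (k : ℝ))
        (by positivity) hint (1 / (M : ℝ)) (by positivity)
        (by rw [div_lt_one hM0]; linarith)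
      obtain ⟨τ, hτ, hτP, hτh⟩ := (hfr.and_eventually hγev).exists
      have hPle : P ≤ mI (γ τ) := fun f hf => by
        simpa [mI, RingHom.mem_ker] using hτP f hf
      rw [map_mul, map_mul] at hτh
      have hτ₀ : γ τ h₀ ≠ 0 := fun h => hτh (by rw [h]; ring)
      have hτ₁ : γ τ h₁ ≠ 0 := fun h => hτh (by rw [h]; ring)
      have hWne : ∀ l, Wl F P (γ τ) (s * p) s l ≠ ⊥ := by
        intro l h0
        have := idl_le_Wl F P (γ τ) (s * p) s l
        rw [h0, le_bot_iff] at this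
        exact hC.idl_ne l this
      have hM1 : ((M - 1 : ℕ) : ℝ) = M - 1 := by
        rw [Nat.cast_sub (by omega)]; simp
      have hx2 := iint_pow X af.prod (γ τ) (Wf (k * l) τ) (hWne _) (M - 1) (1 / (M * k : ℝ)) (by
        convert hτ using 2
        rw [hM1]
        field_simp)
      have hx3 : IInt X.z (γ τ)
          (fun _ : Unit => Wl F P (γ τ) (s * p) s (((M * k : ℕ) : ℝ) * ((1 - 1 / (M : ℝ)) * l)))
          (fun _ => 1 / ((M * k : ℕ) : ℝ)) := by
        refine af.mono (γ τ) Unit _ _ _ _ (fun _ => ?_) (fun _ => hWne _) (fun _ => ?_)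
          (fun _ => Or.inr ⟨?_, ?_⟩) hx2
        · exact pow_ne_zero _ (hWne _)
        · push_cast; exact le_rfl
        · positivity
        · refine (Wl_pow F P (γ τ) (s * p) s (k * l) (M - 1) (by omega)).trans (le_of_eq ?_)
          congr 1
          rw [hM1]
          push_cast
          field_simp
      exact hP2 F A P d (γ τ) l₁ k₁ K (s * p) s hC.ne_bot hC.idl_ne hC.A_pos hAl₁ hk₁ hK hPle
        (hadapt (γ τ) hτP hτ₁) (hC.good_le (γ τ) hPle) (hcomp (γ τ) hPle hτ₀) hs hssp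
        (hsp.trans hδ₀K) (M * k) ((1 - 1 / (M : ℝ)) * l)
        (Nat.one_le_iff_ne_zero.2 (by positivity)) hx3
    by_contra hcon
    push Not at hcon
    have hApos : 0 < A + s * d := by
      have := hC.A_pos
      have : 0 ≤ s * d := mul_nonneg hs.le (Nat.cast_nonneg _)
      linarith
    obtain ⟨M, hM⟩ := exists_nat_gt (max 2 (l / (l - (A + s * d))))
    have hM2 : (2 : ℝ) < M := lt_of_le_of_lt (le_max_left _ _) hM
    have hM3 : l / (l - (A + s * d)) < M := lt_of_le_of_lt (le_max_right _ _) hM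
    have hk2 := key M (by exact_mod_cast hM2.le)
    have hM0 : (0 : ℝ) < M := by linarith
    rw [div_lt_iff₀ (by linarith)] at hM3
    have : l / M < l - (A + s * d) := by
      rw [div_lt_iff₀ hM0]; linarith
    have h5 : (1 - 1 / (M : ℝ)) * l = l - l / M := by ring
    rw [h5] at hk2
    linarith

end main

end Crest.Agent.R271.Perturb969
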