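import Crest.Agent.R271.N0b_710
import Crest.Agent.R271.N2b_161
import Crest.Agent.R271.N3_593
import Crest.Agent.R271.Perturb_969
import Crest.Agent.R271.N5m_91
import Crest.Agent.R271.Limit_647
import Crest.Agent.R271.N7e_857
import Crest.Agent.R271.N6_241
import Crest.Agent.R271.N6b_593

/-!
Row 271, team N: assembly of `NonIsoMain`.
-/

set_option autoImplicit false

noncomputable section

namespace Crest.Agent.R271.NMain647

open Crest.Agent.R271.Defs710 Crest.Agent.R271.Assembly710 Crest.Agent.R271.N647

variable {n : ℕ}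

theorem limitStmt (X : FCtx n) : LimitStmt X := Limit647.limitStmt_of X (N91.matrixStmt X)

theorem perturbStmt (X : FCtx n) (af : AFacts X) : PerturbStmt X :=
  Perturb969.perturb X af (N2x161.p2Stmt af) N593.genFiltStmt (limitStmt X)

theorem countStmt (X : FCtx n) (af : AFacts X) : CountStmt X := N857.countStmt X af.gen

/-- `NonIsoMain` from the numerical step (8.6)–(8.8) -/
theorem nonIsoMain_of
    (h : ∀ (n : ℕ) (X : FCtx n), 1 ≤ n → AFacts X → PerturbStmt X → CountStmt X → NonIsoStmt X) :
    NonIsoMain :=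
  N0x710.nonIsoMain_of fun n X hn af => h n X hn af (perturbStmt X af) (countStmt X af)

theorem zLarge (X : FCtx n) (hn : 1 ≤ n) (af : AFacts X) : N6x241.ZLarge X :=
  fun κ hκ K => N6b593.zz_large X hn af κ hκ K

theorem nonIsoStmt (X : FCtx n) (hn : 1 ≤ n) (af : AFacts X) : NonIsoStmt X :=
  N6x241.nonIsoStmt' X af.gen (perturbStmt X af) (countStmt X af) (zLarge X hn af)

/-- Part 8 -/
theorem nonIsoMain : NonIsoMain :=
  N0x710.nonIsoMain_of fun _ X hn af => nonIsoStmt X hn af

end Crest.Agent.R271.NMain647
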