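import Mathlib

/-!
Row 271, bridge (R_fin), pure algebra: finite dimensionality of graded pieces of graded-integral
closures (helper985).
-/

set_option autoImplicit false

open Polynomial

namespace Crest.Agent.R271.RFin985

/-- graded integrality -/
def GI {K : Type*} [CommRing K] [Algebra ℂ K] (W : Submodule ℂ K) (m : ℕ) (f : K) : Prop :=
  ∃ r : ℕ, 1 ≤ r ∧ ∃ a : ℕ → K, (∀ i, a i ∈ W ^ (m * i)) ∧
    f ^ r = ∑ i ∈ Finset.range r, a (r - i) * f ^ i

section LemmaB

/-- finiteness of the integral closure of `P` in `K[X]` -/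
theorem finite_integralClosure {K : Type*} [Field K] [Algebra ℂ K] {P : Type*} [CommRing P]
    [IsDomain P] [IsIntegrallyClosed P] [IsNoetherianRing P] [Algebra ℂ P] [Algebra P K[X]]
    [IsScalarTower ℂ P K[X]] [FaithfulSMul P K[X]] (s : K) (hs0 : s ≠ 0) (k : ℕ) (hk : 1 ≤ k)
    (hs : IsIntegral P (C s * X ^ k : K[X])) (A : Subalgebra ℂ K) (hA : A.FG)
    (hfrac : ∀ u : K, ∃ a ∈ A, ∃ b ∈ A, b ≠ 0 ∧ u * b = a)
    (hint : ∀ a ∈ A, ∃ j : ℕ, IsIntegral P (C a * (C s * X ^ k) ^ j : K[X])) :
    IsNoetherian P (integralClosure P K[X]) := by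
  classical
  let L := FractionRing K[X]
  let F := FractionRing P
  have hinj : Function.Injective (algebraMap P L) := by
    rw [IsScalarTower.algebraMap_eq P K[X] L]
    exact (IsFractionRing.injective K[X] L).comp (FaithfulSMul.algebraMap_injective P K[X])
  have : FaithfulSMul P L := (faithfulSMul_iff_algebraMap_injective P L).mpr hinj
  let _ : Algebra F L := FractionRing.liftAlgebra P L
  have : IsScalarTower P F L := FractionRing.isScalarTower_liftAlgebra P L
  have : CharZero P := charZero_of_injective_algebraMap (algebraMap ℂ P).injective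
  have : CharZero F := IsFractionRing.charZero_of_isFractionRing P
  -- algebraic elements
  let ι : K[X] →+* L := algebraMap K[X] L
  have hι : Function.Injective ι := IsFractionRing.injective K[X] L
  have key : ∀ p : K[X], IsIntegral P p → IsAlgebraic F (ι p) := by
    intro p hp
    have h1 : IsIntegral P (ι p) := hp.algebraMap
    exact (h1.tower_top (A := F)).isAlgebraic
  have hσ0 : (C s * X ^ k : K[X]) ≠ 0 := mul_ne_zero (by simpa using hs0) (pow_ne_zero _ X_ne_zero)
  have hσ : IsAlgebraic F (ι (C s * X ^ k)) := key _ hs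
  have hCA : ∀ a ∈ A, IsAlgebraic F (ι (C a)) := by
    intro a ha
    obtain ⟨j, hj⟩ := hint a ha
    have h1 := key _ hj
    have h2 : ι (C a) = ι (C a * (C s * X ^ k) ^ j) * (ι (C s * X ^ k) ^ j)⁻¹ := by
      rw [eq_mul_inv_iff_mul_eq₀ (pow_ne_zero _ ((map_ne_zero_iff ι hι).mpr hσ0))]
      rw [map_mul ι (C a), map_pow ι]
    rw [h2]
    exact h1.mul (hσ.pow j).inv
  have hC : ∀ u : K, IsAlgebraic F (ι (C u)) := by
    intro u
    obtain ⟨a, ha, b, hb, hb0, hab⟩ := hfrac u
    have h2 : ι (C u) = ι (C a) * (ι (C b))⁻¹ := by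
      rw [eq_mul_inv_iff_mul_eq₀ ((map_ne_zero_iff ι hι).mpr (by simpa using hb0)), ← map_mul,
        ← C_mul, hab]
    rw [h2]
    exact (hCA a ha).mul (hCA b hb).inv
  have hX : IsAlgebraic F (ι X) := by
    have h2 : (ι X) ^ k = ι (C s * X ^ k) * (ι (C s))⁻¹ := by
      rw [eq_mul_inv_iff_mul_eq₀ ((map_ne_zero_iff ι hι).mpr (by simpa using hs0)), ← map_pow,
        ← map_mul, mul_comm]
    have h3 : IsAlgebraic F ((ι X) ^ k) := by
      rw [h2]; exact hσ.mul (hC s).inv
    exact IsAlgebraic.of_pow (by omega) h3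
  -- finite generation
  obtain ⟨t, ht⟩ := hA
  let G : Set L := (fun a : K => ι (C a)) '' (t : Set K) ∪ {ι X}
  have hGfin : Finite G := ((t.finite_toSet.image _).union (Set.finite_singleton _)).to_subtype
  have hGint : ∀ x ∈ G, IsIntegral F x := by
    rintro x (⟨a, -, rfl⟩ | rfl)
    · exact (hC a).isIntegral
    · exact hX.isIntegral
  have hfdG : FiniteDimensional F (IntermediateField.adjoin F G) :=
    IntermediateField.finiteDimensional_adjoin hGint
  have hAE : ∀ a ∈ A, ι (C a) ∈ IntermediateField.adjoin F G := by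
    intro a ha
    rw [← ht] at ha
    induction ha using Algebra.adjoin_induction with
    | mem x hx => exact IntermediateField.subset_adjoin F G (Or.inl ⟨x, hx, rfl⟩)
    | algebraMap c =>
      have h1 : ι (C (algebraMap ℂ K c)) = algebraMap F L (algebraMap P F (algebraMap ℂ P c)) := by
        rw [← IsScalarTower.algebraMap_apply P F L, IsScalarTower.algebraMap_apply P K[X] L,
          ← IsScalarTower.algebraMap_apply ℂ P K[X]]
        rfl
      rw [h1]
      exact (IntermediateField.adjoin F G).algebraMap_mem _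
    | add x y _ _ hx hy => rw [C_add, map_add]; exact add_mem hx hy
    | mul x y _ _ hx hy => rw [C_mul, map_mul]; exact mul_mem hx hy
  have hKE : ∀ u : K, ι (C u) ∈ IntermediateField.adjoin F G := by
    intro u
    obtain ⟨a, ha, b, hb, hb0, hab⟩ := hfrac u
    have h2 : ι (C u) = ι (C a) * (ι (C b))⁻¹ := by
      rw [eq_mul_inv_iff_mul_eq₀ ((map_ne_zero_iff ι hι).mpr (by simpa using hb0)), ← map_mul,
        ← C_mul, hab]
    rw [h2]
    exact mul_mem (hAE a ha) (inv_mem (hAE b hb))
  have hPE : ∀ p : K[X], ι p ∈ IntermediateField.adjoin F G := by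
    intro p
    induction p using Polynomial.induction_on' with
    | add p q hp hq => rw [map_add]; exact add_mem hp hq
    | monomial n a =>
      rw [← C_mul_X_pow_eq_monomial, map_mul, map_pow]
      exact mul_mem (hKE a) (pow_mem (IntermediateField.subset_adjoin F G (Or.inr rfl)) n)
  have htop : IntermediateField.adjoin F G = ⊤ := by
    rw [eq_top_iff]
    intro x _
    obtain ⟨p, q, -, rfl⟩ := IsFractionRing.div_surjective (A := K[X]) x
    exact div_mem (hPE p) (hPE q)
  have hfdL : FiniteDimensional F L := by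
    rw [htop] at hfdG
    exact FiniteDimensional.of_surjective (IntermediateField.topEquiv (F := F) (E := L)).toLinearMap
      (IntermediateField.topEquiv (F := F) (E := L)).surjective
  have hnoeth : IsNoetherian P (integralClosure P L) :=
    IsIntegralClosure.isNoetherian P F L (integralClosure P L)
  let ψ : integralClosure P K[X] →ₗ[P] integralClosure P L :=
    { toFun := fun x => ⟨ι x.1, IsIntegral.algebraMap x.2⟩
      map_add' := fun x y => Subtype.ext (by simp)
      map_smul' := fun c x => Subtype.ext (by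
        simp only [RingHom.id_apply, SetLike.val_smul]
        rw [Algebra.smul_def, map_mul, Algebra.smul_def, IsScalarTower.algebraMap_apply P K[X] L]) }
  refine isNoetherian_of_injective ψ ?_
  intro x y hxy
  exact Subtype.ext (hι (congrArg Subtype.val hxy))

end LemmaB

section Rees

variable {K : Type*} [Field K] [Algebra ℂ K]

/-- `w ↦ w T^k` -/
noncomputable def mono (k : ℕ) : K →ₗ[ℂ] K[X] where
  toFun w := C w * X ^ k
  map_add' x y := by rw [C_add, add_mul]
  map_smul' c x := by
    rw [RingHom.id_apply, Algebra.smul_def c (C x * X ^ k), ← mul_assoc, Algebra.smul_def c x, C_mul]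
    rfl

lemma mono_apply (k : ℕ) (w : K) : mono k w = C w * X ^ k := rfl

/-- the algebra generated by `W T^k` -/
noncomputable def Sal (W : Submodule ℂ K) (k : ℕ) : Subalgebra ℂ K[X] :=
  Algebra.adjoin ℂ ((W.map (mono k) : Submodule ℂ K[X]) : Set K[X])

lemma Sal_fg (W : Submodule ℂ K) (hW : W.FG) (k : ℕ) : (Sal W k).FG := by
  obtain ⟨t, ht⟩ := hW.map (mono k)
  refine ⟨t, ?_⟩
  rw [Sal, ← ht, Algebra.adjoin_span]

lemma mem_Sal {W : Submodule ℂ K} {k : ℕ} (l : ℕ) : ∀ a ∈ W ^ l, C a * X ^ (k * l) ∈ Sal W k := by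
  induction l with
  | zero =>
    intro a ha
    rw [pow_zero] at ha
    obtain ⟨c, rfl⟩ := Submodule.mem_one.mp ha
    rw [Nat.mul_zero, pow_zero, mul_one]
    exact (Sal W k).algebraMap_mem c
  | succ l ih =>
    intro a ha
    rw [pow_succ] at ha
    induction ha using Submodule.mul_induction_on' with
    | mem_mul_mem m hm n hn =>
      have h1 : C (m * n) * X ^ (k * (l + 1)) = (C m * X ^ (k * l)) * (C n * X ^ k) := by
        rw [C_mul, Nat.mul_succ, pow_add]; ring
      rw [h1]
      exact mul_mem (ih m hm) (Algebra.subset_adjoin ⟨n, hn, rfl⟩)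
    | add x _ y _ hx hy => rw [C_add, add_mul]; exact add_mem hx hy

lemma isIntegral_of_GI {W : Submodule ℂ K} {k j : ℕ} {f : K} (hf : GI W j f) :
    IsIntegral (Sal W k) (C f * X ^ (k * j) : K[X]) := by
  classical
  obtain ⟨r, hr, a, ha, hrel⟩ := hf
  let c : ℕ → Sal W k := fun i => ⟨C (a i) * X ^ (k * (j * i)), mem_Sal (j * i) _ (ha i)⟩
  refine ⟨X ^ r - ∑ i ∈ Finset.range r, C (c (r - i)) * X ^ i, ?_, ?_⟩
  · apply monic_X_pow_sub
    refine (degree_sum_le _ _).trans_lt ?_
    rw [Finset.sup_lt_iff (by exact_mod_cast WithBot.bot_lt_coe r)]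
    intro i hi
    refine (degree_C_mul_X_pow_le _ _).trans_lt ?_
    exact_mod_cast Finset.mem_range.mp hi
  · rw [eval₂_sub, eval₂_X_pow, eval₂_finsetSum, sub_eq_zero, mul_pow, ← C_pow, hrel, map_sum,
      Finset.sum_mul]
    apply Finset.sum_congr rfl
    intro i hi
    have hi' := Finset.mem_range.mp hi
    rw [eval₂_mul, eval₂_C, eval₂_X_pow]
    change _ = (C (a (r - i)) * X ^ (k * (j * (r - i)))) * _
    rw [C_mul, mul_pow, ← pow_mul, C_pow, ← pow_mul]
    have h2 : k * j * r = k * (j * (r - i)) + k * j * i := by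
      obtain ⟨d, rfl⟩ := Nat.exists_eq_add_of_lt hi'
      have : i + d + 1 - i = d + 1 := by omega
      rw [this]; ring
    rw [h2, pow_add]
    ring

/-- coefficients of elements of `Sal` -/
lemma coeff_mem {W : Submodule ℂ K} {k : ℕ} (hk : 1 ≤ k) {p : K[X]} (hp : p ∈ Sal W k) :
    ∀ i, p.coeff i ∈ (1 ⊔ W : Submodule ℂ K) ^ i := by
  have h1 : ∀ i : ℕ, (1 : Submodule ℂ K) ≤ (1 ⊔ W : Submodule ℂ K) ^ i := by
    intro i
    calc (1 : Submodule ℂ K) = 1 ^ i := (one_pow i).symm
      _ ≤ _ := pow_le_pow_left' le_sup_left i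
  induction hp using Algebra.adjoin_induction with
  | mem x hx =>
    obtain ⟨w, hw, rfl⟩ := hx
    intro i
    rw [mono_apply, coeff_C_mul, coeff_X_pow]
    split_ifs with h
    · subst h
      rw [mul_one]
      obtain ⟨i, rfl⟩ := Nat.exists_eq_add_of_le hk
      rw [pow_add, pow_one]
      have := Submodule.mul_mem_mul (Submodule.mem_sup_right (S := 1) hw)
        (h1 i (Submodule.one_le.mp le_rfl))
      simpa using this
    · rw [mul_zero]; exact zero_mem _
  | algebraMap c =>
    intro i
    rw [Polynomial.algebraMap_apply, coeff_C]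
    split_ifs with h
    · exact h1 i (Submodule.mem_one.mpr ⟨c, rfl⟩)
    · exact zero_mem _
  | add x y _ _ hx hy => intro i; rw [coeff_add]; exact add_mem (hx i) (hy i)
  | mul x y _ _ hx hy =>
    intro i
    rw [coeff_mul]
    refine sum_mem fun ab hab => ?_
    rw [Finset.HasAntidiagonal.mem_antidiagonal] at hab
    rw [← hab, pow_add]
    exact Submodule.mul_mem_mul (hx _) (hy _)

/-- **Core**: a space of elements which are graded integral of a fixed degree is finite
dimensional. -/
theorem core (W : Submodule ℂ K) (hW : W.FG) (k : ℕ) (hk : 1 ≤ k)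
    (s : K) (hs : s ∈ W) (hs0 : s ≠ 0) (A : Subalgebra ℂ K) (hA : A.FG)
    (hfrac : ∀ u : K, ∃ a ∈ A, ∃ b ∈ A, b ≠ 0 ∧ u * b = a)
    (hint : ∀ a ∈ A, ∃ j, GI W j (a * s ^ j))
    (m : ℕ) (V : Submodule ℂ K)
    (hV : ∀ f ∈ V, ∃ e j : ℕ, 1 ≤ e ∧ k * j = m * e ∧ GI W j (f ^ e)) :
    FiniteDimensional ℂ V := by
  classical
  have hSft : Algebra.FiniteType ℂ (Sal W k) := (Subalgebra.fg_iff_finiteType _).mp (Sal_fg W hW k)
  obtain ⟨r, g, hginj, hgfin⟩ := exists_finite_inj_algHom_of_fg ℂ (Sal W k)
  let P := MvPolynomial (Fin r) ℂ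
  let h : P →ₐ[ℂ] K[X] := (Sal W k).val.comp g
  have hh : Function.Injective h := Subtype.val_injective.comp hginj
  let _ : Algebra P K[X] := h.toRingHom.toAlgebra
  let _ : Algebra P (Sal W k) := g.toRingHom.toAlgebra
  have : IsScalarTower ℂ P K[X] := IsScalarTower.of_algebraMap_eq fun c => (h.commutes c).symm
  have : IsScalarTower P (Sal W k) K[X] := IsScalarTower.of_algebraMap_eq fun c => rfl
  have : FaithfulSMul P K[X] := (faithfulSMul_iff_algebraMap_injective P K[X]).mpr hh
  have hfin : Module.Finite P (Sal W k) := hgfin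
  have hIS : Algebra.IsIntegral P (Sal W k) := inferInstance
  have hSP : ∀ x : K[X], IsIntegral (Sal W k) x → IsIntegral P x := fun x hx => isIntegral_trans x hx
  have hN : IsNoetherian P (integralClosure P K[X]) := by
    apply finite_integralClosure s hs0 k hk _ A hA hfrac
    · intro a ha
      obtain ⟨j, hj⟩ := hint a ha
      refine ⟨j, hSP _ ?_⟩
      have := isIntegral_of_GI (k := k) hj
      rwa [C_mul, C_pow, mul_assoc, pow_mul, ← mul_pow] at this
    · apply hSP
      exact isIntegral_algebraMap (R := Sal W k) (A := K[X])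
        (x := ⟨C s * X ^ k, Algebra.subset_adjoin ⟨s, hs, rfl⟩⟩)
  have hfg : (Subalgebra.toSubmodule (integralClosure P K[X])).FG :=
    (Module.Finite.iff_fg (N := Subalgebra.toSubmodule (integralClosure P K[X]))).mp
      (Module.IsNoetherian.finite P (integralClosure P K[X]))
  obtain ⟨E, hE⟩ := hfg
  let W' : Submodule ℂ K := 1 ⊔ W
  have hW' : W'.FG := by
    refine Submodule.FG.sup ?_ hW
    rw [Submodule.one_eq_span]
    exact Submodule.fg_span_singleton _
  let Z₀ : Submodule ℂ K := Submodule.span ℂ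
    ((fun ei : K[X] × ℕ => ei.1.coeff ei.2) '' ((E ×ˢ Finset.range (m + 1) : Finset (K[X] × ℕ)) :
      Set (K[X] × ℕ)))
  have hZ₀ : Z₀.FG := Submodule.fg_span ((Finset.finite_toSet _).image _)
  have hZ : (W' ^ m * Z₀).FG := (hW'.pow m).mul hZ₀
  have hfdZ : FiniteDimensional ℂ (W' ^ m * Z₀ : Submodule ℂ K) := Module.Finite.iff_fg.mpr hZ
  refine Submodule.finiteDimensional_of_le (S₂ := W' ^ m * Z₀) ?_
  intro f hf
  obtain ⟨e, j, he, hkj, hGI⟩ := hV f hf
  have h1 : IsIntegral P (C f * X ^ m : K[X]) := by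
    apply hSP
    have h2 := isIntegral_of_GI (k := k) hGI
    rw [hkj, pow_mul, C_pow, ← mul_pow] at h2
    exact IsIntegral.of_pow he h2
  have h2 : (C f * X ^ m : K[X]) ∈ Submodule.span P (E : Set K[X]) := by
    rw [hE]; exact h1
  obtain ⟨c, -, hc⟩ := Submodule.mem_span_finset.mp h2
  have h3 : f = (∑ x ∈ E, c x • x).coeff m := by
    rw [hc, coeff_C_mul, coeff_X_pow, if_pos rfl, mul_one]
  rw [h3, finsetSum_coeff]
  refine sum_mem fun x hx => ?_
  rw [Algebra.smul_def, coeff_mul]
  refine sum_mem fun ab hab => ?_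
  rw [Finset.HasAntidiagonal.mem_antidiagonal] at hab
  refine Submodule.mul_mem_mul ?_ ?_
  · have h4 : (algebraMap P K[X] (c x)) ∈ Sal W k := (g (c x)).2
    have h5 := coeff_mem hk h4 ab.1
    exact pow_le_pow_right' (a := W') le_sup_left (by omega : ab.1 ≤ m) h5
  · refine Submodule.subset_span ⟨(x, ab.2), ?_, rfl⟩
    simp only [Finset.coe_product, Set.mem_prod, Finset.mem_coe, Finset.mem_range]
    exact ⟨hx, by omega⟩

end Rees

end Crest.Agent.R271.RFin985
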