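import Crest.Agent.R271.PCtx2_961
import Crest.Agent.R271.Br9_958
import Crest.Agent.R271.RFinCore_985

/-!
Row 271, bridge: the spaces of sections of multiples of an ample divisor on a proper normal variety
are finite dimensional (helper985).
-/

set_option autoImplicit false
set_option linter.unusedSectionVars false

open AlgebraicGeometry Crest.AlgGeometry.Divisors Order CategoryTheory TopologicalSpace

namespace Crest.Agent.R271.RFin985

open Crest.Agent.R271.Br958 Crest.Agent.R271.PCtx961

set_option warn.classDefReducibility false in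
attribute [local instance] fnFieldAlgebra

/-- **Finite dimensionality of `H⁰(X, mL)`**, `L` ample on the proper normal variety `X`. -/
theorem H0_finite (X : Scheme.{0}) [Algebra ℂ Γ(X, ⊤)] [IsIntegral X] [IsLocallyNoetherian X]
    [CompactSpace X] [NormalSch X] (hX : IsProper (structureMorphism ℂ X)) (L : WeilDiv X)
    (hL : IsAmple L) (m : ℕ) : FiniteDimensional ℂ (H0 (m • L)) := by
  obtain ⟨q, hq, ι, _, s, U, hs, hUa, hU, hcov⟩ := exists_cover hL
  obtain ⟨i₀, hi₀⟩ := hcov (genericPoint X)
  have hne : Nonempty (U i₀) := ⟨⟨_, hi₀⟩⟩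
  let W : Submodule ℂ X.functionField := Submodule.span ℂ (Set.range s)
  have hWfg : W.FG := Submodule.fg_span (Set.finite_range s)
  have hbpf : Bpf W (q • L) := by
    intro x
    obtain ⟨i, hi⟩ := hcov x
    refine ⟨s i, Submodule.subset_span ⟨i, rfl⟩, (hs i).1, ?_⟩
    have : x ∈ (U i : Set X) := hi
    rw [hU] at this
    exact this
  have hA : (secSub (U i₀)).FG :=
    (Subalgebra.fg_iff_finiteType _).mpr (secSub_finiteType hX (hUa i₀))
  refine core W hWfg q hq (s i₀) (Submodule.subset_span ⟨i₀, rfl⟩) (hs i₀).1 (secSub (U i₀)) hA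
    ?_ ?_ m (H0 (m • L)) ?_
  · intro u
    obtain ⟨a, b, hb, h⟩ := secSub_frac (hUa i₀) u
    exact ⟨a, a.2, b, b.2, hb, h⟩
  · intro a ha
    obtain ⟨j, hj⟩ := (mem_secAlg_iff (hs i₀) (hUa i₀) (hU i₀) a).mp ha
    exact ⟨j, graded_integral hX (q • L) W hbpf j _ hj⟩
  · intro f hf
    refine ⟨q, m, hq, by ring, ?_⟩
    apply graded_integral hX (q • L) W hbpf m
    have h1 := pow_mem_H0 hf q
    rwa [smul_smul, mul_comm, ← smul_smul] at h1

end Crest.Agent.R271.RFin985
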