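import Crest.Agent.R271.PCtx3_961
import Crest.Agent.R271.RFin_985

/-!
Row 271, bridge: `PctxProp`, unconditional (helper961).
-/

set_option autoImplicit false

open AlgebraicGeometry Crest.AlgGeometry.Divisors Order CategoryTheory TopologicalSpace

namespace Crest.Agent.R271.PCtx961

/-- The bridge `X ↦ PCtx`, unconditionally. -/
theorem pctxProp : Bridge713.PctxProp :=
  pctxProp_of (fun X _ _ _ _ _ hX L hL m => RFin985.H0_finite X hX L hL m)

end Crest.Agent.R271.PCtx961
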