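import Crest.Agent.R271.Fin_710
import Crest.Agent.R271.Engine_51
import Crest.Agent.R271.Sum9_186
import Crest.Agent.R271.GAll_792
import Crest.Agent.R271.G7_934
import Crest.Agent.R271.Spec2_103
import Crest.Agent.R271.ExiFinal_376
import Crest.Agent.R271.NMain_647
import Crest.Agent.R271.Bridge4_713
import Crest.Agent.R271.Bs4_960
import Crest.Agent.R271.ModelFin_728
import Crest.Agent.R271.PCtx_961

/-!
Row 271: the four main statements, unconditionally.
-/

set_option autoImplicit false

noncomputable section

namespace Crest.Agent.R271.Main710

open Crest.Agent.R271.Defs710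

theorem sumThm : SumThm := Sum186.sumThm_of_engine Ho51.engineP

theorem analysisMain : AnalysisMain := fun _ X hn =>
  Fin710.aFacts sumThm X
    (GAll792.multIdeal_of_engine Ho51.engineP X hn (Rd692.chartEx X) (Local821.gensFact X))
    (L934.fubiniFact_of_sumThm sumThm X) (Spec103.specFact sumThm X)

theorem abstractMain : AbstractMain :=
  Assembly710.abstractMain CaseA112.caseAMain CaseBF376.exiMain NMain647.nonIsoMain Iso399.isoMain

theorem globalMain : GlobalMain := GAll792.globalMain_of_engine Ho51.engineP

theorem bridgeMain : BridgeMain :=
  Bridge713.bridgeMain_of PCtx961.pctxProp Ctx728.modelProp Bs960.ordersProp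

end Crest.Agent.R271.Main710
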