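import Crest.Agent.R271.Ctx7_728
import Crest.Agent.R271.CoordMain_769
import Crest.Agent.R271.JetsOrd_171

/-!
Row 271, team B (helper728): `ModelProp` from `GrowthProp`.
-/

set_option autoImplicit false

open Crest.Agent.R271.Defs710

namespace Crest.Agent.R271.Ctx728

theorem model_of_growth (hG : GrowthProp) (n : ℕ) (P : PCtx n) (hn : 1 ≤ n) :
    Nonempty (Model P) :=
  exists_model Crest.Agent.R271.CoordMain769.coordProp Crest.Agent.R271.JetsOrd171.jetsProp hG
    Crest.Agent.R271.JetsOrd171.ordFSProp P hn

end Crest.Agent.R271.Ctx728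

#print axioms Crest.Agent.R271.Ctx728.model_of_growth
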