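import Crest.Agent.R271.Defs_710

/-!
Row 271, team N, piece N2 (8.2): P2.
-/

set_option autoImplicit false

open scoped ENNReal NNReal Topology BigOperators
open MeasureTheory

noncomputable section

namespace Crest.Agent.R271.N2x161

open Crest.Agent.R271.Defs710

section

variable {n : ℕ} (X : FCtx n)

instance noeth : IsNoetherianRing X.B := by
  have := X.ft
  exact Algebra.FiniteType.isNoetherianRing ℂ X.B

/-- a fixed finite set of generators of an ideal -/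
def gen (I : Ideal X.B) : Finset X.B :=
  Classical.choose ((isNoetherianRing_iff_ideal_fg X.B).1 (noeth X) I)

lemma span_gen (I : Ideal X.B) : Ideal.span (gen X I : Set X.B) = I :=
  Classical.choose_spec ((isNoetherianRing_iff_ideal_fg X.B).1 (noeth X) I)

/-- the weight `|I|^{-2c}` for the fixed generators -/
def wI (I : Ideal X.B) (c : ℝ) (y : X.B →ₐ[ℂ] ℂ) : ℝ≥0∞ :=
  (ENNReal.ofReal (wt (gen X I) y)) ^ (-c)

@[simp] lemma wI_zero (I : Ideal X.B) (y : X.B →ₐ[ℂ] ℂ) : wI X I 0 y = 1 := by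
  simp [wI]

variable {X}

theorem iint_iff (hX : GensFact X) (y : X.B →ₐ[ℂ] ℂ) {ι : Type} [Fintype ι] (I : ι → Ideal X.B)
    (c : ι → ℝ) : IInt X.z y I c ↔ LIntB X.z y (fun y' => ∏ i, wI X (I i) (c i) y') :=
  hX y ι I c (fun i => gen X (I i)) (fun i => span_gen X (I i))

theorem iint_congr (hX : GensFact X) (y : X.B →ₐ[ℂ] ℂ) {ι κ : Type} [Fintype ι] [Fintype κ]
    {I : ι → Ideal X.B} {c : ι → ℝ} {J : κ → Ideal X.B} {c' : κ → ℝ}
    (h : ∀ y', ∏ i, wI X (I i) (c i) y' = ∏ j, wI X (J j) (c' j) y') :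
    IInt X.z y I c ↔ IInt X.z y J c' := by
  rw [iint_iff hX, iint_iff hX]
  simp only [h]

/-- an ideal with a positive exponent is nonzero (single ideal) -/
theorem ne_bot_of_iint {z : Fin n → X.B} {y : X.B →ₐ[ℂ] ℂ} {I : Ideal X.B} {c : ℝ} (hc : 0 < c)
    (h : IInt z y (fun _ : Unit => I) (fun _ => c)) : I ≠ ⊥ := by
  rintro rfl
  obtain ⟨S, hS, C, U, hU, hlt⟩ := h
  have hS0 : ∀ b ∈ S (), b = 0 := by
    intro b hb
    have : b ∈ Ideal.span (S () : Set X.B) := Ideal.subset_span hb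
    rw [hS ()] at this
    simpa using this
  have hw : ∀ ζ, wB S (fun _ => c) (C.s ζ) = ∞ := by
    intro ζ
    have : wt (S ()) (C.s ζ) = 0 := by
      unfold wt
      apply Finset.sum_eq_zero
      intro b hb
      rw [hS0 b hb]; simp
    simp only [wB, Finset.univ_unique, Finset.prod_singleton]
    have hd : (default : Unit) = () := rfl
    rw [hd, this]
    simp only [ENNReal.ofReal_zero]
    exact ENNReal.zero_rpow_of_neg (by linarith)
  simp only [hw] at hlt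
  rw [setLIntegral_const] at hlt
  have : volume U ≠ 0 := by
    have := MeasureTheory.Measure.measure_pos_of_mem_nhds (volume : Measure (Cn n)) hU
    exact this.ne'
  rw [ENNReal.top_mul this] at hlt
  exact lt_irrefl _ hlt

lemma mI_ne_bot (hX : ChartEx X) (hn : 1 ≤ n) (y : X.B →ₐ[ℂ] ℂ) : mI y ≠ ⊥ := by
  intro h
  obtain ⟨C⟩ := hX y
  let i : Fin n := ⟨0, hn⟩
  have hb : X.z i - algebraMap ℂ X.B (y (X.z i)) ∈ mI y := by
    simp [mI, RingHom.mem_ker]
  rw [h] at hb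
  have hb0 : X.z i = algebraMap ℂ X.B (y (X.z i)) := by
    have : X.z i - algebraMap ℂ X.B (y (X.z i)) = 0 := by simpa using hb
    exact sub_eq_zero.1 this
  have hr := C.r_pos
  have hmem : (Pi.single i ((C.r / 2 : ℝ) : ℂ) : Cn n) ∈ Metric.ball (0 : Cn n) C.r := by
    rw [mem_ball_zero_iff, Pi.norm_single]
    rw [Complex.norm_real, Real.norm_of_nonneg (by positivity)]
    linarith
  have h1 := C.s_z _ hmem i
  rw [hb0] at h1
  simp at h1
  linarith

/-! ### the ideals `𝔞_l` -/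

variable {V : ℕ → Submodule ℂ X.B}

lemma idl_anti (F : Filt V) {l l' : ℝ} (h : l ≤ l') : idl F l' ≤ idl F l := by
  apply Ideal.span_mono
  rintro b ⟨m, hb⟩
  exact ⟨m, F.anti m h hb⟩

lemma idl_mul (F : Filt V) (l l' : ℝ) : idl F l * idl F l' ≤ idl F (l + l') := by
  unfold idl
  rw [Ideal.span_mul_span']
  apply Ideal.span_mono
  rintro b ⟨b1, ⟨m, h1⟩, b2, ⟨m', h2⟩, rfl⟩
  exact ⟨m + m', F.mul _ _ _ _ _ _ h1 h2⟩

lemma idl_top (F : Filt X.V) {l : ℝ} (h : l ≤ 0) : idl F l = ⊤ := by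
  rw [Ideal.eq_top_iff_one]
  apply Ideal.subset_span
  refine ⟨0, ?_⟩
  rw [F.zero 0 l h, X.V_zero]
  exact Submodule.one_le.1 le_rfl

lemma idl_pow (F : Filt X.V) (l : ℝ) (p : ℕ) : idl F l ^ p ≤ idl F (p * l) := by
  induction p with
  | zero => simp [idl_top F (l := 0) le_rfl]
  | succ p ih =>
    rw [pow_succ]
    calc idl F l ^ p * idl F l ≤ idl F (p * l) * idl F l := Ideal.mul_mono_left ih
      _ ≤ idl F (p * l + l) := idl_mul F _ _
      _ = idl F ((p + 1 : ℕ) * l) := by congr 1; push_cast; ring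

lemma idl_prod (F : Filt X.V) {κ : Type} (s : Finset κ) (a : κ → ℝ) (p : κ → ℕ) :
    ∏ j ∈ s, idl F (a j) ^ p j ≤ idl F (∑ j ∈ s, p j * a j) := by
  classical
  induction s using Finset.induction_on with
  | empty => simp [idl_top F (l := 0) le_rfl]
  | insert j s hj ih =>
    rw [Finset.prod_insert hj, Finset.sum_insert hj]
    exact (Ideal.mul_mono (idl_pow F _ _) ih).trans (idl_mul F _ _)

/-! ### the ideals `W_l` -/

/-- `W_l = ∑_{a + σ b + s e ≥ l} 𝔞_a P^b 𝔪_y^e` -/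
def Wl (X : FCtx n) (F : Filt X.V) (P : Ideal X.B) (y : X.B →ₐ[ℂ] ℂ) (σ s l : ℝ) : Ideal X.B :=
  ⨆ p : ℕ × ℕ, idl F (l - σ * p.1 - s * p.2) * P ^ p.1 * (mI y) ^ p.2

lemma le_Wl (F : Filt X.V) (P : Ideal X.B) (y : X.B →ₐ[ℂ] ℂ) (σ s l a : ℝ) (b e : ℕ)
    (h : l ≤ a + σ * b + s * e) : idl F a * P ^ b * (mI y) ^ e ≤ Wl X F P y σ s l := by
  refine le_trans ?_ (le_iSup (fun p : ℕ × ℕ => idl F (l - σ * p.1 - s * p.2) * P ^ p.1 *
    (mI y) ^ p.2) (b, e))
  apply Ideal.mul_mono_left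
  apply Ideal.mul_mono_left
  apply idl_anti
  simp only
  linarith

lemma idl_le_Wl (F : Filt X.V) (P : Ideal X.B) (y : X.B →ₐ[ℂ] ℂ) (σ s l : ℝ) :
    idl F l ≤ Wl X F P y σ s l := by
  have := le_Wl F P y σ s l l 0 0 (by simp)
  simpa using this

lemma Wl_anti (F : Filt X.V) (P : Ideal X.B) (y : X.B →ₐ[ℂ] ℂ) (σ s : ℝ) {l l' : ℝ} (h : l ≤ l') :
    Wl X F P y σ s l' ≤ Wl X F P y σ s l := by
  apply iSup_mono
  intro p
  apply Ideal.mul_mono_left
  apply Ideal.mul_mono_left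
  apply idl_anti
  linarith

lemma Wl_mul (F : Filt X.V) (P : Ideal X.B) (y : X.B →ₐ[ℂ] ℂ) (σ s l l' : ℝ) :
    Wl X F P y σ s l * Wl X F P y σ s l' ≤ Wl X F P y σ s (l + l') := by
  unfold Wl
  rw [Ideal.iSup_mul]
  apply iSup_le
  intro p
  rw [Ideal.mul_iSup]
  apply iSup_le
  intro q
  have h : idl F (l - σ * p.1 - s * p.2) * P ^ p.1 * (mI y) ^ p.2 *
      (idl F (l' - σ * q.1 - s * q.2) * P ^ q.1 * (mI y) ^ q.2) =
      (idl F (l - σ * p.1 - s * p.2) * idl F (l' - σ * q.1 - s * q.2)) * P ^ (p.1 + q.1) *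
        (mI y) ^ (p.2 + q.2) := by
    rw [pow_add, pow_add]; ring
  rw [h]
  refine le_trans ?_ (le_Wl F P y σ s (l + l') ((l - σ * p.1 - s * p.2) +
    (l' - σ * q.1 - s * q.2)) (p.1 + q.1) (p.2 + q.2) ?_)
  · apply Ideal.mul_mono_left
    apply Ideal.mul_mono_left
    exact idl_mul F _ _
  · push_cast; linarith

/-- Claim (8.1) as a Prop -/
def Claim81 (X : FCtx n) (F : Filt X.V) (P : Ideal X.B) (y : X.B →ₐ[ℂ] ℂ) (σ₀ A : ℝ) : Prop :=
  ∀ (k : ℕ) (α β : ℝ), 1 ≤ k → 0 ≤ α → 0 ≤ β →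
    IInt X.z y ![idl F (k * α), P] ![1 / (k : ℝ), β] → α + σ₀ * β ≤ A


lemma exists_finset_iSup {R : Type} [CommRing R] [IsNoetherianRing R] {ι : Type} (f : ι → Ideal R) :
    ∃ T : Finset ι, ⨆ i, f i = ⨆ i ∈ T, f i := by
  have hfg : (⨆ i, f i).FG := (isNoetherianRing_iff_ideal_fg R).1 inferInstance _
  have hc := (Submodule.fg_iff_compact _).1 hfg
  obtain ⟨T, hT⟩ := CompleteLattice.IsCompactElement.exists_finset_of_le_iSup (Submodule R R) hc f le_rfl
  exact ⟨T, le_antisymm hT (iSup₂_le fun i _ => le_iSup f i)⟩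

lemma exists_finset_iSup' {R : Type} [CommRing R] [IsNoetherianRing R] {ι : Type}
    (f : ι → Ideal R) (h : ⨆ i, f i ≠ ⊥) :
    ∃ T : Finset ι, Nonempty T ∧ (∀ i : T, f i ≠ ⊥) ∧ ⨆ i, f i = ⨆ i : T, f i := by
  classical
  obtain ⟨T, hT⟩ := exists_finset_iSup f
  have key : ⨆ i, f i = ⨆ i : (T.filter (fun i => f i ≠ ⊥)), f i := by
    apply le_antisymm
    · rw [hT]
      apply iSup₂_le
      intro i hi
      by_cases h0 : f i = ⊥
      · rw [h0]; exact bot_le
      · exact le_iSup (fun i : (T.filter (fun i => f i ≠ ⊥)) => f i)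
          ⟨i, Finset.mem_filter.2 ⟨hi, h0⟩⟩
    · apply iSup_le
      intro i
      exact le_iSup f i.1
  refine ⟨T.filter (fun i => f i ≠ ⊥), ?_, fun i => (Finset.mem_filter.1 i.2).2, key⟩
  by_contra hne
  rw [not_nonempty_iff] at hne
  apply h
  rw [key]
  exact iSup_of_empty _

/-- products in a Finset over a domain are nonzero -/
lemma prod_ne_bot {κ : Type} (s : Finset κ) (J : κ → Ideal X.B) (p : κ → ℕ)
    (h : ∀ j ∈ s, J j ≠ ⊥) : ∏ j ∈ s, J j ^ p j ≠ ⊥ := by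
  have : ∏ j ∈ s, J j ^ p j ≠ 0 := by
    rw [Finset.prod_ne_zero_iff]
    intro j hj
    exact pow_ne_zero _ (h j hj)
  exact this


theorem step1 (hX : AFacts X) (hn : 1 ≤ n) (F : Filt X.V) (P : Ideal X.B) (hP : P ≠ ⊥)
    (y : X.B →ₐ[ℂ] ℂ) (σ s : ℝ) (k : ℕ) (l : ℝ) (hk : 1 ≤ k)
    (hI : IInt X.z y (fun _ : Unit => Wl X F P y σ s (k * l)) (fun _ => 1 / (k : ℝ)))
    (ε : ℝ) (hε : 0 < ε) (hε1 : ε < 1) :
    ∃ (M B E : ℕ) (α u : ℝ), 1 ≤ M ∧ 0 ≤ α ∧ 1 - 2 * ε ≤ u ∧ u ≤ 1 ∧ idl F (M * α) ≠ ⊥ ∧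
      IInt X.z y ![idl F (M * α), P, mI y] ![1 / (M : ℝ), (B : ℝ) / M, (E : ℝ) / M] ∧
      u * l ≤ α + σ * ((B : ℝ) / M) + s * ((E : ℝ) / M) := by
  classical
  have hk0 : (0 : ℝ) < k := by exact_mod_cast hk
  have hm := mI_ne_bot hX.chart hn y
  have hW : Wl X F P y σ s (k * l) ≠ ⊥ := ne_bot_of_iint (by positivity) hI
  obtain ⟨T, hTne, hT0, hTs⟩ := exists_finset_iSup' (fun p : ℕ × ℕ =>
    idl F (k * l - σ * p.1 - s * p.2) * P ^ p.1 * (mI y) ^ p.2) hW
  set G : T → Ideal X.B := fun p => idl F (k * l - σ * p.1.1 - s * p.1.2) * P ^ p.1.1 *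
    (mI y) ^ p.1.2 with hG
  have hWG : Wl X F P y σ s (k * l) = ⨆ j : T, G j := hTs
  -- Sum theorem
  have h1 : IInt X.z y (Sum.elim (fun e : Empty => e.elim) (fun _ : Unit => ⨆ j, G j))
      (Sum.elim (fun e : Empty => e.elim) (fun _ : Unit => 1 / (k : ℝ))) := by
    refine (iint_congr hX.gens y ?_).1 hI
    intro y'
    simp [hWG]
  obtain ⟨r, hr0, hr1, h2⟩ := hX.sum y Empty T (fun e => e.elim) (fun e => e.elim) G (1 / (k : ℝ))
    (fun e => e.elim) hT0 (fun e => e.elim) (by positivity) h1 ε hε hε1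
  have h3 : IInt X.z y G (fun j => (1 - ε) * (r j * (1 / (k : ℝ)))) := by
    refine (iint_congr hX.gens y ?_).1 h2
    intro y'
    simp
  -- rounding
  set c : T → ℝ := fun j => (1 - ε) * (r j * (1 / (k : ℝ))) with hc
  have hc0 : ∀ j, 0 ≤ c j := fun j =>
    mul_nonneg (by linarith) (mul_nonneg (hr0 j) (by positivity))
  have hcs : ∑ j, c j = (1 - ε) / k := by
    simp only [hc]
    rw [← Finset.mul_sum, ← Finset.sum_mul, hr1]; ring
  obtain ⟨M, hM⟩ := exists_nat_gt ((Fintype.card T : ℝ) * k / ε)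
  have hMpos : 0 < M := by
    have : (0 : ℝ) < M := lt_of_le_of_lt (by positivity) hM
    exact_mod_cast this
  have hM0 : (0 : ℝ) < M := by exact_mod_cast hMpos
  set p : T → ℕ := fun j => ⌊(M : ℝ) * c j⌋₊ with hp
  have hp1 : ∀ j, (p j : ℝ) / M ≤ c j := by
    intro j
    rw [div_le_iff₀ hM0, mul_comm]
    exact Nat.floor_le (mul_nonneg hM0.le (hc0 j))
  have hp2 : ∀ j, c j - 1 / M ≤ (p j : ℝ) / M := by
    intro j
    have := (Nat.lt_floor_add_one ((M : ℝ) * c j)).le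
    rw [le_div_iff₀ hM0]
    have h' : (c j - 1 / M) * M = M * c j - 1 := by field_simp
    rw [h']
    have : (M : ℝ) * c j ≤ (p j : ℝ) + 1 := by exact_mod_cast this
    linarith
  have hG0 : ∀ j, G j ≠ ⊥ := hT0
  have h4 : IInt X.z y G (fun j => 1 / (M : ℝ) * (p j : ℝ)) :=
    hX.mono y T G G c _ hG0 hG0 (fun j => by
      have := hp1 j
      calc 1 / (M : ℝ) * (p j : ℝ) = (p j : ℝ) / M := by ring
        _ ≤ c j := this) (fun j => Or.inl rfl) h3
  have h5 : IInt X.z y (Sum.elim (fun e : Empty => e.elim) (fun _ : Unit => ∏ j, G j ^ p j))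
      (Sum.elim (fun e : Empty => e.elim) (fun _ : Unit => 1 / (M : ℝ))) := by
    refine (hX.prod y Empty T (fun e => e.elim) (fun e => e.elim) G p (1 / (M : ℝ))
      (fun e => e.elim) hG0).2 ?_
    refine (iint_congr hX.gens y ?_).1 h4
    intro y'
    simp
  -- the exponents
  set Bn : ℕ := ∑ j : T, p j * j.1.1 with hBn
  set En : ℕ := ∑ j : T, p j * j.1.2 with hEn
  set a0 : ℝ := ∑ j : T, (p j : ℝ) * (k * l - σ * j.1.1 - s * j.1.2) with ha0
  set a1 : ℝ := max a0 0 with ha1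
  have hidl : idl F a0 ≤ idl F a1 := by
    rcases le_total a0 0 with h | h
    · rw [ha1, max_eq_right h, idl_top F (le_refl (0:ℝ))]; exact le_top
    · rw [ha1, max_eq_left h]
  have hQ : ∏ j, G j ^ p j ≤ idl F a1 * P ^ Bn * (mI y) ^ En := by
    have e1 : ∏ j, G j ^ p j = (∏ j : T, idl F (k * l - σ * j.1.1 - s * j.1.2) ^ p j) *
        P ^ Bn * (mI y) ^ En := by
      simp only [hG, mul_pow, Finset.prod_mul_distrib]
      congr 1
      · congr 1
        rw [hBn, ← Finset.prod_pow_eq_pow_sum]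
        exact Finset.prod_congr rfl fun j _ => by rw [← pow_mul, mul_comm]
      · rw [hEn, ← Finset.prod_pow_eq_pow_sum]
        exact Finset.prod_congr rfl fun j _ => by rw [← pow_mul, mul_comm]
    rw [e1]
    apply Ideal.mul_mono_left
    apply Ideal.mul_mono_left
    exact (idl_prod F Finset.univ _ p).trans hidl
  have hQ0 : ∏ j, G j ^ p j ≠ ⊥ := prod_ne_bot _ G p (fun j _ => hG0 j)
  have hR0 : idl F a1 * P ^ Bn * (mI y) ^ En ≠ ⊥ := fun h => hQ0 (le_bot_iff.1 (h ▸ hQ))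
  have hid0 : idl F a1 ≠ ⊥ := by
    intro h
    apply hR0
    rw [h]; simp
  have h6 : IInt X.z y (Sum.elim (fun e : Empty => e.elim)
      (fun _ : Unit => idl F a1 * P ^ Bn * (mI y) ^ En))
      (Sum.elim (fun e : Empty => e.elim) (fun _ : Unit => 1 / (M : ℝ))) := by
    refine hX.mono y _ _ _ _ _ ?_ ?_ (fun i => le_rfl) ?_ h5
    · rintro (e | u)
      · exact e.elim
      · exact hQ0
    · rintro (e | u)
      · exact e.elim
      · exact hR0
    · rintro (e | u)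
      · exact e.elim
      · exact Or.inr ⟨by simp, hQ⟩
  have h7 : IInt X.z y (Sum.elim (fun e : Empty => e.elim)
      (fun _ : Unit => ∏ i, (![idl F a1, P, mI y] i) ^ (![1, Bn, En] i)))
      (Sum.elim (fun e : Empty => e.elim) (fun _ : Unit => 1 / (M : ℝ))) := by
    have : ∏ i, (![idl F a1, P, mI y] i) ^ (![1, Bn, En] i) =
        idl F a1 * P ^ Bn * (mI y) ^ En := by
      simp [Fin.prod_univ_three]
    rw [this]; exact h6
  have h8 := (hX.prod y Empty (Fin 3) (fun e => e.elim) (fun e => e.elim) ![idl F a1, P, mI y]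
    ![1, Bn, En] (1 / (M : ℝ)) (fun e => e.elim) (by
      intro i; fin_cases i
      · exact hid0
      · exact hP
      · exact hm)).1 h7
  have h9 : IInt X.z y ![idl F a1, P, mI y] ![1 / (M : ℝ), (Bn : ℝ) / M, (En : ℝ) / M] := by
    refine (iint_congr hX.gens y ?_).1 h8
    intro y'
    simp [Fin.prod_univ_three, div_eq_inv_mul]
  have hMa : (M : ℝ) * (a1 / M) = a1 := by field_simp
  refine ⟨M, Bn, En, a1 / M, (∑ j, (p j : ℝ)) * k / M, hMpos, by positivity, ?_, ?_, ?_, ?_, ?_⟩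
  · -- lower bound for u
    have hs : ∑ j, (c j - 1 / (M : ℝ)) ≤ ∑ j, (p j : ℝ) / M := Finset.sum_le_sum fun j _ => hp2 j
    rw [Finset.sum_sub_distrib, hcs, Finset.sum_const, Finset.card_univ, nsmul_eq_mul,
      ← Finset.sum_div] at hs
    have hM' : (Fintype.card T : ℝ) * (1 / M) * k ≤ ε := by
      rw [div_lt_iff₀ hε] at hM
      have : (Fintype.card T : ℝ) * (1 / M) * k = (Fintype.card T : ℝ) * k / M := by ring
      rw [this, div_le_iff₀ hM0]
      linarith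
    have : ((1 - ε) / k - (Fintype.card T : ℝ) * (1 / M)) * k ≤ (∑ j, (p j : ℝ)) / M * k :=
      mul_le_mul_of_nonneg_right hs hk0.le
    have e : ((1 - ε) / k - (Fintype.card T : ℝ) * (1 / M)) * k =
        (1 - ε) - (Fintype.card T : ℝ) * (1 / M) * k := by field_simp
    rw [e] at this
    have e2 : (∑ j, (p j : ℝ)) / M * k = (∑ j, (p j : ℝ)) * k / M := by ring
    rw [e2] at this
    linarith
  · have hs : ∑ j, (p j : ℝ) / M ≤ ∑ j, c j := Finset.sum_le_sum fun j _ => hp1 j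
    rw [hcs, ← Finset.sum_div] at hs
    have : (∑ j, (p j : ℝ)) / M * k ≤ (1 - ε) / k * k := mul_le_mul_of_nonneg_right hs hk0.le
    have e : (1 - ε) / k * k = 1 - ε := by field_simp
    have e2 : (∑ j, (p j : ℝ)) / M * k = (∑ j, (p j : ℝ)) * k / M := by ring
    rw [e, e2] at this
    linarith
  · rw [hMa]; exact hid0
  · rw [hMa]; exact h9
  · have e : a0 = (∑ j, (p j : ℝ)) * k * l - σ * Bn - s * En := by
      rw [ha0, hBn, hEn]
      push_cast
      rw [Finset.mul_sum, Finset.mul_sum, Finset.sum_mul, Finset.sum_mul,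
        ← Finset.sum_sub_distrib, ← Finset.sum_sub_distrib]
      exact Finset.sum_congr rfl fun j _ => by ring
    have h' : a0 / M ≤ a1 / M := by
      apply div_le_div_of_nonneg_right (le_max_left _ _) hM0.le
    have e3 : a0 / M = (∑ j, (p j : ℝ)) * k / M * l - σ * (Bn / M) - s * (En / M) := by
      rw [e]; ring
    linarith


/-- limit argument: `(1 - 1/q) a ≤ b + c/q` for all large `q` gives `a ≤ b` -/
lemma le_of_forall_large {a b c : ℝ} {q0 : ℕ}
    (h : ∀ q : ℕ, q0 ≤ q → (1 - 1 / (q : ℝ)) * a ≤ b + c * (1 / (q : ℝ))) : a ≤ b := by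
  have h1 : Filter.Tendsto (fun q : ℕ => (1 - 1 / (q : ℝ)) * a) Filter.atTop (𝓝 ((1 - 0) * a)) :=
    (tendsto_const_nhds.sub tendsto_one_div_atTop_nhds_zero_nat).mul tendsto_const_nhds
  have h2 : Filter.Tendsto (fun q : ℕ => b + c * (1 / (q : ℝ))) Filter.atTop (𝓝 (b + c * 0)) :=
    tendsto_const_nhds.add (tendsto_const_nhds.mul tendsto_one_div_atTop_nhds_zero_nat)
  have := le_of_tendsto_of_tendsto h1 h2 (Filter.eventually_atTop.2 ⟨q0, h⟩)
  simpa using this

/-- (8.2) with `R_y` point `(α, β, γ)`: the two cases. -/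
theorem step2 (hX : AFacts X) (F : Filt X.V) (P : Ideal X.B) (hP : P ≠ ⊥)
    (y : X.B →ₐ[ℂ] ℂ) (hm : mI y ≠ ⊥) (d : ℕ) (hd : d ≤ n) (hA : Adapted d P y n) (σ₀ A : ℝ)
    (hC : Claim81 X F P y σ₀ A) (M B E : ℕ) (α : ℝ) (hM : 1 ≤ M) (hα : 0 ≤ α)
    (hid : idl F (M * α) ≠ ⊥)
    (hI : IInt X.z y ![idl F (M * α), P, mI y] ![1 / (M : ℝ), (B : ℝ) / M, (E : ℝ) / M]) :
    α + σ₀ * ((B : ℝ) / M) + σ₀ * max ((E : ℝ) / M - d) 0 ≤ A := by
  have hM0 : (0 : ℝ) < M := by exact_mod_cast hM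
  rcases le_or_gt ((E : ℝ) / M) d with hcase | hcase
  · rw [max_eq_right (by linarith), mul_zero, add_zero]
    apply hC M α _ hM hα (by positivity)
    have h1 : IInt X.z y ![idl F (M * α), P, mI y] ![1 / (M : ℝ), (B : ℝ) / M, 0] := by
      refine hX.mono y (Fin 3) _ _ _ _ ?_ ?_ ?_ (fun i => Or.inl rfl) hI
      · intro i; fin_cases i
        · exact hid
        · exact hP
        · exact hm
      · intro i; fin_cases i
        · exact hid
        · exact hP
        · exact hm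
      · intro i; fin_cases i
        · exact le_rfl
        · exact le_rfl
        · show (0 : ℝ) ≤ (E : ℝ) / M
          positivity
    refine (iint_congr hX.gens y ?_).1 h1
    intro y'
    simp [Fin.prod_univ_three, Fin.prod_univ_two]
  · rw [max_eq_left (by linarith)]
    have hg : 0 < (E : ℝ) / M - d := by linarith
    obtain ⟨q0, hq0⟩ := exists_nat_gt (1 / ((E : ℝ) / M - d))
    apply le_of_forall_large (q0 := max q0 2) (c := σ₀ * d + σ₀ - σ₀ * ((E : ℝ) / M))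
    intro q hq
    have hq2 : 2 ≤ q := (le_max_right _ _).trans hq
    have hqq : (q0 : ℝ) ≤ q := by exact_mod_cast (le_max_left _ _).trans hq
    have hqpos : (0 : ℝ) < q := by positivity
    have hq1 : 1 / (q : ℝ) ≤ (E : ℝ) / M - d := by
      rw [div_le_iff₀ hqpos]
      rw [div_lt_iff₀ hg] at hq0
      nlinarith
    have hq3 : 1 / (q : ℝ) < 1 := by
      rw [div_lt_one hqpos]
      exact_mod_cast (by omega : 1 < q)
    have h1 := hX.fubini y d P (idl F (M * α)) (1 / (M : ℝ)) ((B : ℝ) / M) ((E : ℝ) / M) hP hid hd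
      hA (by positivity) (by positivity) hcase hI (1 / (q : ℝ)) (by positivity) hq3
    set β' : ℝ := (1 - 1 / (q : ℝ)) * ((B : ℝ) / M) + ((E : ℝ) / M - d) - 1 / (q : ℝ) with hβ'
    have hβ0 : 0 ≤ β' := by
      have : 0 ≤ (1 - 1 / (q : ℝ)) * ((B : ℝ) / M) := mul_nonneg (by linarith) (by positivity)
      linarith
    -- write the exponent as (q-1)/(qM)
    have h2 : IInt X.z y (Sum.elim (fun _ : Unit => P)
        (fun _ : Unit => ∏ _i : Unit, (idl F (M * α)) ^ (q - 1)))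
        (Sum.elim (fun _ : Unit => β') (fun _ : Unit => 1 / ((q : ℝ) * M))) := by
      refine (hX.prod y Unit Unit (fun _ => P) (fun _ => β') (fun _ => idl F (M * α))
        (fun _ => q - 1) (1 / ((q : ℝ) * M)) (fun _ => hP) (fun _ => hid)).2 ?_
      refine (iint_congr hX.gens y ?_).1 h1
      intro y'
      have e : 1 / ((q : ℝ) * M) * ((q - 1 : ℕ) : ℝ) = (1 - 1 / (q : ℝ)) * (1 / (M : ℝ)) := by
        have : ((q - 1 : ℕ) : ℝ) = (q : ℝ) - 1 := by
          rw [Nat.cast_sub (by omega)]; simp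
        rw [this]; field_simp
      simp only [Fin.prod_univ_two, Fintype.prod_sum_type, Finset.univ_unique,
        Finset.prod_singleton, Matrix.cons_val_zero, Matrix.cons_val_one, Sum.elim_inl,
        Sum.elim_inr]
      rw [e, mul_comm]
    have hpow : (idl F (M * α)) ^ (q - 1) ≤ idl F ((q * M : ℕ) * ((1 - 1 / (q : ℝ)) * α)) := by
      refine (idl_pow F _ _).trans (le_of_eq ?_)
      congr 1
      rw [Nat.cast_sub (by omega)]
      push_cast
      field_simp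
    have hpow0 : (idl F (M * α)) ^ (q - 1) ≠ ⊥ := by
      have : (idl F (M * α)) ^ (q - 1) ≠ 0 := pow_ne_zero _ hid
      exact this
    have hid' : idl F ((q * M : ℕ) * ((1 - 1 / (q : ℝ)) * α)) ≠ ⊥ :=
      fun h => hpow0 (le_bot_iff.1 (h ▸ hpow))
    have h3 : IInt X.z y (Sum.elim (fun _ : Unit => P)
        (fun _ : Unit => idl F ((q * M : ℕ) * ((1 - 1 / (q : ℝ)) * α))))
        (Sum.elim (fun _ : Unit => β') (fun _ : Unit => 1 / ((q : ℝ) * M))) := by
      refine hX.mono y _ _ _ _ _ ?_ ?_ (fun i => le_rfl) ?_ h2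
      · rintro (e | e)
        · exact hP
        · simpa using hpow0
      · rintro (e | e)
        · exact hP
        · exact hid'
      · rintro (e | e)
        · exact Or.inl rfl
        · exact Or.inr ⟨by simp only [Sum.elim_inr]; positivity, by simpa using hpow⟩
    have h4 : IInt X.z y ![idl F ((q * M : ℕ) * ((1 - 1 / (q : ℝ)) * α)), P]
        ![1 / ((q * M : ℕ) : ℝ), β'] := by
      refine (iint_congr hX.gens y ?_).1 h3
      intro y'
      simp only [Fin.prod_univ_two, Fintype.prod_sum_type, Finset.univ_unique,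
        Finset.prod_singleton, Matrix.cons_val_zero, Matrix.cons_val_one, Sum.elim_inl,
        Sum.elim_inr]
      rw [mul_comm]
      push_cast
      rfl
    have h5 := hC (q * M) ((1 - 1 / (q : ℝ)) * α) β' (Nat.mul_pos (by omega) hM)
      (mul_nonneg (by linarith) hα) hβ0 h4
    have h6 : (1 - 1 / (q : ℝ)) * (α + σ₀ * ((B : ℝ) / M) + σ₀ * ((E : ℝ) / M - d)) =
        ((1 - 1 / (q : ℝ)) * α + σ₀ * β') + (σ₀ * d + σ₀ - σ₀ * ((E : ℝ) / M)) * (1 / (q : ℝ)) := by
      rw [hβ']; ring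
    rw [h6]
    linarith

/-- **P2** (8.2) -/
theorem P2 (hX : AFacts X) (hn : 1 ≤ n) (F : Filt X.V) (P : Ideal X.B) (hP : P ≠ ⊥)
    (y : X.B →ₐ[ℂ] ℂ) (d : ℕ) (hd : d ≤ n) (hA : Adapted d P y n) (σ₀ A : ℝ)
    (hC : Claim81 X F P y σ₀ A) (σ s : ℝ) (hs : 0 < s) (hsσ : s ≤ σ) (hσ : σ ≤ σ₀)
    (k : ℕ) (l : ℝ) (hk : 1 ≤ k)
    (hI : IInt X.z y (fun _ : Unit => Wl X F P y σ s (k * l)) (fun _ => 1 / (k : ℝ))) :
    l ≤ A + s * d := by
  have hm := mI_ne_bot hX.chart hn y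
  have hσ0 : 0 ≤ σ₀ := by linarith
  have key : ∀ ε : ℝ, 0 < ε → ε < 1 → ∃ u : ℝ, 1 - 2 * ε ≤ u ∧ u ≤ 1 ∧ 0 ≤ A ∧ u * l ≤ A + s * d := by
    intro ε hε hε1
    obtain ⟨M, B, E, α, u, hM, hα, hu1, hu2, hid, h1, h2⟩ :=
      step1 hX hn F P hP y σ s k l hk hI ε hε hε1
    have hM0 : (0 : ℝ) < M := by exact_mod_cast hM
    have h3 := step2 hX F P hP y hm d hd hA σ₀ A hC M B E α hM hα hid h1
    have hB0 : (0 : ℝ) ≤ (B : ℝ) / M := by positivity
    have hE0 : (0 : ℝ) ≤ max ((E : ℝ) / M - d) 0 := le_max_right _ _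
    refine ⟨u, hu1, hu2, ?_, ?_⟩
    · have := mul_nonneg hσ0 hB0
      have := mul_nonneg hσ0 hE0
      linarith
    · have e1 : σ * ((B : ℝ) / M) ≤ σ₀ * ((B : ℝ) / M) := mul_le_mul_of_nonneg_right hσ hB0
      have e2 : s * ((E : ℝ) / M) ≤ s * d + s * max ((E : ℝ) / M - d) 0 := by
        rw [← mul_add]
        apply mul_le_mul_of_nonneg_left _ hs.le
        have := le_max_left ((E : ℝ) / M - d) 0
        linarith
      have e3 : s * max ((E : ℝ) / M - d) 0 ≤ σ₀ * max ((E : ℝ) / M - d) 0 :=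
        mul_le_mul_of_nonneg_right (hsσ.trans hσ) hE0
      linarith
  by_contra hcon
  push Not at hcon
  have hsd : 0 ≤ s * d := by positivity
  -- choose ε
  obtain ⟨u0, _, _, hA0, _⟩ := key (1 / 2) (by norm_num) (by norm_num)
  have hl : 0 < l := by linarith
  set δ := (l - (A + s * d)) / (4 * l) with hδ
  have hδ0 : 0 < δ := by apply div_pos <;> linarith
  have hδ1 : δ < 1 := by
    rw [hδ, div_lt_one (by linarith)]
    linarith
  obtain ⟨u, hu1, hu2, _, hu3⟩ := key δ hδ0 hδ1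
  have : (1 - 2 * δ) * l ≤ u * l := mul_le_mul_of_nonneg_right hu1 hl.le
  have e : 2 * δ * l = (l - (A + s * d)) / 2 := by rw [hδ]; field_simp; ring
  nlinarith

end

end Crest.Agent.R271.N2x161
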