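import Crest.Agent.R271.Defs_710

/-!
Row 271, team N, task N5b (8.5): `A_x(F'') ≤ A'` from `SpecFact`, where every element of `F''(m,l)` is the
value at `τ = 0` of a holomorphic family of elements of `G_τ(m,l₁)`, `l₁ < l`, and `A_{γ(τ)}(G_τ) ≤ A'`.
-/

set_option autoImplicit false

open scoped ENNReal NNReal Topology BigOperators
open MeasureTheory

noncomputable section

namespace Crest.Agent.R271.N5b241

open Crest.Agent.R271.Defs710

section filt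

variable {B : Type} [CommRing B] [Algebra ℂ B] {V : ℕ → Submodule ℂ B}

theorem idl_anti (F : Filt V) {l l' : ℝ} (h : l ≤ l') : idl F l' ≤ idl F l := by
  refine Ideal.span_mono ?_
  rintro b ⟨m, hb⟩
  exact ⟨m, F.anti m h hb⟩

theorem idl_mul (F : Filt V) (l l' : ℝ) : idl F l * idl F l' ≤ idl F (l + l') := by
  unfold idl
  rw [Ideal.span_mul_span']
  refine Ideal.span_mono ?_
  rintro b hb
  rw [Set.mem_mul] at hb
  obtain ⟨a, ⟨m, ha⟩, c, ⟨m', hc⟩, rfl⟩ := hb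
  exact ⟨m + m', F.mul _ _ _ _ _ _ ha hc⟩

theorem idl_pow (F : Filt V) (h0 : (1 : B) ∈ V 0) (l : ℝ) (N : ℕ) :
    idl F l ^ N ≤ idl F (N * l) := by
  induction N with
  | zero =>
    rw [pow_zero, Ideal.one_eq_top]
    have : (1 : B) ∈ idl F ((0 : ℕ) * l) := by
      refine Ideal.subset_span ⟨0, ?_⟩
      rw [F.zero 0 _ (by simp)]
      exact h0
    rw [(Ideal.eq_top_iff_one _).2 this]
  | succ N ih =>
    rw [pow_succ]
    refine (Ideal.mul_mono_left ih).trans ((idl_mul F _ _).trans (le_of_eq ?_))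
    congr 1
    push_cast
    ring

/-- finite generation by elements of the filtration -/
theorem exists_gens [IsNoetherianRing B] (F : Filt V) (l : ℝ) :
    ∃ S : Finset B, (∀ b ∈ S, ∃ m, b ∈ F.F m l) ∧ Ideal.span (S : Set B) = idl F l := by
  have hfg : (Submodule.span B {b | ∃ m, b ∈ F.F m l}).FG := IsNoetherian.noetherian _
  obtain ⟨S, hS, hs⟩ := (Submodule.fg_span_iff_fg_span_finset_subset _).1 hfg
  refine ⟨S, fun b hb => hS hb, ?_⟩
  unfold idl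
  exact hs.symm

end filt

section main

variable {n : ℕ} (X : FCtx n)

theorem noeth : IsNoetherianRing X.B :=
  haveI := X.ft
  Algebra.FiniteType.isNoetherianRing ℂ X.B

theorem one_mem : (1 : X.B) ∈ X.V 0 := by
  rw [X.V_zero]
  exact Submodule.one_le.1 le_rfl

/-- a chart has positive radius balls of positive measure -/
theorem not_lint_top {n : ℕ} (a : Cn n) : ¬ LInt (fun _ : Cn n => (⊤ : ℝ≥0∞)) a := by
  rintro ⟨U, hU, h⟩
  rw [lintegral_const] at h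
  have hpos : 0 < volume U := Measure.measure_pos_of_mem_nhds volume hU
  simp only [Measure.restrict_apply, MeasurableSet.univ, Set.univ_inter] at h
  rw [ENNReal.top_mul hpos.ne'] at h
  exact lt_irrefl _ h

theorem idl_ne_bot_of_iint (y : X.B →ₐ[ℂ] ℂ) (I : Ideal X.B) (c : ℝ) (hc : 0 < c)
    (h : IInt X.z y (fun _ : Unit => I) (fun _ => c)) : I ≠ ⊥ := by
  rintro rfl
  obtain ⟨S, hS, C, hC⟩ := h
  have h0 : ∀ b ∈ S (), b = 0 := by
    intro b hb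
    have : b ∈ Ideal.span (S () : Set X.B) := Ideal.subset_span hb
    rw [hS ()] at this
    simpa using this
  have hw : (fun ζ => wB S (fun _ => c) (C.s ζ)) = fun _ => (⊤ : ℝ≥0∞) := by
    funext ζ
    unfold wB wt
    rw [Fintype.prod_unique]
    have : ∑ b ∈ S default, ‖(C.s ζ) b‖ ^ 2 = 0 := by
      refine Finset.sum_eq_zero fun b hb => ?_
      rw [h0 b hb]
      simp
    rw [this, ENNReal.ofReal_zero, ENNReal.zero_rpow_of_neg (by linarith)]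
  rw [hw] at hC
  exact not_lint_top _ hC

/-- reindexing -/
theorem iint_equiv {n : ℕ} {B : Type} [CommRing B] [Algebra ℂ B] (z : Fin n → B) (y : B →ₐ[ℂ] ℂ)
    {ι ι' : Type} [Fintype ι] [Fintype ι'] (e : ι' ≃ ι) (I : ι → Ideal B) (c : ι → ℝ) :
    IInt z y (fun i => I (e i)) (fun i => c (e i)) ↔ IInt z y I c := by
  constructor
  · rintro ⟨S, hS, C, hC⟩
    refine ⟨fun i => S (e.symm i), fun i => ?_, C, ?_⟩
    · have := hS (e.symm i)
      simpa using this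
    · have : (fun ζ => wB (fun i => S (e.symm i)) c (C.s ζ)) =
          fun ζ => wB S (fun i => c (e i)) (C.s ζ) := by
        funext ζ
        unfold wB
        rw [← Equiv.prod_comp e]
        simp
      rw [this]
      exact hC
  · rintro ⟨S, hS, C, hC⟩
    refine ⟨fun i => S (e i), fun i => hS (e i), C, ?_⟩
    have : (fun ζ => wB (fun i => S (e i)) (fun i => c (e i)) (C.s ζ)) =
        fun ζ => wB S c (C.s ζ) := by
      funext ζ
      unfold wB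
      exact Equiv.prod_comp e (fun i => (ENNReal.ofReal (wt (S i) (C.s ζ))) ^ (-(c i)))
    rw [this]
    exact hC

/-- `Int(I^{N θ}) → Int((I^N)^θ)` for a single ideal -/
theorem iint_pow (hprod : ProdFact X) (y : X.B →ₐ[ℂ] ℂ) (I : Ideal X.B) (hI : I ≠ ⊥) (N : ℕ)
    (θ : ℝ) (h : IInt X.z y (fun _ : Unit => I) (fun _ => θ * N)) :
    IInt X.z y (fun _ : Unit => I ^ N) (fun _ => θ) := by
  have h1 := (hprod y Empty Unit (fun e => e.elim) (fun e => e.elim) (fun _ => I) (fun _ => N) θ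
    (fun e => e.elim) (fun _ => hI)).2
  have h2 : IInt X.z y (Sum.elim (fun e : Empty => e.elim) (fun _ : Unit => I))
      (Sum.elim (fun e : Empty => e.elim) (fun _ : Unit => θ * N)) := by
    rw [← iint_equiv X.z y (Equiv.emptySum Empty Unit).symm]
    exact h
  have h3 := h1 h2
  rw [← iint_equiv X.z y (Equiv.emptySum Empty Unit).symm] at h3
  simpa using h3

theorem good_of_pow (hmono : MonoFact X) (hprod : ProdFact X) (F : Filt X.V) (y : X.B →ₐ[ℂ] ℂ)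
    (I : Ideal X.B) (k : ℕ) (hk : 1 ≤ k) (l : ℝ) (hI : I ≤ idl F (k * l)) (hI0 : I ≠ ⊥) (N : ℕ)
    (h : IInt X.z y (fun _ : Unit => I) (fun _ => (1 / (((N + 1) * k : ℕ) : ℝ)) * N)) :
    Good X.z F y (N / (N + 1) * l) := by
  have hk' : (0 : ℝ) < k := by exact_mod_cast hk
  have hN' : (0 : ℝ) < (N : ℝ) + 1 := by positivity
  refine ⟨(N + 1) * k, Nat.mul_pos (Nat.succ_pos N) hk, ?_⟩
  have h1 := iint_pow X hprod y I hI0 N _ h
  have hle : I ^ N ≤ idl F ((((N + 1) * k : ℕ) : ℝ) * (N / (N + 1) * l)) := by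
    refine (Ideal.pow_right_mono hI N).trans ((idl_pow F (one_mem X) _ N).trans (le_of_eq ?_))
    congr 1
    push_cast
    field_simp
  have hIN : I ^ N ≠ ⊥ := pow_ne_zero N hI0
  refine hmono y Unit (fun _ => I ^ N) (fun _ => idl F _) _ _ (fun _ => hIN)
    (fun _ hb => hIN (le_bot_iff.1 (hle.trans hb.le))) (fun _ => le_rfl)
    (fun _ => Or.inr ⟨by positivity, hle⟩) h1

theorem lint_const_mul {n : ℕ} (g g' : Cn n → ℝ≥0∞) (a : Cn n) (K : ℝ≥0∞) (hK : K ≠ ⊤)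
    (hle : ∀ ζ, g' ζ ≤ K * g ζ) (h : LInt g a) : LInt g' a := by
  obtain ⟨U, hU, hlt⟩ := h
  refine ⟨U, hU, ?_⟩
  calc ∫⁻ ζ in U, g' ζ ≤ ∫⁻ ζ in U, K * g ζ := lintegral_mono (fun ζ => hle ζ)
    _ = K * ∫⁻ ζ in U, g ζ := lintegral_const_mul' _ _ hK
    _ < ∞ := ENNReal.mul_lt_top (lt_top_iff_ne_top.2 hK) hlt

/-- sums over a finite family versus sums over the set of its values -/
theorem iint_of_family (y : X.B →ₐ[ℂ] ℂ) (nF : ℕ) (f : Fin nF → X.B) (c : ℝ) (hc : 0 ≤ c)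
    (h : LIntB X.z y (fun y' => (ENNReal.ofReal (∑ i, ‖y' (f i)‖ ^ 2)) ^ (-c))) :
    IInt X.z y (fun _ : Unit => Ideal.span (Set.range f)) (fun _ => c) := by
  classical
  obtain ⟨C, hC⟩ := h
  refine ⟨fun _ => Finset.univ.image f, fun _ => by simp, C, ?_⟩
  refine lint_const_mul _ _ 0 ((ENNReal.ofReal (nF : ℝ)) ^ c)
    (ENNReal.rpow_ne_top_of_nonneg hc ENNReal.ofReal_ne_top) (fun ζ => ?_) hC
  unfold wB wt
  rw [Fintype.prod_unique]
  change (ENNReal.ofReal (∑ b ∈ Finset.univ.image f, ‖(C.s ζ) b‖ ^ 2)) ^ (-c) ≤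
    (ENNReal.ofReal (nF : ℝ)) ^ c * (ENNReal.ofReal (∑ i, ‖(C.s ζ) (f i)‖ ^ 2)) ^ (-c)
  set a : ℝ := ∑ b ∈ Finset.univ.image f, ‖(C.s ζ) b‖ ^ 2 with ha
  set b : ℝ := ∑ i, ‖(C.s ζ) (f i)‖ ^ 2 with hb
  have ha0 : 0 ≤ a := Finset.sum_nonneg fun _ _ => by positivity
  have hb0 : 0 ≤ b := Finset.sum_nonneg fun _ _ => by positivity
  have hab : b ≤ nF * a := by
    have : ∀ i ∈ (Finset.univ : Finset (Fin nF)), ‖(C.s ζ) (f i)‖ ^ 2 ≤ a := by
      intro i _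
      exact Finset.single_le_sum (f := fun b => ‖(C.s ζ) b‖ ^ 2) (fun _ _ => by positivity)
        (Finset.mem_image_of_mem f (Finset.mem_univ i))
    calc b ≤ ∑ _i : Fin nF, a := Finset.sum_le_sum this
      _ = nF * a := by simp
  have key : ENNReal.ofReal b ≤ ENNReal.ofReal (nF : ℝ) * ENNReal.ofReal a := by
    rw [← ENNReal.ofReal_mul (Nat.cast_nonneg _)]
    exact ENNReal.ofReal_le_ofReal hab
  rcases hc.eq_or_lt with rfl | hc'
  · simp
  · by_cases hn : nF = 0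
    · subst hn
      exfalso
      -- the weight is `⊤` everywhere, contradiction with integrability
      refine not_lint_top (0 : Cn n) ?_
      have : (fun ζ => (ENNReal.ofReal (∑ i : Fin 0, ‖(C.s ζ) (f i)‖ ^ 2)) ^ (-c)) =
          fun _ : Cn n => (⊤ : ℝ≥0∞) := by
        funext ζ'
        simp only [Finset.univ_eq_empty, Finset.sum_empty, ENNReal.ofReal_zero]
        rw [ENNReal.zero_rpow_of_neg (by linarith)]
      rw [← this]
      exact hC
    · have hnp : (0 : ℝ) < nF := by exact_mod_cast Nat.pos_of_ne_zero hn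
      rw [ENNReal.rpow_neg, ENNReal.rpow_neg]
      have h1 : (ENNReal.ofReal b) ^ c ≤ (ENNReal.ofReal (nF : ℝ)) ^ c * (ENNReal.ofReal a) ^ c := by
        rw [← ENNReal.mul_rpow_of_nonneg _ _ hc]
        exact ENNReal.rpow_le_rpow key hc
      have hK0 : (ENNReal.ofReal (nF : ℝ)) ^ c ≠ 0 := by
        have : ENNReal.ofReal (nF : ℝ) ≠ 0 := by
          rw [Ne, ENNReal.ofReal_eq_zero, not_le]
          exact hnp
        exact (ENNReal.rpow_pos (pos_iff_ne_zero.2 this) ENNReal.ofReal_ne_top).ne'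
      have hKt : (ENNReal.ofReal (nF : ℝ)) ^ c ≠ ⊤ :=
        ENNReal.rpow_ne_top_of_nonneg hc ENNReal.ofReal_ne_top
      calc ((ENNReal.ofReal a) ^ c)⁻¹
          = (ENNReal.ofReal (nF : ℝ)) ^ c * ((ENNReal.ofReal (nF : ℝ)) ^ c *
              (ENNReal.ofReal a) ^ c)⁻¹ := by
            rw [ENNReal.mul_inv (Or.inl hK0) (Or.inl hKt), ← mul_assoc,
              ENNReal.mul_inv_cancel hK0 hKt, one_mul]
        _ ≤ (ENNReal.ofReal (nF : ℝ)) ^ c * ((ENNReal.ofReal b) ^ c)⁻¹ := by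
            gcongr

/-- finitely many families of linear combinations can be written over a common family -/
theorem common_family {B : Type} [CommRing B] [Algebra ℂ B] {nF : ℕ} (nb : Fin nF → ℕ)
    (bb : ∀ i, Fin (nb i) → B) (cc : ∀ i, Fin (nb i) → ℂ → ℂ)
    (hcc : ∀ i j, AnalyticAt ℂ (cc i j) 0) :
    ∃ (M : ℕ) (bF : Fin M → B) (coF : Fin nF → Fin M → ℂ → ℂ), (∀ i j, AnalyticAt ℂ (coF i j) 0) ∧
      ∀ i τ, ∑ j, coF i j τ • bF j = ∑ j, cc i j τ • bb i j := by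
  classical
  let β : Type := Σ i : Fin nF, Fin (nb i)
  let eβ : Fin (Fintype.card β) ≃ β := (Fintype.equivFin β).symm
  refine ⟨Fintype.card β, fun j => bb (eβ j).1 (eβ j).2,
    fun i j τ => if (eβ j).1 = i then cc (eβ j).1 (eβ j).2 τ else 0, fun i j => ?_, fun i τ => ?_⟩
  · by_cases hij : (eβ j).1 = i
    · simp only [if_pos hij]
      exact hcc _ _
    · simp only [if_neg hij]
      exact analyticAt_const
  · have e1 : ∑ j, (if (eβ j).1 = i then cc (eβ j).1 (eβ j).2 τ else 0) • bb (eβ j).1 (eβ j).2 =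
        ∑ p : β, (if p.1 = i then cc p.1 p.2 τ else 0) • bb p.1 p.2 :=
      Equiv.sum_comp eβ (fun p : β => (if p.1 = i then cc p.1 p.2 τ else 0) • bb p.1 p.2)
    rw [e1, Fintype.sum_sigma]
    rw [Finset.sum_eq_single i]
    · simp
    · intro b _ hb
      simp [hb]
    · intro h
      exact absurd (Finset.mem_univ _) h

/-- a finset as the range of an injective finite family -/
theorem finset_family {B : Type} (S : Finset B) :
    ∃ f : Fin S.card → B, (∀ i, f i ∈ S) ∧ ∀ φ : B → ℝ, ∑ i, φ (f i) = ∑ b ∈ S, φ b := by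
  refine ⟨fun i => (S.equivFin.symm i).1, fun i => (S.equivFin.symm i).2, fun φ => ?_⟩
  rw [← Finset.sum_coe_sort S φ]
  exact Equiv.sum_comp S.equivFin.symm (fun b : {b // b ∈ S} => φ b.1)

theorem eval_sum {B : Type} [CommRing B] [Algebra ℂ B] (y : B →ₐ[ℂ] ℂ) {M : ℕ} (c : Fin M → ℂ)
    (b : Fin M → B) : ∑ j, c j * y (b j) = y (∑ j, c j • b j) := by
  rw [map_sum y (fun j => c j • b j) Finset.univ]
  refine Finset.sum_congr rfl fun j _ => ?_
  rw [map_smul, smul_eq_mul]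

/-- the level arithmetic -/
theorem exists_level {Ar l : ℝ} (h0 : 0 ≤ Ar) (h : Ar < l) :
    ∃ (l₁ : ℝ) (N : ℕ), Ar < l₁ ∧ l₁ < l ∧ 1 ≤ N ∧ Ar < (N : ℝ) / (N + 1) * l₁ := by
  have h1 : Ar < (Ar + l) / 2 := by linarith
  have h2 : (Ar + l) / 2 < l := by linarith
  obtain ⟨N, hN⟩ : ∃ N : ℕ, Ar < (N : ℝ) / (N + 1) * ((Ar + l) / 2) := by
    have hlim : Filter.Tendsto (fun N : ℕ => (N : ℝ) / (N + 1) * ((Ar + l) / 2)) Filter.atTop
        (𝓝 (1 * ((Ar + l) / 2))) :=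
      (tendsto_natCast_div_add_atTop (1 : ℝ)).mul_const _
    rw [one_mul] at hlim
    exact (hlim.eventually_const_lt h1).exists
  refine ⟨(Ar + l) / 2, N, h1, h2, ?_, hN⟩
  rcases Nat.eq_zero_or_pos N with rfl | h
  · simp at hN
    linarith
  · exact h

/-- lower bound of the threshold -/
theorem le_thr_of_good (F : Filt X.V) (y : X.B →ₐ[ℂ] ℂ) {l : ℝ} (hl : 0 ≤ l)
    (h : Good X.z F y l) : ENNReal.ofReal l ≤ thr X.z F y := by
  unfold thr
  have : ((l.toNNReal : ℝ≥0) : ℝ) = l := Real.coe_toNNReal _ hl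
  have hg : Good X.z F y ((l.toNNReal : ℝ≥0) : ℝ) := by rw [this]; exact h
  exact le_iSup₂_of_le (l.toNNReal) hg le_rfl

/-- upper bound of the threshold -/
theorem thr_le_of_good (F : Filt X.V) (y : X.B →ₐ[ℂ] ℂ) {A : ℝ} (hA : 0 ≤ A)
    (h : ∀ l : ℝ, A < l → ¬ Good X.z F y l) : thr X.z F y ≤ ENNReal.ofReal A := by
  unfold thr
  refine iSup₂_le fun l hl => ?_
  by_contra hcon
  rw [not_le, ENNReal.ofReal_lt_coe_iff hA] at hcon
  exact h _ hcon hl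

/-- **N5b.** Real form: `A_y(F) ≤ A` as soon as every element of `F(m,l)` is the value at `0` of a holomorphic
family of elements of `G_τ(m,l₁)` (for every `l₁ < l`) and `A_{γ τ}(G_τ) ≤ A` for small `τ ≠ 0`. -/
theorem not_good_of_family (hgens : GensFact X) (hmono : MonoFact X) (hprod : ProdFact X)
    (hspec : SpecFact X) (y : X.B →ₐ[ℂ] ℂ) (γ : ℂ → (X.B →ₐ[ℂ] ℂ)) (hγ0 : γ 0 = y)
    (hγ : ∀ f : X.B, AnalyticAt ℂ (fun τ => γ τ f) 0) (F : Filt X.V) (G : ℂ → Filt X.V)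
    (A : ℝ) (hA : 0 ≤ A) (hG : ∀ᶠ τ in 𝓝[≠] (0 : ℂ), thr X.z (G τ) (γ τ) ≤ ENNReal.ofReal A)
    (hfam : ∀ (m : ℕ) (l : ℝ) (f : X.B), f ∈ F.F m l → ∀ l₁ < l,
      ∃ (nb : ℕ) (b : Fin nb → X.B) (co : Fin nb → ℂ → ℂ), (∀ j, AnalyticAt ℂ (co j) 0) ∧
        ∑ j, co j 0 • b j = f ∧ ∀ᶠ τ in 𝓝[≠] (0 : ℂ), ∑ j, co j τ • b j ∈ (G τ).F m l₁)
    (l : ℝ) (hAl : A < l) : ¬ Good X.z F y l := by
  classical
  have := noeth X
  intro hgood
  obtain ⟨l₁, N, h1, h2, hN1, hN⟩ := exists_level hA hAl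
  have hl₁0 : 0 < l₁ := lt_of_le_of_lt hA h1
  obtain ⟨k, hk, hint⟩ := hgood
  have hk' : (0 : ℝ) < k := by exact_mod_cast hk
  have hNr : (1 : ℝ) ≤ N := by exact_mod_cast hN1
  -- generators
  obtain ⟨S, hSF, hSs⟩ := exists_gens F ((k : ℝ) * l)
  have hint' : LIntB X.z y (wB (fun _ : Unit => S) (fun _ : Unit => 1 / (k : ℝ))) :=
    (hgens y Unit (fun _ => idl F (k * l)) (fun _ => 1 / (k : ℝ)) (fun _ => S)
      (fun _ => hSs)).1 hint
  obtain ⟨g, hgS, hgsum⟩ := finset_family S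
  have hlt : (k : ℝ) * l₁ < (k : ℝ) * l := mul_lt_mul_of_pos_left h2 hk'
  have hch : ∀ i : Fin S.card, ∃ (mm : ℕ) (nb : ℕ) (bb : Fin nb → X.B) (co : Fin nb → ℂ → ℂ),
      (∀ j, AnalyticAt ℂ (co j) 0) ∧ ∑ j, co j 0 • bb j = g i ∧
      ∀ᶠ τ in 𝓝[≠] (0 : ℂ), ∑ j, co j τ • bb j ∈ (G τ).F mm (k * l₁) := by
    intro i
    obtain ⟨m, hm⟩ := hSF (g i) (hgS i)
    obtain ⟨nb, b, co, h3, h4, h5⟩ := hfam m _ (g i) hm _ hlt
    exact ⟨m, nb, b, co, h3, h4, h5⟩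
  choose mm nb bb cc hcc hc0 hcG using hch
  obtain ⟨M, bF, coF, hcoF, hsum⟩ := common_family nb bb cc hcc
  have hfun : (fun y' : X.B →ₐ[ℂ] ℂ =>
      (ENNReal.ofReal (∑ i, ‖∑ j, coF i j 0 * y' (bF j)‖ ^ 2)) ^ (-(1 / (k : ℝ)))) =
      wB (fun _ : Unit => S) (fun _ : Unit => 1 / (k : ℝ)) := by
    funext y'
    unfold wB wt
    rw [Fintype.prod_unique]
    have : ∑ i, ‖∑ j, coF i j 0 * y' (bF j)‖ ^ 2 = ∑ b ∈ S, ‖y' b‖ ^ 2 := by
      rw [← hgsum (fun b => ‖y' b‖ ^ 2)]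
      refine Finset.sum_congr rfl fun i _ => ?_
      rw [eval_sum, hsum, hc0]
    rw [this]
  have hε0 : (0 : ℝ) < 1 / ((N : ℝ) + 1) := by positivity
  have hε1 : 1 / ((N : ℝ) + 1) < 1 := by
    rw [div_lt_one (by positivity)]
    linarith
  have hspec' := hspec y S.card M bF coF (1 / (k : ℝ)) γ hγ0 hγ hcoF (by positivity)
    (by rw [hfun]; exact hint') (1 / ((N : ℝ) + 1)) hε0 hε1
  have hallG : ∀ᶠ τ in 𝓝[≠] (0 : ℂ), ∀ i,
      ∑ j, cc i j τ • bb i j ∈ (G τ).F (mm i) (k * l₁) := Filter.eventually_all.2 hcG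
  obtain ⟨τ, hτ, hτG, hτA⟩ := (hspec'.and_eventually (hallG.and hG)).exists
  have hfunτ : (fun y' : X.B →ₐ[ℂ] ℂ =>
      (ENNReal.ofReal (∑ i, ‖∑ j, coF i j τ * y' (bF j)‖ ^ 2)) ^
        (-((1 - 1 / ((N : ℝ) + 1)) * (1 / (k : ℝ))))) =
      fun y' : X.B →ₐ[ℂ] ℂ => (ENNReal.ofReal (∑ i, ‖y' (∑ j, cc i j τ • bb i j)‖ ^ 2)) ^
        (-((1 - 1 / ((N : ℝ) + 1)) * (1 / (k : ℝ)))) := by
    funext y'
    have : ∑ i, ‖∑ j, coF i j τ * y' (bF j)‖ ^ 2 = ∑ i, ‖y' (∑ j, cc i j τ • bb i j)‖ ^ 2 :=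
      Finset.sum_congr rfl fun i _ => by rw [eval_sum, hsum]
    rw [this]
  rw [hfunτ] at hτ
  have hI := iint_of_family X (γ τ) _ (fun i => ∑ j, cc i j τ • bb i j)
    ((1 - 1 / ((N : ℝ) + 1)) * (1 / (k : ℝ)))
    (mul_nonneg (by linarith) (by positivity)) hτ
  have hcexp : (1 - 1 / ((N : ℝ) + 1)) * (1 / (k : ℝ)) = (1 / (((N + 1) * k : ℕ) : ℝ)) * N := by
    push_cast
    field_simp
    ring
  have hpos : 0 < (1 / (((N + 1) * k : ℕ) : ℝ)) * (N : ℝ) := by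
    have : (0 : ℝ) < (((N + 1) * k : ℕ) : ℝ) := by
      exact_mod_cast Nat.mul_pos (Nat.succ_pos N) hk
    positivity
  rw [hcexp] at hI
  have hI0 : Ideal.span (Set.range (fun i => ∑ j, cc i j τ • bb i j)) ≠ ⊥ :=
    idl_ne_bot_of_iint X (γ τ) _ _ hpos hI
  have hle : Ideal.span (Set.range (fun i => ∑ j, cc i j τ • bb i j)) ≤
      idl (G τ) (k * l₁) := by
    unfold idl
    refine Ideal.span_mono ?_
    rintro _ ⟨i, rfl⟩
    exact ⟨_, hτG i⟩
  have hgood' := good_of_pow X hmono hprod (G τ) (γ τ) _ k hk l₁ hle hI0 N hI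
  have hnn : 0 ≤ (N : ℝ) / (N + 1) * l₁ := by positivity
  have h5 := (le_thr_of_good X (G τ) (γ τ) hnn hgood').trans hτA
  rw [ENNReal.ofReal_le_ofReal_iff hA] at h5
  linarith

/-- **N5b**, threshold form. -/
theorem thr_le_of_family (hgens : GensFact X) (hmono : MonoFact X) (hprod : ProdFact X)
    (hspec : SpecFact X) (y : X.B →ₐ[ℂ] ℂ) (γ : ℂ → (X.B →ₐ[ℂ] ℂ)) (hγ0 : γ 0 = y)
    (hγ : ∀ f : X.B, AnalyticAt ℂ (fun τ => γ τ f) 0) (F : Filt X.V) (G : ℂ → Filt X.V)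
    (A : ℝ) (hA : 0 ≤ A) (hG : ∀ᶠ τ in 𝓝[≠] (0 : ℂ), thr X.z (G τ) (γ τ) ≤ ENNReal.ofReal A)
    (hfam : ∀ (m : ℕ) (l : ℝ) (f : X.B), f ∈ F.F m l → ∀ l₁ < l,
      ∃ (nb : ℕ) (b : Fin nb → X.B) (co : Fin nb → ℂ → ℂ), (∀ j, AnalyticAt ℂ (co j) 0) ∧
        ∑ j, co j 0 • b j = f ∧ ∀ᶠ τ in 𝓝[≠] (0 : ℂ), ∑ j, co j τ • b j ∈ (G τ).F m l₁) :
    thr X.z F y ≤ ENNReal.ofReal A :=
  thr_le_of_good X F y hA
    (not_good_of_family X hgens hmono hprod hspec y γ hγ0 hγ F G A hA hG hfam)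

end main

end Crest.Agent.R271.N5b241
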