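import Mathlib
import Crest.Agent.R271.NSpec_647
import Crest.Agent.R271.N5m_91
import Crest.Agent.R271.N5k_91

/-!
Row 271, team N: `LimitStmt` (8.3) + (8.5).
-/

set_option autoImplicit false

open Filter Topology

namespace Crest.Agent.R271.N91

open Crest.Agent.R271.N647 Crest.Agent.R271.Defs710

/-- `v ↦ ∑ v_j b_j` -/
noncomputable def comb {B : Type} [CommRing B] [Algebra ℂ B] {q : ℕ} (b : Fin q → B) :
    (Fin q → ℂ) →ₗ[ℂ] B := Fintype.linearCombination ℂ b

theorem comb_apply {B : Type} [CommRing B] [Algebra ℂ B] {q : ℕ} (b : Fin q → B)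
    (v : Fin q → ℂ) : comb b v = ∑ j, v j • b j := rfl

theorem comb_inj {B : Type} [CommRing B] [Algebra ℂ B] {q : ℕ} (b : Fin q → B)
    (hb : LinearIndependent ℂ b) : Function.Injective (comb b) :=
  hb.fintypeLinearCombination_injective

theorem range_comb {B : Type} [CommRing B] [Algebra ℂ B] {q : ℕ} (b : Fin q → B) :
    LinearMap.range (comb b) = Submodule.span ℂ (Set.range b) :=
  Fintype.range_linearCombination ℂ b

theorem finrank_U {B : Type} [CommRing B] [Algebra ℂ B] {V : ℕ → Submodule ℂ B} (F : Filt V)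
    (P : Ideal B) (y : B →ₐ[ℂ] ℂ) (m : ℕ) (a : ℝ) (e q N : ℕ) (b : Fin q → B)
    (hb : LinearIndependent ℂ b) (hspan : Submodule.span ℂ (Set.range b) = F.F m a)
    (c : Matrix (Fin N) (Fin q) ℂ)
    (hc : ∀ v : Fin q → ℂ, (∑ j, v j • b j ∈ U F P y m a e ↔ c.mulVec v = 0)) :
    Module.finrank ℂ (U F P y m a e) = q - c.rank := by
  have h1 : U F P y m a e = (LinearMap.ker c.mulVecLin).map (comb b) := by
    ext f
    rw [Submodule.mem_map]
    constructor
    · intro hf
      have hfF : f ∈ F.F m a := hf.1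
      rw [← hspan, ← range_comb] at hfF
      obtain ⟨v, rfl⟩ := hfF
      exact ⟨v, (hc v).1 hf, rfl⟩
    · rintro ⟨v, hv, rfl⟩
      exact (hc v).2 hv
  rw [h1, ← finrank_ker_mulVec]
  exact (Submodule.equivMapOfInjective (comb b) (comb_inj b hb) _).symm.finrank_eq

theorem limitStmt {n : ℕ} (X : FCtx n) : LimitStmt X := by
  classical
  intro F P hP ι _ m a e
  have hfin : ∀ i, FiniteDimensional ℂ (F.F (m i) (a i)) := fun i => by
    have := X.V_fin (m i)
    exact Submodule.finiteDimensional_of_le (F.le_V (m i) (a i))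
  set q : ι → ℕ := fun i => Module.finrank ℂ (F.F (m i) (a i)) with hq
  let bb : ∀ i, Module.Basis (Fin (q i)) ℂ (F.F (m i) (a i)) := fun i => Module.finBasis ℂ _
  let b : ∀ i, Fin (q i) → X.B := fun i j => (bb i j : X.B)
  have hb : ∀ i, LinearIndependent ℂ (b i) := fun i =>
    (bb i).linearIndependent.map' (F.F (m i) (a i)).subtype (Submodule.ker_subtype _)
  have hspan : ∀ i, Submodule.span ℂ (Set.range (b i)) = F.F (m i) (a i) := fun i => by
    have h1 : Set.range (b i) = (F.F (m i) (a i)).subtype '' Set.range (bb i) := by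
      rw [← Set.range_comp]; rfl
    rw [h1, ← Submodule.map_span, (bb i).span_eq, Submodule.map_top, Submodule.range_subtype]
  have hbF : ∀ i j, b i j ∈ F.F (m i) (a i) := fun i j => (bb i j).2
  choose h N c ρ hhP hy using fun i => matrixStmt X F P hP (m i) (a i) (e i) (q i) (b i) (hb i)
    (hspan i)
  have hprod : ∀ y : X.B →ₐ[ℂ] ℂ, y (∏ i, h i) ≠ 0 → ∀ i, y (h i) ≠ 0 := by
    intro y hyh i
    rw [map_prod, Finset.prod_ne_zero_iff] at hyh
    exact hyh i (Finset.mem_univ i)
  refine ⟨∏ i, h i, fun i => q i - ρ i, ?_, ?_, ?_⟩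
  · intro hmem
    obtain ⟨i, _, hi⟩ := (hP.prod_mem_iff).1 hmem
    exact hhP i hi
  · intro y hyP hyh i
    have h1 := hy i y hyP (hprod y hyh i)
    rw [finrank_U F P y (m i) (a i) (e i) (q i) (N i) (b i) (hb i) (hspan i) _ h1.2, h1.1]
  · intro γ hγ hγP
    have hrank : ∀ i, ∀ᶠ τ in 𝓝[≠] (0 : ℂ),
        (Matrix.of fun i' j => (fun τ => γ τ (c i i' j)) τ).rank = ρ i := by
      intro i
      filter_upwards [hγP] with τ hτ
      exact (hy i (γ τ) (fun f hf => hτ.1 f hf) (hprod _ hτ.2 i)).1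
    choose co hco hind hker using fun i => kernelLimit (N i) (q i) (ρ i)
      (fun i' j τ => γ τ (c i i' j)) (fun i' j => hγ (c i i' j)) (hrank i)
    refine ⟨q, b, co, hbF, hco, fun i => ?_, ?_⟩
    · exact (hind i).map' (comb (b i)) (LinearMap.ker_eq_bot.2 (comb_inj _ (hb i)))
    · rw [Filter.eventually_all]
      intro i
      filter_upwards [hγP, hker i] with τ hτ hτk j
      exact ((hy i (γ τ) (fun f hf => hτ.1 f hf) (hprod _ hτ.2 i)).2 (fun k => co i j k τ)).2
        (hτk j)

end Crest.Agent.R271.N91
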