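import Mathlib
import Crest.Agent.R271.N6_241
import Crest.Agent.R271.N6b_593

/-!
Row 271, team N, piece N6, final form.
-/

set_option autoImplicit false

noncomputable section

namespace Crest.Agent.R271.N6x241

open Crest.Agent.R271.Defs710 Crest.Agent.R271.N647

variable {n : ℕ}

theorem zLarge (X : FCtx n) (hn : 1 ≤ n) (af : AFacts X) : ZLarge X :=
  fun κ hκ K => N6b593.zz_large X hn af κ hκ K

/-- (8.6)-(8.8) -/
theorem nonIsoStmt (X : FCtx n) (hn : 1 ≤ n) (af : AFacts X) (hP : PerturbStmt X)
    (hC : CountStmt X) : NonIsoStmt X :=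
  nonIsoStmt' X af.gen hP hC (zLarge X hn af)

end Crest.Agent.R271.N6x241
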