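import Crest.Agent.R271.Defs_710

/-!
Row 271, piece N7 (helper857): local algebra at a point of `M = Hom(B,ℂ)`.
-/

set_option autoImplicit false

open MvPolynomial Crest.Agent.R271.Defs710

noncomputable section

namespace Crest.Agent.R271.N857

variable {n : ℕ} {B : Type} [CommRing B] [Algebra ℂ B]

theorem mem_mI {y : B →ₐ[ℂ] ℂ} {b : B} : b ∈ mI y ↔ y b = 0 := by
  simp [mI, RingHom.mem_ker]

theorem sub_mem_mI (y : B →ₐ[ℂ] ℂ) (b : B) : b - algebraMap ℂ B (y b) ∈ mI y := by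
  rw [mem_mI, map_sub, AlgHom.commutes]; simp

/-- an element not vanishing at `y` is invertible modulo every power of `m_y` -/
theorem inv_mod (y : B →ₐ[ℂ] ℂ) {g : B} (hg : y g ≠ 0) (e : ℕ) :
    ∃ v : B, 1 - v * g ∈ mI y ^ e := by
  induction e with
  | zero => exact ⟨0, by simp⟩
  | succ e ih =>
    obtain ⟨v, hv⟩ := ih
    refine ⟨v + algebraMap ℂ B (y g)⁻¹ - v * (algebraMap ℂ B (y g)⁻¹) * g, ?_⟩
    have h1 : 1 - (algebraMap ℂ B (y g)⁻¹) * g ∈ mI y := by
      rw [mem_mI, map_sub, map_mul, AlgHom.commutes, map_one]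
      simp [hg]
    have := Ideal.mul_mem_mul hv h1
    rw [← pow_succ] at this
    convert this using 1
    ring

/-- locality: membership in an ideal containing a power of `m_y` can be tested after multiplication by
an element not vanishing at `y` -/
theorem mem_of_mul_mem (y : B →ₐ[ℂ] ℂ) {g : B} (hg : y g ≠ 0) {e : ℕ} {Q : Ideal B}
    (hQ : mI y ^ e ≤ Q) {f : B} (hf : g * f ∈ Q) : f ∈ Q := by
  obtain ⟨v, hv⟩ := inv_mod y hg e
  have : f = (1 - v * g) * f + v * (g * f) := by ring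
  rw [this]
  exact Q.add_mem (Ideal.mul_mem_right _ _ (hQ hv)) (Ideal.mul_mem_left _ _ hf)

theorem exists_poly (y : B →ₐ[ℂ] ℂ) (w : Fin n → B) (hw : ∀ i, y (w i) = 0) {g : B} (hg : y g ≠ 0)
    (hgw : ∀ f : B, y f = 0 → g * f ∈ Ideal.span (Set.range w)) (e : ℕ) :
    ∀ b : B, ∃ p : MvPolynomial (Fin n) ℂ, b - aeval w p ∈ mI y ^ e := by
  induction e with
  | zero => intro b; exact ⟨0, by simp⟩
  | succ e ih =>
    intro b
    obtain ⟨v, hv⟩ := inv_mod y hg (e + 1)
    set c := b - algebraMap ℂ B (y b) with hc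
    have hc0 : y c = 0 := mem_mI.1 (sub_mem_mI y b)
    have h1 : v * (g * c) ∈ Ideal.span (Set.range w) := Ideal.mul_mem_left _ _ (hgw c hc0)
    rw [Ideal.mem_span_range_iff_exists_fun] at h1
    obtain ⟨a, ha⟩ := h1
    choose p hp using fun i => ih (a i)
    refine ⟨MvPolynomial.C (y b) + ∑ i, p i * X i, ?_⟩
    have h2 : b - aeval w (MvPolynomial.C (y b) + ∑ i, p i * X i)
        = (1 - v * g) * c + ∑ i, (a i - aeval w (p i)) * w i := by
      have : ∑ i, (a i - aeval w (p i)) * w i = v * (g * c) - ∑ i, aeval w (p i) * w i := by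
        rw [← ha, ← Finset.sum_sub_distrib]
        exact Finset.sum_congr rfl fun i _ => by ring
      rw [this]
      simp only [map_add, map_sum, map_mul, aeval_X, aeval_C, hc]
      ring
    rw [h2]
    refine Ideal.add_mem _ (Ideal.mul_mem_right _ _ hv) (Ideal.sum_mem _ fun i _ => ?_)
    rw [pow_succ]
    exact Ideal.mul_mem_mul (hp i) (mem_mI.2 (hw i))

/-- `ℂ[X]/(X)^e` is finite dimensional -/
instance finite_quot (d e : ℕ) :
    Module.Finite ℂ (MvPolynomial (Fin d) ℂ ⧸ idealOfVars (Fin d) ℂ ^ e) := by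
  classical
  have hfin : {v : Fin d →₀ ℕ | v.degree < e}.Finite := by
    refine (Finset.finite_toSet (Finset.Iic (Finsupp.equivFunOnFinite.symm fun _ : Fin d => e))).subset ?_
    intro v hv
    have hv' : v.degree < e := hv
    simp only [Finset.coe_Iic, Set.mem_Iic]
    intro i
    have h1 : v i ≤ e := le_trans (Finsupp.le_degree i v) hv'.le
    simpa using h1
  rw [Module.finite_def, Submodule.fg_def]
  refine ⟨(fun v : Fin d →₀ ℕ => Ideal.Quotient.mk (idealOfVars (Fin d) ℂ ^ e) (monomial v 1)) ''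
    {v | v.degree < e}, hfin.image _, ?_⟩
  rw [eq_top_iff]
  rintro q -
  obtain ⟨p, rfl⟩ := Ideal.Quotient.mk_surjective q
  rw [p.as_sum, map_sum]
  refine Submodule.sum_mem _ fun v _ => ?_
  by_cases hv : v.degree < e
  · have : (Ideal.Quotient.mk (idealOfVars (Fin d) ℂ ^ e)) (monomial v (coeff v p))
        = (coeff v p) • (Ideal.Quotient.mk (idealOfVars (Fin d) ℂ ^ e)) (monomial v 1) := by
      rw [← mul_one (coeff v p), ← smul_eq_mul, ← smul_monomial, smul_eq_mul, mul_one]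
      rfl
    rw [this]
    exact Submodule.smul_mem _ _ (Submodule.subset_span ⟨v, hv, rfl⟩)
  · have : (Ideal.Quotient.mk (idealOfVars (Fin d) ℂ ^ e)) (monomial v (coeff v p)) = 0 := by
      rw [Ideal.Quotient.eq_zero_iff_mem, mem_pow_idealOfVars_iff']
      intro x hx
      rw [coeff_monomial, if_neg]
      rintro rfl
      exact hv hx
    rw [this]
    exact Submodule.zero_mem _

/-- étaleness is invariant under translation of the coordinates -/
theorem etale_translate (z : Fin n → B)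
    (hz : RingHom.Etale ((MvPolynomial.aeval z : MvPolynomial (Fin n) ℂ →ₐ[ℂ] B) :
      MvPolynomial (Fin n) ℂ →+* B)) (c : Fin n → ℂ) :
    RingHom.Etale ((MvPolynomial.aeval (fun i => z i - algebraMap ℂ B (c i)) :
      MvPolynomial (Fin n) ℂ →ₐ[ℂ] B) : MvPolynomial (Fin n) ℂ →+* B) := by
  let σ : MvPolynomial (Fin n) ℂ →ₐ[ℂ] MvPolynomial (Fin n) ℂ := aeval fun i => X i - C (c i)
  let τ : MvPolynomial (Fin n) ℂ →ₐ[ℂ] MvPolynomial (Fin n) ℂ := aeval fun i => X i + C (c i)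
  have h1 : σ.comp τ = AlgHom.id ℂ _ := by ext i; simp [σ, τ]
  have h2 : τ.comp σ = AlgHom.id ℂ _ := by ext i; simp [σ, τ]
  have hb : Function.Bijective (σ : MvPolynomial (Fin n) ℂ →+* MvPolynomial (Fin n) ℂ) := by
    refine Function.bijective_iff_has_inverse.2 ⟨τ, fun p => ?_, fun p => ?_⟩
    · exact DFunLike.congr_fun h2 p
    · exact DFunLike.congr_fun h1 p
  have h3 := RingHom.Etale.stableUnderComposition _ _ (RingHom.Etale.of_bijective hb) hz
  convert h3 using 1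
  have : (MvPolynomial.aeval (fun i => z i - algebraMap ℂ B (c i)) :
      MvPolynomial (Fin n) ℂ →ₐ[ℂ] B) = (aeval z).comp σ := by
    ext i; simp [σ]
  rw [this]
  rfl

/-- formal étaleness: the Taylor polynomial map -/
theorem exists_taylor (z : Fin n → B)
    (hz : RingHom.Etale ((MvPolynomial.aeval z : MvPolynomial (Fin n) ℂ →ₐ[ℂ] B) :
      MvPolynomial (Fin n) ℂ →+* B)) (y : B →ₐ[ℂ] ℂ) (e : ℕ) (he : e ≠ 0) :
    ∃ ψ : B →ₐ[ℂ] MvPolynomial (Fin n) ℂ ⧸ idealOfVars (Fin n) ℂ ^ e,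
      Function.Surjective ψ ∧ ∀ b, y b = 0 →
        ψ b ∈ (idealOfVars (Fin n) ℂ).map (Ideal.Quotient.mk (idealOfVars (Fin n) ℂ ^ e)) := by
  set z' : Fin n → B := fun i => z i - algebraMap ℂ B (y (z i)) with hz'
  have het := etale_translate z hz (fun i => y (z i))
  let _ : Algebra (MvPolynomial (Fin n) ℂ) B := ((MvPolynomial.aeval z' :
      MvPolynomial (Fin n) ℂ →ₐ[ℂ] B) : MvPolynomial (Fin n) ℂ →+* B).toAlgebra
  have : Algebra.Etale (MvPolynomial (Fin n) ℂ) B := het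
  have hal : ∀ p : MvPolynomial (Fin n) ℂ, algebraMap (MvPolynomial (Fin n) ℂ) B p = aeval z' p :=
    fun p => rfl
  have : IsScalarTower ℂ (MvPolynomial (Fin n) ℂ) B := IsScalarTower.of_algebraMap_eq fun c => by
    rw [hal, MvPolynomial.algebraMap_eq, aeval_C]
  let J := idealOfVars (Fin n) ℂ
  have hconst : ∀ p : MvPolynomial (Fin n) ℂ, p - C (constantCoeff p) ∈ J := by
    intro p
    rw [← pow_one J, mem_pow_idealOfVars_iff']
    intro x hx
    have hx0 : x = 0 := by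
      have : x.degree = 0 := by omega
      exact (Finsupp.degree_eq_zero_iff x).1 this
    subst hx0
    simp [constantCoeff_eq]
  -- the residue map
  have hres : ∀ p : MvPolynomial (Fin n) ℂ, Ideal.Quotient.mk J (C (y (aeval z' p))) =
      Ideal.Quotient.mk J p := by
    intro p
    have h0 : y (aeval z' p) = constantCoeff p := by
      have : (y.comp (aeval z') : MvPolynomial (Fin n) ℂ →ₐ[ℂ] ℂ) = aeval (fun _ => (0:ℂ)) := by
        ext i; simp [z']
      have h := DFunLike.congr_fun this p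
      simp only [AlgHom.comp_apply] at h
      rw [h]
      simp [aeval_def, constantCoeff]
    rw [h0, eq_comm, Ideal.Quotient.eq]
    exact hconst p
  let f : B →ₐ[MvPolynomial (Fin n) ℂ] (MvPolynomial (Fin n) ℂ ⧸ J) :=
    { toRingHom := (Ideal.Quotient.mk J).comp ((C : ℂ →+* MvPolynomial (Fin n) ℂ).comp (y : B →+* ℂ))
      commutes' := fun p => hres p }
  have hJe : J ^ e ≤ J := Ideal.pow_le_self he
  let g : (MvPolynomial (Fin n) ℂ ⧸ J ^ e) →ₐ[MvPolynomial (Fin n) ℂ] (MvPolynomial (Fin n) ℂ ⧸ J) :=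
    Ideal.Quotient.factorₐ (MvPolynomial (Fin n) ℂ) hJe
  have hg : Function.Surjective g := Ideal.Quotient.factor_surjective hJe
  have hker : RingHom.ker (g : (MvPolynomial (Fin n) ℂ ⧸ J ^ e) →+* (MvPolynomial (Fin n) ℂ ⧸ J))
      = J.map (Ideal.Quotient.mk (J ^ e)) := by
    exact Ideal.Quotient.factor_ker hJe
  have hnil : IsNilpotent (RingHom.ker (g : (MvPolynomial (Fin n) ℂ ⧸ J ^ e) →+*
      (MvPolynomial (Fin n) ℂ ⧸ J))) := by
    refine ⟨e, ?_⟩
    rw [hker, ← Ideal.map_pow]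
    exact Ideal.map_quotient_self _
  let ℓ := Algebra.FormallySmooth.liftOfSurjective f g hg hnil
  have hℓ : ∀ b, g (ℓ b) = f b := Algebra.FormallySmooth.liftOfSurjective_apply f g hg hnil
  refine ⟨ℓ.restrictScalars ℂ, ?_, ?_⟩
  · intro q
    obtain ⟨p, rfl⟩ := Ideal.Quotient.mk_surjective q
    exact ⟨algebraMap _ B p, by
      rw [AlgHom.restrictScalars_apply, AlgHom.commutes]
      rfl⟩
  · intro b hb
    rw [← hker, RingHom.mem_ker]
    change g (ℓ b) = 0
    rw [hℓ]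
    change Ideal.Quotient.mk J (C (y b)) = 0
    rw [hb]; simp

/-- if `w` generates `m_y` near `y` then a polynomial in `w` lies in `m_y^e` only if it has order `≥ e` -/
theorem aeval_mem_pow (z : Fin n → B)
    (hz : RingHom.Etale ((MvPolynomial.aeval z : MvPolynomial (Fin n) ℂ →ₐ[ℂ] B) :
      MvPolynomial (Fin n) ℂ →+* B)) (y : B →ₐ[ℂ] ℂ)
    (w : Fin n → B) (hw : ∀ i, y (w i) = 0) {g : B} (hg : y g ≠ 0)
    (hgw : ∀ f : B, y f = 0 → g * f ∈ Ideal.span (Set.range w)) (e : ℕ)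
    (p : MvPolynomial (Fin n) ℂ) (hp : aeval w p ∈ mI y ^ e) : p ∈ idealOfVars (Fin n) ℂ ^ e := by
  rcases Nat.eq_zero_or_pos e with rfl | he
  · simp
  have hTay := exists_taylor z hz y e he.ne'
  set J := idealOfVars (Fin n) ℂ with hJ
  obtain ⟨ψ, hψ, hψm⟩ := hTay
  have hψe : ∀ b ∈ mI y ^ e, ψ b = 0 := by
    intro b hb
    have h1 : ψ b ∈ (mI y ^ e).map (ψ : B →+* _) := Ideal.mem_map_of_mem _ hb
    rw [Ideal.map_pow] at h1
    have h2 : (mI y).map (ψ : B →+* (MvPolynomial (Fin n) ℂ ⧸ J ^ e)) ≤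
        J.map (Ideal.Quotient.mk (J ^ e)) := by
      rw [Ideal.map_le_iff_le_comap]
      intro f hf
      exact hψm f (mem_mI.1 hf)
    have h3 := Ideal.pow_right_mono h2 e h1
    rw [← Ideal.map_pow, Ideal.map_quotient_self] at h3
    simpa using h3
  -- the endomorphism
  have hφ : ∀ q ∈ J ^ e, (ψ.comp (aeval w)) q = 0 := by
    intro q hq
    apply hψe
    have h1 : aeval w q ∈ (J ^ e).map ((aeval w : MvPolynomial (Fin n) ℂ →ₐ[ℂ] B) :
        MvPolynomial (Fin n) ℂ →+* B) := Ideal.mem_map_of_mem _ hq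
    rw [Ideal.map_pow] at h1
    refine Ideal.pow_right_mono ?_ e h1
    rw [hJ, Ideal.map_span, Ideal.span_le]
    rintro _ ⟨_, ⟨i, rfl⟩, rfl⟩
    simp only [RingHom.coe_coe, aeval_X, SetLike.mem_coe]
    exact mem_mI.2 (hw i)
  let φ : (MvPolynomial (Fin n) ℂ ⧸ J ^ e) →ₐ[ℂ] (MvPolynomial (Fin n) ℂ ⧸ J ^ e) :=
    Ideal.Quotient.liftₐ (J ^ e) (ψ.comp (aeval w)) hφ
  have hφs : Function.Surjective φ := by
    intro q
    obtain ⟨b, rfl⟩ := hψ q
    obtain ⟨p, hp⟩ := exists_poly y w hw hg hgw e b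
    refine ⟨Ideal.Quotient.mk _ p, ?_⟩
    have h1 := hψe _ hp
    rw [map_sub, sub_eq_zero] at h1
    rw [h1]
    rfl
  have hφi : Function.Injective φ :=
    (LinearMap.injective_iff_surjective (f := φ.toLinearMap)).2 hφs
  rw [← Ideal.Quotient.eq_zero_iff_mem]
  apply hφi
  rw [map_zero]
  exact hψe _ hp

/-! ### adapted coordinates -/

/-- embedding of `Fin d` in `Fin n` -/
abbrev wd {d : ℕ} (hd : d ≤ n) (w : Fin n → B) : Fin d → B := fun i => w (Fin.castLE hd i)

/-- kill the last variables -/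
def killV {d : ℕ} (_hd : d ≤ n) : MvPolynomial (Fin n) ℂ →ₐ[ℂ] MvPolynomial (Fin d) ℂ :=
  aeval fun i : Fin n => if h : i.1 < d then X ⟨i.1, h⟩ else 0

theorem killV_rename {d : ℕ} (hd : d ≤ n) (q : MvPolynomial (Fin d) ℂ) :
    killV hd (rename (Fin.castLE hd) q) = q := by
  have : (killV hd).comp (rename (Fin.castLE hd)) = AlgHom.id ℂ (MvPolynomial (Fin d) ℂ) := by
    ext i; simp [killV]
  exact DFunLike.congr_fun this q

theorem killV_mem {d : ℕ} (hd : d ≤ n) {e : ℕ} {p : MvPolynomial (Fin n) ℂ}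
    (hp : p ∈ idealOfVars (Fin n) ℂ ^ e) : killV hd p ∈ idealOfVars (Fin d) ℂ ^ e := by
  have h1 : killV hd p ∈ (idealOfVars (Fin n) ℂ ^ e).map
      ((killV hd : MvPolynomial (Fin n) ℂ →ₐ[ℂ] MvPolynomial (Fin d) ℂ) :
        MvPolynomial (Fin n) ℂ →+* MvPolynomial (Fin d) ℂ) := Ideal.mem_map_of_mem _ hp
  rw [Ideal.map_pow] at h1
  refine Ideal.pow_right_mono ?_ e h1
  rw [Ideal.map_span, Ideal.span_le]
  rintro _ ⟨_, ⟨i, rfl⟩, rfl⟩
  simp only [RingHom.coe_coe, SetLike.mem_coe, killV, aeval_X]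
  split_ifs with h
  · exact Ideal.subset_span ⟨_, rfl⟩
  · exact Ideal.zero_mem _

/-- data of adapted coordinates at a point `y ∈ V(P)` of an étale algebra -/
structure AData (y : B →ₐ[ℂ] ℂ) (P : Ideal B) (d : ℕ) (w : Fin n → B) : Prop where
  hd : d ≤ n
  hw : ∀ i, y (w i) = 0
  hwP : ∀ i : Fin n, d ≤ i.1 → w i ∈ P
  hP : ∀ f ∈ P, y f = 0
  hg : ∃ g : B, y g ≠ 0 ∧ (∀ f ∈ P, g * f ∈ Ideal.span (w '' {i | d ≤ i.1})) ∧
      ∀ f : B, y f = 0 → g * f ∈ Ideal.span (Set.range w)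
  taylor : ∀ (e : ℕ) (p : MvPolynomial (Fin n) ℂ), aeval w p ∈ mI y ^ e →
    p ∈ idealOfVars (Fin n) ℂ ^ e

theorem AData.mk' (z : Fin n → B)
    (hz : RingHom.Etale ((MvPolynomial.aeval z : MvPolynomial (Fin n) ℂ →ₐ[ℂ] B) :
      MvPolynomial (Fin n) ℂ →+* B)) (y : B →ₐ[ℂ] ℂ) (P : Ideal B) (hP : ∀ f ∈ P, y f = 0) (d : ℕ)
    (hd : d ≤ n) (h : Adapted d P y n) : ∃ w : Fin n → B, AData y P d w := by
  obtain ⟨w, h1, h2, g, hg, h3, h4⟩ := h
  exact ⟨w, ⟨hd, h1, h2, hP, ⟨g, hg, h3, h4⟩, fun e p hp => aeval_mem_pow z hz y w h1 hg h4 e p hp⟩⟩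

variable {y : B →ₐ[ℂ] ℂ} {P : Ideal B} {d : ℕ} {w : Fin n → B}

theorem AData.exists_poly (D : AData y P d w) (e : ℕ) (b : B) :
    ∃ p : MvPolynomial (Fin d) ℂ, b - aeval (wd D.hd w) p ∈ mI y ^ e ⊔ P := by
  obtain ⟨g, hg, h3, h4⟩ := D.hg
  obtain ⟨p, hp⟩ := N857.exists_poly y w D.hw hg h4 e b
  refine ⟨killV D.hd p, ?_⟩
  have h1 : aeval w p - aeval (wd D.hd w) (killV D.hd p) ∈ P := by
    rw [← Ideal.Quotient.eq]
    have : ((Ideal.Quotient.mkₐ ℂ P).comp (aeval w)) = ((Ideal.Quotient.mkₐ ℂ P).comp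
        ((aeval (wd D.hd w)).comp (killV D.hd))) := by
      ext i
      simp only [AlgHom.comp_apply, aeval_X, killV]
      split_ifs with h
      · simp [wd]
      · simp only [map_zero, Ideal.Quotient.mkₐ_eq_mk]
        exact Ideal.Quotient.eq_zero_iff_mem.2 (D.hwP i (not_lt.1 h))
    exact DFunLike.congr_fun this p
  have h2 : b - aeval (wd D.hd w) (killV D.hd p) = (b - aeval w p) +
      (aeval w p - aeval (wd D.hd w) (killV D.hd p)) := by ring
  rw [h2]
  exact Ideal.add_mem _ (Ideal.mem_sup_left hp) (Ideal.mem_sup_right h1)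

theorem AData.mem_of_aeval (D : AData y P d w) (e : ℕ) (q : MvPolynomial (Fin d) ℂ)
    (hq : aeval (wd D.hd w) q ∈ mI y ^ e ⊔ P) : q ∈ idealOfVars (Fin d) ℂ ^ e := by
  classical
  obtain ⟨g, hg, h3, h4⟩ := D.hg
  obtain ⟨c, hc, f, hf, hcf⟩ := Submodule.mem_sup.1 hq
  obtain ⟨v, hv⟩ := inv_mod y hg e
  have h1 : v * (g * f) ∈ Ideal.span (w '' {i | d ≤ i.1}) := Ideal.mul_mem_left _ _ (h3 f hf)
  have h1' : ∃ a : Fin n → B, (∀ i : Fin n, i.1 < d → a i = 0) ∧ ∑ i, a i * w i = v * (g * f) := by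
    refine Submodule.span_induction (p := fun x _ => ∃ a : Fin n → B,
      (∀ i : Fin n, i.1 < d → a i = 0) ∧ ∑ i, a i * w i = x) ?_ ?_ ?_ ?_ h1
    · rintro _ ⟨i, hi, rfl⟩
      refine ⟨Pi.single i 1, fun j hj => ?_, ?_⟩
      · rw [Pi.single_apply, if_neg]
        rintro rfl
        exact absurd hj (not_lt.2 hi)
      · rw [Finset.sum_eq_single i]
        · simp
        · intro j _ hj; simp [hj]
        · simp
    · exact ⟨0, by simp, by simp⟩
    · rintro x y _ _ ⟨a, ha, hax⟩ ⟨b, hb, hby⟩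
      refine ⟨a + b, fun i hi => by simp [ha i hi, hb i hi], ?_⟩
      simp only [Pi.add_apply, add_mul, Finset.sum_add_distrib, hax, hby]
    · rintro c x _ ⟨a, ha, hax⟩
      refine ⟨c • a, fun i hi => by simp [ha i hi], ?_⟩
      simp only [Pi.smul_apply, smul_eq_mul, mul_assoc, ← Finset.mul_sum, hax]
  obtain ⟨a, ha0, ha⟩ := h1'
  choose p hp using fun i => N857.exists_poly y w D.hw hg h4 e (a i)
  -- the polynomial `rename q - ∑_{i ≥ d} p i X i`
  set s : MvPolynomial (Fin n) ℂ := ∑ i : Fin n, if i.1 < d then 0 else p i * X i with hs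
  have h5 : aeval w (rename (Fin.castLE D.hd) q - s) ∈ mI y ^ e := by
    have h6 : aeval w (rename (Fin.castLE D.hd) q) = c + f := by
      rw [aeval_rename, hcf]; rfl
    have h7 : aeval w s = ∑ i : Fin n, if i.1 < d then 0 else aeval w (p i) * w i := by
      rw [hs, map_sum]
      refine Finset.sum_congr rfl fun i _ => ?_
      split_ifs <;> simp
    have h8 : f = (1 - v * g) * f + ∑ i, a i * w i := by rw [ha]; ring
    have h9 : aeval w (rename (Fin.castLE D.hd) q - s) = c + (1 - v * g) * f +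
        ∑ i : Fin n, if i.1 < d then 0 else (a i - aeval w (p i)) * w i := by
      rw [map_sub, h6, h7]
      have h10 : (∑ i : Fin n, if i.1 < d then 0 else (a i - aeval w (p i)) * w i) =
          ∑ i, a i * w i - ∑ i : Fin n, if i.1 < d then 0 else aeval w (p i) * w i := by
        rw [← Finset.sum_sub_distrib]
        refine Finset.sum_congr rfl fun i _ => ?_
        split_ifs with h
        · simp [ha0 i h]
        · ring
      rw [h10]
      nth_rewrite 1 [h8]
      ring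
    rw [h9]
    refine Ideal.add_mem _ (Ideal.add_mem _ hc (Ideal.mul_mem_right _ _ hv))
      (Ideal.sum_mem _ fun i _ => ?_)
    split_ifs with h
    · exact Ideal.zero_mem _
    · exact Ideal.mul_mem_right _ _ (hp i)
  have h6 := killV_mem D.hd (D.taylor e _ h5)
  rw [map_sub, killV_rename] at h6
  have h7 : killV D.hd s = 0 := by
    rw [hs, map_sum]
    refine Finset.sum_eq_zero fun i _ => ?_
    split_ifs with h
    · simp
    · simp [killV, h]
  rwa [h7, sub_zero] at h6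

end Crest.Agent.R271.N857
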