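import Crest.Agent.R271.N7a_857

/-!
Row 271, piece N7 (helper857): the power series expansion `B → ℂ⟦X₁,…,X_d⟧` along `V(P)` at `y`.
-/

set_option autoImplicit false

open Crest.Agent.R271.Defs710

noncomputable section

namespace Crest.Agent.R271.N857

variable {n : ℕ} {B : Type} [CommRing B] [Algebra ℂ B]
variable {y : B →ₐ[ℂ] ℂ} {P : Ideal B} {d : ℕ} {w : Fin n → B}

namespace AData

variable (D : AData y P d w)

/-- Taylor polynomial -/
def tp (e : ℕ) (b : B) : MvPolynomial (Fin d) ℂ := (D.exists_poly e b).choose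

theorem tp_spec (e : ℕ) (b : B) :
    b - MvPolynomial.aeval (wd D.hd w) (D.tp e b) ∈ mI y ^ e ⊔ P := (D.exists_poly e b).choose_spec

/-- Taylor series -/
def thF (b : B) : MvPowerSeries (Fin d) ℂ := fun v => (D.tp (v.degree + 1) b).coeff v

theorem coeff_thF {b : B} {e : ℕ} {p : MvPolynomial (Fin d) ℂ}
    (hp : b - MvPolynomial.aeval (wd D.hd w) p ∈ mI y ^ e ⊔ P) {v : Fin d →₀ ℕ}
    (hv : v.degree < e) : MvPowerSeries.coeff v (D.thF b) = p.coeff v := by
  have h1 := D.tp_spec (v.degree + 1) b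
  have h2 : mI y ^ e ⊔ P ≤ mI y ^ (v.degree + 1) ⊔ P :=
    sup_le_sup_right (Ideal.pow_le_pow_right hv) P
  have h3 : MvPolynomial.aeval (wd D.hd w) (D.tp (v.degree + 1) b - p) ∈
      mI y ^ (v.degree + 1) ⊔ P := by
    have := Ideal.sub_mem _ (h2 hp) h1
    convert this using 1
    rw [map_sub]; ring
  have h4 := D.mem_of_aeval _ _ h3
  rw [MvPolynomial.mem_pow_idealOfVars_iff'] at h4
  have h5 := h4 v (Nat.lt_succ_self _)
  rw [MvPolynomial.coeff_sub, sub_eq_zero] at h5
  exact h5

/-- the expansion as a ring homomorphism -/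
def th : B →ₐ[ℂ] MvPowerSeries (Fin d) ℂ where
  toFun := D.thF
  map_one' := by
    ext v
    rw [D.coeff_thF (e := v.degree + 1) (p := 1) (by simp) (Nat.lt_succ_self _)]
    classical
    rw [MvPolynomial.coeff_one, MvPowerSeries.coeff_one]
    simp [eq_comm]
  map_zero' := by
    ext v
    rw [D.coeff_thF (e := v.degree + 1) (p := 0) (by simp) (Nat.lt_succ_self _)]
    simp
  map_add' b c := by
    ext v
    rw [D.coeff_thF (e := v.degree + 1) (p := D.tp (v.degree + 1) b + D.tp (v.degree + 1) c) _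
      (Nat.lt_succ_self _)]
    · rw [map_add, MvPolynomial.coeff_add]; rfl
    · have := Ideal.add_mem _ (D.tp_spec (v.degree + 1) b) (D.tp_spec (v.degree + 1) c)
      convert this using 1
      rw [map_add]; ring
  map_mul' b c := by
    classical
    ext v
    rw [D.coeff_thF (e := v.degree + 1) (p := D.tp (v.degree + 1) b * D.tp (v.degree + 1) c) _
      (Nat.lt_succ_self _), MvPolynomial.coeff_mul, MvPowerSeries.coeff_mul]
    · refine Finset.sum_congr rfl fun x hx => ?_
      have hx := Finset.HasAntidiagonal.mem_antidiagonal.1 hx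
      have h1 : x.1.degree < v.degree + 1 := by
        rw [← hx, map_add]; omega
      have h2 : x.2.degree < v.degree + 1 := by
        rw [← hx, map_add]; omega
      rw [D.coeff_thF (D.tp_spec (v.degree + 1) b) h1, D.coeff_thF (D.tp_spec (v.degree + 1) c) h2]
    · have h1 := Ideal.mul_mem_left _ b (D.tp_spec (v.degree + 1) c)
      have h2 := Ideal.mul_mem_right (MvPolynomial.aeval (wd D.hd w) (D.tp (v.degree + 1) c)) _
        (D.tp_spec (v.degree + 1) b)
      have := Ideal.add_mem _ h1 h2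
      convert this using 1
      rw [map_mul]; ring
  commutes' c := by
    ext v
    rw [D.coeff_thF (e := v.degree + 1) (p := MvPolynomial.C c) (by simp) (Nat.lt_succ_self _)]
    classical
    rw [MvPowerSeries.algebraMap_apply, MvPowerSeries.coeff_C, MvPolynomial.coeff_C]
    simp [eq_comm]

theorem coeff_th {b : B} {e : ℕ} {p : MvPolynomial (Fin d) ℂ}
    (hp : b - MvPolynomial.aeval (wd D.hd w) p ∈ mI y ^ e ⊔ P) {v : Fin d →₀ ℕ}
    (hv : v.degree < e) : MvPowerSeries.coeff v (D.th b) = p.coeff v := D.coeff_thF hp hv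

/-- order of the expansion -/
theorem th_order_iff (b : B) (e : ℕ) :
    (∀ v : Fin d →₀ ℕ, v.degree < e → MvPowerSeries.coeff v (D.th b) = 0) ↔
      b ∈ mI y ^ e ⊔ P := by
  constructor
  · intro h
    have h1 := D.tp_spec e b
    have h2 : D.tp e b ∈ MvPolynomial.idealOfVars (Fin d) ℂ ^ e := by
      rw [MvPolynomial.mem_pow_idealOfVars_iff']
      intro v hv
      rw [← D.coeff_th h1 hv]
      exact h v hv
    have h3 : MvPolynomial.aeval (wd D.hd w) (D.tp e b) ∈ mI y ^ e := by
      have h4 : MvPolynomial.aeval (wd D.hd w) (D.tp e b) ∈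
          (MvPolynomial.idealOfVars (Fin d) ℂ ^ e).map
            ((MvPolynomial.aeval (wd D.hd w) : MvPolynomial (Fin d) ℂ →ₐ[ℂ] B) :
              MvPolynomial (Fin d) ℂ →+* B) := Ideal.mem_map_of_mem _ h2
      rw [Ideal.map_pow] at h4
      refine Ideal.pow_right_mono ?_ e h4
      rw [Ideal.map_span, Ideal.span_le]
      rintro _ ⟨_, ⟨i, rfl⟩, rfl⟩
      simp only [RingHom.coe_coe, MvPolynomial.aeval_X, SetLike.mem_coe]
      exact mem_mI.2 (D.hw _)
    have := Ideal.add_mem _ h1 (Ideal.mem_sup_left h3)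
    simpa using this
  · intro h v hv
    rw [D.coeff_th (p := 0) (e := e) (by simpa using h) hv]
    simp

theorem th_P {b : B} (hb : b ∈ P) : D.th b = 0 := by
  ext v
  exact (D.th_order_iff b (v.degree + 1)).2 (Ideal.mem_sup_right hb) v (Nat.lt_succ_self _)

theorem th_eq_zero [IsNoetherianRing B] (hP : P.IsPrime) {b : B} (hb : D.th b = 0) : b ∈ P := by
  have h1 : ∀ e, b ∈ mI y ^ e ⊔ P := fun e => (D.th_order_iff b e).1 fun v _ => by rw [hb]; simp
  have h2 : (mI y).map (Ideal.Quotient.mk P) ≠ ⊤ := by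
    intro h
    have h3 : (1 : B ⧸ P) ∈ (mI y).map (Ideal.Quotient.mk P) := by rw [h]; trivial
    rw [← map_one (Ideal.Quotient.mk P), Ideal.mem_quotient_iff_mem_sup] at h3
    have h4 : mI y ⊔ P ≤ mI y := sup_le le_rfl fun f hf => mem_mI.2 (D.hP f hf)
    have := mem_mI.1 (h4 h3)
    simp at this
  have h3 := Ideal.iInf_pow_eq_bot_of_isDomain _ h2
  rw [← Ideal.Quotient.eq_zero_iff_mem]
  have h4 : Ideal.Quotient.mk P b ∈ (⨅ i : ℕ, (mI y).map (Ideal.Quotient.mk P) ^ i) := by
    rw [Submodule.mem_iInf]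
    intro e
    rw [← Ideal.map_pow, Ideal.mem_quotient_iff_mem_sup]
    exact h1 e
  rw [h3] at h4
  simpa using h4

/-- jets -/
theorem th_jet {e : ℕ} {v : Fin d →₀ ℕ} {f : B}
    (hf : f - MvPolynomial.aeval (wd D.hd w) (MvPolynomial.monomial v (1 : ℂ)) ∈ mI y ^ (e + 1))
    {u : Fin d →₀ ℕ} (hu : u.degree ≤ e) :
    MvPowerSeries.coeff u (D.th f) = MvPolynomial.coeff u (MvPolynomial.monomial v (1 : ℂ)) := by
  have h1 : u.degree < e + 1 := Nat.lt_succ_of_le hu
  have h2 : f - MvPolynomial.aeval (wd D.hd w) (MvPolynomial.monomial v (1 : ℂ)) ∈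
      mI y ^ (e + 1) ⊔ P := Ideal.mem_sup_left hf
  exact D.coeff_th h2 h1

end AData

end Crest.Agent.R271.N857
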