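import Crest.Agent.R271.N7b_857
import Crest.Agent.R271.NSpec_647
import Crest.Agent.R271.Lead_553

/-!
Row 271, piece N7 (helper857): generic basis of `𝔞_a/(P 𝔞_a + 𝔞_{>a})` and the power series map.
-/

set_option autoImplicit false

open Crest.Agent.R271.Defs710 Crest.Agent.R271.N647

noncomputable section

namespace Crest.Agent.R271.N857

/-! ### linear algebra -/

theorem finrank_split {K E E' : Type*} [Field K] [AddCommGroup E] [Module K E] [AddCommGroup E']
    [Module K E'] (f : E →ₗ[K] E') (S : Submodule K E) [FiniteDimensional K S] :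
    Module.finrank K S = Module.finrank K (S.map f) +
      Module.finrank K (S ⊓ LinearMap.ker f : Submodule K E) := by
  have h1 := LinearMap.finrank_range_add_finrank_ker (f.domRestrict S)
  rw [LinearMap.range_domRestrict] at h1
  rw [← h1]
  congr 1
  have h2 : LinearMap.ker (f.domRestrict S) = (S ⊓ LinearMap.ker f).comap S.subtype := by
    ext x; simp [LinearMap.mem_ker]
  rw [h2]
  exact (Submodule.comapSubtypeEquivOfLe inf_le_left).finrank_eq

/-! ### generic basis -/

section gb

variable {B : Type} [CommRing B]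

theorem exists_generic_basis [IsNoetherianRing B] (P : Ideal B) (hP : P.IsPrime) (I N : Ideal B)
    (hPI : P * I ≤ N) :
    ∃ (r : ℕ) (u : Fin r → B) (h : B), h ∉ P ∧ (∀ i, u i ∈ I) ∧
      (∀ f ∈ I, ∃ b : Fin r → B, h * f - ∑ i, b i * u i ∈ N) ∧
      ∀ b : Fin r → B, ∑ i, b i * u i ∈ N → ∀ i, b i ∈ P := by
  classical
  obtain ⟨G, hG⟩ := (isNoetherianRing_iff_ideal_fg B).1 inferInstance I
  let Ind : Finset B → Prop := fun T => ∀ b : B → B, ∑ t ∈ T, b t * t ∈ N → ∀ t ∈ T, b t ∈ P
  have hne : (G.powerset.filter Ind).Nonempty :=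
    ⟨∅, by simp [Ind]⟩
  obtain ⟨T, hT, hmax⟩ := Finset.exists_max_image _ Finset.card hne
  rw [Finset.mem_filter, Finset.mem_powerset] at hT
  obtain ⟨hTG, hTI⟩ := hT
  have key : ∀ g : B, ∃ (c : B) (b : B → B), g ∈ G → c ∉ P ∧ c * g - ∑ t ∈ T, b t * t ∈ N := by
    intro g
    by_cases hg : g ∈ G
    swap
    · exact ⟨0, 0, fun h => absurd h hg⟩
    by_cases hgT : g ∈ T
    · refine ⟨1, fun t => if t = g then 1 else 0, fun _ => ⟨?_, ?_⟩⟩
      · exact fun h => hP.ne_top (P.eq_top_iff_one.2 h)
      · simp [hgT]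
    · have hnot : ¬ Ind (insert g T) := by
        intro hI
        have h1 := hmax (insert g T) (by
          rw [Finset.mem_filter, Finset.mem_powerset]
          exact ⟨Finset.insert_subset hg hTG, hI⟩)
        rw [Finset.card_insert_of_notMem hgT] at h1
        omega
      simp only [Ind, not_forall] at hnot
      obtain ⟨b, hb, t₀, ht₀, hbt⟩ := hnot
      rw [Finset.sum_insert hgT] at hb
      have hbg : b g ∉ P := by
        intro hbg
        have h1 : b g * g ∈ N := hPI (Ideal.mul_mem_mul hbg (hG ▸ Ideal.subset_span hg))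
        have h2 : ∑ t ∈ T, b t * t ∈ N := by
          have := N.sub_mem hb h1
          simpa using this
        rcases Finset.mem_insert.1 ht₀ with rfl | h3
        · exact hbt hbg
        · exact hbt (hTI b h2 _ h3)
      refine ⟨b g, fun t => - b t, fun _ => ⟨hbg, ?_⟩⟩
      have : b g * g - ∑ t ∈ T, -b t * t = b g * g + ∑ t ∈ T, b t * t := by
        simp [neg_mul, Finset.sum_neg_distrib]
      rw [this]; exact hb
  choose c b hcb using key
  -- reindexing
  have hre : ∀ b : B → B, ∑ i : Fin T.card, b (T.equivFin.symm i) * (T.equivFin.symm i : B) =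
      ∑ t ∈ T, b t * t := by
    intro b
    rw [← Finset.sum_coe_sort T, ← Equiv.sum_comp T.equivFin.symm]
  refine ⟨T.card, fun i => (T.equivFin.symm i : B), ∏ g ∈ G, c g, ?_, ?_, ?_, ?_⟩
  · intro h
    obtain ⟨g, hg, hgc⟩ := (hP.prod_mem_iff).1 h
    exact (hcb g hg).1 hgc
  · intro i
    rw [← hG]
    exact Ideal.subset_span (hTG (T.equivFin.symm i).2)
  · intro f hf
    have h1 : ∃ b : B → B, (∏ g ∈ G, c g) * f - ∑ t ∈ T, b t * t ∈ N := by
      rw [← hG] at hf
      refine Submodule.span_induction (p := fun f _ => ∃ b : B → B,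
        (∏ g ∈ G, c g) * f - ∑ t ∈ T, b t * t ∈ N) ?_ ?_ ?_ ?_ hf
      · intro g hg
        refine ⟨fun t => (∏ g' ∈ G.erase g, c g') * b g t, ?_⟩
        have h2 := N.mul_mem_left (∏ g' ∈ G.erase g, c g') (hcb g hg).2
        convert h2 using 1
        rw [← Finset.mul_prod_erase G c hg, mul_sub, Finset.mul_sum]
        congr 1
        · ring
        · exact Finset.sum_congr rfl fun t _ => by ring
      · exact ⟨0, by simp⟩
      · rintro f g _ _ ⟨b1, h1⟩ ⟨b2, h2⟩
        refine ⟨b1 + b2, ?_⟩
        convert N.add_mem h1 h2 using 1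
        simp only [Pi.add_apply, add_mul, Finset.sum_add_distrib]
        ring
      · rintro a f _ ⟨b1, h1⟩
        refine ⟨fun t => a * b1 t, ?_⟩
        convert N.mul_mem_left a h1 using 1
        rw [mul_sub, Finset.mul_sum, smul_eq_mul]
        congr 1
        · ring
        · exact Finset.sum_congr rfl fun t _ => by ring
    obtain ⟨b, hb⟩ := h1
    refine ⟨fun i => b (T.equivFin.symm i), ?_⟩
    rw [hre]; exact hb
  · intro b' hb' i
    let b : B → B := fun t => if h : t ∈ T then b' (T.equivFin ⟨t, h⟩) else 0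
    have hbb : ∀ i : Fin T.card, b (T.equivFin.symm i) = b' i := by
      intro i
      simp only [b]
      rw [dif_pos (T.equivFin.symm i).2]
      simp
    have h1 : ∑ t ∈ T, b t * t ∈ N := by
      rw [← hre]
      simp only [hbb]
      exact hb'
    have := hTI b h1 _ (T.equivFin.symm i).2
    rwa [hbb] at this

end gb

end Crest.Agent.R271.N857
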