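import Crest.Agent.R271.N7c_857

/-!
Row 271, piece N7 (helper857): the map `Ψ : 𝔞_a → ℂ⟦X⟧^r` and the spaces `U_{m,a,e}(y)`.
-/

set_option autoImplicit false

open Crest.Agent.R271.Defs710 Crest.Agent.R271.N647

noncomputable section

namespace Crest.Agent.R271.N857

variable {n : ℕ} {B : Type} [CommRing B] [Algebra ℂ B]
variable {y : B →ₐ[ℂ] ℂ} {P : Ideal B} {d : ℕ} {w : Fin n → B}

theorem coeff_mul_zero {f g : MvPowerSeries (Fin d) ℂ} {e : ℕ}
    (hf : ∀ v : Fin d →₀ ℕ, v.degree < e → MvPowerSeries.coeff v f = 0)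
    {v : Fin d →₀ ℕ} (hv : v.degree < e) : MvPowerSeries.coeff v (f * g) = 0 := by
  classical
  rw [MvPowerSeries.coeff_mul]
  refine Finset.sum_eq_zero fun x hx => ?_
  have hx := Finset.HasAntidiagonal.mem_antidiagonal.1 hx
  have h1 : x.1.degree < e := by
    have : x.1.degree + x.2.degree = v.degree := by rw [← map_add, hx]
    omega
  rw [hf _ h1, zero_mul]

/-- generic basis of `I/N` over `B/P` -/
structure GB (P I N : Ideal B) (r : ℕ) (u : Fin r → B) (h : B) : Prop where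
  hP : h ∉ P
  hPI : P * I ≤ N
  hNI : N ≤ I
  mem : ∀ i, u i ∈ I
  gen : ∀ f ∈ I, ∃ b : Fin r → B, h * f - ∑ i, b i * u i ∈ N
  ind : ∀ b : Fin r → B, ∑ i, b i * u i ∈ N → ∀ i, b i ∈ P

variable {I N : Ideal B} {r : ℕ} {u : Fin r → B} {h : B}

namespace GB

variable (H : GB P I N r u h) (D : AData y P d w)

/-- coordinates -/
def co (f : B) : Fin r → B := open Classical in
  if hf : f ∈ I then (H.gen f hf).choose else 0

theorem co_spec {f : B} (hf : f ∈ I) : h * f - ∑ i, H.co f i * u i ∈ N := by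
  unfold co
  rw [dif_pos hf]
  exact (H.gen f hf).choose_spec

/-- the map to power series -/
def psF (f : B) : Fin r → MvPowerSeries (Fin d) ℂ := fun i => D.th (H.co f i)

theorem psF_eq {f : B} (hf : f ∈ I) {b : Fin r → B} (hb : h * f - ∑ i, b i * u i ∈ N) :
    H.psF D f = fun i => D.th (b i) := by
  funext i
  have h1 := N.sub_mem hb (H.co_spec hf)
  have h2 : ∑ i, (H.co f i - b i) * u i ∈ N := by
    convert h1 using 1
    simp only [sub_mul, Finset.sum_sub_distrib]
    ring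
  have h3 := H.ind _ h2 i
  have h4 := D.th_P h3
  rw [map_sub, sub_eq_zero] at h4
  exact h4

theorem psF_add {f g : B} (hf : f ∈ I) (hg : g ∈ I) :
    H.psF D (f + g) = H.psF D f + H.psF D g := by
  rw [H.psF_eq D (I.add_mem hf hg) (b := fun i => H.co f i + H.co g i)]
  · funext i; simp [psF]
  · have := N.add_mem (H.co_spec hf) (H.co_spec hg)
    convert this using 1
    simp only [add_mul, Finset.sum_add_distrib]
    ring

theorem psF_mul (c : B) {f : B} (hf : f ∈ I) :
    H.psF D (c * f) = D.th c • H.psF D f := by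
  rw [H.psF_eq D (I.mul_mem_left c hf) (b := fun i => c * H.co f i)]
  · funext i; simp [psF]
  · have := N.mul_mem_left c (H.co_spec hf)
    convert this using 1
    simp only [mul_sub, Finset.mul_sum, mul_assoc]
    ring

theorem psF_N {f : B} (hf : f ∈ N) : H.psF D f = 0 := by
  rw [H.psF_eq D (H.hNI hf) (b := 0)]
  · funext i; simp
  · simpa using N.mul_mem_left h hf

theorem psF_zero : H.psF D 0 = 0 := H.psF_N D N.zero_mem

/-- as a linear map on `I` -/
def ps : (I.restrictScalars ℂ) →ₗ[ℂ] (Fin r → MvPowerSeries (Fin d) ℂ) where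
  toFun f := H.psF D f.1
  map_add' f g := H.psF_add D f.2 g.2
  map_smul' c f := by
    have h1 : ((c • f : (I.restrictScalars ℂ)) : B) = algebraMap ℂ B c * f.1 := by
      rw [Submodule.coe_smul, Algebra.smul_def]
    rw [h1, H.psF_mul D _ f.2, AlgHom.commutes]
    simp only [RingHom.id_apply]
    rw [algebraMap_smul]

theorem ps_apply (f : I.restrictScalars ℂ) : H.ps D f = H.psF D f.1 := rfl

/-- elements of `m_y^e I + N` have expansions of order `≥ e` and conversely -/
theorem ps_mem_iff (hy : y h ≠ 0) (e : ℕ) {f : B} (hf : f ∈ I) :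
    H.psF D f ∈ Lead553.mpow d r e ↔ f ∈ mI y ^ e * I ⊔ N := by
  rw [Lead553.mem_mpow]
  constructor
  · intro h1
    have h2 : ∀ i, H.co f i ∈ mI y ^ e ⊔ P := fun i =>
      (D.th_order_iff _ _).1 fun v hv => h1 i v hv
    have h3 : h * f ∈ mI y ^ e * I ⊔ N := by
      have h4 : ∑ i, H.co f i * u i ∈ mI y ^ e * I ⊔ N := by
        refine Ideal.sum_mem _ fun i _ => ?_
        have h5 : H.co f i * u i ∈ (mI y ^ e ⊔ P) * I := Ideal.mul_mem_mul (h2 i) (H.mem i)
        rw [Ideal.sup_mul] at h5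
        exact sup_le_sup_left H.hPI _ h5
      have := Ideal.add_mem _ (Ideal.mem_sup_right (H.co_spec hf)) h4
      simpa using this
    obtain ⟨v, hv⟩ := inv_mod y hy e
    have h6 : f = (1 - v * h) * f + v * (h * f) := by ring
    rw [h6]
    exact Ideal.add_mem _ (Ideal.mem_sup_left (Ideal.mul_mem_mul hv hf))
      (Ideal.mul_mem_left _ _ h3)
  · intro h1
    obtain ⟨a, ha, b, hb, rfl⟩ := Submodule.mem_sup.1 h1
    have hle : mI y ^ e * I ≤ I := Ideal.mul_le.2 fun c _ f hf => I.mul_mem_left c hf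
    rw [H.psF_add D (hle ha) (H.hNI hb), H.psF_N D hb, add_zero]
    have key : a ∈ I ∧ H.psF D a ∈ Lead553.mpow d r e := by
      refine Submodule.mul_induction_on (C := fun a => a ∈ I ∧ H.psF D a ∈ Lead553.mpow d r e)
        ha ?_ ?_
      · intro c hc g hg
        refine ⟨I.mul_mem_left c hg, ?_⟩
        rw [H.psF_mul D c hg, Lead553.mem_mpow]
        intro i v hv
        rw [Pi.smul_apply, smul_eq_mul]
        exact coeff_mul_zero ((D.th_order_iff c e).2 (Ideal.mem_sup_left hc)) hv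
      · rintro x z ⟨hx, hx'⟩ ⟨hz, hz'⟩
        refine ⟨I.add_mem hx hz, ?_⟩
        rw [H.psF_add D hx hz]
        exact Submodule.add_mem _ hx' hz'
    exact key.2

end GB

/-! ### application to filtrations -/

section filt

variable {V : ℕ → Submodule ℂ B}

theorem le_idl (F : Filt V) (m : ℕ) (a : ℝ) : F.F m a ≤ (idl F a).restrictScalars ℂ := fun b hb =>
  Ideal.subset_span ⟨m, hb⟩

theorem Fgt_le_idlGt (F : Filt V) (m : ℕ) (a : ℝ) : Fgt F m a ≤ (idlGt F a).restrictScalars ℂ := by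
  unfold Fgt idlGt
  refine iSup_le fun l => ?_
  refine (le_idl F m l).trans ?_
  exact fun b hb => (le_iSup (fun l : Set.Ioi a => idl F l) l) hb

theorem Fgt_le (F : Filt V) (m : ℕ) (a : ℝ) : Fgt F m a ≤ F.F m a :=
  iSup_le fun l => F.anti m (le_of_lt l.2)

theorem idlGt_le (F : Filt V) (a : ℝ) : idlGt F a ≤ idl F a := by
  refine iSup_le fun l => Ideal.span_mono ?_
  rintro _ ⟨m, hb⟩
  exact ⟨m, F.anti m (le_of_lt l.2) hb⟩

theorem exists_GB [IsNoetherianRing B] (F : Filt V) (P : Ideal B) (hP : P.IsPrime) (a : ℝ) :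
    ∃ (r : ℕ) (u : Fin r → B) (h : B), GB P (idl F a) (P * idl F a ⊔ idlGt F a) r u h := by
  obtain ⟨r, u, h, h1, h2, h3, h4⟩ := exists_generic_basis P hP (idl F a) (P * idl F a ⊔ idlGt F a)
    le_sup_left
  refine ⟨r, u, h, h1, le_sup_left, sup_le ?_ (idlGt_le F a), h2, h3, h4⟩
  exact Ideal.mul_le.2 fun c _ f hf => (idl F a).mul_mem_left c hf

variable {F : Filt V} {a : ℝ}
  (H : GB P (idl F a) (P * idl F a ⊔ idlGt F a) r u h) (D : AData y P d w)

/-- the image of `F(m,a)` in `ℂ⟦X⟧^r` -/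
def WW (m : ℕ) : Submodule ℂ (Fin r → MvPowerSeries (Fin d) ℂ) :=
  ((F.F m a).comap ((idl F a).restrictScalars ℂ).subtype).map (H.ps D)

/-- dimension of the kernel -/
def kk (m : ℕ) : ℕ := Module.finrank ℂ
  (((F.F m a).comap ((idl F a).restrictScalars ℂ).subtype ⊓ LinearMap.ker (H.ps D) :
    Submodule ℂ ((idl F a).restrictScalars ℂ)))

theorem finrank_comap {S T : Submodule ℂ B} (hST : S ≤ T) :
    Module.finrank ℂ (S.comap T.subtype) = Module.finrank ℂ S :=
  (Submodule.comapSubtypeEquivOfLe hST).finrank_eq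

instance fd_comap {S T : Submodule ℂ B} [FiniteDimensional ℂ S] :
    FiniteDimensional ℂ (S.comap T.subtype) := by
  have h1 : (S.comap T.subtype) = ((S ⊓ T).comap T.subtype) := by ext; simp
  rw [h1]
  have : FiniteDimensional ℂ (S ⊓ T : Submodule ℂ B) :=
    Submodule.finiteDimensional_of_le inf_le_left
  exact (Submodule.comapSubtypeEquivOfLe (inf_le_right : S ⊓ T ≤ T)).symm.finiteDimensional

instance fd_F [∀ m, FiniteDimensional ℂ (V m)] (m : ℕ) : FiniteDimensional ℂ (F.F m a) :=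
  Submodule.finiteDimensional_of_le (F.le_V m a)

instance fd_WW [∀ m, FiniteDimensional ℂ (V m)] (m : ℕ) : FiniteDimensional ℂ (WW H D m) := by
  unfold WW; infer_instance

theorem finrank_F [∀ m, FiniteDimensional ℂ (V m)] (m : ℕ) :
    Module.finrank ℂ (F.F m a) = Module.finrank ℂ (WW H D m) + kk H D m := by
  rw [← finrank_comap (le_idl F m a)]
  exact finrank_split _ _

theorem finrank_U [∀ m, FiniteDimensional ℂ (V m)] (hy : y h ≠ 0) (m e : ℕ) :
    Module.finrank ℂ (U F P y m a e) =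
      Module.finrank ℂ (WW H D m ⊓ Lead553.mpow d r e : Submodule ℂ _) + kk H D m := by
  have hUF : U F P y m a e ≤ F.F m a := inf_le_left
  have hUI : U F P y m a e ≤ (idl F a).restrictScalars ℂ := hUF.trans (le_idl F m a)
  have : FiniteDimensional ℂ (U F P y m a e) := Submodule.finiteDimensional_of_le hUF
  rw [← finrank_comap hUI, finrank_split (H.ps D)]
  have hmem : ∀ x : (idl F a).restrictScalars ℂ,
      x ∈ (U F P y m a e).comap ((idl F a).restrictScalars ℂ).subtype ↔
        x ∈ (F.F m a).comap ((idl F a).restrictScalars ℂ).subtype ∧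
          H.ps D x ∈ Lead553.mpow d r e := by
    intro x
    rw [H.ps_apply, H.ps_mem_iff D hy e x.2]
    simp only [Submodule.mem_comap, Submodule.subtype_apply, U, Submodule.mem_inf,
      Submodule.restrictScalars_mem, sup_assoc]
  have h1 : ((U F P y m a e).comap ((idl F a).restrictScalars ℂ).subtype).map (H.ps D) =
      WW H D m ⊓ Lead553.mpow d r e := by
    ext z
    simp only [Submodule.mem_map, Submodule.mem_inf, WW]
    constructor
    · rintro ⟨x, hx, rfl⟩
      exact ⟨⟨x, ((hmem x).1 hx).1, rfl⟩, ((hmem x).1 hx).2⟩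
    · rintro ⟨⟨x, hx, rfl⟩, hz⟩
      exact ⟨x, (hmem x).2 ⟨hx, hz⟩, rfl⟩
  have h2 : (U F P y m a e).comap ((idl F a).restrictScalars ℂ).subtype ⊓ LinearMap.ker (H.ps D)
      = (F.F m a).comap ((idl F a).restrictScalars ℂ).subtype ⊓ LinearMap.ker (H.ps D) := by
    ext x
    rw [Submodule.mem_inf, Submodule.mem_inf, hmem]
    constructor
    · rintro ⟨⟨h1, _⟩, h2⟩; exact ⟨h1, h2⟩
    · rintro ⟨h1, h2⟩
      refine ⟨⟨h1, ?_⟩, h2⟩
      rw [LinearMap.mem_ker.1 h2]
      exact Submodule.zero_mem _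
  rw [h1, h2]
  rfl

theorem finrank_Fgt [∀ m, FiniteDimensional ℂ (V m)] (m : ℕ) :
    Module.finrank ℂ (Fgt F m a) ≤ kk H D m := by
  have h1 : Fgt F m a ≤ (idl F a).restrictScalars ℂ := (Fgt_le F m a).trans (le_idl F m a)
  rw [← finrank_comap h1]
  refine Submodule.finrank_mono ?_
  intro x hx
  refine ⟨Fgt_le F m a hx, LinearMap.mem_ker.2 ?_⟩
  exact H.psF_N D (Ideal.mem_sup_right (Fgt_le_idlGt F m a hx))

theorem WW_mul {j m : ℕ}
    {f : MvPowerSeries (Fin d) ℂ} (hf : f ∈ (V j).map D.th.toLinearMap)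
    {z : Fin r → MvPowerSeries (Fin d) ℂ} (hz : z ∈ WW H D m) : f • z ∈ WW H D (m + j) := by
  obtain ⟨b, hb, rfl⟩ := hf
  obtain ⟨x, hx, rfl⟩ := hz
  have h1 : b * x.1 ∈ F.F (m + j) a := by
    have := F.mul j 0 m a b x.1 (by rw [F.zero j 0 le_rfl]; exact hb) hx
    rwa [zero_add, add_comm] at this
  refine ⟨⟨b * x.1, le_idl F (m + j) a h1⟩, h1, ?_⟩
  rw [H.ps_apply, H.ps_apply, H.psF_mul D b x.2]
  rfl

end filt

end Crest.Agent.R271.N857
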