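import Crest.Agent.R271.Defs_710
import Mathlib.RingTheory.Etale.Kaehler

/-!
Row 271 (S0413), task B9: the fields `ordbd` (C4) and `FSbd` of `FCtx` from graded integrality
over the polynomial ring `ℂ[Y₀,…,Yₙ]`.
-/

set_option autoImplicit false

open scoped BigOperators
open MvPolynomial

noncomputable section

namespace Crest.Agent.R271.OrdBd54

open Crest.Agent.R271.Defs710

section der

variable {n : ℕ} {B : Type} [CommRing B] [Algebra ℂ B]

/-- the coordinate derivations `∂/∂zᵢ` extend to an étale algebra -/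
theorem exists_der (z : Fin n → B)
    (het : RingHom.Etale ((MvPolynomial.aeval z : MvPolynomial (Fin n) ℂ →ₐ[ℂ] B) :
      MvPolynomial (Fin n) ℂ →+* B)) (i : Fin n) :
    ∃ D : Derivation ℂ B B, ∀ q : MvPolynomial (Fin n) ℂ, D (aeval z q) = aeval z (pderiv i q) := by
  let _ : Algebra (MvPolynomial (Fin n) ℂ) B :=
    ((MvPolynomial.aeval z : MvPolynomial (Fin n) ℂ →ₐ[ℂ] B) :
      MvPolynomial (Fin n) ℂ →+* B).toAlgebra
  have hmap : ∀ q : MvPolynomial (Fin n) ℂ, algebraMap (MvPolynomial (Fin n) ℂ) B q = aeval z q :=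
    fun q => rfl
  have _ : IsScalarTower ℂ (MvPolynomial (Fin n) ℂ) B := IsScalarTower.of_algebraMap_eq (fun c => by
    rw [hmap, MvPolynomial.algebraMap_eq, MvPolynomial.aeval_C])
  have _ : Algebra.Etale (MvPolynomial (Fin n) ℂ) B := het
  have _ : Algebra.FormallyEtale (MvPolynomial (Fin n) ℂ) B := inferInstance
  let d0 : Derivation ℂ (MvPolynomial (Fin n) ℂ) B := Derivation.compAlgebraMap
    (MvPolynomial (Fin n) ℂ) (0 : Derivation ℂ B B) + 
      (Algebra.linearMap (MvPolynomial (Fin n) ℂ) B).compDer (pderiv i)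
  have hd0 : ∀ q, d0 q = aeval z (pderiv i q) := by
    intro q
    simp [d0, hmap]
  have hb := KaehlerDifferential.isBaseChange_of_formallyEtale (R := ℂ)
    (S := MvPolynomial (Fin n) ℂ) (T := B)
  let ℓ := hb.lift d0.liftKaehlerDifferential
  refine ⟨ℓ.compDer (KaehlerDifferential.D ℂ B), fun q => ?_⟩
  rw [← hd0 q, ← hmap]
  change ℓ (KaehlerDifferential.D ℂ B (algebraMap _ _ q)) = _
  rw [← KaehlerDifferential.map_D ℂ ℂ (MvPolynomial (Fin n) ℂ) B q]
  change hb.lift d0.liftKaehlerDifferential (KaehlerDifferential.map ℂ ℂ _ B _) = _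
  rw [hb.lift_eq]
  exact d0.liftKaehlerDifferential_comp_D q

/-- a derivation lowers the `I`-adic order by at most one -/
theorem der_mem (D : Derivation ℂ B B) (I : Ideal B) (e : ℕ) :
    ∀ f ∈ I ^ (e + 1), D f ∈ I ^ e := by
  induction e with
  | zero => intro f _; simp
  | succ e ih =>
    intro f hf
    rw [pow_succ] at hf
    refine Submodule.mul_induction_on hf ?_ ?_
    · intro a ha b hb
      rw [D.leibniz]
      refine (I ^ (e + 1)).add_mem ?_ ?_
      · rw [smul_eq_mul]
        exact Ideal.mul_mem_right _ _ ha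
      · rw [smul_eq_mul, pow_succ, mul_comm b]
        exact Ideal.mul_mem_mul (ih a ha) hb
    · intro a b ha hb
      rw [map_add]
      exact Ideal.add_mem _ ha hb

/-- all partial derivatives vanish: constant -/
theorem eq_C_of_pderiv (q : MvPolynomial (Fin n) ℂ) (h : ∀ i, pderiv i q = 0) :
    q = C (coeff 0 q) := by
  ext m
  rw [coeff_C]
  split_ifs with hm
  · rw [hm]
  · have : ∃ i, m i ≠ 0 := by
      by_contra hc
      push Not at hc
      exact hm (Finsupp.ext (fun i => (hc i).symm ▸ rfl))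
    obtain ⟨i, hi⟩ := this
    have h1 := congrArg (coeff (m - Finsupp.single i 1)) (h i)
    rw [coeff_pderiv, coeff_zero] at h1
    have h2 : m - Finsupp.single i 1 + Finsupp.single i 1 = m := by
      ext j
      by_cases hj : j = i
      · subst hj
        simp
        omega
      · simp [Ne.symm hj]
    rw [h2] at h1
    rcases mul_eq_zero.mp h1 with h4 | h4
    · exact h4
    · exfalso
      revert h4
      norm_cast

theorem totalDegree_pderiv_le (q : MvPolynomial (Fin n) ℂ) (i : Fin n) (N : ℕ)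
    (h : q.totalDegree ≤ N + 1) : (pderiv i q).totalDegree ≤ N := by
  rw [totalDegree, Finset.sup_le_iff]
  intro m hm
  rw [mem_support_iff, coeff_pderiv] at hm
  have h1 : coeff (m + Finsupp.single i 1) q ≠ 0 := left_ne_zero_of_mul hm
  have h2 := le_totalDegree (mem_support_iff.mpr h1)
  rw [Finsupp.sum_add_index' (by simp) (by simp)] at h2
  rw [Finsupp.sum_single_index (by simp)] at h2
  omega

/-- a non-zero polynomial in the étale coordinates vanishes nowhere to order `> deg` -/
theorem not_mem (z : Fin n → B)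
    (het : RingHom.Etale ((MvPolynomial.aeval z : MvPolynomial (Fin n) ℂ →ₐ[ℂ] B) :
      MvPolynomial (Fin n) ℂ →+* B)) (y : B →ₐ[ℂ] ℂ) :
    ∀ (N : ℕ) (q : MvPolynomial (Fin n) ℂ), q ≠ 0 → q.totalDegree ≤ N →
      aeval z q ∉ mI y ^ (N + 1) := by
  intro N
  induction N with
  | zero =>
    intro q hq hN hmem
    have h1 : q = C (coeff 0 q) := totalDegree_eq_zero_iff_eq_C.mp (Nat.le_zero.mp hN)
    have h2 : coeff 0 q ≠ 0 := by
      intro h0
      rw [h0, C_0] at h1
      exact hq h1
    rw [h1, aeval_C, zero_add, pow_one] at hmem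
    have h3 : y (algebraMap ℂ B (coeff 0 q)) = 0 := hmem
    rw [AlgHom.commutes] at h3
    exact h2 h3
  | succ N ih =>
    intro q hq hN hmem
    have h1 : ∀ i, pderiv i q = 0 := by
      intro i
      by_contra hne
      obtain ⟨D, hD⟩ := exists_der z het i
      refine ih (pderiv i q) hne (totalDegree_pderiv_le q i N hN) ?_
      rw [← hD]
      exact der_mem D _ _ _ hmem
    have h2 := eq_C_of_pderiv q h1
    have h3 : coeff 0 q ≠ 0 := by
      intro h0
      rw [h0, C_0] at h2
      exact hq h2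
    rw [h2, aeval_C] at hmem
    have h4 : algebraMap ℂ B (coeff 0 q) ∈ mI y :=
      Ideal.pow_le_self (Nat.succ_ne_zero _) hmem
    have h5 : y (algebraMap ℂ B (coeff 0 q)) = 0 := h4
    rw [AlgHom.commutes] at h5
    exact h3 h5

theorem aeval_injective (z : Fin n → B)
    (het : RingHom.Etale ((MvPolynomial.aeval z : MvPolynomial (Fin n) ℂ →ₐ[ℂ] B) :
      MvPolynomial (Fin n) ℂ →+* B)) (y : B →ₐ[ℂ] ℂ) :
    Function.Injective (aeval z : MvPolynomial (Fin n) ℂ →ₐ[ℂ] B) := by
  rw [injective_iff_map_eq_zero]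
  intro q hq
  by_contra hne
  exact not_mem z het y q.totalDegree q hne le_rfl (by rw [hq]; exact Ideal.zero_mem _)

end der

section weights

variable {n : ℕ}

/-- `zⱼ ↦ zⱼ S` -/
def psi (n : ℕ) : MvPolynomial (Fin n) ℂ →ₐ[ℂ] Polynomial (MvPolynomial (Fin n) ℂ) :=
  aeval (fun j => Polynomial.C (X j) * Polynomial.X)

theorem psi_monomial (α : Fin n →₀ ℕ) (c : ℂ) :
    psi n (monomial α c) = Polynomial.monomial α.degree (monomial α c) := by
  rw [psi, aeval_monomial]
  have h1 : (α.prod fun i k => (Polynomial.C (X i : MvPolynomial (Fin n) ℂ) * Polynomial.X) ^ k) =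
      Polynomial.C (monomial α (1 : ℂ)) * Polynomial.X ^ α.degree := by
    simp_rw [mul_pow]
    rw [Finsupp.prod_mul]
    congr 1
    · have h2 : (monomial α (1 : ℂ)) = ∏ i ∈ α.support, (X i : MvPolynomial (Fin n) ℂ) ^ α i := by
        rw [monomial_eq]
        simp [Finsupp.prod]
      rw [h2, map_prod]
      simp [Finsupp.prod]
    · rw [Finsupp.prod, Finset.prod_pow_eq_pow_sum]
      rfl
  rw [h1, ← Polynomial.C_mul_X_pow_eq_monomial]
  rw [show monomial α c = C c * monomial α (1 : ℂ) by rw [C_mul_monomial, mul_one]]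
  rw [Polynomial.C_mul, mul_assoc]
  rfl

theorem coeff_psi (q : MvPolynomial (Fin n) ℂ) (d : ℕ) :
    (psi n q).coeff d = homogeneousComponent d q := by
  induction q using MvPolynomial.induction_on' with
  | monomial α c =>
    rw [psi_monomial, Polynomial.coeff_monomial]
    rw [homogeneousComponent_apply]
    by_cases hc : c = 0
    · subst hc
      simp
    · rw [support_monomial, if_neg hc]
      rw [Finset.sum_filter, Finset.sum_singleton]
      rw [coeff_monomial, if_pos rfl]
  | add p q hp hq =>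
    rw [map_add, Polynomial.coeff_add, hp, hq, map_add]

/-- `zⱼ ↦ zⱼ S`, `X ↦ X S^m` -/
def Psi (n m : ℕ) : Polynomial (MvPolynomial (Fin n) ℂ) →+*
    Polynomial (Polynomial (MvPolynomial (Fin n) ℂ)) :=
  Polynomial.eval₂RingHom
    ((Polynomial.mapRingHom (Polynomial.C : MvPolynomial (Fin n) ℂ →+*
      Polynomial (MvPolynomial (Fin n) ℂ))).comp
      (psi n : MvPolynomial (Fin n) ℂ →+* Polynomial (MvPolynomial (Fin n) ℂ)))
    (Polynomial.C (Polynomial.X : Polynomial (MvPolynomial (Fin n) ℂ)) * Polynomial.X ^ m)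

theorem Psi_monomial (m j : ℕ) (c : MvPolynomial (Fin n) ℂ) :
    Psi n m (Polynomial.monomial j c) = (Polynomial.map Polynomial.C (psi n c)) *
      (Polynomial.C (Polynomial.X ^ j) * Polynomial.X ^ (m * j)) := by
  rw [Psi, Polynomial.coe_eval₂RingHom, Polynomial.eval₂_monomial]
  rw [(Polynomial.commute_X_pow (Polynomial.C (Polynomial.X :
    Polynomial (MvPolynomial (Fin n) ℂ))) m).symm.mul_pow, ← Polynomial.C_pow, ← pow_mul]
  rfl

theorem coeff_Psi (m : ℕ) (E : Polynomial (MvPolynomial (Fin n) ℂ)) (N j : ℕ) :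
    ((Psi n m E).coeff N).coeff j =
      if m * j ≤ N then homogeneousComponent (N - m * j) (E.coeff j) else 0 := by
  induction E using Polynomial.induction_on' with
  | add p q hp hq =>
    rw [map_add, Polynomial.coeff_add, Polynomial.coeff_add, hp, hq, Polynomial.coeff_add]
    split_ifs
    · rw [map_add]
    · simp
  | monomial l c =>
    rw [Psi_monomial, ← mul_assoc, Polynomial.coeff_mul_X_pow']
    rw [Polynomial.coeff_monomial]
    by_cases hl : l = j
    · subst hl
      rw [if_pos rfl]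
      split_ifs with h
      · rw [Polynomial.coeff_mul_C, Polynomial.coeff_map, coeff_psi, Polynomial.coeff_C_mul_X_pow]
        simp
      · simp
    · rw [if_neg hl]
      simp only [map_zero, ite_self]
      split_ifs
      · rw [Polynomial.coeff_mul_C, Polynomial.coeff_map, Polynomial.coeff_C_mul_X_pow]
        rw [if_neg (Ne.symm hl)]
      · simp

/-- weighted degree of a monic polynomial -/
def WB (m : ℕ) (E : Polynomial (MvPolynomial (Fin n) ℂ)) (r : ℕ) : Prop :=
  ∀ j, E.coeff j ≠ 0 → (E.coeff j).totalDegree + m * j ≤ m * r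

theorem natDegree_Psi_le {m r : ℕ} {E : Polynomial (MvPolynomial (Fin n) ℂ)} (h : WB m E r) :
    (Psi n m E).natDegree ≤ m * r := by
  rw [Polynomial.natDegree_le_iff_coeff_eq_zero]
  intro N hN
  ext1 j
  rw [coeff_Psi, Polynomial.coeff_zero]
  split_ifs with hj
  · by_cases h0 : E.coeff j = 0
    · rw [h0, map_zero]
    · apply homogeneousComponent_eq_zero
      have := h j h0
      omega
  · rfl

theorem le_natDegree_Psi {m : ℕ} {E : Polynomial (MvPolynomial (Fin n) ℂ)} (h : E.Monic) :
    m * E.natDegree ≤ (Psi n m E).natDegree := by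
  apply Polynomial.le_natDegree_of_ne_zero
  intro h0
  have h1 := congrArg (fun p => Polynomial.coeff p E.natDegree) h0
  simp only [coeff_Psi, le_refl, if_true, Nat.sub_self, Polynomial.coeff_zero] at h1
  rw [Polynomial.Monic.coeff_natDegree h] at h1
  rw [homogeneousComponent_zero, coeff_zero_one] at h1
  simp at h1

theorem Psi_ne_zero {m : ℕ} {E : Polynomial (MvPolynomial (Fin n) ℂ)} (h : E.Monic) :
    Psi n m E ≠ 0 := by
  intro h0
  have h1 := congrArg (fun p => Polynomial.coeff (Polynomial.coeff p (m * E.natDegree))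
    E.natDegree) h0
  simp only [coeff_Psi, le_refl, if_true, Nat.sub_self, Polynomial.coeff_zero] at h1
  rw [Polynomial.Monic.coeff_natDegree h] at h1
  rw [homogeneousComponent_zero, coeff_zero_one] at h1
  simp at h1

/-- weighted Gauss lemma -/
theorem factor_bound {m r : ℕ} {E F G : Polynomial (MvPolynomial (Fin n) ℂ)} (hE : E = F * G)
    (hF : F.Monic) (hG : G.Monic) (hr : E.natDegree = r) (h : WB m E r) :
    (F.coeff 0).totalDegree ≤ m * F.natDegree := by
  have h1 : F.natDegree + G.natDegree = r := by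
    rw [← hr, hE, hF.natDegree_mul hG]
  have h2 : (Psi n m E).natDegree = (Psi n m F).natDegree + (Psi n m G).natDegree := by
    rw [hE, map_mul]
    exact Polynomial.natDegree_mul (Psi_ne_zero hF) (Psi_ne_zero hG)
  have h3 := natDegree_Psi_le h
  have h4 := le_natDegree_Psi (m := m) hG
  have h5 : (Psi n m F).natDegree ≤ m * F.natDegree := by
    have : m * r = m * F.natDegree + m * G.natDegree := by rw [← h1, mul_add]
    omega
  rw [totalDegree, Finset.sup_le_iff]
  intro α hα
  by_contra hlt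
  push Not at hlt
  have hlt' : m * F.natDegree < α.degree := hlt
  have h6 : (Psi n m F).coeff α.degree = 0 :=
    Polynomial.coeff_eq_zero_of_natDegree_lt (lt_of_le_of_lt h5 hlt')
  have h7 := congrArg (fun p => Polynomial.coeff p 0) h6
  simp only [coeff_Psi, mul_zero, Nat.zero_le, if_true, Nat.sub_zero, Polynomial.coeff_zero] at h7
  have h8 := congrArg (coeff α) h7
  rw [coeff_homogeneousComponent, if_pos rfl, coeff_zero] at h8
  exact (mem_support_iff.mp hα) h8

end weights

section deh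

variable {n : ℕ}

/-- dehomogenisation -/
def deh (p : MvPolynomial (Fin (n + 1)) ℂ) : MvPolynomial (Fin n) ℂ :=
  aeval (Fin.cons 1 X : Fin (n + 1) → MvPolynomial (Fin n) ℂ) p

theorem totalDegree_deh {N : ℕ} {p : MvPolynomial (Fin (n + 1)) ℂ} (hp : p.IsHomogeneous N) :
    (deh p).totalDegree ≤ N := by
  rw [deh, aeval_def, eval₂_eq]
  refine (totalDegree_finsetSum _ _).trans (Finset.sup_le fun α hα => ?_)
  have h1 : α.degree = N := by
    by_contra h
    exact (mem_support_iff.mp hα) (hp.coeff_eq_zero h)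
  refine (totalDegree_mul _ _).trans ?_
  rw [algebraMap_eq, totalDegree_C, zero_add]
  refine (totalDegree_finsetProd _ _).trans ?_
  rw [← h1]
  refine Finset.sum_le_sum fun i _ => ?_
  refine (totalDegree_pow _ _).trans ?_
  have h2 : ((Fin.cons 1 X : Fin (n + 1) → MvPolynomial (Fin n) ℂ) i).totalDegree ≤ 1 := by
    refine Fin.cases ?_ (fun j => ?_) i
    · simp
    · rw [Fin.cons_succ]
      exact (totalDegree_X (R := ℂ) j).le
  calc α i * _ ≤ α i * 1 := Nat.mul_le_mul_left _ h2
    _ = α i := mul_one _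

variable {B : Type} [CommRing B] [Algebra ℂ B]

theorem aeval_hom {N : ℕ} {p : MvPolynomial (Fin (n + 1)) ℂ} (hp : p.IsHomogeneous N)
    (z : Fin n → B) (Y : Fin (n + 1) → B) (hY : ∀ i : Fin n, z i * Y 0 = Y i.succ) :
    aeval Y p = Y 0 ^ N * aeval z (deh p) := by
  have hYe : ∀ i : Fin (n + 1), Y i = Y 0 * (Fin.cons 1 z : Fin (n + 1) → B) i := by
    intro i
    refine Fin.cases ?_ (fun j => ?_) i
    · simp
    · rw [Fin.cons_succ, ← hY, mul_comm]
  have hd : aeval z (deh p) = aeval (Fin.cons 1 z : Fin (n + 1) → B) p := by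
    rw [deh, ← AlgHom.comp_apply, comp_aeval]
    congr 2
    funext i
    refine Fin.cases ?_ (fun j => ?_) i
    · simp
    · simp
  rw [hd, aeval_def, aeval_def, eval₂_eq, eval₂_eq, Finset.mul_sum]
  refine Finset.sum_congr rfl fun α hα => ?_
  have h1 : α.degree = N := by
    by_contra h
    exact (mem_support_iff.mp hα) (hp.coeff_eq_zero h)
  have h2 : ∏ i ∈ α.support, Y i ^ α i = Y 0 ^ N *
      ∏ i ∈ α.support, (Fin.cons 1 z : Fin (n + 1) → B) i ^ α i := by
    rw [Finset.prod_congr rfl (fun i _ => by rw [hYe i, mul_pow]), Finset.prod_mul_distrib,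
      Finset.prod_pow_eq_pow_sum, ← h1]
    rfl
  rw [h2]
  ring

end deh

section main

variable {n : ℕ} {B : Type} [CommRing B] [IsDomain B] [Algebra ℂ B]

/-- graded integrality over the polynomial ring in the `Yⱼ` -/
def IntY (V : ℕ → Submodule ℂ B) (k : ℕ) (Y : Fin (n + 1) → B) : Prop :=
  ∀ m, ∀ f ∈ V m, ∃ r : ℕ, 1 ≤ r ∧ ∃ a : ℕ → MvPolynomial (Fin (n + 1)) ℂ,
    (∀ i, (a i).IsHomogeneous (m * i)) ∧
      (f ^ k) ^ r = ∑ i ∈ Finset.range r, aeval Y (a (r - i)) * (f ^ k) ^ i

/-- the degree of `Frac B` over `ℂ(z)` bounds all minimal polynomials -/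
def DegBd (z : Fin n → B) (D : ℕ) : Prop :=
  ∀ (u : B) (E : Polynomial (MvPolynomial (Fin n) ℂ)), E.Monic →
    E.eval₂ ((aeval z : MvPolynomial (Fin n) ℂ →ₐ[ℂ] B) : MvPolynomial (Fin n) ℂ →+* B) u = 0 →
    ∃ F G : Polynomial (MvPolynomial (Fin n) ℂ), F.Monic ∧ G.Monic ∧ E = F * G ∧
      F.natDegree ≤ D ∧
      F.eval₂ ((aeval z : MvPolynomial (Fin n) ℂ →ₐ[ℂ] B) : MvPolynomial (Fin n) ℂ →+* B) u = 0 ∧
      (u ≠ 0 → F.coeff 0 ≠ 0)

theorem ordbd_aux (z : Fin n → B)
    (het : RingHom.Etale ((MvPolynomial.aeval z : MvPolynomial (Fin n) ℂ →ₐ[ℂ] B) :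
      MvPolynomial (Fin n) ℂ →+* B)) (V : ℕ → Submodule ℂ B) (k : ℕ) (hk : 1 ≤ k)
    (Y : Fin (n + 1) → B) (hY0 : IsUnit (Y 0)) (hY : ∀ i : Fin n, z i * Y 0 = Y i.succ)
    (hint : IntY V k Y) (D : ℕ) (hD : DegBd z D) :
    ∀ m, ∀ f ∈ V m, f ≠ 0 → ∀ (y : B →ₐ[ℂ] ℂ) (e : ℕ), f ∈ mI y ^ e → e ≤ D * m := by
  intro m f hf hf0 y e hfe
  obtain ⟨r, hr, a, ha, hE⟩ := hint m f hf
  obtain ⟨w, hw⟩ := hY0
  -- `u = f^k / Y₀^m`
  obtain ⟨u, hu⟩ : ∃ u : B, u = f ^ k * (↑w⁻¹ : B) ^ m := ⟨_, rfl⟩
  have hww : (↑w⁻¹ : B) * Y 0 = 1 := by rw [← hw]; exact Units.inv_mul w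
  have huY : u * Y 0 ^ m = f ^ k := by
    rw [hu, mul_assoc, ← mul_pow, hww, one_pow, mul_one]
  have hu0 : u ≠ 0 := by
    intro h
    rw [h, zero_mul] at huY
    exact hf0 (pow_eq_zero_iff (by omega) |>.mp huY.symm)
  -- the integral equation of `u`
  obtain ⟨E, hEdef⟩ : ∃ E : Polynomial (MvPolynomial (Fin n) ℂ), E = Polynomial.X ^ r -
    ∑ i ∈ Finset.range r, Polynomial.C (deh (a (r - i))) * Polynomial.X ^ i := ⟨_, rfl⟩
  have hEc : ∀ j, E.coeff j = if j = r then 1 else if j < r then - deh (a (r - j)) else 0 := by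
    intro j
    rw [hEdef, Polynomial.coeff_sub, Polynomial.coeff_X_pow, Polynomial.finsetSum_coeff]
    simp_rw [Polynomial.coeff_C_mul_X_pow]
    rw [Finset.sum_ite_eq]
    by_cases h1 : j = r
    · subst h1; simp
    · by_cases h2 : j < r
      · simp [h1, h2]
      · simp [h1, h2]
  have hEdeg : E.natDegree = r := by
    apply le_antisymm
    · rw [Polynomial.natDegree_le_iff_coeff_eq_zero]
      intro N hN
      rw [hEc, if_neg (by omega), if_neg (by omega)]
    · apply Polynomial.le_natDegree_of_ne_zero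
      rw [hEc, if_pos rfl]
      exact one_ne_zero
  have hEm : E.Monic := by
    rw [Polynomial.Monic, Polynomial.leadingCoeff, hEdeg, hEc, if_pos rfl]
  have hWB : WB m E r := by
    intro j hj
    rw [hEc] at hj ⊢
    by_cases h1 : j = r
    · rw [if_pos h1, h1, totalDegree_one, zero_add]
    · rw [if_neg h1] at hj ⊢
      by_cases h2 : j < r
      · rw [if_pos h2, totalDegree_neg]
        have h3 := totalDegree_deh (ha (r - j))
        calc _ ≤ m * (r - j) + m * j := Nat.add_le_add_right h3 _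
          _ = m * r := by rw [← mul_add]; congr 1; omega
      · rw [if_neg h2] at hj
        exact absurd rfl hj
  have hEu : E.eval₂ ((aeval z : MvPolynomial (Fin n) ℂ →ₐ[ℂ] B) :
      MvPolynomial (Fin n) ℂ →+* B) u = 0 := by
    rw [hEdef, Polynomial.eval₂_sub, Polynomial.eval₂_X_pow, Polynomial.eval₂_finsetSum]
    simp only [Polynomial.eval₂_mul, Polynomial.eval₂_C, Polynomial.eval₂_X_pow]
    have hY0' : Y 0 ^ (m * r) ≠ 0 := by
      apply pow_ne_zero
      rw [← hw]
      exact w.ne_zero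
    apply (mul_eq_zero.mp ?_).resolve_right hY0'
    rw [sub_mul, Finset.sum_mul, sub_eq_zero]
    have h1 : u ^ r * Y 0 ^ (m * r) = (f ^ k) ^ r := by
      rw [← huY, mul_pow, ← pow_mul]
    rw [h1, hE]
    refine Finset.sum_congr rfl fun i hi => ?_
    rw [Finset.mem_range] at hi
    rw [aeval_hom (ha (r - i)) z Y hY, ← huY, mul_pow, ← pow_mul]
    have h2 : m * r = m * (r - i) + m * i := by rw [← mul_add]; congr 1; omega
    rw [h2, pow_add]
    simp only [RingHom.coe_coe]
    ring
  obtain ⟨F, G, hF, hG, hEFG, hFD, hFu, hF0⟩ := hD u E hEm hEu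
  have hdeg := factor_bound hEFG hF hG hEdeg hWB
  -- `F(0) ∈ u B`
  have hdvd : u ∣ aeval z (F.coeff 0) := by
    have h1 : F = F.divX * Polynomial.X + Polynomial.C (F.coeff 0) :=
      (Polynomial.divX_mul_X_add F).symm
    rw [h1, Polynomial.eval₂_add, Polynomial.eval₂_mul, Polynomial.eval₂_X, Polynomial.eval₂_C]
      at hFu
    have h2 : aeval z (F.coeff 0) = u * (- Polynomial.eval₂ ((aeval z :
        MvPolynomial (Fin n) ℂ →ₐ[ℂ] B) : MvPolynomial (Fin n) ℂ →+* B) u F.divX) := by
      have h3 : (aeval z (F.coeff 0) : B) = ((aeval z :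
        MvPolynomial (Fin n) ℂ →ₐ[ℂ] B) : MvPolynomial (Fin n) ℂ →+* B) (F.coeff 0) := rfl
      rw [h3]
      linear_combination hFu
    exact ⟨_, h2⟩
  have humem : u ∈ mI y ^ (e * k) := by
    rw [hu]
    refine Ideal.mul_mem_right _ _ ?_
    rw [pow_mul]
    exact Ideal.pow_mem_pow hfe k
  have hmem : aeval z (F.coeff 0) ∈ mI y ^ (e * k) := by
    obtain ⟨b, hb⟩ := hdvd
    rw [hb]
    exact Ideal.mul_mem_right _ _ humem
  have hfin : e * k ≤ m * F.natDegree := by
    by_contra hlt
    push Not at hlt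
    refine not_mem z het y (m * F.natDegree) (F.coeff 0) (hF0 hu0) hdeg ?_
    exact Ideal.pow_le_pow_right hlt hmem
  calc e = e * 1 := (mul_one e).symm
    _ ≤ e * k := Nat.mul_le_mul_left _ hk
    _ ≤ m * F.natDegree := hfin
    _ ≤ m * D := Nat.mul_le_mul_left _ hFD
    _ = D * m := mul_comm _ _

/-- `B` is generically finite over `ℂ[z]` -/
theorem degBd (ft : Algebra.FiniteType ℂ B) (z : Fin n → B)
    (hinj : Function.Injective (aeval z : MvPolynomial (Fin n) ℂ →ₐ[ℂ] B))
    (A : Subalgebra ℂ B) (A_int : ∀ a ∈ A, IsIntegral (Algebra.adjoin ℂ (Set.range z)) a)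
    (h : B) (h_mem : h ∈ A) (h_unit : IsUnit h) (h_loc : ∀ b : B, ∃ N : ℕ, h ^ N * b ∈ A) :
    ∃ D : ℕ, DegBd z D := by
  let _ : Algebra (MvPolynomial (Fin n) ℂ) B :=
    ((MvPolynomial.aeval z : MvPolynomial (Fin n) ℂ →ₐ[ℂ] B) :
      MvPolynomial (Fin n) ℂ →+* B).toAlgebra
  have hmap : ∀ q : MvPolynomial (Fin n) ℂ, algebraMap (MvPolynomial (Fin n) ℂ) B q = aeval z q :=
    fun q => rfl
  have _ : IsScalarTower ℂ (MvPolynomial (Fin n) ℂ) B := IsScalarTower.of_algebraMap_eq (fun c => by
    rw [hmap, MvPolynomial.algebraMap_eq, MvPolynomial.aeval_C])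
  have _ : FaithfulSMul (MvPolynomial (Fin n) ℂ) B :=
    (faithfulSMul_iff_algebraMap_injective _ _).mpr hinj
  have _ : FaithfulSMul (MvPolynomial (Fin n) ℂ) (FractionRing B) :=
    (faithfulSMul_iff_algebraMap_injective _ _).mpr (by
      rw [IsScalarTower.algebraMap_eq (MvPolynomial (Fin n) ℂ) B (FractionRing B)]
      exact (IsFractionRing.injective B (FractionRing B)).comp hinj)
  let _ : Algebra (FractionRing (MvPolynomial (Fin n) ℂ)) (FractionRing B) :=
    FractionRing.liftAlgebra _ _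
  have _ : IsScalarTower (MvPolynomial (Fin n) ℂ) (FractionRing (MvPolynomial (Fin n) ℂ))
    (FractionRing B) := FractionRing.isScalarTower_liftAlgebra _ _
  -- integrality over `Q`
  have hA : ∀ a ∈ A, IsIntegral (MvPolynomial (Fin n) ℂ) a := by
    intro a ha
    have h1 := A_int a ha
    obtain ⟨P, hP, hPa⟩ := h1
    have h2 : ∀ s : Algebra.adjoin ℂ (Set.range z), ∃ q : MvPolynomial (Fin n) ℂ,
        (aeval z q : B) = s := by
      rintro ⟨s, hs⟩
      rw [Algebra.adjoin_range_eq_range_aeval] at hs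
      exact hs
    choose g hg using h2
    refine ⟨∑ i ∈ Finset.range P.natDegree, Polynomial.C (g (P.coeff i)) * Polynomial.X ^ i +
      Polynomial.X ^ P.natDegree, ?_, ?_⟩
    · apply Polynomial.monic_of_natDegree_le_of_coeff_eq_one P.natDegree
      · rw [Polynomial.natDegree_le_iff_coeff_eq_zero]
        intro N hN
        rw [Polynomial.coeff_add, Polynomial.finsetSum_coeff]
        simp_rw [Polynomial.coeff_C_mul_X_pow]
        rw [Finset.sum_ite_eq, if_neg (by simp; omega), Polynomial.coeff_X_pow,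
          if_neg (by omega), zero_add]
      · rw [Polynomial.coeff_add, Polynomial.finsetSum_coeff]
        simp_rw [Polynomial.coeff_C_mul_X_pow]
        rw [Finset.sum_ite_eq, if_neg (by simp), Polynomial.coeff_X_pow, if_pos rfl, zero_add]
    · rw [Polynomial.eval₂_add, Polynomial.eval₂_finsetSum, Polynomial.eval₂_X_pow]
      simp only [Polynomial.eval₂_mul, Polynomial.eval₂_C, Polynomial.eval₂_X_pow]
      rw [Polynomial.eval₂_eq_sum_range, Finset.sum_range_succ] at hPa
      rw [show P.coeff P.natDegree = 1 from hP, map_one, one_mul] at hPa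
      rw [← hPa]
      congr 1
      refine Finset.sum_congr rfl fun i _ => ?_
      rw [hmap, hg]
      rfl
  have halg : ∀ b : B, IsAlgebraic (FractionRing (MvPolynomial (Fin n) ℂ))
      (algebraMap B (FractionRing B) b) := by
    intro b
    obtain ⟨N, hN⟩ := h_loc b
    have h1 : IsIntegral (FractionRing (MvPolynomial (Fin n) ℂ))
        (algebraMap B (FractionRing B) (h ^ N * b)) :=
      ((hA _ hN).algebraMap (B := FractionRing B)).tower_top
    have h2 : IsIntegral (FractionRing (MvPolynomial (Fin n) ℂ))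
        (algebraMap B (FractionRing B) (h ^ N)) :=
      ((hA _ (pow_mem h_mem N)).algebraMap (B := FractionRing B)).tower_top
    have h3 : algebraMap B (FractionRing B) (h ^ N) ≠ 0 := by
      rw [map_ne_zero_iff _ (IsFractionRing.injective B (FractionRing B))]
      exact (h_unit.pow N).ne_zero
    have h4 : algebraMap B (FractionRing B) b = algebraMap B (FractionRing B) (h ^ N * b) *
        (algebraMap B (FractionRing B) (h ^ N))⁻¹ := by
      rw [map_mul]
      field_simp
    rw [h4]
    exact h1.isAlgebraic.mul h2.isAlgebraic.inv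
  obtain ⟨T, hT⟩ := ft.out
  have hfd : FiniteDimensional (FractionRing (MvPolynomial (Fin n) ℂ)) (FractionRing B) := by
    obtain ⟨S, hS⟩ : ∃ S : Set (FractionRing B), S = algebraMap B (FractionRing B) '' T := ⟨_, rfl⟩
    have hSfin : Finite S := by
      rw [hS]
      exact (T.finite_toSet.image _).to_subtype
    have h1 : FiniteDimensional (FractionRing (MvPolynomial (Fin n) ℂ))
        (IntermediateField.adjoin (FractionRing (MvPolynomial (Fin n) ℂ)) S) := by
      apply IntermediateField.finiteDimensional_adjoin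
      intro x hx
      rw [hS] at hx
      obtain ⟨b, -, rfl⟩ := hx
      exact (halg b).isIntegral
    have h2 : ∀ b : B, algebraMap B (FractionRing B) b ∈
        IntermediateField.adjoin (FractionRing (MvPolynomial (Fin n) ℂ)) S := by
      intro b
      have hb : b ∈ Algebra.adjoin ℂ (T : Set B) := by rw [hT]; trivial
      induction hb using Algebra.adjoin_induction with
      | mem x hx =>
        apply IntermediateField.subset_adjoin
        rw [hS]
        exact ⟨x, hx, rfl⟩
      | algebraMap c =>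
        rw [IsScalarTower.algebraMap_apply ℂ (MvPolynomial (Fin n) ℂ) B,
          ← IsScalarTower.algebraMap_apply (MvPolynomial (Fin n) ℂ) B (FractionRing B),
          IsScalarTower.algebraMap_apply (MvPolynomial (Fin n) ℂ)
            (FractionRing (MvPolynomial (Fin n) ℂ)) (FractionRing B)]
        exact IntermediateField.algebraMap_mem _ _
      | add x y _ _ hx hy => rw [map_add]; exact add_mem hx hy
      | mul x y _ _ hx hy => rw [map_mul]; exact mul_mem hx hy
    have h3 : IntermediateField.adjoin (FractionRing (MvPolynomial (Fin n) ℂ)) S = ⊤ := by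
      rw [eq_top_iff]
      intro x _
      obtain ⟨a, b, hb, rfl⟩ := IsFractionRing.div_surjective (A := B) x
      exact div_mem (h2 a) (h2 b)
    rw [h3] at h1
    exact Module.Finite.equiv (IntermediateField.topEquiv (F := FractionRing (MvPolynomial (Fin n) ℂ))
      (E := FractionRing B)).toLinearEquiv
  refine ⟨Module.finrank (FractionRing (MvPolynomial (Fin n) ℂ)) (FractionRing B), ?_⟩
  intro u E hE hEu
  have hu : IsIntegral (MvPolynomial (Fin n) ℂ) u := ⟨E, hE, hEu⟩
  have hm := minpoly.monic hu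
  obtain ⟨G, hG⟩ := minpoly.isIntegrallyClosed_dvd hu (p := E) hEu
  have h1 := minpoly.isIntegrallyClosed_eq_field_fractions
    (FractionRing (MvPolynomial (Fin n) ℂ)) (FractionRing B) hu
  refine ⟨minpoly (MvPolynomial (Fin n) ℂ) u, G, hm, hm.of_mul_monic_left (by rw [← hG]; exact hE),
    hG, ?_, minpoly.aeval _ u, fun h0 hc => ?_⟩
  swap
  · have h3 : algebraMap B (FractionRing B) u ≠ 0 := by
      rw [map_ne_zero_iff _ (IsFractionRing.injective B (FractionRing B))]
      exact h0
    have h4 : IsIntegral (FractionRing (MvPolynomial (Fin n) ℂ)) (algebraMap B (FractionRing B) u) :=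
      (hu.algebraMap (B := FractionRing B)).tower_top
    have h5 := minpoly.coeff_zero_ne_zero h4 h3
    rw [h1, Polynomial.coeff_map, hc, map_zero] at h5
    exact h5 rfl
  have h2 : (minpoly (MvPolynomial (Fin n) ℂ) u).natDegree =
      (minpoly (FractionRing (MvPolynomial (Fin n) ℂ)) (algebraMap B (FractionRing B) u)).natDegree := by
    rw [h1, hm.natDegree_map]
  rw [h2]
  exact minpoly.natDegree_le _

/-- (C4): the field `ordbd` of `FCtx` -/
theorem ordbd (ft : Algebra.FiniteType ℂ B) (z : Fin n → B)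
    (het : RingHom.Etale ((MvPolynomial.aeval z : MvPolynomial (Fin n) ℂ →ₐ[ℂ] B) :
      MvPolynomial (Fin n) ℂ →+* B))
    (x : B →ₐ[ℂ] ℂ)
    (A : Subalgebra ℂ B) (A_int : ∀ a ∈ A, IsIntegral (Algebra.adjoin ℂ (Set.range z)) a)
    (h : B) (h_mem : h ∈ A) (h_unit : IsUnit h) (h_loc : ∀ b : B, ∃ N : ℕ, h ^ N * b ∈ A)
    (V : ℕ → Submodule ℂ B) (k : ℕ) (hk : 1 ≤ k)
    (Y : Fin (n + 1) → B) (hY0 : IsUnit (Y 0)) (hY : ∀ i : Fin n, z i * Y 0 = Y i.succ)
    (hint : IntY V k Y) :
    ∃ C₁ : ℕ, ∀ m, ∀ f ∈ V m, f ≠ 0 → ∀ (y : B →ₐ[ℂ] ℂ) (e : ℕ), f ∈ mI y ^ e → e ≤ C₁ * m := by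
  obtain ⟨D, hD⟩ := degBd ft z (aeval_injective z het x) A A_int h h_mem h_unit h_loc
  exact ⟨D, ordbd_aux z het V k hk Y hY0 hY hint D hD⟩

end main

end Crest.Agent.R271.OrdBd54
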