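import Crest.Agent.R271.OrdBd_54
import Crest.Agent.R271.Ctx1_728

/-!
Row 271, team B (helper54): `theorem ordFSProp : OrdFSProp` — the fields `ordbd` (C4) and `FSbd`
of `FCtx` from the graded integrality over `ℂ[Y_0,…,Y_n]` (`GIY`) and the étaleness of `z`.
-/

set_option autoImplicit false

open scoped BigOperators
open Crest.Agent.R271.Defs710 Crest.Agent.R271.Ctx728 Crest.Agent.R271.OrdBd54
open MvPolynomial (aeval)

noncomputable section

namespace Crest.Agent.R271.OrdFS54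

variable {n : ℕ} {B : Type} [CommRing B] [IsDomain B] [Algebra ℂ B]

theorem degBd_etale (z : Fin n → B)
    (het : RingHom.Etale ((MvPolynomial.aeval z : MvPolynomial (Fin n) ℂ →ₐ[ℂ] B) :
      MvPolynomial (Fin n) ℂ →+* B)) (x : B →ₐ[ℂ] ℂ) :
    ∃ D : ℕ, DegBd z D := by
  have hinj : Function.Injective (aeval z : MvPolynomial (Fin n) ℂ →ₐ[ℂ] B) :=
    aeval_injective z het x
  let _ : Algebra (MvPolynomial (Fin n) ℂ) B :=
    ((MvPolynomial.aeval z : MvPolynomial (Fin n) ℂ →ₐ[ℂ] B) :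
      MvPolynomial (Fin n) ℂ →+* B).toAlgebra
  have hmap : ∀ q : MvPolynomial (Fin n) ℂ, algebraMap (MvPolynomial (Fin n) ℂ) B q = aeval z q :=
    fun q => rfl
  have _ : IsScalarTower ℂ (MvPolynomial (Fin n) ℂ) B := IsScalarTower.of_algebraMap_eq (fun c => by
    rw [hmap, MvPolynomial.algebraMap_eq, MvPolynomial.aeval_C])
  have _ : FaithfulSMul (MvPolynomial (Fin n) ℂ) B :=
    (faithfulSMul_iff_algebraMap_injective _ _).mpr hinj
  have _ : FaithfulSMul (MvPolynomial (Fin n) ℂ) (FractionRing B) :=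
    (faithfulSMul_iff_algebraMap_injective _ _).mpr (by
      rw [IsScalarTower.algebraMap_eq (MvPolynomial (Fin n) ℂ) B (FractionRing B)]
      exact (IsFractionRing.injective B (FractionRing B)).comp hinj)
  let _ : Algebra (FractionRing (MvPolynomial (Fin n) ℂ)) (FractionRing B) :=
    FractionRing.liftAlgebra _ _
  have _ : IsScalarTower (MvPolynomial (Fin n) ℂ) (FractionRing (MvPolynomial (Fin n) ℂ))
    (FractionRing B) := FractionRing.isScalarTower_liftAlgebra _ _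
  have _ : Algebra.Etale (MvPolynomial (Fin n) ℂ) B := het
  have _ : Algebra.FormallyUnramified B (FractionRing B) :=
    Algebra.FormallyUnramified.of_isLocalization (nonZeroDivisors B)
  have _ : Algebra.FormallyUnramified (MvPolynomial (Fin n) ℂ) (FractionRing B) :=
    Algebra.FormallyUnramified.comp (MvPolynomial (Fin n) ℂ) B (FractionRing B)
  have _ : Algebra.FormallyUnramified (FractionRing (MvPolynomial (Fin n) ℂ)) (FractionRing B) :=
    Algebra.FormallyUnramified.of_restrictScalars (MvPolynomial (Fin n) ℂ) _ _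
  have _ : Algebra.EssFiniteType B (FractionRing B) :=
    Algebra.EssFiniteType.of_isLocalization _ (nonZeroDivisors B)
  have _ : Algebra.EssFiniteType (MvPolynomial (Fin n) ℂ) (FractionRing B) :=
    Algebra.EssFiniteType.comp _ B _
  have _ : Algebra.EssFiniteType (FractionRing (MvPolynomial (Fin n) ℂ)) (FractionRing B) :=
    Algebra.EssFiniteType.of_comp (MvPolynomial (Fin n) ℂ) _ _
  have hfd : FiniteDimensional (FractionRing (MvPolynomial (Fin n) ℂ)) (FractionRing B) :=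
    Algebra.FormallyUnramified.finite_of_free _ _
  refine ⟨Module.finrank (FractionRing (MvPolynomial (Fin n) ℂ)) (FractionRing B), ?_⟩
  intro u E hE hEu
  have hu : IsIntegral (MvPolynomial (Fin n) ℂ) u := ⟨E, hE, hEu⟩
  have hm := minpoly.monic hu
  obtain ⟨G, hG⟩ := minpoly.isIntegrallyClosed_dvd hu (p := E) hEu
  have h1 := minpoly.isIntegrallyClosed_eq_field_fractions
    (FractionRing (MvPolynomial (Fin n) ℂ)) (FractionRing B) hu
  refine ⟨minpoly (MvPolynomial (Fin n) ℂ) u, G, hm, hm.of_mul_monic_left (by rw [← hG]; exact hE),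
    hG, ?_, minpoly.aeval _ u, fun h0 hc => ?_⟩
  swap
  · have h3 : algebraMap B (FractionRing B) u ≠ 0 := by
      rw [map_ne_zero_iff _ (IsFractionRing.injective B (FractionRing B))]
      exact h0
    have h4 : IsIntegral (FractionRing (MvPolynomial (Fin n) ℂ)) (algebraMap B (FractionRing B) u) :=
      (hu.algebraMap (B := FractionRing B)).tower_top
    have h5 := minpoly.coeff_zero_ne_zero h4 h3
    rw [h1, Polynomial.coeff_map, hc, map_zero] at h5
    exact h5 rfl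
  have h2 : (minpoly (MvPolynomial (Fin n) ℂ) u).natDegree =
      (minpoly (FractionRing (MvPolynomial (Fin n) ℂ)) (algebraMap B (FractionRing B) u)).natDegree := by
    rw [h1, hm.natDegree_map]
  rw [h2]
  exact minpoly.natDegree_le _

/-- `GIY` implies the form `IntY`. -/
theorem intY_of_giy (V : ℕ → Submodule ℂ B) (hV0 : V 0 = 1)
    (hmul : ∀ m l a b, a ∈ V m → b ∈ V l → a * b ∈ V (m + l)) (k : ℕ)
    (Y : Fin (n + 1) → B) (h : GIY Y V k) : IntY V k Y := by
  intro m f hf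
  have hpow : ∀ j : ℕ, f ^ j ∈ V (m * j) := by
    intro j
    induction j with
    | zero => rw [pow_zero, mul_zero, hV0]; exact Submodule.one_le.mp le_rfl
    | succ j ih => rw [pow_succ, mul_add, mul_one]; exact hmul _ _ _ _ ih hf
  obtain ⟨r, hr, p, hp, hE⟩ := h m (f ^ k) (hpow k)
  exact ⟨r, hr, p, hp, hE⟩

/-- root bound -/
theorem root_bound (G T : ℝ) (hT : 0 < T) (r m : ℕ) (hr : 1 ≤ r) (c : ℕ → ℝ)
    (hc : ∀ i, 0 ≤ c i)
    (h : G ^ r ≤ ∑ i ∈ Finset.range r, c (r - i) * T ^ (m * (r - i)) * G ^ i) :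
    G ≤ (1 + ∑ i ∈ Finset.range r, c (r - i)) * T ^ m := by
  by_contra hlt
  push Not at hlt
  have hTm : 0 < T ^ m := pow_pos hT m
  have hS : 0 ≤ ∑ i ∈ Finset.range r, c (r - i) := Finset.sum_nonneg fun i _ => hc _
  obtain ⟨g, hg⟩ : ∃ g, g = G / T ^ m := ⟨_, rfl⟩
  have hGg : G = g * T ^ m := by rw [hg]; field_simp
  have hg1 : 1 + ∑ i ∈ Finset.range r, c (r - i) < g := by
    rw [hg, lt_div_iff₀ hTm]
    exact hlt
  have h1g : 1 ≤ g := by linarith
  have h2 : g ^ r ≤ ∑ i ∈ Finset.range r, c (r - i) * g ^ i := by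
    have h3 : g ^ r * T ^ (m * r) ≤ (∑ i ∈ Finset.range r, c (r - i) * g ^ i) * T ^ (m * r) := by
      calc g ^ r * T ^ (m * r) = G ^ r := by rw [hGg, mul_pow, ← pow_mul]
        _ ≤ _ := h
        _ = _ := by
          rw [Finset.sum_mul]
          refine Finset.sum_congr rfl fun i hi => ?_
          rw [Finset.mem_range] at hi
          rw [hGg, mul_pow, ← pow_mul]
          have h4 : m * r = m * (r - i) + m * i := by rw [← mul_add]; congr 1; omega
          rw [h4, pow_add]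
          ring
    exact le_of_mul_le_mul_right h3 (by positivity)
  have h5 : ∑ i ∈ Finset.range r, c (r - i) * g ^ i ≤
      ∑ i ∈ Finset.range r, c (r - i) * g ^ (r - 1) := by
    apply Finset.sum_le_sum
    intro i hi
    rw [Finset.mem_range] at hi
    exact mul_le_mul_of_nonneg_left (pow_le_pow_right₀ h1g (by omega)) (hc _)
  rw [← Finset.sum_mul] at h5
  have h6 : g ^ r = g * g ^ (r - 1) := by
    rw [← pow_succ']
    congr 1
    omega
  have h7 : 0 < g ^ (r - 1) := by positivity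
  have h8 : g ≤ ∑ i ∈ Finset.range r, c (r - i) := by
    apply le_of_mul_le_mul_right _ h7
    rw [← h6]
    exact h2.trans h5
  linarith

/-- a homogeneous polynomial of degree `d` is bounded by a multiple of the `d`-th power of the
norm -/
theorem hom_bound {d : ℕ} {p : MvPolynomial (Fin (n + 1)) ℂ} (hp : p.IsHomogeneous d) :
    ∃ c : ℝ, 0 ≤ c ∧ ∀ (v : Fin (n + 1) → ℂ) (T : ℝ), 0 ≤ T → (∀ j, ‖v j‖ ≤ T) →
      ‖MvPolynomial.aeval v p‖ ≤ c * T ^ d := by
  refine ⟨∑ s ∈ p.support, ‖p.coeff s‖, Finset.sum_nonneg fun _ _ => norm_nonneg _, ?_⟩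
  intro v T hT hv
  rw [MvPolynomial.aeval_def, MvPolynomial.eval₂_eq', Finset.sum_mul]
  refine (norm_sum_le _ _).trans (Finset.sum_le_sum fun s hs => ?_)
  rw [norm_mul]
  have h1 : ‖(algebraMap ℂ ℂ) (p.coeff s)‖ = ‖p.coeff s‖ := rfl
  rw [h1]
  apply mul_le_mul_of_nonneg_left _ (norm_nonneg _)
  rw [norm_prod]
  have hdeg : ∑ i, s i = d := by
    have h2 := hp (MvPolynomial.mem_support_iff.mp hs)
    rw [Finsupp.weight_apply] at h2
    rw [← h2, Finsupp.sum_fintype _ _ (by intro i; simp)]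
    simp
  calc ∏ i, ‖v i ^ s i‖ = ∏ i, ‖v i‖ ^ s i := by simp_rw [norm_pow]
    _ ≤ ∏ i, T ^ s i := by
      apply Finset.prod_le_prod
      · intro i _; positivity
      · intro i _; exact pow_le_pow_left₀ (norm_nonneg _) (hv i) _
    _ = T ^ d := by rw [Finset.prod_pow_eq_pow_sum, hdeg]

theorem fsbd (V : ℕ → Submodule ℂ B) (k : ℕ) (Y : Fin (n + 1) → B) (hY0 : IsUnit (Y 0))
    (h : IntY V k Y) :
    ∀ m, ∀ f ∈ V m, ∃ C : ℝ, ∀ y : B →ₐ[ℂ] ℂ, ‖y f‖ ^ (2 * k) ≤ C * (∑ j, ‖y (Y j)‖ ^ 2) ^ m := by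
  intro m f hf
  obtain ⟨r, hr, a, ha, hE⟩ := h m f hf
  choose c hc0 hc using fun i => hom_bound (ha i)
  refine ⟨(1 + ∑ i ∈ Finset.range r, c (r - i)) ^ 2, fun y => ?_⟩
  obtain ⟨T, hT⟩ : ∃ T, T = Real.sqrt (∑ j, ‖y (Y j)‖ ^ 2) := ⟨_, rfl⟩
  have hS0 : 0 ≤ ∑ j, ‖y (Y j)‖ ^ 2 := Finset.sum_nonneg fun _ _ => by positivity
  have hT2 : T ^ 2 = ∑ j, ‖y (Y j)‖ ^ 2 := by rw [hT, Real.sq_sqrt hS0]
  have hTj : ∀ j, ‖y (Y j)‖ ≤ T := by
    intro j
    rw [hT]
    apply Real.le_sqrt_of_sq_le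
    exact Finset.single_le_sum (f := fun j => ‖y (Y j)‖ ^ 2) (fun _ _ => by positivity)
      (Finset.mem_univ j)
  have hT0 : 0 < T := by
    have h1 : y (Y 0) ≠ 0 := (hY0.map y).ne_zero
    exact (norm_pos_iff.mpr h1).trans_le (hTj 0)
  have hG := root_bound (‖y f‖ ^ k) T hT0 r m hr c hc0 (by
    have h1 := congrArg (fun b => ‖y b‖) hE
    simp only [map_pow, map_sum, map_mul, norm_pow] at h1
    rw [h1]
    refine (norm_sum_le _ _).trans (Finset.sum_le_sum fun i hi => ?_)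
    rw [norm_mul, norm_pow, norm_pow]
    apply mul_le_mul_of_nonneg_right _ (by positivity)
    have h2 : y (MvPolynomial.aeval Y (a (r - i))) =
        MvPolynomial.aeval (fun j => y (Y j)) (a (r - i)) := by
      have h3 : (y.comp (MvPolynomial.aeval Y)) = MvPolynomial.aeval (fun j => y (Y j)) := by
        ext j
        simp
      rw [← h3]
      rfl
    rw [h2]
    exact hc (r - i) _ T hT0.le hTj)
  calc ‖y f‖ ^ (2 * k) = (‖y f‖ ^ k) ^ 2 := by rw [← pow_mul, mul_comm]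
    _ ≤ ((1 + ∑ i ∈ Finset.range r, c (r - i)) * T ^ m) ^ 2 :=
      pow_le_pow_left₀ (by positivity) hG 2
    _ = (1 + ∑ i ∈ Finset.range r, c (r - i)) ^ 2 * (∑ j, ‖y (Y j)‖ ^ 2) ^ m := by
      rw [mul_pow, ← hT2, ← pow_mul, ← pow_mul, mul_comm m 2]

/-- the target of helper728 -/
theorem ordFSProp : OrdFSProp := by
  intro n B _ _ _ V z k Y hn ft het hV0 hmul hfin hk hYV hY0 hY hGI
  have hint : IntY V k Y := intY_of_giy V hV0 hmul k Y hGI
  refine ⟨?_, fsbd V k Y hY0 hint⟩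
  by_cases hx : Nonempty (B →ₐ[ℂ] ℂ)
  · obtain ⟨x⟩ := hx
    obtain ⟨D, hD⟩ := degBd_etale z het x
    exact ⟨D, ordbd_aux z het V k hk Y hY0 hY hint D hD⟩
  · exact ⟨0, fun m f _ _ y => absurd ⟨y⟩ hx⟩

end Crest.Agent.R271.OrdFS54
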