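import Crest.Agent.R271.Et_960
import Crest.Agent.R271.Fr_960
import Crest.Agent.R271.Br6_958
import Crest.Agent.R271.KrullTrdeg_661

/-!
Row 271, bridge: finite type, smoothness and closed points of affine open sets (helper961).
-/

set_option autoImplicit false
set_option linter.unusedSectionVars false

open AlgebraicGeometry Crest.AlgGeometry.Divisors Order CategoryTheory TopologicalSpace

noncomputable section

namespace Crest.Agent.R271.PCtx961

open Crest.Agent.R271.Bs960

set_option warn.classDefReducibility false in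
attribute [local instance] fnFieldAlgebra

variable {X : Scheme.{0}} [Algebra ℂ Γ(X, ⊤)]

/-- `X` proper over `ℂ` is quasi-compact -/
theorem compactSpace (hX : IsProper (structureMorphism ℂ X)) : CompactSpace X := by
  have h1 : QuasiCompact (structureMorphism ℂ X) := inferInstance
  exact QuasiCompact.compactSpace_of_compactSpace (structureMorphism ℂ X)

/-- sections over affine open sets are finitely generated -/
theorem finiteType_sec (hX : IsProper (structureMorphism ℂ X)) {U : X.Opens}
    (hU : IsAffineOpen U) : letI := secAlg X U; Algebra.FiniteType ℂ Γ(X, U) := by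
  letI := secAlg X U
  have hft : LocallyOfFiniteType (structureMorphism ℂ X) := hX.toLocallyOfFiniteType
  have e : U ≤ (structureMorphism ℂ X) ⁻¹ᵁ ⊤ := le_top
  have h := Scheme.Hom.finiteType_appLE (structureMorphism ℂ X)
    (isAffineOpen_top (Spec (CommRingCat.of ℂ))) hU e
  have h3 := congrArg CommRingCat.Hom.hom (structure_appLE X U e)
  rw [CommRingCat.hom_comp, CommRingCat.hom_comp] at h3
  have h4 : (algebraMap ℂ Γ(X, U)) =
    ((structureMorphism ℂ X).appLE ⊤ U e).hom.comp
      (Scheme.ΓSpecIso (CommRingCat.of ℂ)).inv.hom := h3.symm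
  have h5 : (algebraMap ℂ Γ(X, U)).FiniteType := by
    rw [h4]
    refine RingHom.FiniteType.comp h (RingHom.FiniteType.of_surjective _ ?_)
    exact ((Scheme.ΓSpecIso (CommRingCat.of ℂ)).symm.commRingCatIsoToRingEquiv).surjective
  rwa [RingHom.finiteType_algebraMap] at h5

/-- standard smooth charts -/
theorem exists_stdSmooth_chart {n : ℕ} (hX : IsSmoothProperVariety ℂ X n) (x : X) :
    ∃ V : X.Opens, IsAffineOpen V ∧ x ∈ V ∧
      letI := secAlg X V
      (algebraMap ℂ Γ(X, V)).IsStandardSmoothOfRelativeDimension n := by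
  have hs := hX.2.2
  obtain ⟨U, hU, V, hV, hxV, e, h⟩ := hs.exists_isStandardSmoothOfRelativeDimension x
  have hUt : U = ⊤ := by
    have hsub : ∀ a b : Spec (CommRingCat.of ℂ), a = b := fun a b =>
      (inferInstance : Subsingleton (PrimeSpectrum ℂ)).elim a b
    ext a
    simp only [TopologicalSpace.Opens.coe_top, Set.mem_univ, iff_true]
    rw [hsub a ((structureMorphism ℂ X) x)]
    exact e hxV
  subst hUt
  refine ⟨V, hV, hxV, ?_⟩
  letI := secAlg X V
  have h3 := congrArg CommRingCat.Hom.hom (structure_appLE X V e)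
  rw [CommRingCat.hom_comp, CommRingCat.hom_comp] at h3
  have h4 : (algebraMap ℂ Γ(X, V)) =
    ((structureMorphism ℂ X).appLE ⊤ V e).hom.comp
      (Scheme.ΓSpecIso (CommRingCat.of ℂ)).inv.hom := h3.symm
  rw [h4]
  exact RingHom.isStandardSmoothOfRelativeDimension_respectsIso.right _
    ((Scheme.ΓSpecIso (CommRingCat.of ℂ)).symm.commRingCatIsoToRingEquiv) h

/-- restriction of sections is a map of `ℂ`-algebras -/
lemma sec_comp {U V : X.Opens} (h : U ≤ V) :
    (X.presheaf.map (homOfLE h).op).hom.comp (letI := secAlg X V; algebraMap ℂ Γ(X, V)) =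
      (letI := secAlg X U; algebraMap ℂ Γ(X, U)) := by
  change (X.presheaf.map (homOfLE h).op).hom.comp
    ((X.presheaf.map (homOfLE (le_top : V ≤ ⊤)).op).hom.comp (algebraMap ℂ Γ(X, ⊤))) =
    (X.presheaf.map (homOfLE (le_top : U ≤ ⊤)).op).hom.comp (algebraMap ℂ Γ(X, ⊤))
  rw [← RingHom.comp_assoc, ← CommRingCat.hom_comp, ← X.presheaf.map_comp]
  rfl

/-- smoothness of `Γ(X, U)` at a point of the affine open `U` -/
theorem smooth_at {n : ℕ} (hX : IsSmoothProperVariety ℂ X n) {U : X.Opens}
    (hU : IsAffineOpen U) (x : X) (hx : x ∈ U) :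
    letI := secAlg X U
    ∃ t : Γ(X, U), x ∈ X.basicOpen t ∧
      Algebra.IsStandardSmoothOfRelativeDimension n ℂ (Localization.Away t) := by
  letI := secAlg X U
  obtain ⟨V, hV, hxV, hsm⟩ := exists_stdSmooth_chart hX x
  obtain ⟨f, g, hfg, hxf⟩ := exists_basicOpen_le_affine_inter hU hV x ⟨hx, hxV⟩
  refine ⟨f, hxf, ?_⟩
  have hWU : X.basicOpen g ≤ U := by rw [← hfg]; exact X.basicOpen_le f
  have hWV : X.basicOpen g ≤ V := X.basicOpen_le g
  -- `Γ(X, D(g))` is standard smooth
  have h1 : (letI := secAlg X (X.basicOpen g); algebraMap ℂ Γ(X, X.basicOpen g)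
      ).IsStandardSmoothOfRelativeDimension n := by
    have hloc : @IsLocalization.Away _ _ g Γ(X, X.basicOpen g) _
        (X.presheaf.map (homOfLE hWV).op).hom.toAlgebra :=
      hV.isLocalization_of_eq_basicOpen g (homOfLE hWV) rfl
    letI : Algebra Γ(X, V) Γ(X, X.basicOpen g) :=
      (X.presheaf.map (homOfLE hWV).op).hom.toAlgebra
    have h2 : (algebraMap Γ(X, V) Γ(X, X.basicOpen g)).IsStandardSmoothOfRelativeDimension 0 :=
      RingHom.IsStandardSmoothOfRelativeDimension.algebraMap_isLocalizationAway g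
    have h3 := h2.comp hsm
    rw [zero_add] at h3
    have h4 : (algebraMap Γ(X, V) Γ(X, X.basicOpen g)) =
      (X.presheaf.map (homOfLE hWV).op).hom := rfl
    rw [h4, sec_comp hWV] at h3
    exact h3
  -- compare with `Localization.Away f`
  have hloc' : @IsLocalization.Away _ _ f Γ(X, X.basicOpen g) _
      (X.presheaf.map (homOfLE hWU).op).hom.toAlgebra :=
    hU.isLocalization_of_eq_basicOpen f (homOfLE hWU) hfg.symm
  letI : Algebra Γ(X, U) Γ(X, X.basicOpen g) :=
      (X.presheaf.map (homOfLE hWU).op).hom.toAlgebra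
  letI : Algebra ℂ Γ(X, X.basicOpen g) := secAlg X (X.basicOpen g)
  have htow : IsScalarTower ℂ Γ(X, U) Γ(X, X.basicOpen g) :=
    IsScalarTower.of_algebraMap_eq' (sec_comp hWU).symm
  let e : Γ(X, X.basicOpen g) ≃ₐ[Γ(X, U)] Localization.Away f :=
    (IsLocalization.algEquiv (Submonoid.powers f) (Localization.Away f)
      Γ(X, X.basicOpen g)).symm
  have h5 : Algebra.IsStandardSmoothOfRelativeDimension n ℂ Γ(X, X.basicOpen g) := h1
  exact Algebra.IsStandardSmoothOfRelativeDimension.of_algEquiv n (e.restrictScalars ℂ)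

/-- membership in a basic open set in terms of the prime ideal of the point -/
lemma mem_basicOpen_iff {U : X.Opens} (hU : IsAffineOpen U) (x : X) (hx : x ∈ U)
    (t : Γ(X, U)) : x ∈ X.basicOpen t ↔ t ∉ (hU.primeIdealOf ⟨x, hx⟩).asIdeal := by
  have h := hU.fromSpec_preimage_basicOpen t
  have h2 : hU.primeIdealOf ⟨x, hx⟩ ∈ hU.fromSpec ⁻¹ᵁ X.basicOpen t ↔
      x ∈ X.basicOpen t := by
    change hU.fromSpec (hU.primeIdealOf ⟨x, hx⟩) ∈ X.basicOpen t ↔ _
    rw [hU.fromSpec_primeIdealOf ⟨x, hx⟩]
  rw [← h2, h]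
  rfl

/-- closed points have maximal ideals -/
lemma isMaximal_of_isClosed {U : X.Opens} (hU : IsAffineOpen U) (x : X) (hx : x ∈ U)
    (hcl : IsClosed ({x} : Set X)) : (hU.primeIdealOf ⟨x, hx⟩).asIdeal.IsMaximal := by
  rw [← PrimeSpectrum.isClosed_singleton_iff_isMaximal]
  have h1 : ({hU.primeIdealOf ⟨x, hx⟩} : Set (Spec Γ(X, U))) = hU.fromSpec ⁻¹' {x} := by
    ext q
    simp only [Set.mem_singleton_iff, Set.mem_preimage]
    constructor
    · rintro rfl
      exact hU.fromSpec_primeIdealOf ⟨x, hx⟩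
    · intro hq
      apply hU.fromSpec.isOpenEmbedding.injective
      rw [hq]
      exact (hU.fromSpec_primeIdealOf ⟨x, hx⟩).symm
  have h2 : IsClosed ({hU.primeIdealOf ⟨x, hx⟩} : Set (Spec Γ(X, U))) := by
    rw [h1]
    exact hcl.preimage hU.fromSpec.continuous
  exact h2

end Crest.Agent.R271.PCtx961
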