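import Mathlib
import Crest.Prelude.Def_SmoothDivisors
import Crest.Agent.R271.UfdG_243

set_option autoImplicit false

/-!
# Row 271, part (B3), step 8: Weil divisors are locally principal
-/

open AlgebraicGeometry CategoryTheory Order TopologicalSpace
open Crest.AlgGeometry.Divisors

namespace Crest.Agent.R271.UFD243

open IsLocalRing WithZero

/-! ### algebra -/

section Alg

variable {R : Type*} [CommRing R] [IsDomain R] [UniqueFactorizationMonoid R]
  {S : Type*} [CommRing S] [IsDomain S] [IsDiscreteValuationRing S] [Algebra R S]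
  (Q : Ideal R) [Q.IsPrime] [IsLocalization.AtPrime S Q]

include S in
/-- A prime whose localization is a DVR is generated by a prime element. -/
theorem exists_prime_generator :
    ∃ π : R, Prime π ∧ Q = Ideal.span {π} ∧
      maximalIdeal S = Ideal.span {algebraMap R S π} := by
  have hM : Q.primeCompl ≤ nonZeroDivisors R := Q.primeCompl_le_nonZeroDivisors
  have hinj : Function.Injective (algebraMap R S) := IsLocalization.injective S hM
  have hcomap : (maximalIdeal S).comap (algebraMap R S) = Q :=
    IsLocalization.AtPrime.under_maximalIdeal S Q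
  have hQ : Q ≠ ⊥ := by
    rintro rfl
    have h1 : (maximalIdeal S) = ⊥ := by
      have h2 : ((maximalIdeal S).comap (algebraMap R S)).map (algebraMap R S) =
          maximalIdeal S := IsLocalization.map_under (⊥ : Ideal R).primeCompl S _
      rw [hcomap, Ideal.map_bot] at h2
      exact h2.symm
    exact IsDiscreteValuationRing.not_a_field S h1
  obtain ⟨p, hp, hpp⟩ := (inferInstance : Q.IsPrime).exists_mem_prime_of_ne_bot hQ
  have hsp : (Ideal.span {p}).IsPrime := (Ideal.span_singleton_prime hpp.ne_zero).2 hpp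
  have hle : Ideal.span {p} ≤ Q := by
    rw [Ideal.span_singleton_le_iff_mem]; exact hp
  have hdisj : Disjoint (Q.primeCompl : Set R) (Ideal.span {p} : Ideal R) := by
    rw [Set.disjoint_left]
    intro m hm hmp
    exact hm (hle hmp)
  have h4 := IsLocalization.isPrime_of_isPrime_disjoint Q.primeCompl S (Ideal.span {p}) hsp hdisj
  have h6 : (Ideal.span {p}).map (algebraMap R S) = Ideal.span {algebraMap R S p} := by
    rw [Ideal.map_span, Set.image_singleton]
  have h5 : Ideal.span {algebraMap R S p} ≠ ⊥ := by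
    rw [Ne, Ideal.span_singleton_eq_bot, map_eq_zero_iff _ hinj]
    exact hpp.ne_zero
  have h7 : (Ideal.span {algebraMap R S p}).IsMaximal := by
    rw [← h6] at h5 ⊢
    exact h4.isMaximal h5
  have h8 : maximalIdeal S = Ideal.span {algebraMap R S p} := (eq_maximalIdeal h7).symm
  refine ⟨p, hpp, ?_, h8⟩
  rw [← hcomap, h8, ← h6]
  exact IsLocalization.under_map_of_isPrime_disjoint Q.primeCompl S hsp hdisj

omit [IsDomain R] [UniqueFactorizationMonoid R]

variable {K : Type*} [Field K] [Algebra R K] [Algebra S K] [IsFractionRing S K]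
  [IsScalarTower R S K]

theorem ordFrac_generator (π : R) (hπ : maximalIdeal S = Ideal.span {algebraMap R S π}) :
    Ring.ordFrac S (algebraMap R K π) = Multiplicative.ofAdd (1 : ℤ) := by
  have hirr : Irreducible (algebraMap R S π) :=
    (IsDiscreteValuationRing.irreducible_iff_uniformizer _).2 hπ
  rw [IsScalarTower.algebraMap_apply R S K, Ring.ordFrac_eq_ord S hirr.ne_zero]
  have := Ring.ordMonoidWithZeroHom_eq_coe S (mem_nonZeroDivisors_of_ne_zero hirr.ne_zero)
    (n := 1) (by rw [Ring.ord_of_irreducible hirr]; rfl)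
  simpa using this

theorem ordFrac_of_notMem (π : R) (hπ : π ∉ Q) :
    Ring.ordFrac S (algebraMap R K π) = 1 := by
  have hu : IsUnit (algebraMap R S π) := IsLocalization.map_units S (⟨π, hπ⟩ : Q.primeCompl)
  rw [IsScalarTower.algebraMap_apply R S K]
  exact Ring.ordFrac_of_isUnit hu

end Alg

/-! ### stalks and specialisation -/

theorem isLocalization_stalkSpecializes {X : Scheme.{0}} {z x : X} (h : z ⤳ x) :
    @IsLocalization.AtPrime (X.presheaf.stalk x) _ (X.presheaf.stalk z) _
      (X.presheaf.stalkSpecializes h).hom.toAlgebra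
      ((maximalIdeal (X.presheaf.stalk z)).comap (X.presheaf.stalkSpecializes h).hom)
      (Ideal.IsPrime.comap _) := by
  obtain ⟨V, hV, hxV, -⟩ := TopologicalSpace.Opens.isBasis_iff_nbhd.mp X.isBasis_affineOpens
    (show x ∈ (⊤ : X.Opens) from trivial)
  have hzV : z ∈ V := h.mem_open V.isOpen hxV
  let _ : Algebra Γ(X, V) (X.presheaf.stalk x) :=
    TopCat.Presheaf.algebra_section_stalk X.presheaf (⟨x, hxV⟩ : V)
  let _ : Algebra Γ(X, V) (X.presheaf.stalk z) :=
    TopCat.Presheaf.algebra_section_stalk X.presheaf (⟨z, hzV⟩ : V)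
  have h1 := hV.isLocalization_stalk ⟨x, hxV⟩
  have h2 := hV.isLocalization_stalk ⟨z, hzV⟩
  set Px := (hV.primeIdealOf ⟨x, hxV⟩).asIdeal
  set Pz := (hV.primeIdealOf ⟨z, hzV⟩).asIdeal
  let _ : Algebra (X.presheaf.stalk x) (X.presheaf.stalk z) :=
    (X.presheaf.stalkSpecializes h).hom.toAlgebra
  have hst : IsScalarTower Γ(X, V) (X.presheaf.stalk x) (X.presheaf.stalk z) := by
    refine IsScalarTower.of_algebraMap_eq' ?_
    change (X.presheaf.germ V z hzV).hom =
      (X.presheaf.stalkSpecializes h).hom.comp (X.presheaf.germ V x hxV).hom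
    rw [← CommRingCat.hom_comp, TopCat.Presheaf.germ_stalkSpecializes]
  have hle : Px.primeCompl ≤ Pz.primeCompl := by
    intro a ha haz
    have hu : IsUnit (algebraMap Γ(X, V) (X.presheaf.stalk x) a) :=
      IsLocalization.map_units _ (⟨a, ha⟩ : Px.primeCompl)
    have hu2 : IsUnit (algebraMap Γ(X, V) (X.presheaf.stalk z) a) := by
      rw [IsScalarTower.algebraMap_apply Γ(X, V) (X.presheaf.stalk x) (X.presheaf.stalk z)]
      exact hu.map _
    exact (IsLocalization.AtPrime.isUnit_to_map_iff (X.presheaf.stalk z) Pz a).1 hu2 haz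
  have h3 := IsLocalization.isLocalization_of_submonoid_le (X.presheaf.stalk x)
    (X.presheaf.stalk z) Px.primeCompl Pz.primeCompl hle
  refine IsLocalization.of_le (Pz.primeCompl.map (algebraMap Γ(X, V) (X.presheaf.stalk x)))
    _ ?_ ?_
  · rintro _ ⟨a, ha, rfl⟩ hmem
    have hu : IsUnit (algebraMap Γ(X, V) (X.presheaf.stalk z) a) :=
      IsLocalization.map_units _ (⟨a, ha⟩ : Pz.primeCompl)
    rw [IsScalarTower.algebraMap_apply Γ(X, V) (X.presheaf.stalk x) (X.presheaf.stalk z)] at hu
    exact (mem_maximalIdeal _).1 (Ideal.mem_comap.1 hmem) hu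
  · intro r hr
    by_contra hcon
    exact hr (Ideal.mem_comap.2 ((mem_maximalIdeal _).2 hcon))

theorem isScalarTower_stalk {X : Scheme.{0}} [IrreducibleSpace X] {z x : X} (h : z ⤳ x) :
    @IsScalarTower (X.presheaf.stalk x) (X.presheaf.stalk z) X.functionField
      (X.presheaf.stalkSpecializes h).hom.toAlgebra.toSMul _ _ := by
  let _ : Algebra (X.presheaf.stalk x) (X.presheaf.stalk z) :=
    (X.presheaf.stalkSpecializes h).hom.toAlgebra
  refine IsScalarTower.of_algebraMap_eq' ?_
  change (X.presheaf.stalkSpecializes _).hom =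
    (X.presheaf.stalkSpecializes _).hom.comp (X.presheaf.stalkSpecializes h).hom
  rw [← CommRingCat.hom_comp, TopCat.Presheaf.stalkSpecializes_comp]

/-- A generisation of `x` is determined by its prime ideal in the local ring at `x`. -/
theorem eq_of_comap_eq {X : Scheme.{0}} {z z' x : X} (h : z ⤳ x) (h' : z' ⤳ x)
    (heq : (maximalIdeal (X.presheaf.stalk z)).comap (X.presheaf.stalkSpecializes h).hom =
      (maximalIdeal (X.presheaf.stalk z')).comap (X.presheaf.stalkSpecializes h').hom) :
    z = z' := by
  have key : ∀ {w : X} (hw : w ⤳ x), X.fromSpecStalk x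
      (Spec.map (X.presheaf.stalkSpecializes hw) (closedPoint (X.presheaf.stalk w))) = w := by
    intro w hw
    have h3 := Scheme.fromSpecStalk_closedPoint (X := X) (x := w)
    rw [← Scheme.SpecMap_stalkSpecializes_fromSpecStalk hw] at h3
    exact h3
  have h2 : Spec.map (X.presheaf.stalkSpecializes h) (closedPoint (X.presheaf.stalk z)) =
      Spec.map (X.presheaf.stalkSpecializes h') (closedPoint (X.presheaf.stalk z')) :=
    PrimeSpectrum.ext heq
  rw [← key h, h2, key h']

/-! ### the main statement -/

section Main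

variable (X : Scheme.{0}) [Algebra ℂ Γ(X, ⊤)] [IsIntegral X] [IsLocallyNoetherian X] {n : ℕ}
  (hX : IsSmoothProperVariety ℂ X n)

open Classical in
include hX in
/-- Local equations of prime divisors at a point of a smooth variety. -/
theorem exists_local_equations (x : X) :
    ∃ π : PrimeDivisor X → X.presheaf.stalk x,
      (∀ z : PrimeDivisor X, z.1 ⤳ x → Prime (π z)) ∧
      ∀ z z' : PrimeDivisor X, z.1 ⤳ x → z'.1 ⤳ x →
        Scheme.ordHom z'.1 z'.2 (algebraMap (X.presheaf.stalk x) X.functionField (π z)) =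
          if z = z' then ((Multiplicative.ofAdd (1 : ℤ) : Multiplicative ℤ) : ℤᵐ⁰) else 1 := by
  have hufd := stalk_ufd X hX x
  have hex : ∀ z : PrimeDivisor X, ∀ h : z.1 ⤳ x, ∃ π : X.presheaf.stalk x, Prime π ∧
      (maximalIdeal (X.presheaf.stalk z.1)).comap (X.presheaf.stalkSpecializes h).hom =
        Ideal.span {π} ∧
      maximalIdeal (X.presheaf.stalk z.1) =
        Ideal.span {(X.presheaf.stalkSpecializes h).hom π} := by
    intro z h
    have hdvr := dvr_stalk X hX z.1 z.2
    let _ : Algebra (X.presheaf.stalk x) (X.presheaf.stalk z.1) :=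
      (X.presheaf.stalkSpecializes h).hom.toAlgebra
    have hp : ((maximalIdeal (X.presheaf.stalk z.1)).comap
      (X.presheaf.stalkSpecializes h).hom).IsPrime := Ideal.IsPrime.comap _
    have hl := isLocalization_stalkSpecializes h
    exact exists_prime_generator (R := X.presheaf.stalk x) (S := X.presheaf.stalk z.1)
      ((maximalIdeal (X.presheaf.stalk z.1)).comap (X.presheaf.stalkSpecializes h).hom)
  choose! π hπ using hex
  refine ⟨π, fun z h => (hπ z h).1, ?_⟩
  intro z z' h h'
  have hdvr := dvr_stalk X hX z'.1 z'.2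
  let _ : Algebra (X.presheaf.stalk x) (X.presheaf.stalk z'.1) :=
    (X.presheaf.stalkSpecializes h').hom.toAlgebra
  have hp : ((maximalIdeal (X.presheaf.stalk z'.1)).comap
    (X.presheaf.stalkSpecializes h').hom).IsPrime := Ideal.IsPrime.comap _
  have hl := isLocalization_stalkSpecializes h'
  have hst := isScalarTower_stalk h'
  have hk : Ring.KrullDimLE 1 (X.presheaf.stalk z'.1) := krullDimLE_of_coheight_le z'.2.le
  by_cases hzz : z = z'
  · subst hzz
    rw [if_pos rfl]
    exact ordFrac_generator (R := X.presheaf.stalk x) (S := X.presheaf.stalk z.1)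
      (K := X.functionField) (π z) (hπ z h).2.2
  · rw [if_neg hzz]
    refine ordFrac_of_notMem (R := X.presheaf.stalk x) (S := X.presheaf.stalk z'.1)
      ((maximalIdeal (X.presheaf.stalk z'.1)).comap (X.presheaf.stalkSpecializes h').hom)
      (K := X.functionField) (π z) ?_
    intro hmem
    apply hzz
    apply Subtype.ext
    apply eq_of_comap_eq h h'
    rw [(hπ z h).2.1]
    rw [(hπ z' h').2.1] at hmem ⊢
    -- both generated by primes, one contained in the other
    have hd : π z' ∣ π z := Ideal.mem_span_singleton.1 hmem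
    have hass : Associated (π z') (π z) := (hπ z' h').1.associated_of_dvd (hπ z h).1 hd
    exact (Ideal.span_singleton_eq_span_singleton.2 hass).symm

include hX in
/-- Every Weil divisor on a smooth variety is principal near every point. -/
theorem weil_locally_principal (D : WeilDiv X) (x : X) :
    ∃ g : X.functionField, g ≠ 0 ∧ ∀ z : PrimeDivisor X, z.1 ⤳ x → Scheme.ord g z.1 = D z := by
  classical
  obtain ⟨π, hπp, hπ⟩ := exists_local_equations X hX x
  set S := D.support.filter (fun z => z.1 ⤳ x) with hS
  have hinj : Function.Injective (algebraMap (X.presheaf.stalk x) X.functionField) :=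
    IsFractionRing.injective _ _
  set P : PrimeDivisor X → X.functionField := fun z => algebraMap _ X.functionField (π z) with hP
  have hPne : ∀ z ∈ S, P z ≠ 0 := by
    intro z hz
    rw [hP]
    exact (map_ne_zero_iff _ hinj).2 (hπp z (Finset.mem_filter.1 hz).2).ne_zero
  set g := ∏ z ∈ S, P z ^ (D z) with hg
  have hg0 : g ≠ 0 := by
    rw [hg, Finset.prod_ne_zero_iff]
    intro z hz
    exact zpow_ne_zero _ (hPne z hz)
  refine ⟨g, hg0, ?_⟩
  intro z' hz'
  rw [Scheme.ord_eq_iff z'.2 hg0, hg, map_prod]
  have h1 : ∀ z ∈ S, Scheme.ordHom z'.1 z'.2 (P z ^ (D z)) =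
      if z = z' then ((Multiplicative.ofAdd (D z' : ℤ) : Multiplicative ℤ) : ℤᵐ⁰) else 1 := by
    intro z hz
    rw [map_zpow₀, hP]
    simp only
    rw [hπ z z' (Finset.mem_filter.1 hz).2 hz']
    by_cases h : z = z'
    · subst h
      rw [if_pos rfl, if_pos rfl, ← WithZero.coe_zpow, ← ofAdd_zsmul]
      simp
    · rw [if_neg h, if_neg h, one_zpow]
  rw [Finset.prod_congr rfl h1, Finset.prod_ite_eq']
  by_cases h : z' ∈ S
  · rw [if_pos h]
  · rw [if_neg h]
    have : D z' = 0 := by
      by_contra h0
      exact h (Finset.mem_filter.2 ⟨Finsupp.mem_support_iff.2 h0, hz'⟩)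
    rw [this]
    rfl

end Main

end Crest.Agent.R271.UFD243
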