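import Crest.Agent.R271.PCtx1_961
import Crest.Agent.R271.UfdH_243
import Crest.Agent.R271.Ctx0_728

/-!
Row 271, bridge: the ring `Γ(X, U) ⊆ K`, its `ℂ`-points and smoothness (helper961).
-/

set_option autoImplicit false
set_option linter.unusedSectionVars false
set_option linter.style.haveILetI false

open AlgebraicGeometry Crest.AlgGeometry.Divisors Order CategoryTheory TopologicalSpace

noncomputable section

namespace Crest.Agent.R271.PCtx961

open Crest.Agent.R271.Bs960 Crest.Agent.R271.Br958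

set_option warn.classDefReducibility false in
attribute [local instance] fnFieldAlgebra

variable {X : Scheme.{0}} [Algebra ℂ Γ(X, ⊤)] [IsIntegral X]

/-- smooth varieties are normal -/
theorem normalSch [IsLocallyNoetherian X] {n : ℕ} (hX : IsSmoothProperVariety ℂ X n) :
    NormalSch X :=
  ⟨fun x => by
    have := UFD243.stalk_ufd X hX x
    infer_instance⟩

/-- `Γ(X, U) → K` -/
def secHom (U : X.Opens) [Nonempty U] : letI := secAlg X U; Γ(X, U) →ₐ[ℂ] X.functionField :=
  letI := secAlg X U
  letI := tower_sec_fn X U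
  IsScalarTower.toAlgHom ℂ Γ(X, U) X.functionField

lemma secHom_apply (U : X.Opens) [Nonempty U] (a : Γ(X, U)) :
    (letI := secAlg X U; secHom U a) = algebraMap Γ(X, U) X.functionField a := rfl

lemma secHom_injective (U : X.Opens) [Nonempty U] :
    Function.Injective (letI := secAlg X U; (secHom U : Γ(X, U) → X.functionField)) :=
  Scheme.germToFunctionField_injective X U

/-- the ring `Γ(X, U)` as a subring of the function field -/
def secSub (U : X.Opens) [Nonempty U] : Subalgebra ℂ X.functionField :=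
  letI := secAlg X U
  (secHom U).range

lemma mem_secSub (U : X.Opens) [Nonempty U] (u : X.functionField) :
    u ∈ secSub U ↔ ∃ a : Γ(X, U), algebraMap Γ(X, U) X.functionField a = u := Iff.rfl

/-- `Γ(X, U) ≃ secSub U` -/
def secEquiv (U : X.Opens) [Nonempty U] : letI := secAlg X U; Γ(X, U) ≃ₐ[ℂ] secSub U :=
  letI := secAlg X U
  AlgEquiv.ofInjective (secHom U) (secHom_injective U)

lemma secEquiv_coe (U : X.Opens) [Nonempty U] (a : Γ(X, U)) :
    ((letI := secAlg X U; secEquiv U a : secSub U) : X.functionField) =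
      algebraMap Γ(X, U) X.functionField a := rfl

theorem secSub_finiteType (hX : IsProper (structureMorphism ℂ X)) {U : X.Opens} [Nonempty U]
    (hU : IsAffineOpen U) : Algebra.FiniteType ℂ (secSub U) := by
  letI := secAlg X U
  have := finiteType_sec hX hU
  exact Algebra.FiniteType.equiv this (secEquiv U)

theorem secSub_frac {U : X.Opens} [Nonempty U] (hU : IsAffineOpen U) (u : X.functionField) :
    ∃ a b : secSub U, (b : X.functionField) ≠ 0 ∧ u * b = a := by
  have := functionField_isFractionRing_of_isAffineOpen X U hU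
  obtain ⟨a, b, hb, h⟩ := IsFractionRing.div_surjective (A := Γ(X, U)) u
  have hb' : algebraMap Γ(X, U) X.functionField b ≠ 0 := by
    have := nonZeroDivisors.ne_zero hb
    simpa using this
  refine ⟨⟨_, a, rfl⟩, ⟨_, b, rfl⟩, hb', ?_⟩
  change u * algebraMap Γ(X, U) X.functionField b = algebraMap Γ(X, U) X.functionField a
  rw [← h]
  field_simp

/-- evaluation at a closed point of an affine open set -/
theorem exists_eval (hX : IsProper (structureMorphism ℂ X)) {U : X.Opens} [Nonempty U]
    (hU : IsAffineOpen U) (x : X) (hx : x ∈ U) (hcl : IsClosed ({x} : Set X)) :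
    ∃ y : secSub U →ₐ[ℂ] ℂ, ∀ a : Γ(X, U),
      y ⟨algebraMap Γ(X, U) X.functionField a, a, rfl⟩ = 0 ↔ x ∉ X.basicOpen a := by
  letI := secAlg X U
  have := finiteType_sec hX hU
  have hm := isMaximal_of_isClosed hU x hx hcl
  obtain ⟨ev, hev⟩ := KT661.exists_point_of_isMaximal (hU.primeIdealOf ⟨x, hx⟩).asIdeal
  refine ⟨ev.comp (secEquiv U).symm.toAlgHom, fun a => ?_⟩
  have h1 : (secEquiv U).symm ⟨algebraMap Γ(X, U) X.functionField a, a, rfl⟩ = a := by
    rw [AlgEquiv.symm_apply_eq]
    rfl
  have h2 : (ev.comp (secEquiv U).symm.toAlgHom) ⟨algebraMap Γ(X, U) X.functionField a, a, rfl⟩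
      = ev a := by
    rw [AlgHom.comp_apply]
    exact congrArg ev h1
  rw [h2, mem_basicOpen_iff hU x hx a, not_not]
  have h3 : a ∈ RingHom.ker (ev : Γ(X, U) →+* ℂ) ↔ a ∈ (hU.primeIdealOf ⟨x, hx⟩).asIdeal := by
    rw [hev]
  rw [← h3, RingHom.mem_ker]
  rfl

/-- every `ℂ`-point of `Γ(X, U)` is the evaluation at a point of `U` (closed in `U`) -/
theorem exists_point [IsLocallyNoetherian X] {U : X.Opens} [Nonempty U] (hU : IsAffineOpen U) (y : secSub U →ₐ[ℂ] ℂ) :
    ∃ x : X, x ∈ U ∧ ∀ a : Γ(X, U),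
      y ⟨algebraMap Γ(X, U) X.functionField a, a, rfl⟩ = 0 ↔ x ∉ X.basicOpen a := by
  letI := secAlg X U
  let ev : Γ(X, U) →ₐ[ℂ] ℂ := y.comp (secEquiv U).toAlgHom
  have hp : (RingHom.ker (ev : Γ(X, U) →+* ℂ)).IsPrime := RingHom.ker_isPrime _
  let p : PrimeSpectrum Γ(X, U) := ⟨RingHom.ker (ev : Γ(X, U) →+* ℂ), hp⟩
  have hxU := fromSpec_mem hU p
  refine ⟨hU.fromSpec p, hxU, fun a => ?_⟩
  have h1 : hU.fromSpec p ∈ X.basicOpen a ↔ a ∉ p.asIdeal := by
    have h := hU.fromSpec_preimage_basicOpen a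
    have h2 : p ∈ hU.fromSpec ⁻¹ᵁ X.basicOpen a ↔ hU.fromSpec p ∈ X.basicOpen a := Iff.rfl
    rw [← h2, h]
    rfl
  rw [h1, not_not]
  exact Iff.rfl

/-- smoothness at a closed point, in terms of `secSub` -/
theorem secSub_smooth {n : ℕ} (hX : IsSmoothProperVariety ℂ X n) {U : X.Opens} [Nonempty U]
    (hU : IsAffineOpen U) (x : X) (hx : x ∈ U) (y : secSub U →ₐ[ℂ] ℂ)
    (hy : ∀ a : Γ(X, U), y ⟨algebraMap Γ(X, U) X.functionField a, a, rfl⟩ = 0 ↔
      x ∉ X.basicOpen a) :
    ∃ t : secSub U, y t ≠ 0 ∧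
      Algebra.IsStandardSmoothOfRelativeDimension n ℂ (Localization.Away t) := by
  letI := secAlg X U
  obtain ⟨t, hxt, hsm⟩ := smooth_at hX hU x hx
  refine ⟨secEquiv U t, fun h0 => ?_, ?_⟩
  · exact ((hy t).mp h0) hxt
  · let E : Γ(X, U) ≃ₐ[ℂ] secSub U := secEquiv U
    let e1 : Localization.Away t ≃+* Localization.Away (E t) :=
      IsLocalization.ringEquivOfRingEquiv (M := Submonoid.powers t)
        (T := Submonoid.powers (E t)) _ _ (E : Γ(X, U) ≃+* secSub U) (by
          rw [Submonoid.map_powers]; rfl)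
    let e : Localization.Away t ≃ₐ[ℂ] Localization.Away (E t) :=
      AlgEquiv.ofRingEquiv (f := e1) (by
        intro c
        rw [IsScalarTower.algebraMap_apply ℂ Γ(X, U) (Localization.Away t)]
        change e1 _ = _
        rw [IsLocalization.ringEquivOfRingEquiv_eq]
        rw [IsScalarTower.algebraMap_apply ℂ (secSub U) (Localization.Away (E t))]
        congr 1
        exact E.commutes c)
    exact Algebra.IsStandardSmoothOfRelativeDimension.of_algEquiv n e

/-- a section which does not vanish at `x` has order `0` along all prime divisors through `x` -/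
theorem ord_eq_zero [IsLocallyNoetherian X] {U : X.Opens} [Nonempty U] (a : Γ(X, U)) (x : X)
    (hx : x ∈ X.basicOpen a) (z : X) (hz : z ⤳ x) :
    Scheme.ord (algebraMap Γ(X, U) X.functionField a) z = 0 := by
  have hzW : z ∈ X.basicOpen a := hz.mem_open (X.basicOpen a).isOpen hx
  have hne : Nonempty (X.basicOpen a) := ⟨⟨z, hzW⟩⟩
  have hu : IsUnit (X.presheaf.map (X.basicOpen_le a).hom.op a) :=
    X.toRingedSpace.isUnit_res_basicOpen a
  have h := Scheme.ord_of_isUnit hu hzW
  have h2 : X.germToFunctionField (X.basicOpen a) (X.presheaf.map (X.basicOpen_le a).hom.op a) =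
      algebraMap Γ(X, U) X.functionField a := by
    rw [TopCat.Presheaf.germ_res_apply]
    rfl
  rwa [h2] at h

end Crest.Agent.R271.PCtx961
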