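import Crest.Agent.R271.PCtx2_961
import Crest.Agent.R271.Br9_958
import Crest.Agent.R271.Bridge0_713

/-!
Row 271, bridge: the projective context `PCtx` of a closed point of a smooth projective variety
(helper961).
-/

set_option autoImplicit false
set_option linter.unusedSectionVars false
set_option linter.style.haveILetI false

open AlgebraicGeometry Crest.AlgGeometry.Divisors Order CategoryTheory TopologicalSpace
open Crest.Agent.R271.Ctx728

noncomputable section

namespace Crest.Agent.R271.PCtx961

open Crest.Agent.R271.Br958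

set_option warn.classDefReducibility false in
attribute [local instance] fnFieldAlgebra

lemma secSub_eq {X : Scheme.{0}} [Algebra ℂ Γ(X, ⊤)] [IsIntegral X] [IsLocallyNoetherian X]
    (U : X.Opens) [Nonempty U] : secSub U = Br958.secAlg U := by
  ext u
  exact Iff.rfl

/-- finite dimensionality of the spaces of sections (helper985) -/
def FinStmt : Prop :=
  ∀ (X : Scheme.{0}) [Algebra ℂ Γ(X, ⊤)] [IsIntegral X] [IsLocallyNoetherian X] [CompactSpace X]
    [NormalSch X] (_hX : IsProper (structureMorphism ℂ X)) (L : WeilDiv X) (_hL : IsAmple L)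
    (m : ℕ), FiniteDimensional ℂ (H0 (m • L))

/-- The bridge `X ↦ PCtx`, from finite dimensionality. -/
theorem pctxProp_of (hfin : FinStmt) : Bridge713.PctxProp := by
  intro X _ _ _ n hn hX L hL x hcl
  have hpr := hX.2.1
  have hcomp : CompactSpace X := compactSpace hpr
  have hnor : NormalSch X := normalSch hX
  have hLP : LP X := fun x D => UFD243.weil_locally_principal X hX D x
  obtain ⟨q, hq, s, hs, U, hU, hxU, hUeq⟩ := hL x
  have hne : Nonempty U := ⟨⟨x, hxU⟩⟩
  obtain ⟨y, hy⟩ := exists_eval hpr hU x hxU hcl
  have hsmooth := secSub_smooth hX hU x hxU y hy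
  have hft := secSub_finiteType hpr hU
  rw [secSub_eq] at hft
  obtain ⟨k₁, hk₁⟩ := bpf_prime hLP hL hq hs hU hUeq
  obtain ⟨k₂, hk₂⟩ := bpf_all hLP hL
  have key : ∀ (A : Subalgebra ℂ X.functionField) (hA : secSub U = A),
      ∃ y' : A →ₐ[ℂ] ℂ, (∀ a : Γ(X, U),
        y' ⟨algebraMap Γ(X, U) X.functionField a, hA ▸ ⟨a, rfl⟩⟩ = 0 ↔ x ∉ X.basicOpen a) ∧
      ∃ t : A, y' t ≠ 0 ∧
        Algebra.IsStandardSmoothOfRelativeDimension n ℂ (Localization.Away t) := by
    rintro A rfl
    exact ⟨y, hy, hsmooth⟩
  obtain ⟨y', hy', hsm'⟩ := key _ (secSub_eq U)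
  let P : PCtx n :=
    { K := X.functionField
      fld := inferInstance
      alg := fnFieldAlgebra ℂ X
      R := fun m => H0 (m • L)
      R_zero := by
        rw [zero_smul]
        exact H0_zero hpr
      R_mul := by
        intro m l a b ha hb
        rw [add_smul]
        exact mul_mem_H0 ha hb
      R_fin := fun m => hfin X hpr L hL m
      q := q
      q_pos := hq
      s := s
      s_mem := Or.inr hs
      s_ne := hs.1
      A := Br958.secAlg U
      mem_A := by
        intro a
        rw [mem_secAlg_iff hs hU hUeq]
        constructor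
        · rintro ⟨j, hj⟩
          refine ⟨j, ?_⟩
          rwa [smul_smul, mul_comm] at hj
        · rintro ⟨j, hj⟩
          refine ⟨j, ?_⟩
          rwa [smul_smul, mul_comm]
      A_ft := hft
      frac := secAlg_frac hU
      x := y'
      smooth := hsm'
      k₀ := max k₁ k₂
      bpf := fun m hm P hP => hk₁ m (le_trans (le_max_left _ _) hm) P hP
      int := by
        intro k hk m f hf
        rw [mul_smul] at hf
        refine graded_integral hpr (k • L) (H0 (k • L)) ?_ m f hf
        intro z
        obtain ⟨g, hg, hgz⟩ := hk₂ k (le_trans (le_max_right _ _) hk) z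
        exact ⟨g, Or.inr hg, hg.1, hgz⟩ }
  refine ⟨P, ⟨{ φ := AlgEquiv.refl
                mem_R := ?_
                U := U
                hU := hU
                hx := hxU
                mem_A := ?_
                s_nv := ?_
                x_iff := ?_ }⟩⟩
  · intro m f hf hf0
    exact isSection_of_mem hf hf0
  · intro f
    constructor
    · rintro ⟨a, ha⟩
      exact ⟨a, ha.symm⟩
    · rintro ⟨a, ha⟩
      exact ⟨a, ha.symm⟩
  · have : x ∈ (U : Set X) := hxU
    rw [hUeq] at this
    exact this
  · intro a b hab ha
    by_contra hcon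
    apply ha
    have h1 : x ∉ X.basicOpen b := by
      rw [Scheme.mem_basicOpen X b x hxU]
      exact hcon
    have h2 := (hy' b).mpr h1
    have h3 : a = ⟨algebraMap Γ(X, U) X.functionField b, b, rfl⟩ := Subtype.ext hab
    rw [h3]
    exact h2

end Crest.Agent.R271.PCtx961
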