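import Mathlib

/-!
Row 271 (S0413), local theory: Levi calculus used in the Sum Theorem (Blueprint_710, 2.3).
Everything on `Fin N → ℂ`.
-/

open MeasureTheory Set Filter Topology
open scoped ContDiff

noncomputable section

namespace Crest.Agent.R271.Sum186

abbrev CN (N : ℕ) := Fin N → ℂ

/-- Levi form of a real function: `levi φ z w = ∑ φ_{j k̄} w_j w̄_k`
= quarter of the sum of the second derivatives in the directions `w` and `i w`. -/
def levi {N : ℕ} (φ : CN N → ℝ) (z w : CN N) : ℝ :=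
  (fderiv ℝ (fderiv ℝ φ) z w w +
    fderiv ℝ (fderiv ℝ φ) z (Complex.I • w) (Complex.I • w)) / 4

/-- the `(0,1)` part of the differential: `dbar G z w = ∑ (∂G/∂z̄_j) w̄_j`. -/
def dbar {N : ℕ} (G : CN N → ℂ) (z w : CN N) : ℂ :=
  (fderiv ℝ G z w + Complex.I * fderiv ℝ G z (Complex.I • w)) / 2

/-- squared size of the gradient of a real function on the complex line spanned by `w`:
`grad2 φ z w = |∂φ(w)|²`. -/
def grad2 {N : ℕ} (φ : CN N → ℝ) (z w : CN N) : ℝ :=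
  ((fderiv ℝ φ z w) ^ 2 + (fderiv ℝ φ z (Complex.I • w)) ^ 2) / 4

variable {N : ℕ}

lemma grad2_nonneg (φ : CN N → ℝ) (z w : CN N) : 0 ≤ grad2 φ z w := by
  unfold grad2; positivity

/-! ### derivatives of second order -/

lemma fd_diff {φ : CN N → ℝ} {z : CN N} (h : ContDiffAt ℝ 2 φ z) :
    DifferentiableAt ℝ (fderiv ℝ φ) z :=
  (h.fderiv_right (m := 1) (by norm_num)).differentiableAt (by norm_num)

lemma fd_ev {φ : CN N → ℝ} {z : CN N} (h : ContDiffAt ℝ 2 φ z) :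
    ∀ᶠ y in 𝓝 z, ContDiffAt ℝ 2 φ y :=
  h.eventually (by simp)

lemma levi_congr {φ ψ : CN N → ℝ} {z : CN N} (h : φ =ᶠ[𝓝 z] ψ) (w : CN N) :
    levi φ z w = levi ψ z w := by
  have h2 : fderiv ℝ φ =ᶠ[𝓝 z] fderiv ℝ ψ := h.fderiv
  unfold levi
  rw [h2.fderiv_eq]

lemma grad2_congr {φ ψ : CN N → ℝ} {z : CN N} (h : φ =ᶠ[𝓝 z] ψ) (w : CN N) :
    grad2 φ z w = grad2 ψ z w := by
  unfold grad2
  rw [h.fderiv_eq]

lemma dbar_congr {G H : CN N → ℂ} {z : CN N} (h : G =ᶠ[𝓝 z] H) (w : CN N) :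
    dbar G z w = dbar H z w := by
  unfold dbar
  rw [h.fderiv_eq]

lemma levi_add {φ ψ : CN N → ℝ} {z : CN N} (hφ : ContDiffAt ℝ 2 φ z) (hψ : ContDiffAt ℝ 2 ψ z)
    (w : CN N) : levi (fun y => φ y + ψ y) z w = levi φ z w + levi ψ z w := by
  have h1 : fderiv ℝ (fun y => φ y + ψ y) =ᶠ[𝓝 z] fun y => fderiv ℝ φ y + fderiv ℝ ψ y := by
    filter_upwards [fd_ev hφ, fd_ev hψ] with y h1 h2
    exact fderiv_fun_add (h1.differentiableAt (by norm_num)) (h2.differentiableAt (by norm_num))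
  have h2 : fderiv ℝ (fderiv ℝ (fun y => φ y + ψ y)) z =
      fderiv ℝ (fderiv ℝ φ) z + fderiv ℝ (fderiv ℝ ψ) z := by
    rw [h1.fderiv_eq, fderiv_fun_add (fd_diff hφ) (fd_diff hψ)]
  unfold levi
  rw [h2]
  simp only [add_apply]
  ring

lemma levi_const_mul {φ : CN N → ℝ} {z : CN N} (c : ℝ) (hφ : ContDiffAt ℝ 2 φ z) (w : CN N) :
    levi (fun y => c * φ y) z w = c * levi φ z w := by
  have h1 : fderiv ℝ (fun y => c * φ y) =ᶠ[𝓝 z] fun y => c • fderiv ℝ φ y := by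
    filter_upwards [fd_ev hφ] with y h1
    exact fderiv_const_mul (h1.differentiableAt (by norm_num)) c
  have h2 : fderiv ℝ (fderiv ℝ (fun y => c * φ y)) z = c • fderiv ℝ (fderiv ℝ φ) z := by
    rw [h1.fderiv_eq, fderiv_fun_const_smul (fd_diff hφ)]
  unfold levi
  rw [h2]
  simp only [smul_apply, smul_eq_mul]
  ring

lemma levi_const (c : ℝ) (z w : CN N) : levi (fun _ => c) z w = 0 := by
  have h1 : fderiv ℝ (fun _ : CN N => c) = fun _ => 0 := by
    funext y; exact fderiv_const_apply c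
  unfold levi
  rw [h1]
  simp

/-- second derivative of `F ∘ S` in the diagonal direction, packaged:
if `fderiv (F∘S) = g • fderiv S` near `z` and `g` has derivative `γ • fderiv S z`. -/
lemma fd2_of {φ S g : CN N → ℝ} {z : CN N} {γ : ℝ} (hS : ContDiffAt ℝ 2 S z)
    (h1 : ∀ᶠ y in 𝓝 z, fderiv ℝ φ y = g y • fderiv ℝ S y)
    (hg : HasFDerivAt g (γ • fderiv ℝ S z) z) (v : CN N) :
    fderiv ℝ (fderiv ℝ φ) z v v = γ * (fderiv ℝ S z v) ^ 2 +
      g z * fderiv ℝ (fderiv ℝ S) z v v := by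
  have h2 : fderiv ℝ φ =ᶠ[𝓝 z] fun y => g y • fderiv ℝ S y := h1
  have h3 : fderiv ℝ (fun y => g y • fderiv ℝ S y) z = _ :=
    (hg.smul (fd_diff hS).hasFDerivAt).fderiv
  rw [h2.fderiv_eq, h3]
  simp only [add_apply, smul_apply,
    ContinuousLinearMap.smulRight_apply, smul_eq_mul]
  ring

lemma levi_of {φ S g : CN N → ℝ} {z : CN N} {γ : ℝ} (hS : ContDiffAt ℝ 2 S z)
    (h1 : ∀ᶠ y in 𝓝 z, fderiv ℝ φ y = g y • fderiv ℝ S y)
    (hg : HasFDerivAt g (γ • fderiv ℝ S z) z) (w : CN N) :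
    levi φ z w = g z * levi S z w + γ * grad2 S z w := by
  unfold levi grad2
  rw [fd2_of hS h1 hg w, fd2_of hS h1 hg (Complex.I • w)]
  ring

lemma levi_exp {φ : CN N → ℝ} {z : CN N} (hφ : ContDiffAt ℝ 2 φ z) (w : CN N) :
    levi (fun y => Real.exp (φ y)) z w = Real.exp (φ z) * (levi φ z w + grad2 φ z w) := by
  have h1 : ∀ᶠ y in 𝓝 z, fderiv ℝ (fun y => Real.exp (φ y)) y = Real.exp (φ y) • fderiv ℝ φ y := by
    filter_upwards [fd_ev hφ] with y h1
    exact (h1.differentiableAt (by norm_num)).hasFDerivAt.exp.fderiv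
  rw [levi_of hφ h1 (hφ.differentiableAt (by norm_num)).hasFDerivAt.exp w]
  ring

lemma levi_log {S : CN N → ℝ} {z : CN N} (hS : ContDiffAt ℝ 2 S z) (hz : 0 < S z) (w : CN N) :
    levi (fun y => Real.log (S y)) z w = levi S z w / S z - grad2 S z w / (S z) ^ 2 := by
  have hc : ContinuousAt S z := hS.continuousAt
  have hpos : ∀ᶠ y in 𝓝 z, 0 < S y := hc.eventually (lt_mem_nhds hz)
  have h1 : ∀ᶠ y in 𝓝 z, fderiv ℝ (fun y => Real.log (S y)) y = (S y)⁻¹ • fderiv ℝ S y := by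
    filter_upwards [fd_ev hS, hpos] with y h1 h2
    exact ((h1.differentiableAt (by norm_num)).hasFDerivAt.log h2.ne').fderiv
  have h2 : HasFDerivAt (fun y => (S y)⁻¹) ((-((S z) ^ 2)⁻¹) • fderiv ℝ S z) z := by
    have := (hasDerivAt_inv hz.ne').comp_hasFDerivAt z
      (hS.differentiableAt (by norm_num)).hasFDerivAt
    exact this
  rw [levi_of hS h1 h2 w]
  field_simp
  ring

lemma levi_sq {S : CN N → ℝ} {z : CN N} (hS : ContDiffAt ℝ 2 S z) (w : CN N) :
    levi (fun y => S y ^ 2) z w = 2 * S z * levi S z w + 2 * grad2 S z w := by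
  have h1 : ∀ᶠ y in 𝓝 z, fderiv ℝ (fun y => S y ^ 2) y = (2 * S y) • fderiv ℝ S y := by
    filter_upwards [fd_ev hS] with y h1
    have := ((h1.differentiableAt (by norm_num)).hasFDerivAt.pow 2).fderiv
    rw [this]; simp
  have h2 : HasFDerivAt (fun y => 2 * S y) ((2 : ℝ) • fderiv ℝ S z) z :=
    (hS.differentiableAt (by norm_num)).hasFDerivAt.const_mul 2
  rw [levi_of hS h1 h2 w]

/-- the Levi form of `log (e^a + e^b)`. -/
lemma levi_logaddexp {a b : CN N → ℝ} {z : CN N} (ha : ContDiffAt ℝ 2 a z)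
    (hb : ContDiffAt ℝ 2 b z) (w : CN N) :
    levi (fun y => Real.log (Real.exp (a y) + Real.exp (b y))) z w =
      Real.exp (a z) / (Real.exp (a z) + Real.exp (b z)) * levi a z w +
      Real.exp (b z) / (Real.exp (a z) + Real.exp (b z)) * levi b z w +
      Real.exp (a z) / (Real.exp (a z) + Real.exp (b z)) *
        (Real.exp (b z) / (Real.exp (a z) + Real.exp (b z))) *
          grad2 (fun y => a y - b y) z w := by
  have hea : ContDiffAt ℝ 2 (fun y => Real.exp (a y)) z := ha.exp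
  have heb : ContDiffAt ℝ 2 (fun y => Real.exp (b y)) z := hb.exp
  have hpos : 0 < Real.exp (a z) + Real.exp (b z) := by positivity
  rw [levi_log (hea.add heb) hpos w, levi_add hea heb w, levi_exp ha w, levi_exp hb w]
  have hda := (ha.differentiableAt (by norm_num : (2 : WithTop ℕ∞) ≠ 0)).hasFDerivAt
  have hdb := (hb.differentiableAt (by norm_num : (2 : WithTop ℕ∞) ≠ 0)).hasFDerivAt
  have hd : fderiv ℝ (fun y => Real.exp (a y) + Real.exp (b y)) z =
      Real.exp (a z) • fderiv ℝ a z + Real.exp (b z) • fderiv ℝ b z :=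
    (hda.exp.add hdb.exp).fderiv
  have hs : fderiv ℝ (fun y => a y - b y) z = fderiv ℝ a z - fderiv ℝ b z :=
    (hda.sub hdb).fderiv
  unfold grad2
  rw [hd, hs]
  simp only [add_apply, smul_apply, smul_eq_mul,
    sub_apply]
  field_simp
  ring

/-- `dbar` of a real function `χ ∘ u`. -/
lemma dbar_comp {u : CN N → ℝ} {χ : ℝ → ℝ} {z : CN N} (hu : ContDiffAt ℝ 2 u z)
    (hχ : DifferentiableAt ℝ χ (u z)) (w : CN N) :
    ‖dbar (fun y => ((χ (u y) : ℝ) : ℂ)) z w‖ ^ 2 = (deriv χ (u z)) ^ 2 * grad2 u z w := by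
  have hdu := (hu.differentiableAt (by norm_num : (2 : WithTop ℕ∞) ≠ 0)).hasFDerivAt
  have h1 : HasFDerivAt (fun y => χ (u y)) (deriv χ (u z) • fderiv ℝ u z) z :=
    hχ.hasDerivAt.comp_hasFDerivAt z hdu
  have h2 : HasFDerivAt (fun y => ((χ (u y) : ℝ) : ℂ))
      (Complex.ofRealCLM.comp (deriv χ (u z) • fderiv ℝ u z)) z :=
    (Complex.ofRealCLM.hasFDerivAt).comp z h1
  unfold dbar grad2
  rw [h2.fderiv]
  simp only [ContinuousLinearMap.comp_apply, smul_apply, smul_eq_mul,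
    Complex.ofRealCLM_apply]
  set p : ℝ := fderiv ℝ u z w
  set q : ℝ := fderiv ℝ u z (Complex.I • w)
  set c : ℝ := deriv χ (u z)
  have : ((c * p : ℝ) : ℂ) + Complex.I * ((c * q : ℝ) : ℂ) = ⟨c * p, c * q⟩ := by
    apply Complex.ext <;> simp
  rw [this, norm_div, div_pow, ← Complex.normSq_eq_norm_sq, Complex.normSq_mk]
  norm_num
  ring

end Crest.Agent.R271.Sum186
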