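import Crest.Agent.R271.Sum1_186

/-!
Row 271 (S0413), local theory: the class `LogPsh` of functions `e^φ`, `φ` a decreasing limit of
smooth psh functions, and its closure properties.
-/

open MeasureTheory Set Filter Topology
open scoped ContDiff

noncomputable section

namespace Crest.Agent.R271.Sum186

variable {N : ℕ}

/-! ### holomorphic functions -/

lemma fderivR_eq {h : CN N → ℂ} {z : CN N} (hh : DifferentiableAt ℂ h z) (v : CN N) :
    fderiv ℝ h z v = fderiv ℂ h z v := by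
  rw [hh.fderiv_restrictScalars ℝ]; rfl

lemma fderivR_I {h : CN N → ℂ} {z : CN N} (hh : DifferentiableAt ℂ h z) (v : CN N) :
    fderiv ℝ h z (Complex.I • v) = Complex.I * fderiv ℝ h z v := by
  rw [fderivR_eq hh, fderivR_eq hh, map_smul, smul_eq_mul]

/-- `grad2` of `∑|h_j|²` -/
lemma fderiv_normsq {h : CN N → ℂ} {z : CN N} (hh : DifferentiableAt ℝ h z) (v : CN N) :
    fderiv ℝ (fun y => ‖h y‖ ^ 2) z v = 2 * inner ℝ (h z) (fderiv ℝ h z v) := by
  have := hh.hasFDerivAt.norm_sq.fderiv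
  rw [this]
  simp
  ring

lemma analyticAt_fderiv_apply {h : CN N → ℂ} {z : CN N} (hh : AnalyticAt ℂ h z) (u : CN N) :
    AnalyticAt ℂ (fun y => fderiv ℂ h y u) z :=
  ((ContinuousLinearMap.apply ℂ ℂ u).analyticAt _).comp hh.fderiv

lemma fd2_apply {S : CN N → ℝ} {z : CN N} (hS : ContDiffAt ℝ 2 S z) (v w : CN N) :
    fderiv ℝ (fderiv ℝ S) z w v = fderiv ℝ (fun y => fderiv ℝ S y v) z w := by
  rw [fderiv_clm_apply (fd_diff hS) (differentiableAt_const v)]
  simp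

lemma contDiffAt_real {h : CN N → ℂ} {z : CN N} (hh : AnalyticAt ℂ h z) {m : WithTop ℕ∞} :
    ContDiffAt ℝ m h z :=
  (hh.contDiffAt (n := m)).restrict_scalars ℝ

lemma contDiffAt_normsq {h : CN N → ℂ} {z : CN N} (hh : AnalyticAt ℂ h z) {m : WithTop ℕ∞} :
    ContDiffAt ℝ m (fun y => ‖h y‖ ^ 2) z :=
  (contDiffAt_real hh).norm_sq ℝ

lemma levi_normsq {h : CN N → ℂ} {z : CN N} (hh : AnalyticAt ℂ h z) (w : CN N) :
    levi (fun y => ‖h y‖ ^ 2) z w = ‖fderiv ℝ h z w‖ ^ 2 := by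
  have hev : ∀ᶠ y in 𝓝 z, AnalyticAt ℂ h y := hh.eventually_analyticAt
  have hd : DifferentiableAt ℂ h z := hh.differentiableAt
  -- the complex derivative in the direction `w`
  have hg : AnalyticAt ℂ (fun y => fderiv ℂ h y w) z := analyticAt_fderiv_apply hh w
  have hgd : DifferentiableAt ℂ (fun y => fderiv ℂ h y w) z := hg.differentiableAt
  have key : ∀ u : CN N, u = w ∨ u = Complex.I • w →
      fderiv ℝ (fderiv ℝ (fun y => ‖h y‖ ^ 2)) z u u =
        2 * (‖fderiv ℝ h z u‖ ^ 2 +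
          inner ℝ (h z) (fderiv ℝ (fun y => fderiv ℝ h y u) z u)) := by
    intro u _
    have hgu : AnalyticAt ℂ (fun y => fderiv ℂ h y u) z := analyticAt_fderiv_apply hh u
    rw [fd2_apply (contDiffAt_normsq hh) u u]
    have h1 : (fun y => fderiv ℝ (fun y => ‖h y‖ ^ 2) y u) =ᶠ[𝓝 z]
        fun y => 2 * inner ℝ (h y) (fderiv ℝ h y u) := by
      filter_upwards [hev] with y hy
      exact fderiv_normsq (hy.differentiableAt.restrictScalars ℝ) u
    have hgr : DifferentiableAt ℝ (fun y => fderiv ℝ h y u) z := by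
      have h2 : (fun y => fderiv ℝ h y u) =ᶠ[𝓝 z] fun y => fderiv ℂ h y u := by
        filter_upwards [hev] with y hy
        exact fderivR_eq hy.differentiableAt u
      exact (hgu.differentiableAt.restrictScalars ℝ).congr_of_eventuallyEq h2
    rw [h1.fderiv_eq]
    have h3 := ((hd.restrictScalars ℝ).hasFDerivAt.inner ℝ hgr.hasFDerivAt).const_mul 2
    rw [h3.fderiv]
    simp only [smul_apply, ContinuousLinearMap.comp_apply,
      ContinuousLinearMap.prod_apply, fderivInnerCLM_apply, smul_eq_mul]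
    rw [real_inner_self_eq_norm_sq, add_comm]
  have hI1 : fderiv ℝ h z (Complex.I • w) = Complex.I * fderiv ℝ h z w := fderivR_I hd w
  have hI2 : fderiv ℝ (fun y => fderiv ℝ h y (Complex.I • w)) z (Complex.I • w) =
      - fderiv ℝ (fun y => fderiv ℝ h y w) z w := by
    have h2 : (fun y => fderiv ℝ h y w) =ᶠ[𝓝 z] fun y => fderiv ℂ h y w := by
      filter_upwards [hev] with y hy
      exact fderivR_eq hy.differentiableAt w
    have h3 : (fun y => fderiv ℝ h y (Complex.I • w)) =ᶠ[𝓝 z]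
        fun y => Complex.I * fderiv ℂ h y w := by
      filter_upwards [hev] with y hy
      rw [fderivR_I hy.differentiableAt w, fderivR_eq hy.differentiableAt w]
    rw [h2.fderiv_eq, h3.fderiv_eq]
    have h4 : DifferentiableAt ℂ (fun y => Complex.I * fderiv ℂ h y w) z := hgd.const_mul _
    rw [fderivR_I h4, fderivR_eq h4, fderiv_const_mul hgd, fderivR_eq hgd]
    simp only [smul_apply, smul_eq_mul]
    rw [← mul_assoc, Complex.I_mul_I]; ring
  unfold levi
  rw [key w (Or.inl rfl), key (Complex.I • w) (Or.inr rfl), hI1, hI2]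
  rw [norm_mul, Complex.norm_I, inner_neg_right]
  ring

lemma levi_fsum {κ : Type*} (s : Finset κ) {φ : κ → CN N → ℝ} {z : CN N}
    (hφ : ∀ i ∈ s, ContDiffAt ℝ 2 (φ i) z) (w : CN N) :
    levi (fun y => ∑ i ∈ s, φ i y) z w = ∑ i ∈ s, levi (φ i) z w := by
  classical
  induction s using Finset.induction_on with
  | empty => simp only [Finset.sum_empty]; exact levi_const 0 z w
  | insert a s ha ih =>
    simp only [Finset.sum_insert ha]
    rw [levi_add (hφ a (Finset.mem_insert_self a s))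
      (ContDiffAt.sum fun i hi => hφ i (Finset.mem_insert_of_mem hi)),
      ih fun i hi => hφ i (Finset.mem_insert_of_mem hi)]

/-- `log (∑|h_j|² + δ)` is psh -/
lemma levi_logsq {κ : Type*} [Fintype κ] {h : κ → CN N → ℂ} {z : CN N}
    (hh : ∀ j, AnalyticAt ℂ (h j) z) {δ : ℝ} (hδ : 0 < δ) (w : CN N) :
    0 ≤ levi (fun y => Real.log (∑ j, ‖h j y‖ ^ 2 + δ)) z w := by
  have hS : ContDiffAt ℝ 2 (fun y => ∑ j, ‖h j y‖ ^ 2) z :=
    ContDiffAt.sum fun j _ => contDiffAt_normsq (hh j)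
  have hS' : ContDiffAt ℝ 2 (fun y => ∑ j, ‖h j y‖ ^ 2 + δ) z := hS.add contDiffAt_const
  have hnn : 0 ≤ ∑ j, ‖h j z‖ ^ 2 := Finset.sum_nonneg fun j _ => by positivity
  have hpos : 0 < ∑ j, ‖h j z‖ ^ 2 + δ := by positivity
  rw [levi_log hS' hpos w]
  have h1 : levi (fun y => ∑ j, ‖h j y‖ ^ 2 + δ) z w = ∑ j, ‖fderiv ℝ (h j) z w‖ ^ 2 := by
    rw [levi_add hS contDiffAt_const, levi_const, add_zero,
      levi_fsum _ fun j _ => contDiffAt_normsq (hh j)]
    exact Finset.sum_congr rfl fun j _ => levi_normsq (hh j) w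
  have hder : ∀ v : CN N, fderiv ℝ (fun y => ∑ j, ‖h j y‖ ^ 2 + δ) z v =
      2 * ∑ j, inner ℝ (h j z) (fderiv ℝ (h j) z v) := by
    intro v
    rw [fderiv_add_const, fderiv_fun_sum fun j _ =>
      (contDiffAt_normsq (m := 1) (hh j)).differentiableAt (by norm_num)]
    rw [sum_apply, Finset.mul_sum]
    exact Finset.sum_congr rfl fun j _ =>
      fderiv_normsq ((hh j).differentiableAt.restrictScalars ℝ) v
  have h2 : grad2 (fun y => ∑ j, ‖h j y‖ ^ 2 + δ) z w =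
      ‖∑ j, (starRingEnd ℂ) (h j z) * fderiv ℝ (h j) z w‖ ^ 2 := by
    unfold grad2
    rw [hder w, hder (Complex.I • w)]
    set T : ℂ := ∑ j, (starRingEnd ℂ) (h j z) * fderiv ℝ (h j) z w with hT
    have e1 : ∑ j, inner ℝ (h j z) (fderiv ℝ (h j) z w) = T.re := by
      rw [hT, Complex.re_sum]
      refine Finset.sum_congr rfl fun j _ => ?_
      rw [Complex.inner, mul_comm]
    have e2 : ∑ j, inner ℝ (h j z) (fderiv ℝ (h j) z (Complex.I • w)) = - T.im := by
      rw [hT, Complex.im_sum, ← Finset.sum_neg_distrib]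
      refine Finset.sum_congr rfl fun j _ => ?_
      rw [fderivR_I (hh j).differentiableAt, Complex.inner]
      simp only [Complex.mul_re, Complex.mul_im, Complex.I_re, Complex.I_im, Complex.conj_re,
        Complex.conj_im]
      ring
    rw [e1, e2, ← Complex.normSq_eq_norm_sq, Complex.normSq_apply]
    ring
  have h3 : ‖∑ j, (starRingEnd ℂ) (h j z) * fderiv ℝ (h j) z w‖ ^ 2 ≤
      (∑ j, ‖h j z‖ ^ 2) * ∑ j, ‖fderiv ℝ (h j) z w‖ ^ 2 := by
    have hc : ‖∑ j, (starRingEnd ℂ) (h j z) * fderiv ℝ (h j) z w‖ ≤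
        ∑ j, ‖h j z‖ * ‖fderiv ℝ (h j) z w‖ := by
      refine (norm_sum_le _ _).trans_eq (Finset.sum_congr rfl fun j _ => ?_)
      rw [norm_mul, RCLike.norm_conj]
    calc _ ≤ (∑ j, ‖h j z‖ * ‖fderiv ℝ (h j) z w‖) ^ 2 :=
          pow_le_pow_left₀ (norm_nonneg _) hc 2
      _ ≤ _ := Finset.sum_mul_sq_le_sq_mul_sq _ _ _
  rw [h1, h2]
  have hT0 : 0 ≤ ∑ j, ‖fderiv ℝ (h j) z w‖ ^ 2 := Finset.sum_nonneg fun j _ => by positivity
  rw [sub_nonneg, div_le_div_iff₀ (by positivity) hpos]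
  have : ‖∑ j, (starRingEnd ℂ) (h j z) * fderiv ℝ (h j) z w‖ ^ 2 ≤
      (∑ j, ‖h j z‖ ^ 2 + δ) * ∑ j, ‖fderiv ℝ (h j) z w‖ ^ 2 := by
    nlinarith [mul_nonneg hδ.le hT0]
  nlinarith [mul_le_mul_of_nonneg_right this hpos.le]

/-! ### the class -/

/-- smooth psh functions on `D` -/
structure Psm (D : Set (CN N)) (φ : CN N → ℝ) : Prop where
  smooth : ContDiffOn ℝ ∞ φ D
  levi_nonneg : ∀ z ∈ D, ∀ w, 0 ≤ levi φ z w

/-- `A = e^φ` with `φ` a decreasing limit of smooth psh functions -/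
def LogPsh (D : Set (CN N)) (A : CN N → ℝ) : Prop :=
  ∃ φ : ℕ → CN N → ℝ, (∀ k, Psm D (φ k)) ∧ (∀ z ∈ D, Antitone fun k => φ k z) ∧
    ∀ z ∈ D, Tendsto (fun k => Real.exp (φ k z)) atTop (𝓝 (A z))

lemma two_le_inf : (2 : WithTop ℕ∞) ≤ ∞ := by
  have : ((2 : ℕ∞) : WithTop ℕ∞) ≤ ((⊤ : ℕ∞) : WithTop ℕ∞) := WithTop.coe_le_coe.mpr le_top
  simpa using this

lemma Psm.at {D : Set (CN N)} {φ : CN N → ℝ} (h : Psm D φ) (hD : IsOpen D) {z : CN N}
    (hz : z ∈ D) : ContDiffAt ℝ 2 φ z :=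
  (h.smooth.contDiffAt (hD.mem_nhds hz)).of_le two_le_inf

lemma Psm.mono {D D' : Set (CN N)} {φ : CN N → ℝ} (h : Psm D φ) (hD : D' ⊆ D) : Psm D' φ :=
  ⟨h.smooth.mono hD, fun z hz w => h.levi_nonneg z (hD hz) w⟩

lemma Psm.add {D : Set (CN N)} (hD : IsOpen D) {φ ψ : CN N → ℝ} (h : Psm D φ) (h' : Psm D ψ) :
    Psm D (fun z => φ z + ψ z) :=
  ⟨h.smooth.add h'.smooth, fun z hz w => by
    rw [levi_add (h.at hD hz) (h'.at hD hz)]
    exact add_nonneg (h.levi_nonneg z hz w) (h'.levi_nonneg z hz w)⟩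

lemma Psm.const_mul {D : Set (CN N)} (hD : IsOpen D) {φ : CN N → ℝ} (h : Psm D φ) {c : ℝ}
    (hc : 0 ≤ c) : Psm D (fun z => c * φ z) :=
  ⟨contDiffOn_const.mul h.smooth, fun z hz w => by
    rw [levi_const_mul c (h.at hD hz)]
    exact mul_nonneg hc (h.levi_nonneg z hz w)⟩

lemma Psm.const (D : Set (CN N)) (c : ℝ) : Psm D (fun _ => c) :=
  ⟨contDiffOn_const, fun z _ w => (levi_const c z w).ge⟩

lemma Psm.logaddexp {D : Set (CN N)} (hD : IsOpen D) {φ ψ : CN N → ℝ} (h : Psm D φ)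
    (h' : Psm D ψ) : Psm D (fun z => Real.log (Real.exp (φ z) + Real.exp (ψ z))) :=
  ⟨(h.smooth.exp.add h'.smooth.exp).log fun z _ => by positivity, fun z hz w => by
    rw [levi_logaddexp (h.at hD hz) (h'.at hD hz)]
    have := h.levi_nonneg z hz w
    have := h'.levi_nonneg z hz w
    have := grad2_nonneg (fun y => φ y - ψ y) z w
    positivity⟩

lemma LogPsh.mono {D D' : Set (CN N)} {A : CN N → ℝ} (h : LogPsh D A) (hD : D' ⊆ D) :
    LogPsh D' A := by
  obtain ⟨φ, h1, h2, h3⟩ := h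
  exact ⟨φ, fun k => (h1 k).mono hD, fun z hz => h2 z (hD hz), fun z hz => h3 z (hD hz)⟩

lemma LogPsh.nonneg {D : Set (CN N)} {A : CN N → ℝ} (h : LogPsh D A) {z : CN N} (hz : z ∈ D) :
    0 ≤ A z := by
  obtain ⟨φ, _, _, h3⟩ := h
  exact ge_of_tendsto' (h3 z hz) fun k => (Real.exp_pos _).le

lemma LogPsh.congr {D : Set (CN N)} {A B : CN N → ℝ} (h : LogPsh D A) (hAB : ∀ z ∈ D, A z = B z) :
    LogPsh D B := by
  obtain ⟨φ, h1, h2, h3⟩ := h
  exact ⟨φ, h1, h2, fun z hz => hAB z hz ▸ h3 z hz⟩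

lemma LogPsh.mul {D : Set (CN N)} (hD : IsOpen D) {A B : CN N → ℝ} (hA : LogPsh D A)
    (hB : LogPsh D B) : LogPsh D (fun z => A z * B z) := by
  obtain ⟨φ, h1, h2, h3⟩ := hA
  obtain ⟨ψ, h4, h5, h6⟩ := hB
  refine ⟨fun k z => φ k z + ψ k z, fun k => (h1 k).add hD (h4 k), fun z hz k l hkl =>
    add_le_add (h2 z hz hkl) (h5 z hz hkl), fun z hz => ?_⟩
  simp only [Real.exp_add]
  exact (h3 z hz).mul (h6 z hz)

lemma LogPsh.rpow {D : Set (CN N)} (hD : IsOpen D) {A : CN N → ℝ} (hA : LogPsh D A) {c : ℝ}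
    (hc : 0 ≤ c) : LogPsh D (fun z => A z ^ c) := by
  obtain ⟨φ, h1, h2, h3⟩ := hA
  refine ⟨fun k z => c * φ k z, fun k => (h1 k).const_mul hD hc, fun z hz k l hkl =>
    mul_le_mul_of_nonneg_left (h2 z hz hkl) hc, fun z hz => ?_⟩
  have : ∀ k, Real.exp (c * φ k z) = Real.exp (φ k z) ^ c := fun k => by
    rw [← Real.exp_mul, mul_comm]
  simp only [this]
  exact (h3 z hz).rpow_const (Or.inr hc)

lemma LogPsh.const (D : Set (CN N)) {c : ℝ} (hc : 0 < c) : LogPsh D (fun _ => c) :=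
  ⟨fun _ _ => Real.log c, fun _ => Psm.const D _, fun _ _ => antitone_const, fun _ _ => by
    simp only [Real.exp_log hc]; exact tendsto_const_nhds⟩

lemma LogPsh.add {D : Set (CN N)} (hD : IsOpen D) {A B : CN N → ℝ} (hA : LogPsh D A)
    (hB : LogPsh D B) : LogPsh D (fun z => A z + B z) := by
  obtain ⟨φ, h1, h2, h3⟩ := hA
  obtain ⟨ψ, h4, h5, h6⟩ := hB
  refine ⟨fun k z => Real.log (Real.exp (φ k z) + Real.exp (ψ k z)),
    fun k => (h1 k).logaddexp hD (h4 k), fun z hz k l hkl => ?_, fun z hz => ?_⟩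
  · exact Real.log_le_log (by positivity)
      (add_le_add (Real.exp_le_exp.2 (h2 z hz hkl)) (Real.exp_le_exp.2 (h5 z hz hkl)))
  · have : ∀ k, Real.exp (Real.log (Real.exp (φ k z) + Real.exp (ψ k z))) =
        Real.exp (φ k z) + Real.exp (ψ k z) := fun k => Real.exp_log (by positivity)
    simp only [this]
    exact (h3 z hz).add (h6 z hz)

lemma LogPsh.prod {D : Set (CN N)} (hD : IsOpen D) {κ : Type*} (s : Finset κ)
    {A : κ → CN N → ℝ} (hA : ∀ i ∈ s, LogPsh D (A i)) : LogPsh D (fun z => ∏ i ∈ s, A i z) := by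
  classical
  induction s using Finset.induction_on with
  | empty => simpa using LogPsh.const D one_pos
  | insert a s ha ih =>
    simp only [Finset.prod_insert ha]
    exact (hA a (Finset.mem_insert_self a s)).mul hD
      (ih fun i hi => hA i (Finset.mem_insert_of_mem hi))

lemma LogPsh.sum {D : Set (CN N)} (hD : IsOpen D) {κ : Type*} (s : Finset κ) (hs : s.Nonempty)
    {A : κ → CN N → ℝ} (hA : ∀ i ∈ s, LogPsh D (A i)) : LogPsh D (fun z => ∑ i ∈ s, A i z) := by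
  classical
  induction hs using Finset.Nonempty.cons_induction with
  | singleton a => simpa using hA a (by simp)
  | cons a s ha hs ih =>
    simp only [Finset.sum_cons]
    exact (hA a (by simp)).add hD (ih fun i hi => hA i (by simp [hi]))

/-- the basic example -/
lemma LogPsh.sumsq {D : Set (CN N)} {κ : Type*} [Fintype κ] {h : κ → CN N → ℂ}
    (hh : ∀ j, ∀ z ∈ D, AnalyticAt ℂ (h j) z) : LogPsh D (fun z => ∑ j, ‖h j z‖ ^ 2) := by
  have hd : ∀ k : ℕ, (0 : ℝ) < 1 / ((k : ℝ) + 1) := fun k => by positivity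
  have hnn : ∀ z, 0 ≤ ∑ j, ‖h j z‖ ^ 2 := fun z => Finset.sum_nonneg fun j _ => by positivity
  have hp : ∀ (k : ℕ) z, 0 < ∑ j, ‖h j z‖ ^ 2 + 1 / ((k : ℝ) + 1) := fun k z =>
    add_pos_of_nonneg_of_pos (hnn z) (hd k)
  refine ⟨fun k z => Real.log (∑ j, ‖h j z‖ ^ 2 + 1 / ((k : ℝ) + 1)), fun k => ⟨?_, ?_⟩, ?_, ?_⟩
  · intro z hz
    refine ContDiffAt.contDiffWithinAt ?_
    refine ContDiffAt.log ((ContDiffAt.sum fun j _ => contDiffAt_normsq (hh j z hz)).add
      contDiffAt_const) (hp k z).ne'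
  · intro z hz w
    exact levi_logsq (fun j => hh j z hz) (hd k) w
  · intro z hz k l hkl
    refine Real.log_le_log (hp l z) (add_le_add le_rfl ?_)
    exact one_div_le_one_div_of_le (by positivity) (by exact_mod_cast Nat.add_le_add_right hkl 1)
  · intro z hz
    have : ∀ k : ℕ, Real.exp (Real.log (∑ j, ‖h j z‖ ^ 2 + 1 / ((k : ℝ) + 1))) =
        ∑ j, ‖h j z‖ ^ 2 + 1 / ((k : ℝ) + 1) := fun k => Real.exp_log (hp k z)
    simp only [this]
    simpa using (tendsto_const_nhds (x := ∑ j, ‖h j z‖ ^ 2)).add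
      tendsto_one_div_add_atTop_nhds_zero_nat

end Crest.Agent.R271.Sum186
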