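import Crest.Agent.R271.Sum2_186

/-!
Row 271 (S0413), local theory: mean value inequality for holomorphic functions on polydiscs and the
resulting equicontinuity at the centre.
-/

open MeasureTheory Set Filter Topology Metric
open scoped ContDiff ENNReal Real

noncomputable section

namespace Crest.Agent.R271.Sum186

variable {N : ℕ}

/-- multiplication by a complex number of modulus one preserves Lebesgue measure of `ℂ^N` -/
lemma mp_rot (a : Circle) :
    MeasurePreserving (fun w : CN N => (a : ℂ) • w) volume volume := by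
  have h1 : MeasurePreserving (fun z : ℂ => (a : ℂ) * z) volume volume :=
    (rotation a).measurePreserving
  exact measurePreserving_pi (fun _ : Fin N => (volume : Measure ℂ)) (fun _ => volume)
    (fun _ => h1)

lemma one_var_mean {g : ℂ → ℂ} (hg : DifferentiableOn ℂ g (closedBall 0 1)) :
    ENNReal.ofReal (‖g 0‖ ^ 2) * ENNReal.ofReal (2 * π) ≤
      ∫⁻ θ in Ioc 0 (2 * π), ENNReal.ofReal (‖g (circleMap 0 1 θ)‖ ^ 2) := by
  have h0 : DiffContOnCl ℂ (fun z => g z ^ 2) (ball 0 |(1 : ℝ)|) := by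
    have : DifferentiableOn ℂ (fun z => g z ^ 2) (closure (ball (0 : ℂ) |(1 : ℝ)|)) := by
      rw [abs_one, closure_ball _ one_ne_zero]
      exact hg.pow 2
    exact this.diffContOnCl
  have h1 := h0.circleAverage
  rw [Real.circleAverage_def] at h1
  have h2 : ‖g 0‖ ^ 2 * (2 * π) ≤ ∫ θ in (0 : ℝ)..2 * π, ‖g (circleMap 0 1 θ)‖ ^ 2 := by
    have h3 : ‖g 0‖ ^ 2 = (2 * π)⁻¹ * ‖∫ θ in (0 : ℝ)..2 * π, g (circleMap 0 1 θ) ^ 2‖ := by
      rw [← norm_pow, ← h1, norm_smul, Real.norm_of_nonneg (by positivity)]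
    rw [h3]
    have h4 : ‖∫ θ in (0 : ℝ)..2 * π, g (circleMap 0 1 θ) ^ 2‖ ≤
        ∫ θ in (0 : ℝ)..2 * π, ‖g (circleMap 0 1 θ) ^ 2‖ :=
      intervalIntegral.norm_integral_le_integral_norm (by positivity)
    simp only [norm_pow] at h4
    have hp : (0 : ℝ) < 2 * π := by positivity
    calc (2 * π)⁻¹ * ‖∫ θ in (0 : ℝ)..2 * π, g (circleMap 0 1 θ) ^ 2‖ * (2 * π)
        = ‖∫ θ in (0 : ℝ)..2 * π, g (circleMap 0 1 θ) ^ 2‖ := by field_simp
      _ ≤ _ := h4
  have hcont : Continuous fun θ : ℝ => ‖g (circleMap 0 1 θ)‖ ^ 2 := by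
    have : Continuous fun θ : ℝ => g (circleMap 0 1 θ) :=
      hg.continuousOn.comp_continuous (continuous_circleMap 0 1) fun θ => by
        simp [mem_closedBall]
    exact this.norm.pow 2
  rw [intervalIntegral.integral_of_le (by positivity)] at h2
  rw [← ofReal_integral_eq_lintegral_ofReal
    (hcont.integrableOn_Icc.mono_set Ioc_subset_Icc_self)
    (Eventually.of_forall fun θ => by positivity), ← ENNReal.ofReal_mul (by positivity)]
  exact ENNReal.ofReal_le_ofReal h2

/-- mean value inequality -/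
lemma mean_ball {r ρ : ℝ} {f : CN N → ℂ} (hf : DifferentiableOn ℂ f (ball 0 r)) {a : CN N}
    (haρ : ball a ρ ⊆ ball 0 r) :
    ENNReal.ofReal (‖f a‖ ^ 2) * volume (ball (0 : CN N) ρ) ≤
      ∫⁻ z in ball 0 r, ENNReal.ofReal (‖f z‖ ^ 2) := by
  classical
  set g : CN N → ℝ≥0∞ := (ball (0 : CN N) r).piecewise (fun z => ENNReal.ofReal (‖f z‖ ^ 2)) 0
    with hg
  have hgm : Measurable g := by
    refine ContinuousOn.measurable_piecewise ?_ continuousOn_const measurableSet_ball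
    have : ContinuousOn (fun z => ‖f z‖ ^ 2) (ball (0 : CN N) r) := hf.continuousOn.norm.pow 2
    exact ENNReal.continuous_ofReal.comp_continuousOn this
  have hgin : ∀ z ∈ ball (0 : CN N) r, g z = ENNReal.ofReal (‖f z‖ ^ 2) := fun z hz => by
    simp only [hg, Set.piecewise, hz, if_true]
  have hp : (0 : ℝ) < 2 * π := by positivity
  -- pointwise one variable inequality
  have h1 : ∀ w ∈ ball (0 : CN N) ρ, ENNReal.ofReal (‖f a‖ ^ 2) * ENNReal.ofReal (2 * π) ≤
      ∫⁻ θ in Ioc 0 (2 * π), g (a + circleMap 0 1 θ • w) := by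
    intro w hw
    have hmem : ∀ ζ : ℂ, ‖ζ‖ ≤ 1 → a + ζ • w ∈ ball (0 : CN N) r := fun ζ hζ => by
      apply haρ
      rw [mem_ball, dist_eq_norm, add_sub_cancel_left, norm_smul]
      rw [mem_ball, dist_zero_right] at hw
      calc ‖ζ‖ * ‖w‖ ≤ 1 * ‖w‖ := by gcongr
        _ < ρ := by linarith
    have hline : DifferentiableOn ℂ (fun ζ : ℂ => f (a + ζ • w)) (closedBall 0 1) := by
      refine hf.comp (f := fun ζ : ℂ => a + ζ • w) ?_ fun ζ hζ => ?_
      · fun_prop
      · exact hmem ζ (by simpa using hζ)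
    have := one_var_mean hline
    simp only [zero_smul, add_zero] at this
    refine this.trans_eq ?_
    refine setLIntegral_congr_fun measurableSet_Ioc fun θ _ => ?_
    rw [hgin _ (hmem _ (by simp))]
  -- integrate over `w`
  have h2 : ∫⁻ w in ball (0 : CN N) ρ, ENNReal.ofReal (‖f a‖ ^ 2) * ENNReal.ofReal (2 * π) ≤
      ∫⁻ w in ball (0 : CN N) ρ, ∫⁻ θ in Ioc 0 (2 * π), g (a + circleMap 0 1 θ • w) :=
    setLIntegral_mono' measurableSet_ball h1
  rw [setLIntegral_const] at h2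
  have hmeas : Measurable (fun p : CN N × ℝ => g (a + circleMap 0 1 p.2 • p.1)) := by
    refine hgm.comp ?_
    have : Continuous fun p : CN N × ℝ => a + circleMap 0 1 p.2 • p.1 := by
      have := continuous_circleMap 0 1
      fun_prop
    exact this.measurable
  rw [lintegral_lintegral_swap hmeas.aemeasurable] at h2
  have h3 : ∀ θ : ℝ, ∫⁻ w in ball (0 : CN N) ρ, g (a + circleMap 0 1 θ • w) ≤
      ∫⁻ z in ball 0 r, ENNReal.ofReal (‖f z‖ ^ 2) := by
    intro θ
    have hm := mp_rot (N := N) (Circle.exp θ)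
    have hcm : ∀ w : CN N, circleMap 0 1 θ • w = ((Circle.exp θ : Circle) : ℂ) • w := fun w => by
      simp [circleMap]
    have hme : MeasurableEmbedding (fun w : CN N => ((Circle.exp θ : Circle) : ℂ) • w) :=
      (Homeomorph.smulOfNeZero ((Circle.exp θ : Circle) : ℂ)
        (Circle.coe_ne_zero _)).measurableEmbedding
    have hpre : (fun w : CN N => ((Circle.exp θ : Circle) : ℂ) • w) ⁻¹' ball 0 ρ = ball 0 ρ := by
      ext w
      simp [norm_smul]
    have e1 : ∫⁻ w in ball (0 : CN N) ρ, g (a + circleMap 0 1 θ • w) =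
        ∫⁻ w in ball (0 : CN N) ρ, g (a + w) := by
      simp only [hcm]
      rw [← hm.setLIntegral_comp_preimage_emb hme (fun w => g (a + w)) (ball 0 ρ), hpre]
    have e2 : ∫⁻ w in ball (0 : CN N) ρ, g (a + w) = ∫⁻ z in ball a ρ, g z := by
      have hm2 := measurePreserving_add_left (volume : Measure (CN N)) a
      have hpre2 : (fun w : CN N => a + w) ⁻¹' ball a ρ = ball 0 ρ := by
        ext w
        simp
      rw [← hm2.setLIntegral_comp_preimage_emb (measurableEmbedding_addLeft a) g (ball a ρ), hpre2]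
    rw [e1, e2]
    refine (lintegral_mono_set haρ).trans_eq ?_
    exact setLIntegral_congr_fun measurableSet_ball fun z hz => hgin z hz
  have h4 : ∫⁻ θ in Ioc 0 (2 * π), ∫⁻ w in ball (0 : CN N) ρ, g (a + circleMap 0 1 θ • w) ≤
      (∫⁻ z in ball 0 r, ENNReal.ofReal (‖f z‖ ^ 2)) * ENNReal.ofReal (2 * π) := by
    calc _ ≤ ∫⁻ _θ in Ioc 0 (2 * π), (∫⁻ z in ball 0 r, ENNReal.ofReal (‖f z‖ ^ 2)) :=
          lintegral_mono fun θ => h3 θ
      _ = _ := by rw [setLIntegral_const, Real.volume_Ioc, sub_zero]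
  have h5 := h2.trans h4
  have h6 : ENNReal.ofReal (‖f a‖ ^ 2) * volume (ball (0 : CN N) ρ) * ENNReal.ofReal (2 * π) ≤
      (∫⁻ z in ball 0 r, ENNReal.ofReal (‖f z‖ ^ 2)) * ENNReal.ofReal (2 * π) := by
    calc _ = ENNReal.ofReal (‖f a‖ ^ 2) * ENNReal.ofReal (2 * π) * volume (ball (0 : CN N) ρ) := by
          ring
      _ ≤ _ := h5
  have hne : ENNReal.ofReal (2 * π) ≠ 0 := by simpa using hp
  exact (ENNReal.mul_le_mul_iff_left hne ENNReal.ofReal_ne_top).1 h6

/-- equicontinuity at the centre of `L²`-bounded holomorphic functions -/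
lemma equicont {r C : ℝ} (hr : 0 < r) {η : ℝ} (hη : 0 < η) :
    ∃ r' : ℝ, 0 < r' ∧ r' ≤ r ∧ ∀ f : CN N → ℂ, DifferentiableOn ℂ f (ball 0 r) →
      ∫⁻ z in ball (0 : CN N) r, ENNReal.ofReal (‖f z‖ ^ 2) ≤ ENNReal.ofReal C →
      ∀ z ∈ ball (0 : CN N) r', ‖f z - f 0‖ ≤ η := by
  set v : ℝ := (volume (ball (0 : CN N) (r / 2))).toReal with hv
  have hvpos : 0 < v := ENNReal.toReal_pos (measure_ball_pos _ _ (by positivity)).ne'
    measure_ball_lt_top.ne
  set M : ℝ := √(|C| / v) with hM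
  have hM0 : 0 ≤ M := Real.sqrt_nonneg _
  refine ⟨min (r / 2) (η * (r / 2) / (2 * M + 1)), by positivity,
    (min_le_left _ _).trans (by linarith), fun f hf hfC z hz => ?_⟩
  have hsup : ∀ a ∈ ball (0 : CN N) (r / 2), ‖f a‖ ≤ M := by
    intro a ha
    have h1 : ball a (r / 2) ⊆ ball 0 r := by
      apply ball_subset_ball'
      rw [mem_ball] at ha
      linarith
    have h2 := (mean_ball hf h1).trans hfC
    rw [← ENNReal.ofReal_toReal (measure_ball_lt_top (x := (0 : CN N)) (r := r / 2)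
      (μ := volume)).ne, ← ENNReal.ofReal_mul (by positivity)] at h2
    have h3 : ‖f a‖ ^ 2 * v ≤ |C| := by
      by_contra hcon
      push Not at hcon
      have h4 : ENNReal.ofReal |C| < ENNReal.ofReal (‖f a‖ ^ 2 * v) :=
        (ENNReal.ofReal_lt_ofReal_iff (lt_of_le_of_lt (abs_nonneg C) hcon)).2 hcon
      exact absurd (h2.trans (ENNReal.ofReal_le_ofReal (le_abs_self C))) (not_le.2 h4)
    rw [hM]
    apply Real.le_sqrt_of_sq_le
    rw [le_div_iff₀ hvpos]
    exact h3
  have hz1 : ‖z‖ < r / 2 := by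
    rw [mem_ball, dist_zero_right] at hz
    exact lt_of_lt_of_le hz (min_le_left _ _)
  have hz2 : ‖z‖ < η * (r / 2) / (2 * M + 1) := by
    rw [mem_ball, dist_zero_right] at hz
    exact lt_of_lt_of_le hz (min_le_right _ _)
  rcases eq_or_ne z 0 with rfl | hz0
  · simpa using hη.le
  have hzn : 0 < ‖z‖ := norm_pos_iff.2 hz0
  set R : ℝ := (r / 2) / ‖z‖ with hR
  have hRpos : 0 < R := by positivity
  have hmem : ∀ ζ ∈ ball (0 : ℂ) R, ζ • z ∈ ball (0 : CN N) (r / 2) := by
    intro ζ hζ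
    rw [mem_ball, dist_zero_right] at hζ ⊢
    rw [norm_smul]
    calc ‖ζ‖ * ‖z‖ < R * ‖z‖ := by gcongr
      _ = r / 2 := by rw [hR]; field_simp
  have hd : DifferentiableOn ℂ (fun ζ : ℂ => f (ζ • z)) (ball 0 R) := by
    refine hf.comp (f := fun ζ : ℂ => ζ • z) (by fun_prop) fun ζ hζ => ?_
    exact ball_subset_ball (by linarith) (hmem ζ hζ)
  have h0 : (0 : CN N) ∈ ball (0 : CN N) (r / 2) := mem_ball_self (by positivity)
  have hmaps : MapsTo (fun ζ : ℂ => f (ζ • z)) (ball 0 R)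
      (closedBall ((fun ζ : ℂ => f (ζ • z)) 0) (2 * M + 1)) := by
    intro ζ hζ
    simp only [zero_smul, mem_closedBall, dist_eq_norm]
    calc ‖f (ζ • z) - f 0‖ ≤ ‖f (ζ • z)‖ + ‖f 0‖ := norm_sub_le _ _
      _ ≤ M + M := add_le_add (hsup _ (hmem ζ hζ)) (hsup _ h0)
      _ ≤ 2 * M + 1 := by linarith
  have h1R : (1 : ℂ) ∈ ball (0 : ℂ) R := by
    rw [mem_ball, dist_zero_right, norm_one, hR, lt_div_iff₀ hzn]
    linarith
  have := Complex.dist_le_div_mul_dist_of_mapsTo_ball hd hmaps h1R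
  simp only [one_smul, zero_smul, dist_eq_norm, sub_zero, norm_one, mul_one] at this
  refine this.trans ?_
  rw [hR, div_div_eq_mul_div, div_le_iff₀ (by positivity)]
  have := (lt_div_iff₀ (by positivity : (0 : ℝ) < 2 * M + 1)).1 hz2
  linarith [this]

end Crest.Agent.R271.Sum186
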