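import Crest.Agent.R271.Sum3_186

/-!
Row 271 (S0413), local theory: the core step of the Sum Theorem (Blueprint_710, 2.3).
-/

open MeasureTheory Set Filter Topology Metric
open scoped ContDiff ENNReal Real

noncomputable section

namespace Crest.Agent.R271.Sum186

variable {N : ℕ}

/-- The `L²` solver for `∂̄` on an open set `D` (engine, Blueprint_710 2.1): the norm of the
`(0,1)`-form `dbar G` with respect to the Levi form of the weight is `≤ h`. -/
def Solver (N : ℕ) (D : Set (CN N)) : Prop :=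
  ∀ (Φ : CN N → ℝ) (G : CN N → ℂ) (h : CN N → ℝ),
    ContDiffOn ℝ ∞ Φ D → (∀ z ∈ D, ∀ w, w ≠ 0 → 0 < levi Φ z w) →
    ContDiffOn ℝ ∞ G D → ContinuousOn h D → (∀ z ∈ D, 0 ≤ h z) →
    (∀ z ∈ D, ∀ w, ‖dbar G z w‖ ^ 2 ≤ h z * levi Φ z w) →
    ∫⁻ z in D, ENNReal.ofReal (h z * Real.exp (-Φ z)) < ⊤ →
    ∃ f : CN N → ℂ, DifferentiableOn ℂ f D ∧
      ∫⁻ z in D, ENNReal.ofReal (‖G z - f z‖ ^ 2 * Real.exp (-Φ z)) ≤
        2 * ∫⁻ z in D, ENNReal.ofReal (h z * Real.exp (-Φ z))

/-- the cut-off function -/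
def chi (u : ℝ) : ℝ := Real.smoothTransition ((u + 1) / 2)

lemma chi_smooth : ContDiff ℝ ∞ chi :=
  Real.smoothTransition.contDiff.comp ((contDiff_id.add contDiff_const).div_const 2)

lemma chi_zero {u : ℝ} (hu : u ≤ -1) : chi u = 0 :=
  Real.smoothTransition.zero_of_nonpos (by linarith)

lemma chi_one {u : ℝ} (hu : 1 ≤ u) : chi u = 1 :=
  Real.smoothTransition.one_of_one_le (by linarith)

lemma chi_nonneg (u : ℝ) : 0 ≤ chi u := Real.smoothTransition.nonneg _

lemma chi_le_one (u : ℝ) : chi u ≤ 1 := Real.smoothTransition.le_one _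

lemma chi_diff (u : ℝ) : DifferentiableAt ℝ chi u :=
  (chi_smooth.contDiffAt (x := u)).differentiableAt (by simp)

lemma chi_deriv_cont : Continuous (deriv chi) :=
  chi_smooth.continuous_deriv (by exact_mod_cast le_top)

lemma chi_deriv_zero {u : ℝ} (hu : 1 < |u|) : deriv chi u = 0 := by
  rcases lt_abs.1 hu with h | h
  · have : chi =ᶠ[𝓝 u] fun _ => 1 := by
      filter_upwards [lt_mem_nhds h] with v hv using chi_one hv.le
    rw [this.deriv_eq]; simp
  · have : chi =ᶠ[𝓝 u] fun _ => 0 := by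
      filter_upwards [gt_mem_nhds (show u < -1 by linarith)] with v hv using chi_zero hv.le
    rw [this.deriv_eq]; simp

lemma chi_deriv_bdd : ∃ M : ℝ, 0 ≤ M ∧ ∀ u, |deriv chi u| ≤ M := by
  obtain ⟨M, hM⟩ := (isCompact_Icc (a := (-1 : ℝ)) (b := 1)).exists_bound_of_continuousOn
    chi_deriv_cont.continuousOn
  refine ⟨max M 0, le_max_right _ _, fun u => ?_⟩
  by_cases hu : 1 < |u|
  · rw [chi_deriv_zero hu]; simp
  · have := hM u (by rw [mem_Icc, ← abs_le]; exact not_lt.1 hu)
    exact this.trans (le_max_left _ _)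

lemma levi_q (z w : CN N) : levi (fun y : CN N => ∑ i, ‖y i‖ ^ 2) z w = ∑ i, ‖w i‖ ^ 2 := by
  have hcoord : ∀ i : Fin N, AnalyticAt ℂ (fun y : CN N => y i) z := fun i =>
    (ContinuousLinearMap.proj (R := ℂ) (φ := fun _ : Fin N => ℂ) i).analyticAt z
  rw [levi_fsum _ fun i _ => contDiffAt_normsq (hcoord i)]
  refine Finset.sum_congr rfl fun i _ => ?_
  rw [levi_normsq (hcoord i), fderivR_eq (hcoord i).differentiableAt]
  have : fderiv ℂ (fun y : CN N => y i) z = ContinuousLinearMap.proj i :=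
    (ContinuousLinearMap.proj (R := ℂ) (φ := fun _ : Fin N => ℂ) i).fderiv
  rw [this]; rfl

lemma psm_q (D : Set (CN N)) : Psm D (fun y : CN N => ∑ i, ‖y i‖ ^ 2) := by
  refine ⟨?_, fun z _ w => ?_⟩
  · intro z _
    refine ContDiffAt.contDiffWithinAt (ContDiffAt.sum fun i _ => contDiffAt_normsq ?_)
    exact (ContinuousLinearMap.proj (R := ℂ) (φ := fun _ : Fin N => ℂ) i).analyticAt z
  · rw [levi_q]; positivity

/-- the core step: one application of the solver -/
theorem core_step {r : ℝ} (hsol : Solver N (ball 0 r)) {ε : ℝ} (hε : 0 < ε)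
    (hε1 : ε < 1) :
    ∃ C : ℝ, 0 ≤ C ∧ ∀ (ρ a b : CN N → ℝ), Psm (ball 0 r) ρ → Psm (ball 0 r) a →
      Psm (ball 0 r) b → (∀ z ∈ ball (0 : CN N) r, ρ z ≤ 0) →
      (∀ z ∈ ball (0 : CN N) r, a z ≤ - Real.log 2) →
      (∀ z ∈ ball (0 : CN N) r, b z ≤ - Real.log 2) →
      ∫⁻ z in ball (0 : CN N) r, ENNReal.ofReal (Real.exp (-(ρ z) - max (a z) (b z))) < ⊤ →
      ∀ s : ℝ, 0 ≤ s → s ≤ 1 →
      ∃ f : CN N → ℂ, DifferentiableOn ℂ f (ball 0 r) ∧
        ∫⁻ z in ball 0 r, ENNReal.ofReal (‖(chi (a z - b z) : ℂ) - f z‖ ^ 2 *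
          Real.exp (-((1 - ε) * (ρ z + (s * a z + (1 - s) * b z))))) ≤
        ENNReal.ofReal C * ∫⁻ z in ball (0 : CN N) r,
          ENNReal.ofReal (Real.exp (-(ρ z) - max (a z) (b z))) := by
  obtain ⟨M, hM0, hM⟩ := chi_deriv_bdd
  set K : ℝ := N * r ^ 2 with hK
  set C1 : ℝ := M ^ 2 * (1 + Real.exp 1) ^ 2 / ε * Real.exp (1 + K) with hC1
  have hC10 : 0 ≤ C1 := by positivity
  refine ⟨2 * C1, by positivity, fun ρ a b hρ ha hb hρ0 ha0 hb0 hint s hs0 hs1 => ?_⟩
  set D : Set (CN N) := ball 0 r with hD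
  have hDo : IsOpen D := isOpen_ball
  set q : CN N → ℝ := fun y => ∑ i, ‖y i‖ ^ 2 with hq
  set ℓ : CN N → ℝ := fun y => Real.log (Real.exp (a y) + Real.exp (b y)) with hℓ
  set u : CN N → ℝ := fun y => a y - b y with hu
  set σ : CN N → ℝ := fun y => Real.exp (a y) / (Real.exp (a y) + Real.exp (b y)) *
    (Real.exp (b y) / (Real.exp (a y) + Real.exp (b y))) with hσ
  set Φ : CN N → ℝ := fun y => (((1 - ε) * (ρ y + (s * a y + (1 - s) * b y)) + ε * ℓ y) + q y) +
    (-K) with hΦ
  set G : CN N → ℂ := fun y => ((chi (u y) : ℝ) : ℂ) with hG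
  set h : CN N → ℝ := fun y => (deriv chi (u y)) ^ 2 / (ε * σ y) with hh
  have hlog2 : 0 < Real.log 2 := Real.log_pos (by norm_num)
  have hσpos : ∀ y, 0 < σ y := fun y => by rw [hσ]; positivity
  -- regularity
  have hsa : Psm D (fun y => s * a y) := ha.const_mul hDo hs0
  have hsb : Psm D (fun y => (1 - s) * b y) := hb.const_mul hDo (by linarith)
  have hP1 : Psm D (fun y => (1 - ε) * (ρ y + (s * a y + (1 - s) * b y))) :=
    (hρ.add hDo (hsa.add hDo hsb)).const_mul hDo (by linarith)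
  have hPℓ : Psm D ℓ := ha.logaddexp hDo hb
  have hP2 : Psm D (fun y => ε * ℓ y) := hPℓ.const_mul hDo hε.le
  have hP3 : Psm D q := psm_q D
  have hP4 : Psm D (fun y => (1 - ε) * (ρ y + (s * a y + (1 - s) * b y)) + ε * ℓ y) :=
    hP1.add hDo hP2
  have hP5 : Psm D (fun y => ((1 - ε) * (ρ y + (s * a y + (1 - s) * b y)) + ε * ℓ y) + q y) :=
    hP4.add hDo hP3
  have hPΦ : Psm D Φ := hP5.add hDo (Psm.const D (-K))
  have hus : ContDiffOn ℝ ∞ u D := ha.smooth.sub hb.smooth
  -- Levi form of the weight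
  have hlev : ∀ z ∈ D, ∀ w, ε * (σ z * grad2 u z w) + ∑ i, ‖w i‖ ^ 2 ≤ levi Φ z w := by
    intro z hz w
    have e1 : levi Φ z w = levi (fun y => (1 - ε) * (ρ y + (s * a y + (1 - s) * b y))) z w +
        ε * levi ℓ z w + ∑ i, ‖w i‖ ^ 2 := by
      rw [hΦ, levi_add (hP5.at hDo hz) contDiffAt_const, levi_const, add_zero,
        levi_add (hP4.at hDo hz) (hP3.at hDo hz), levi_add (hP1.at hDo hz) (hP2.at hDo hz),
        levi_const_mul ε (hPℓ.at hDo hz), levi_q]
    have e2 : σ z * grad2 u z w ≤ levi ℓ z w := by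
      rw [hℓ, levi_logaddexp (ha.at hDo hz) (hb.at hDo hz)]
      have h1 := ha.levi_nonneg z hz w
      have h2 := hb.levi_nonneg z hz w
      have h3 : 0 ≤ Real.exp (a z) / (Real.exp (a z) + Real.exp (b z)) * levi a z w := by
        positivity
      have h4 : 0 ≤ Real.exp (b z) / (Real.exp (a z) + Real.exp (b z)) * levi b z w := by
        positivity
      simp only [hσ, hu]
      linarith
    rw [e1]
    have := hP1.levi_nonneg z hz w
    have := mul_le_mul_of_nonneg_left e2 hε.le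
    linarith
  have hpos : ∀ z ∈ D, ∀ w, w ≠ 0 → 0 < levi Φ z w := by
    intro z hz w hw
    refine lt_of_lt_of_le ?_ (hlev z hz w)
    have h1 : 0 < ∑ i, ‖w i‖ ^ 2 := by
      obtain ⟨i, hi⟩ : ∃ i, w i ≠ 0 := by
        by_contra hcon
        push Not at hcon
        exact hw (funext hcon)
      have hi' : 0 < ‖w i‖ ^ 2 := by positivity
      exact lt_of_lt_of_le hi'
        (Finset.single_le_sum (f := fun i => ‖w i‖ ^ 2) (fun j _ => by positivity)
          (Finset.mem_univ i))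
    have h2 : 0 ≤ ε * (σ z * grad2 u z w) :=
      mul_nonneg hε.le (mul_nonneg (hσpos z).le (grad2_nonneg _ _ _))
    linarith
  have hGs : ContDiffOn ℝ ∞ G D := by
    have h1 : ContDiffOn ℝ ∞ (fun y => chi (u y)) D := chi_smooth.comp_contDiffOn hus
    exact Complex.ofRealCLM.contDiff.comp_contDiffOn h1
  have hac : ContinuousOn a D := ha.smooth.continuousOn
  have hbc : ContinuousOn b D := hb.smooth.continuousOn
  have hρc : ContinuousOn ρ D := hρ.smooth.continuousOn
  have hσc : ContinuousOn σ D := by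
    have h1 : ContinuousOn (fun y => Real.exp (a y)) D := hac.rexp
    have h2 : ContinuousOn (fun y => Real.exp (b y)) D := hbc.rexp
    have h3 : ∀ y ∈ D, Real.exp (a y) + Real.exp (b y) ≠ 0 := fun y _ => by positivity
    exact (h1.div (h1.add h2) h3).mul (h2.div (h1.add h2) h3)
  have hhc : ContinuousOn h D := by
    refine ContinuousOn.div ?_ (continuousOn_const.mul hσc) fun y _ =>
      (mul_pos hε (hσpos y)).ne'
    exact (chi_deriv_cont.comp_continuousOn (hac.sub hbc)).pow 2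
  have hh0 : ∀ z ∈ D, 0 ≤ h z := fun z _ => div_nonneg (sq_nonneg _) (mul_pos hε (hσpos z)).le
  have hdb : ∀ z ∈ D, ∀ w, ‖dbar G z w‖ ^ 2 ≤ h z * levi Φ z w := by
    intro z hz w
    have hu2 : ContDiffAt ℝ 2 u z := (ha.at hDo hz).sub (hb.at hDo hz)
    rw [hG, dbar_comp hu2 (chi_diff _)]
    have h1 : (deriv chi (u z)) ^ 2 * grad2 u z w = h z * (ε * (σ z * grad2 u z w)) := by
      rw [hh]
      have := (hσpos z).ne'
      field_simp
    rw [h1]
    refine mul_le_mul_of_nonneg_left ?_ (hh0 z hz)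
    have := hlev z hz w
    have h2 : 0 ≤ ∑ i, ‖w i‖ ^ 2 := Finset.sum_nonneg fun i _ => by positivity
    linarith
  -- pointwise estimate of the right hand side
  have hqK : ∀ z ∈ D, q z ≤ K := by
    intro z hz
    have hz' : ‖z‖ < r := by simpa [hD] using hz
    calc q z ≤ ∑ _i : Fin N, r ^ 2 := Finset.sum_le_sum fun i _ =>
          pow_le_pow_left₀ (norm_nonneg _) ((norm_le_pi_norm z i).trans hz'.le) 2
      _ = K := by simp [hK]
  have hq0 : ∀ z, 0 ≤ q z := fun z => Finset.sum_nonneg fun i _ => by positivity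
  have hrhs : ∀ z ∈ D, h z * Real.exp (-Φ z) ≤ C1 * Real.exp (-(ρ z) - max (a z) (b z)) := by
    intro z hz
    by_cases hu1 : 1 < |u z|
    · have : h z = 0 := by rw [hh]; simp [chi_deriv_zero hu1]
      rw [this, zero_mul]
      positivity
    · have hu1' : |a z - b z| ≤ 1 := not_lt.1 hu1
      have hab := abs_le.1 hu1'
      -- bound of `1/σ`
      have hσb : 1 / (1 + Real.exp 1) ^ 2 ≤ σ z := by
        have e1 : Real.exp (a z) ≤ Real.exp 1 * Real.exp (b z) := by
          rw [← Real.exp_add]; exact Real.exp_le_exp.2 (by linarith)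
        have e2 : Real.exp (b z) ≤ Real.exp 1 * Real.exp (a z) := by
          rw [← Real.exp_add]; exact Real.exp_le_exp.2 (by linarith)
        have e3 : 1 / (1 + Real.exp 1) ≤ Real.exp (a z) / (Real.exp (a z) + Real.exp (b z)) := by
          rw [div_le_div_iff₀ (by positivity) (by positivity)]
          nlinarith
        have e4 : 1 / (1 + Real.exp 1) ≤ Real.exp (b z) / (Real.exp (a z) + Real.exp (b z)) := by
          rw [div_le_div_iff₀ (by positivity) (by positivity)]
          nlinarith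
        calc 1 / (1 + Real.exp 1) ^ 2 = 1 / (1 + Real.exp 1) * (1 / (1 + Real.exp 1)) := by
              field_simp
          _ ≤ σ z := mul_le_mul e3 e4 (by positivity) (by positivity)
      have hhb : h z ≤ M ^ 2 * (1 + Real.exp 1) ^ 2 / ε := by
        rw [hh]
        have e1 : (deriv chi (u z)) ^ 2 ≤ M ^ 2 := by
          rw [← sq_abs]; exact pow_le_pow_left₀ (abs_nonneg _) (hM _) 2
        rw [div_le_div_iff₀ (mul_pos hε (hσpos z)) hε]
        have e2 : 1 ≤ (1 + Real.exp 1) ^ 2 * σ z := by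
          rw [div_le_iff₀ (by positivity)] at hσb
          linarith
        calc (deriv chi (u z)) ^ 2 * ε ≤ M ^ 2 * ε := by gcongr
          _ = M ^ 2 * ε * 1 := by ring
          _ ≤ M ^ 2 * ε * ((1 + Real.exp 1) ^ 2 * σ z) := by gcongr
          _ = _ := by ring
      have hΦb : -Φ z ≤ (1 + K) + (-(ρ z) - max (a z) (b z)) := by
        have e1 : max (a z) (b z) ≤ ℓ z := by
          rw [hℓ]
          refine max_le ?_ ?_
          · rw [Real.le_log_iff_exp_le (by positivity)]
            linarith [Real.exp_pos (b z)]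
          · rw [Real.le_log_iff_exp_le (by positivity)]
            linarith [Real.exp_pos (a z)]
        have e2 : max (a z) (b z) - 1 ≤ s * a z + (1 - s) * b z := by
          rcases le_total (a z) (b z) with hle | hle
          · rw [max_eq_right hle]; nlinarith
          · rw [max_eq_left hle]; nlinarith
        have e3 := hρ0 z hz
        have e4 := hq0 z
        have e5 : (1 - ε) * (max (a z) (b z) - 1) ≤ (1 - ε) * (s * a z + (1 - s) * b z) :=
          mul_le_mul_of_nonneg_left e2 (by linarith)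
        have e6 := mul_le_mul_of_nonneg_left e1 hε.le
        have e7 : ρ z ≤ (1 - ε) * ρ z := by nlinarith
        simp only [hΦ]
        nlinarith
      calc h z * Real.exp (-Φ z) ≤ M ^ 2 * (1 + Real.exp 1) ^ 2 / ε *
            Real.exp ((1 + K) + (-(ρ z) - max (a z) (b z))) :=
            mul_le_mul hhb (Real.exp_le_exp.2 hΦb) (Real.exp_pos _).le (by positivity)
        _ = C1 * Real.exp (-(ρ z) - max (a z) (b z)) := by
            rw [Real.exp_add, hC1]; ring
  have hI : ∫⁻ z in D, ENNReal.ofReal (h z * Real.exp (-Φ z)) ≤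
      ENNReal.ofReal C1 * ∫⁻ z in D, ENNReal.ofReal (Real.exp (-(ρ z) - max (a z) (b z))) := by
    rw [← lintegral_const_mul' _ _ ENNReal.ofReal_ne_top]
    refine setLIntegral_mono' measurableSet_ball fun z hz => ?_
    rw [← ENNReal.ofReal_mul hC10]
    exact ENNReal.ofReal_le_ofReal (hrhs z hz)
  have hfin : ∫⁻ z in D, ENNReal.ofReal (h z * Real.exp (-Φ z)) < ⊤ :=
    lt_of_le_of_lt hI (ENNReal.mul_lt_top ENNReal.ofReal_lt_top hint)
  obtain ⟨f, hf, hf2⟩ := hsol Φ G h hPΦ.smooth hpos hGs hhc hh0 hdb hfin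
  refine ⟨f, hf, ?_⟩
  calc _ ≤ ∫⁻ z in D, ENNReal.ofReal (‖G z - f z‖ ^ 2 * Real.exp (-Φ z)) := by
        refine setLIntegral_mono' measurableSet_ball fun z hz => ENNReal.ofReal_le_ofReal ?_
        refine mul_le_mul_of_nonneg_left (Real.exp_le_exp.2 ?_) (by positivity)
        have e1 : ℓ z ≤ 0 := by
          rw [hℓ]
          refine Real.log_nonpos (by positivity) ?_
          have h1 : Real.exp (a z) ≤ 1 / 2 := by
            calc Real.exp (a z) ≤ Real.exp (-Real.log 2) := Real.exp_le_exp.2 (ha0 z hz)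
              _ = 1 / 2 := by rw [Real.exp_neg, Real.exp_log (by norm_num)]; norm_num
          have h2 : Real.exp (b z) ≤ 1 / 2 := by
            calc Real.exp (b z) ≤ Real.exp (-Real.log 2) := Real.exp_le_exp.2 (hb0 z hz)
              _ = 1 / 2 := by rw [Real.exp_neg, Real.exp_log (by norm_num)]; norm_num
          linarith
        have e2 := hqK z hz
        have e3 : ε * ℓ z ≤ 0 := mul_nonpos_of_nonneg_of_nonpos hε.le e1
        simp only [hΦ]
        linarith
    _ ≤ 2 * ∫⁻ z in D, ENNReal.ofReal (h z * Real.exp (-Φ z)) := hf2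
    _ ≤ 2 * (ENNReal.ofReal C1 *
        ∫⁻ z in D, ENNReal.ofReal (Real.exp (-(ρ z) - max (a z) (b z)))) := by gcongr
    _ = _ := by
        rw [ENNReal.ofReal_mul (by norm_num : (0 : ℝ) ≤ 2), ENNReal.ofReal_ofNat, mul_assoc]

end Crest.Agent.R271.Sum186
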