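import Crest.Agent.R271.Sum4_186

/-!
Row 271 (S0413), local theory: the dichotomy in the Sum Theorem (Blueprint_710, 2.3).
-/

open MeasureTheory Set Filter Topology Metric
open scoped ContDiff ENNReal Real

noncomputable section

namespace Crest.Agent.R271.Sum186

variable {N : ℕ}

/-- `W R A B ε s z = (R A^s B^{1-s})^{-(1-ε)}` -/
def W (R A B : CN N → ℝ) (ε s : ℝ) (z : CN N) : ℝ≥0∞ :=
  (ENNReal.ofReal ((R z * (A z ^ s * B z ^ (1 - s))) ^ (1 - ε)))⁻¹

/-- `(R max(A,B))^{-1}` -/
def W1 (R A B : CN N → ℝ) (z : CN N) : ℝ≥0∞ :=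
  (ENNReal.ofReal (R z * max (A z) (B z)))⁻¹

lemma ofReal_exp_neg (x : ℝ) : ENNReal.ofReal (Real.exp (-x)) = (ENNReal.ofReal (Real.exp x))⁻¹ := by
  rw [Real.exp_neg, ENNReal.ofReal_inv_of_pos (Real.exp_pos x)]

/-- normalised data: the sequences defining `LogPsh`, bounded above -/
structure Data (D : Set (CN N)) (R : CN N → ℝ) (M : ℝ) where
  φ : ℕ → CN N → ℝ
  psm : ∀ k, Psm D (φ k)
  anti : ∀ z ∈ D, Antitone fun k => φ k z
  lim : ∀ z ∈ D, Tendsto (fun k => Real.exp (φ k z)) atTop (𝓝 (R z))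
  le : ∀ k, ∀ z ∈ D, φ k z ≤ M

lemma Data.le_exp {D : Set (CN N)} {R : CN N → ℝ} {M : ℝ} (d : Data D R M) {z : CN N} (hz : z ∈ D)
    (k : ℕ) : R z ≤ Real.exp (d.φ k z) := by
  have : Antitone fun k => Real.exp (d.φ k z) := fun i j hij => Real.exp_le_exp.2 (d.anti z hz hij)
  exact this.le_of_tendsto (d.lim z hz) k

lemma Data.nonneg {D : Set (CN N)} {R : CN N → ℝ} {M : ℝ} (d : Data D R M) {z : CN N} (hz : z ∈ D) :
    0 ≤ R z := ge_of_tendsto' (d.lim z hz) fun k => (Real.exp_pos _).le

lemma Data.le_one {D : Set (CN N)} {R : CN N → ℝ} {M : ℝ} (d : Data D R M) {z : CN N} (hz : z ∈ D) :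
    R z ≤ Real.exp M := (d.le_exp hz 0).trans (Real.exp_le_exp.2 (d.le 0 z hz))

lemma Data.aemeas {r : ℝ} {R : CN N → ℝ} {M : ℝ} (d : Data (ball 0 r) R M) :
    AEMeasurable R (volume.restrict (ball 0 r)) := by
  refine aemeasurable_of_tendsto_metrizable_ae (u := atTop)
    (f := fun k z => Real.exp (d.φ k z)) (fun k => ?_) ?_
  · exact ((d.psm k).smooth.continuousOn.rexp).aemeasurable measurableSet_ball
  · exact (ae_restrict_iff' measurableSet_ball).2 (Eventually.of_forall fun z hz => d.lim z hz)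

/-- the dichotomy, uniform in `s` -/
theorem dichotomy {r : ℝ} (hr : 0 < r) (hsol : Solver N (ball 0 r)) {ε : ℝ} (hε : 0 < ε)
    (hε1 : ε < 1) {R A B : CN N → ℝ} (dR : Data (ball 0 r) R 0)
    (dA : Data (ball 0 r) A (-Real.log 2)) (dB : Data (ball 0 r) B (-Real.log 2))
    (hint : ∫⁻ z in ball 0 r, W1 R A B z < ⊤) :
    ∃ r' : ℝ, 0 < r' ∧ r' ≤ r ∧ ∀ s : ℝ, 0 ≤ s → s ≤ 1 →
      (∫⁻ z in ball 0 r', (if Real.exp 1 * A z < B z then W R A B ε s z else 0) < ⊤) ∨
      (∫⁻ z in ball 0 r', (if Real.exp 1 * B z < A z then W R A B ε s z else 0) < ⊤) := by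
  classical
  obtain ⟨C, hC0, hC⟩ := core_step hsol hε hε1
  set I : ℝ≥0∞ := ∫⁻ z in ball 0 r, W1 R A B z with hI
  set K : ℝ≥0∞ := ENNReal.ofReal C * I with hK
  have hKfin : K < ⊤ := ENNReal.mul_lt_top ENNReal.ofReal_lt_top hint
  set K' : ℝ≥0∞ := 2 * K + 2 * volume (ball (0 : CN N) r) with hK'
  have hK'fin : K' ≠ ⊤ := by
    rw [hK']
    exact ENNReal.add_ne_top.2 ⟨ENNReal.mul_ne_top (by norm_num) hKfin.ne,
      ENNReal.mul_ne_top (by norm_num) measure_ball_lt_top.ne⟩
  obtain ⟨r', hr'0, hr'r, hequi⟩ := equicont (N := N) (C := K'.toReal) hr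
    (show (0 : ℝ) < 1 / 4 by norm_num)
  refine ⟨r', hr'0, hr'r, fun s hs0 hs1 => ?_⟩
  -- bound of the right hand side, uniform in `k`
  have hexp : ∀ k, ∀ z ∈ ball (0 : CN N) r,
      ENNReal.ofReal (Real.exp (-(dR.φ k z) - max (dA.φ k z) (dB.φ k z))) ≤ W1 R A B z := by
    intro k z hz
    have e1 : -(dR.φ k z) - max (dA.φ k z) (dB.φ k z) =
        -(dR.φ k z + max (dA.φ k z) (dB.φ k z)) := by ring
    rw [e1, ofReal_exp_neg, W1]
    apply ENNReal.inv_le_inv.2
    apply ENNReal.ofReal_le_ofReal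
    rw [Real.exp_add]
    refine mul_le_mul (dR.le_exp hz k) ?_ (le_max_of_le_left (dA.nonneg hz)) (Real.exp_pos _).le
    refine max_le ((dA.le_exp hz k).trans (Real.exp_le_exp.2 (le_max_left _ _)))
      ((dB.le_exp hz k).trans (Real.exp_le_exp.2 (le_max_right _ _)))
  have hIk : ∀ k, ∫⁻ z in ball (0 : CN N) r,
      ENNReal.ofReal (Real.exp (-(dR.φ k z) - max (dA.φ k z) (dB.φ k z))) ≤ I := fun k =>
    setLIntegral_mono' measurableSet_ball (hexp k)
  choose f hf hf2 using fun k => hC (dR.φ k) (dA.φ k) (dB.φ k) (dR.psm k) (dA.psm k) (dB.psm k)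
    (dR.le k) (dA.le k) (dB.le k) (lt_of_le_of_lt (hIk k) hint) s hs0 hs1
  have hlog2 : 0 < Real.log 2 := Real.log_pos (by norm_num)
  -- weights
  set x : ℕ → CN N → ℝ := fun k z =>
    (1 - ε) * (dR.φ k z + (s * dA.φ k z + (1 - s) * dB.φ k z)) with hx
  have hx0 : ∀ k, ∀ z ∈ ball (0 : CN N) r, x k z ≤ 0 := by
    intro k z hz
    have h1 := dR.le k z hz
    have h2 := dA.le k z hz
    have h3 := dB.le k z hz
    have h4 : s * dA.φ k z ≤ 0 := mul_nonpos_of_nonneg_of_nonpos hs0 (by linarith)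
    have h5 : (1 - s) * dB.φ k z ≤ 0 :=
      mul_nonpos_of_nonneg_of_nonpos (by linarith) (by linarith)
    exact mul_nonpos_of_nonneg_of_nonpos (by linarith) (by linarith)
  have hFk : ∀ k, ∫⁻ z in ball 0 r, ENNReal.ofReal
      (‖(chi (dA.φ k z - dB.φ k z) : ℂ) - f k z‖ ^ 2 * Real.exp (-(x k z))) ≤ K := fun k =>
    (hf2 k).trans (by rw [hK]; gcongr; exact hIk k)
  -- `L²` bound of `f k`
  have hfL2 : ∀ k, ∫⁻ z in ball (0 : CN N) r, ENNReal.ofReal (‖f k z‖ ^ 2) ≤
      ENNReal.ofReal K'.toReal := by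
    intro k
    rw [ENNReal.ofReal_toReal hK'fin]
    have hac : ContinuousOn (fun z => dA.φ k z - dB.φ k z) (ball 0 r) :=
      (dA.psm k).smooth.continuousOn.sub (dB.psm k).smooth.continuousOn
    calc ∫⁻ z in ball (0 : CN N) r, ENNReal.ofReal (‖f k z‖ ^ 2)
        ≤ ∫⁻ z in ball (0 : CN N) r, (2 * ENNReal.ofReal
          (‖(chi (dA.φ k z - dB.φ k z) : ℂ) - f k z‖ ^ 2 * Real.exp (-(x k z))) + 2) := by
          refine setLIntegral_mono' measurableSet_ball fun z hz => ?_
          set c : ℂ := (chi (dA.φ k z - dB.φ k z) : ℂ) with hc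
          have hc1 : ‖c‖ ≤ 1 := by
            rw [hc, Complex.norm_real, Real.norm_of_nonneg (chi_nonneg _)]
            exact chi_le_one _
          have h1 : ‖f k z‖ ^ 2 ≤ 2 * (‖c - f k z‖ ^ 2 * Real.exp (-(x k z))) + 2 := by
            have h2 : ‖f k z‖ ≤ ‖c - f k z‖ + ‖c‖ := by
              have := norm_sub_le c (c - f k z)
              rw [sub_sub_cancel] at this
              linarith
            have h3 : 1 ≤ Real.exp (-(x k z)) := Real.one_le_exp (by linarith [hx0 k z hz])
            have h4 : ‖c - f k z‖ ^ 2 ≤ ‖c - f k z‖ ^ 2 * Real.exp (-(x k z)) :=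
              le_mul_of_one_le_right (by positivity) h3
            nlinarith [norm_nonneg (f k z), norm_nonneg (c - f k z), norm_nonneg c,
              sq_nonneg (‖c - f k z‖ - ‖c‖)]
          calc ENNReal.ofReal (‖f k z‖ ^ 2) ≤
                ENNReal.ofReal (2 * (‖c - f k z‖ ^ 2 * Real.exp (-(x k z))) + 2) :=
                ENNReal.ofReal_le_ofReal h1
            _ = _ := by
                rw [ENNReal.ofReal_add (by positivity) (by norm_num),
                  ENNReal.ofReal_mul (by norm_num : (0 : ℝ) ≤ 2), ENNReal.ofReal_ofNat]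
      _ = 2 * (∫⁻ z in ball (0 : CN N) r, ENNReal.ofReal
          (‖(chi (dA.φ k z - dB.φ k z) : ℂ) - f k z‖ ^ 2 * Real.exp (-(x k z)))) +
          2 * volume (ball (0 : CN N) r) := by
          rw [lintegral_add_right _ measurable_const, lintegral_const_mul' _ _ (by norm_num),
            setLIntegral_const]
      _ ≤ K' := by rw [hK']; gcongr; exact hFk k
  have hnear : ∀ k, ∀ z ∈ ball (0 : CN N) r', ‖f k z - f k 0‖ ≤ 1 / 4 := fun k =>
    hequi (f k) (hf k) (hfL2 k)
  have hsub : ball (0 : CN N) r' ⊆ ball 0 r := ball_subset_ball hr'r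
  -- measurability
  have hmeas : ∀ k, AEMeasurable (fun z => ENNReal.ofReal
      (‖(chi (dA.φ k z - dB.φ k z) : ℂ) - f k z‖ ^ 2 * Real.exp (-(x k z))))
      (volume.restrict (ball 0 r')) := by
    intro k
    have hac : ContinuousOn (fun z => dA.φ k z - dB.φ k z) (ball 0 r) :=
      (dA.psm k).smooth.continuousOn.sub (dB.psm k).smooth.continuousOn
    have h1 : ContinuousOn (fun z => (chi (dA.φ k z - dB.φ k z) : ℂ)) (ball 0 r) :=
      (Complex.continuous_ofReal.comp chi_smooth.continuous).comp_continuousOn hac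
    have h2 : ContinuousOn (x k) (ball 0 r) := by
      rw [hx]
      exact continuousOn_const.mul ((dR.psm k).smooth.continuousOn.add
        ((continuousOn_const.mul (dA.psm k).smooth.continuousOn).add
          (continuousOn_const.mul (dB.psm k).smooth.continuousOn)))
    have h3 : ContinuousOn (fun z => ‖(chi (dA.φ k z - dB.φ k z) : ℂ) - f k z‖ ^ 2 *
        Real.exp (-(x k z))) (ball 0 r) :=
      (((h1.sub (hf k).continuousOn).norm.pow 2).mul (h2.neg.rexp))
    exact ((ENNReal.continuous_ofReal.comp_continuousOn h3).mono hsub).aemeasurable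
      measurableSet_ball
  -- convergence of the weights
  have hwlim : ∀ z ∈ ball (0 : CN N) r, Tendsto (fun k => ENNReal.ofReal (Real.exp (-(x k z))))
      atTop (𝓝 (W R A B ε s z)) := by
    intro z hz
    have h1 : ∀ k, Real.exp (x k z) = (Real.exp (dR.φ k z) *
        (Real.exp (dA.φ k z) ^ s * Real.exp (dB.φ k z) ^ (1 - s))) ^ (1 - ε) := by
      intro k
      rw [← Real.exp_mul, ← Real.exp_mul, ← Real.exp_add, ← Real.exp_add, ← Real.exp_mul]
      congr 1
      simp only [hx]
      ring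
    simp only [ofReal_exp_neg, h1, W]
    refine (continuous_inv.tendsto (ENNReal.ofReal _)).comp ?_
    refine (ENNReal.continuous_ofReal.tendsto _).comp ?_
    have h2 : Tendsto (fun k => Real.exp (dA.φ k z) ^ s) atTop (𝓝 (A z ^ s)) :=
      (dA.lim z hz).rpow_const (Or.inr hs0)
    have h3 : Tendsto (fun k => Real.exp (dB.φ k z) ^ (1 - s)) atTop (𝓝 (B z ^ (1 - s))) :=
      (dB.lim z hz).rpow_const (Or.inr (by linarith))
    exact ((dR.lim z hz).mul (h2.mul h3)).rpow_const (Or.inr (by linarith))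
  -- the Fatou step
  have fatou : ∀ (E : CN N → Prop) [DecidablePred E] (n : ℕ → ℕ), StrictMono n →
      (∀ z ∈ ball (0 : CN N) r', E z → ∀ᶠ j in atTop,
        1 / 4 ≤ ‖(chi (dA.φ (n j) z - dB.φ (n j) z) : ℂ) - f (n j) z‖) →
      ∫⁻ z in ball 0 r', (if E z then W R A B ε s z else 0) < ⊤ := by
    intro E _ n hn hE
    have h1 : ∫⁻ z in ball 0 r', (if E z then W R A B ε s z else 0) ≤
        ENNReal.ofReal 16 * K := by
      calc ∫⁻ z in ball 0 r', (if E z then W R A B ε s z else 0)
          ≤ ∫⁻ z in ball 0 r', ENNReal.ofReal 16 * liminf (fun j => ENNReal.ofReal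
            (‖(chi (dA.φ (n j) z - dB.φ (n j) z) : ℂ) - f (n j) z‖ ^ 2 *
              Real.exp (-(x (n j) z)))) atTop := by
            refine setLIntegral_mono' measurableSet_ball fun z hz => ?_
            split_ifs with hEz
            · have h2 := (hwlim z (hsub hz)).comp hn.tendsto_atTop
              have h3 : Tendsto (fun j => ENNReal.ofReal (1 / 16) *
                  ENNReal.ofReal (Real.exp (-(x (n j) z)))) atTop
                  (𝓝 (ENNReal.ofReal (1 / 16) * W R A B ε s z)) :=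
                ENNReal.Tendsto.const_mul h2 (Or.inr ENNReal.ofReal_ne_top)
              have h4 : ENNReal.ofReal (1 / 16) * W R A B ε s z ≤ liminf (fun j => ENNReal.ofReal
                  (‖(chi (dA.φ (n j) z - dB.φ (n j) z) : ℂ) - f (n j) z‖ ^ 2 *
                    Real.exp (-(x (n j) z)))) atTop := by
                rw [← h3.liminf_eq]
                refine liminf_le_liminf ?_
                filter_upwards [hE z hz hEz] with j hj
                rw [← ENNReal.ofReal_mul (by norm_num)]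
                apply ENNReal.ofReal_le_ofReal
                refine mul_le_mul_of_nonneg_right ?_ (Real.exp_pos _).le
                calc (1 / 16 : ℝ) = (1 / 4) ^ 2 := by norm_num
                  _ ≤ _ := pow_le_pow_left₀ (by norm_num) hj 2
              calc W R A B ε s z = ENNReal.ofReal 16 * (ENNReal.ofReal (1 / 16) *
                    W R A B ε s z) := by
                    rw [← mul_assoc, ← ENNReal.ofReal_mul (by norm_num)]
                    norm_num
                _ ≤ _ := by gcongr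
            · exact zero_le
        _ = ENNReal.ofReal 16 * ∫⁻ z in ball 0 r', liminf (fun j => ENNReal.ofReal
            (‖(chi (dA.φ (n j) z - dB.φ (n j) z) : ℂ) - f (n j) z‖ ^ 2 *
              Real.exp (-(x (n j) z)))) atTop :=
            lintegral_const_mul' _ _ ENNReal.ofReal_ne_top
        _ ≤ ENNReal.ofReal 16 * liminf (fun j => ∫⁻ z in ball 0 r', ENNReal.ofReal
            (‖(chi (dA.φ (n j) z - dB.φ (n j) z) : ℂ) - f (n j) z‖ ^ 2 *
              Real.exp (-(x (n j) z)))) atTop := by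
            gcongr
            exact lintegral_liminf_le' fun j => hmeas (n j)
        _ ≤ ENNReal.ofReal 16 * K := by
            gcongr
            refine (liminf_le_liminf (v := fun _ => K) (Eventually.of_forall fun j => ?_)).trans
              (by simp)
            exact (lintegral_mono_set hsub).trans (hFk (n j))
    exact lt_of_le_of_lt h1 (ENNReal.mul_lt_top ENNReal.ofReal_lt_top hKfin)
  by_cases hfreq : ∃ᶠ k in atTop, 1 / 2 ≤ ‖f k 0‖
  · left
    obtain ⟨n, hn, hn2⟩ := extraction_of_frequently_atTop hfreq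
    refine fatou _ n hn fun z hz hEz => ?_
    have hAlim := (dA.lim z (hsub hz)).comp hn.tendsto_atTop
    have hBlim := (dB.lim z (hsub hz)).comp hn.tendsto_atTop
    have := (hAlim.const_mul (Real.exp 1)).eventually_lt hBlim hEz
    filter_upwards [this] with j hj
    have h1 : dA.φ (n j) z - dB.φ (n j) z ≤ -1 := by
      simp only [Function.comp_apply, ← Real.exp_add] at hj
      have := Real.exp_lt_exp.1 hj
      linarith
    rw [chi_zero h1]
    simp only [Complex.ofReal_zero, zero_sub, norm_neg]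
    have h2 := hnear (n j) z hz
    have h3 := hn2 j
    have h4 := norm_sub_norm_le (f (n j) 0) (f (n j) z)
    rw [norm_sub_rev] at h4
    linarith
  · right
    rw [not_frequently] at hfreq
    obtain ⟨k0, hk0⟩ := eventually_atTop.1 hfreq
    refine fatou _ (fun j => j + k0) (fun i j hij => by simpa using hij) fun z hz hEz => ?_
    have hAlim := (dA.lim z (hsub hz)).comp (tendsto_add_atTop_nat k0)
    have hBlim := (dB.lim z (hsub hz)).comp (tendsto_add_atTop_nat k0)
    have := (hBlim.const_mul (Real.exp 1)).eventually_lt hAlim hEz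
    filter_upwards [this] with j hj
    have h1 : 1 ≤ dA.φ (j + k0) z - dB.φ (j + k0) z := by
      simp only [Function.comp_apply, ← Real.exp_add] at hj
      have := Real.exp_lt_exp.1 hj
      linarith
    rw [chi_one h1]
    have h2 := hnear (j + k0) z hz
    have h3 := hk0 (j + k0) (by omega)
    have h4 : ‖(1 : ℂ)‖ ≤ ‖((1 : ℝ) : ℂ) - f (j + k0) z‖ + ‖f (j + k0) z - f (j + k0) 0‖ +
        ‖f (j + k0) 0‖ := by
      have := norm_add₃_le (a := ((1 : ℝ) : ℂ) - f (j + k0) z)
        (b := f (j + k0) z - f (j + k0) 0) (c := f (j + k0) 0)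
      simpa using this
    rw [norm_one] at h4
    linarith

end Crest.Agent.R271.Sum186
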