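import Crest.Agent.R271.Sum5_186

/-!
Row 271 (S0413), local theory: the Sum Theorem for two functions (Blueprint_710, 2.3).
-/

open MeasureTheory Set Filter Topology Metric
open scoped ContDiff ENNReal Real

noncomputable section

namespace Crest.Agent.R271.Sum186

variable {N : ℕ}

/-- real inequality used on `{e A < B}` -/
lemma cmp_left {R A B ε s s1 : ℝ} (hR0 : 0 ≤ R) (hR1 : R ≤ 1) (hA : 0 ≤ A) (hAB : A ≤ B)
    (hB : 0 < B) (hB1 : B ≤ 1) (hε : 0 < ε) (hε2 : ε < 1 / 2) (hs0 : 0 ≤ s)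
    (hs : s * (1 - 2 * ε) ≤ s1 * (1 - ε)) :
    (R * (A ^ s1 * B ^ (1 - s1))) ^ (1 - ε) ≤ (R * (A ^ s * B ^ (1 - s))) ^ (1 - 2 * ε) := by
  set y : ℝ := A / B with hy
  have hy0 : 0 ≤ y := div_nonneg hA hB.le
  have hy1 : y ≤ 1 := (div_le_one hB).2 hAB
  have key : ∀ t : ℝ, R * (A ^ t * B ^ (1 - t)) = (R * B) * y ^ t := by
    intro t
    rw [hy, Real.div_rpow hA hB.le, Real.rpow_sub hB, Real.rpow_one]
    have : B ^ t ≠ 0 := (Real.rpow_pos_of_pos hB t).ne'
    field_simp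
  have hx0 : 0 ≤ R * B := mul_nonneg hR0 hB.le
  have hx1 : R * B ≤ 1 := mul_le_one₀ hR1 hB.le hB1
  have hs1 : 0 ≤ s1 := by
    have : 0 ≤ s1 * (1 - ε) := le_trans (mul_nonneg hs0 (by linarith)) hs
    by_contra hcon
    push Not at hcon
    nlinarith
  rw [key s1, key s, Real.mul_rpow hx0 (Real.rpow_nonneg hy0 _),
    Real.mul_rpow hx0 (Real.rpow_nonneg hy0 _), ← Real.rpow_mul hy0, ← Real.rpow_mul hy0]
  refine mul_le_mul ?_ ?_ (Real.rpow_nonneg hy0 _) (Real.rpow_nonneg hx0 _)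
  · exact Real.rpow_le_rpow_of_exponent_ge' hx0 hx1 (by linarith) (by linarith)
  · exact Real.rpow_le_rpow_of_exponent_ge' hy0 hy1 (mul_nonneg hs0 (by linarith)) hs

/-- real inequality used in the middle region -/
lemma cmp_mid {R A B ε s : ℝ} (hR0 : 0 ≤ R) (hR1 : R ≤ 1) (hA : 0 ≤ A) (hB : 0 ≤ B)
    (hA1 : A ≤ 1)
    (h1 : B ≤ Real.exp 1 * A) (h2 : A ≤ Real.exp 1 * B) (hε : 0 < ε) (hε2 : ε < 1)
    (hs0 : 0 ≤ s) (hs1 : s ≤ 1) :
    (Real.exp 1)⁻¹ * (R * max A B) ≤ (R * (A ^ s * B ^ (1 - s))) ^ (1 - ε) := by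
  have he : 0 < Real.exp 1 := Real.exp_pos 1
  have he1 : (1 : ℝ) ≤ Real.exp 1 := Real.one_le_exp (by norm_num)
  set m : ℝ := max A B / Real.exp 1 with hm
  have hm0 : 0 ≤ m := div_nonneg (le_max_of_le_left hA) he.le
  have hmA : m ≤ A := by
    rw [hm, div_le_iff₀ he]
    exact max_le (by nlinarith) (by linarith)
  have hmB : m ≤ B := by
    rw [hm, div_le_iff₀ he]
    exact max_le (by linarith) (by nlinarith)
  have h3 : m ≤ A ^ s * B ^ (1 - s) := by
    calc m = m ^ s * m ^ (1 - s) := by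
          rw [← Real.rpow_add_of_nonneg hm0 hs0 (by linarith)]
          simp
      _ ≤ _ := mul_le_mul (Real.rpow_le_rpow hm0 hmA hs0)
          (Real.rpow_le_rpow hm0 hmB (by linarith)) (Real.rpow_nonneg hm0 _)
          (Real.rpow_nonneg hA _)
  have h4 : R * m ≤ R * (A ^ s * B ^ (1 - s)) := mul_le_mul_of_nonneg_left h3 hR0
  have hRm0 : 0 ≤ R * m := mul_nonneg hR0 hm0
  have hRm1 : R * m ≤ 1 := mul_le_one₀ hR1 hm0 (hmA.trans hA1)
  calc (Real.exp 1)⁻¹ * (R * max A B) = R * m := by rw [hm]; field_simp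
    _ = (R * m) ^ (1 : ℝ) := (Real.rpow_one _).symm
    _ ≤ (R * m) ^ (1 - ε) := Real.rpow_le_rpow_of_exponent_ge' hRm0 hRm1 (by linarith) (by linarith)
    _ ≤ _ := Real.rpow_le_rpow hRm0 h4 (by linarith)

lemma W_swap (R A B : CN N → ℝ) (ε s : ℝ) (z : CN N) :
    W R A B ε s z = W R B A ε (1 - s) z := by
  unfold W
  rw [sub_sub_cancel, mul_comm (A z ^ s)]

lemma aemeas_ite {r : ℝ} {R A B : CN N → ℝ} {MR MA MB : ℝ} (dR : Data (ball 0 r) R MR)
    (dA : Data (ball 0 r) A MA) (dB : Data (ball 0 r) B MB) (ε s : ℝ) {r' : ℝ} (hr' : r' ≤ r) :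
    AEMeasurable (fun z => if Real.exp 1 * A z < B z then W R A B ε s z else 0)
      (volume.restrict (ball 0 r')) := by
  have h1 : AEMeasurable (fun z => (R z, A z, B z)) (volume.restrict (ball 0 r')) :=
    ((dR.aemeas.prodMk (dA.aemeas.prodMk dB.aemeas))).mono_set (ball_subset_ball hr')
  have h2 : Measurable (fun p : ℝ × ℝ × ℝ => if Real.exp 1 * p.2.1 < p.2.2 then
      (ENNReal.ofReal ((p.1 * (p.2.1 ^ s * p.2.2 ^ (1 - s))) ^ (1 - ε)))⁻¹ else 0) := by
    refine Measurable.ite (measurableSet_lt ?_ ?_) ?_ measurable_const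
    · fun_prop
    · fun_prop
    · fun_prop
  exact h2.comp_aemeasurable h1

/-- normalised Sum Theorem for two functions -/
theorem sum_norm {r : ℝ} (hr : 0 < r) (hsol : Solver N (ball 0 r)) {ε : ℝ} (hε : 0 < ε)
    (hε1 : ε < 1 / 2) {R A B : CN N → ℝ} (dR : Data (ball 0 r) R 0)
    (dA : Data (ball 0 r) A (-Real.log 2)) (dB : Data (ball 0 r) B (-Real.log 2))
    (hint : ∫⁻ z in ball 0 r, W1 R A B z < ⊤) :
    ∃ s : ℝ, 0 ≤ s ∧ s ≤ 1 ∧ ∃ r' : ℝ, 0 < r' ∧ r' ≤ r ∧
      ∫⁻ z in ball 0 r', W R A B (2 * ε) s z < ⊤ := by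
  classical
  obtain ⟨r', hr'0, hr'r, hdi⟩ := dichotomy hr hsol hε (by linarith) dR dA dB hint
  have hsub : ball (0 : CN N) r' ⊆ ball 0 r := ball_subset_ball hr'r
  have hlog2 : 0 < Real.log 2 := Real.log_pos (by norm_num)
  have hem : Real.exp (-Real.log 2) ≤ 1 := by rw [Real.exp_le_one_iff]; linarith
  set P : ℝ → Prop := fun s =>
    ∫⁻ z in ball 0 r', (if Real.exp 1 * A z < B z then W R A B ε s z else 0) < ⊤ with hP
  set Q : ℝ → Prop := fun s =>
    ∫⁻ z in ball 0 r', (if Real.exp 1 * B z < A z then W R A B ε s z else 0) < ⊤ with hQ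
  have hR0 : ∀ z ∈ ball (0 : CN N) r, 0 ≤ R z := fun z hz => dR.nonneg hz
  have hA0 : ∀ z ∈ ball (0 : CN N) r, 0 ≤ A z := fun z hz => dA.nonneg hz
  have hB0 : ∀ z ∈ ball (0 : CN N) r, 0 ≤ B z := fun z hz => dB.nonneg hz
  have hR1 : ∀ z ∈ ball (0 : CN N) r, R z ≤ 1 := fun z hz => by simpa using dR.le_one hz
  have hA1 : ∀ z ∈ ball (0 : CN N) r, A z ≤ 1 := fun z hz => (dA.le_one hz).trans hem
  have hB1 : ∀ z ∈ ball (0 : CN N) r, B z ≤ 1 := fun z hz => (dB.le_one hz).trans hem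
  have he : 0 < Real.exp 1 := Real.exp_pos 1
  have he1 : (1 : ℝ) ≤ Real.exp 1 := Real.one_le_exp (by norm_num)
  -- end points
  have hP0 : P 0 := by
    refine lt_of_le_of_lt ?_ (lt_of_le_of_lt (lintegral_mono_set hsub) hint)
    refine setLIntegral_mono' measurableSet_ball fun z hz => ?_
    have hz' := hsub hz
    split_ifs with h
    · have hBpos : 0 < B z := lt_of_le_of_lt (mul_nonneg he.le (hA0 z hz')) h
      have hAB : A z ≤ B z := by nlinarith [hA0 z hz']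
      unfold W W1
      apply ENNReal.inv_le_inv.2
      apply ENNReal.ofReal_le_ofReal
      rw [max_eq_right hAB, Real.rpow_zero, one_mul, sub_zero, Real.rpow_one]
      have hx0 : 0 ≤ R z * B z := mul_nonneg (hR0 z hz') hBpos.le
      have hx1 : R z * B z ≤ 1 := mul_le_one₀ (hR1 z hz') hBpos.le (hB1 z hz')
      calc R z * B z = (R z * B z) ^ (1 : ℝ) := (Real.rpow_one _).symm
        _ ≤ _ := Real.rpow_le_rpow_of_exponent_ge' hx0 hx1 (by linarith) (by linarith)
    · exact zero_le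
  have hQ1 : Q 1 := by
    refine lt_of_le_of_lt ?_ (lt_of_le_of_lt (lintegral_mono_set hsub) hint)
    refine setLIntegral_mono' measurableSet_ball fun z hz => ?_
    have hz' := hsub hz
    split_ifs with h
    · have hApos : 0 < A z := lt_of_le_of_lt (mul_nonneg he.le (hB0 z hz')) h
      have hAB : B z ≤ A z := by nlinarith [hB0 z hz']
      unfold W W1
      apply ENNReal.inv_le_inv.2
      apply ENNReal.ofReal_le_ofReal
      rw [max_eq_left hAB, sub_self, Real.rpow_zero, mul_one, Real.rpow_one]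
      have hx0 : 0 ≤ R z * A z := mul_nonneg (hR0 z hz') hApos.le
      have hx1 : R z * A z ≤ 1 := mul_le_one₀ (hR1 z hz') hApos.le (hA1 z hz')
      calc R z * A z = (R z * A z) ^ (1 : ℝ) := (Real.rpow_one _).symm
        _ ≤ _ := Real.rpow_le_rpow_of_exponent_ge' hx0 hx1 (by linarith) (by linarith)
    · exact zero_le
  -- the supremum
  set T : Set ℝ := {s | s ∈ Icc (0 : ℝ) 1 ∧ P s} with hT
  have h0T : (0 : ℝ) ∈ T := ⟨⟨le_rfl, zero_le_one⟩, hP0⟩
  have hTb : BddAbove T := ⟨1, fun s hs => hs.1.2⟩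
  set t : ℝ := sSup T with ht
  have ht0 : 0 ≤ t := le_csSup hTb h0T
  have ht1 : t ≤ 1 := csSup_le ⟨0, h0T⟩ fun s hs => hs.1.2
  set κ : ℝ := (1 - 2 * ε) / (1 - ε) with hκ
  have hκ0 : 0 < κ := div_pos (by linarith) (by linarith)
  have hκ1 : κ < 1 := (div_lt_one (by linarith)).2 (by linarith)
  obtain ⟨s1, hs1T, hs1⟩ : ∃ s1 ∈ T, t * κ ≤ s1 := by
    rcases eq_or_lt_of_le ht0 with h | h
    · exact ⟨0, h0T, by rw [← h]; simp⟩
    · obtain ⟨s1, hs1, hlt⟩ := exists_lt_of_lt_csSup ⟨0, h0T⟩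
        (show t * κ < sSup T by rw [← ht]; nlinarith)
      exact ⟨s1, hs1, hlt.le⟩
  obtain ⟨s2, hs20, hs21, hQ2, hs2⟩ : ∃ s2 : ℝ, 0 ≤ s2 ∧ s2 ≤ 1 ∧ Q s2 ∧
      (1 - t) * κ ≤ 1 - s2 := by
    rcases eq_or_lt_of_le ht1 with h | h
    · exact ⟨1, by norm_num, le_rfl, hQ1, by rw [h]; simp⟩
    · refine ⟨1 - (1 - t) * κ, ?_, ?_, ?_, by linarith⟩
      · nlinarith
      · nlinarith [mul_nonneg (sub_nonneg.2 ht1) hκ0.le]
      · have hgt : t < 1 - (1 - t) * κ := by nlinarith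
        have hnT : 1 - (1 - t) * κ ∉ T := fun hmem => absurd (le_csSup hTb hmem) (not_le.2 hgt)
        have h0' : 0 ≤ 1 - (1 - t) * κ := by linarith
        have h1' : 1 - (1 - t) * κ ≤ 1 := by
          nlinarith [mul_nonneg (sub_nonneg.2 ht1) hκ0.le]
        rcases hdi _ h0' h1' with h2 | h2
        · exact absurd ⟨⟨h0', h1'⟩, h2⟩ hnT
        · exact h2
  refine ⟨t, ht0, ht1, r', hr'0, hr'r, ?_⟩
  have hc1 : t * (1 - 2 * ε) ≤ s1 * (1 - ε) := by
    have h := mul_le_mul_of_nonneg_right hs1 (show 0 ≤ 1 - ε by linarith)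
    have h2 : t * κ * (1 - ε) = t * (1 - 2 * ε) := by
      rw [hκ]; field_simp [show (1 - ε : ℝ) ≠ 0 by linarith]
    linarith
  have hc2 : (1 - t) * (1 - 2 * ε) ≤ (1 - s2) * (1 - ε) := by
    have h := mul_le_mul_of_nonneg_right hs2 (show 0 ≤ 1 - ε by linarith)
    have h2 : (1 - t) * κ * (1 - ε) = (1 - t) * (1 - 2 * ε) := by
      rw [hκ]; field_simp [show (1 - ε : ℝ) ≠ 0 by linarith]
    linarith
  -- pointwise bound
  have hpt : ∀ z ∈ ball (0 : CN N) r', W R A B (2 * ε) t z ≤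
      (if Real.exp 1 * A z < B z then W R A B ε s1 z else 0) +
      ((if Real.exp 1 * B z < A z then W R B A ε (1 - s2) z else 0) +
        ENNReal.ofReal (Real.exp 1) * W1 R A B z) := by
    intro z hz
    have hz' := hsub hz
    by_cases h1 : Real.exp 1 * A z < B z
    · rw [if_pos h1]
      refine le_trans ?_ le_self_add
      have hBpos : 0 < B z := lt_of_le_of_lt (mul_nonneg he.le (hA0 z hz')) h1
      have hAB : A z ≤ B z := by nlinarith [hA0 z hz']
      unfold W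
      apply ENNReal.inv_le_inv.2
      apply ENNReal.ofReal_le_ofReal
      exact cmp_left (hR0 z hz') (hR1 z hz') (hA0 z hz') hAB hBpos (hB1 z hz') hε hε1 ht0 hc1
    · rw [if_neg h1, zero_add]
      by_cases h2 : Real.exp 1 * B z < A z
      · rw [if_pos h2]
        refine le_trans ?_ le_self_add
        have hApos : 0 < A z := lt_of_le_of_lt (mul_nonneg he.le (hB0 z hz')) h2
        have hAB : B z ≤ A z := by nlinarith [hB0 z hz']
        rw [W_swap]
        unfold W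
        apply ENNReal.inv_le_inv.2
        apply ENNReal.ofReal_le_ofReal
        exact cmp_left (hR0 z hz') (hR1 z hz') (hB0 z hz') hAB hApos (hA1 z hz') hε hε1
          (by linarith) hc2
      · rw [if_neg h2, zero_add]
        unfold W W1
        rw [← inv_inv (ENNReal.ofReal (Real.exp 1)),
          ← ENNReal.mul_inv (Or.inr ?_) (Or.inl ?_), ← ENNReal.ofReal_inv_of_pos he,
          ← ENNReal.ofReal_mul (by positivity)]
        · apply ENNReal.inv_le_inv.2
          apply ENNReal.ofReal_le_ofReal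
          exact cmp_mid (hR0 z hz') (hR1 z hz') (hA0 z hz') (hB0 z hz') (hA1 z hz')
            (not_lt.1 h1) (not_lt.1 h2) (by linarith) (by linarith) ht0 ht1
        · exact ENNReal.ofReal_ne_top
        · simp [he]
  have hm1 := aemeas_ite dR dA dB ε s1 hr'r
  have hm2 := aemeas_ite dR dB dA ε (1 - s2) hr'r
  have hswap : ∫⁻ z in ball 0 r', (if Real.exp 1 * B z < A z then W R B A ε (1 - s2) z else 0) < ⊤ := by
    refine lt_of_le_of_lt (le_of_eq ?_) hQ2
    refine lintegral_congr fun z => ?_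
    rw [← W_swap]
  calc ∫⁻ z in ball 0 r', W R A B (2 * ε) t z ≤ ∫⁻ z in ball 0 r',
      ((if Real.exp 1 * A z < B z then W R A B ε s1 z else 0) +
      ((if Real.exp 1 * B z < A z then W R B A ε (1 - s2) z else 0) +
        ENNReal.ofReal (Real.exp 1) * W1 R A B z)) := setLIntegral_mono' measurableSet_ball hpt
    _ = (∫⁻ z in ball 0 r', (if Real.exp 1 * A z < B z then W R A B ε s1 z else 0)) +
        ((∫⁻ z in ball 0 r', (if Real.exp 1 * B z < A z then W R B A ε (1 - s2) z else 0)) +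
          ENNReal.ofReal (Real.exp 1) * ∫⁻ z in ball 0 r', W1 R A B z) := by
        rw [lintegral_add_left' hm1, lintegral_add_left' hm2,
          lintegral_const_mul' _ _ ENNReal.ofReal_ne_top]
    _ < ⊤ := by
        refine ENNReal.add_lt_top.2 ⟨hs1T.2, ENNReal.add_lt_top.2 ⟨hswap, ?_⟩⟩
        exact ENNReal.mul_lt_top ENNReal.ofReal_lt_top
          (lt_of_le_of_lt (lintegral_mono_set hsub) hint)

end Crest.Agent.R271.Sum186
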