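import Crest.Agent.R271.Sum6_186

/-!
Row 271 (S0413), local theory: the Sum Theorem for finitely many functions (Blueprint_710, 2.3).
-/

open MeasureTheory Set Filter Topology Metric
open scoped ContDiff ENNReal Real

noncomputable section

namespace Crest.Agent.R271.Sum186

variable {N : ℕ}

/-- lowering the exponent -/
lemma inv_rpow_le {x p q : ℝ} (hx : 0 ≤ x) (hp : 0 ≤ p) (hpq : p ≤ q) :
    (ENNReal.ofReal (x ^ p))⁻¹ ≤ (ENNReal.ofReal (x ^ q))⁻¹ + 1 := by
  rcases le_total x 1 with h | h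
  · refine le_trans ?_ le_self_add
    apply ENNReal.inv_le_inv.2
    apply ENNReal.ofReal_le_ofReal
    exact Real.rpow_le_rpow_of_exponent_ge' hx h hp hpq
  · refine le_trans ?_ le_add_self
    apply ENNReal.inv_le_one.2
    rw [ENNReal.one_le_ofReal]
    exact Real.one_le_rpow h hp

lemma lint_lower {r : ℝ} {X : CN N → ℝ} (hX : ∀ z ∈ ball (0 : CN N) r, 0 ≤ X z) {p q : ℝ}
    (hp : 0 ≤ p) (hpq : p ≤ q)
    (h : ∫⁻ z in ball 0 r, (ENNReal.ofReal (X z ^ q))⁻¹ < ⊤) :
    ∫⁻ z in ball 0 r, (ENNReal.ofReal (X z ^ p))⁻¹ < ⊤ := by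
  calc ∫⁻ z in ball 0 r, (ENNReal.ofReal (X z ^ p))⁻¹ ≤
      ∫⁻ z in ball 0 r, ((ENNReal.ofReal (X z ^ q))⁻¹ + 1) :=
        setLIntegral_mono' measurableSet_ball fun z hz => inv_rpow_le (hX z hz) hp hpq
    _ = (∫⁻ z in ball 0 r, (ENNReal.ofReal (X z ^ q))⁻¹) + volume (ball (0 : CN N) r) := by
        rw [lintegral_add_right _ measurable_const, setLIntegral_const, one_mul]
    _ < ⊤ := ENNReal.add_lt_top.2 ⟨h, measure_ball_lt_top⟩

/-- scaled data -/
lemma exists_data {r0 : ℝ} (hr0 : 0 < r0) {R : CN N → ℝ} (hR : LogPsh (ball 0 r0) R) :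
    ∃ (M : ℝ), ∃ r1 : ℝ, 0 < r1 ∧ r1 ≤ r0 ∧ Nonempty (Data (ball 0 r1) R M) := by
  obtain ⟨φ, h1, h2, h3⟩ := hR
  have h0 : (0 : CN N) ∈ ball (0 : CN N) r0 := mem_ball_self hr0
  have hc : ContinuousAt (φ 0) 0 :=
    (h1 0).smooth.continuousOn.continuousAt (isOpen_ball.mem_nhds h0)
  have hev : ∀ᶠ z in 𝓝 (0 : CN N), φ 0 z < φ 0 0 + 1 :=
    hc.eventually (gt_mem_nhds (by linarith))
  obtain ⟨r1, hr1, hr1'⟩ := Metric.eventually_nhds_iff_ball.1 hev
  refine ⟨φ 0 0 + 1, min r1 r0, lt_min hr1 hr0, min_le_right _ _, ⟨⟨φ, ?_, ?_, ?_, ?_⟩⟩⟩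
  · exact fun k => (h1 k).mono (ball_subset_ball (min_le_right _ _))
  · exact fun z hz => h2 z (ball_subset_ball (min_le_right _ _) hz)
  · exact fun z hz => h3 z (ball_subset_ball (min_le_right _ _) hz)
  · intro k z hz
    have := h2 z (ball_subset_ball (min_le_right _ _) hz) (Nat.zero_le k)
    exact this.trans (hr1' z (ball_subset_ball (min_le_left _ _) hz)).le

/-- restrict data to a smaller ball, relax the bound -/
def Data.restr {D D' : Set (CN N)} {R : CN N → ℝ} {M M' : ℝ} (d : Data D R M) (hD : D' ⊆ D)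
    (hM : M ≤ M') : Data D' R M' where
  φ := d.φ
  psm k := (d.psm k).mono hD
  anti z hz := d.anti z (hD hz)
  lim z hz := d.lim z (hD hz)
  le k z hz := (d.le k z (hD hz)).trans hM

/-- multiply by `e^m` -/
def Data.shift {r : ℝ} {R : CN N → ℝ} {M : ℝ} (d : Data (ball 0 r) R M) (m : ℝ) :
    Data (ball 0 r) (fun z => R z * Real.exp m) (M + m) where
  φ k z := d.φ k z + m
  psm k := (d.psm k).add isOpen_ball (Psm.const _ m)
  anti z hz _ _ hij := by
    have := d.anti z hz hij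
    simp only
    linarith
  lim z hz := by
    simp only [Real.exp_add]
    exact (d.lim z hz).mul_const _
  le k z hz := by
    have := d.le k z hz
    linarith

theorem sum_two (hsol : ∀ r : ℝ, 0 < r → Solver N (ball 0 r)) {r0 : ℝ} (hr0 : 0 < r0)
    {R A B : CN N → ℝ} (hR : LogPsh (ball 0 r0) R) (hA : LogPsh (ball 0 r0) A)
    (hB : LogPsh (ball 0 r0) B)
    (hint : ∫⁻ z in ball 0 r0, W1 R A B z < ⊤) {ε : ℝ} (hε : 0 < ε) (hε1 : ε < 1) :
    ∃ s : ℝ, 0 ≤ s ∧ s ≤ 1 ∧ ∃ r' : ℝ, 0 < r' ∧ r' ≤ r0 ∧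
      ∫⁻ z in ball 0 r', W R A B ε s z < ⊤ := by
  obtain ⟨M1, r1, hr1, hr10, ⟨d1⟩⟩ := exists_data hr0 hR
  obtain ⟨M2, r2, hr2, hr20, ⟨d2⟩⟩ := exists_data hr0 hA
  obtain ⟨M3, r3, hr3, hr30, ⟨d3⟩⟩ := exists_data hr0 hB
  set r : ℝ := min r1 (min r2 r3) with hr
  have hr0' : 0 < r := lt_min hr1 (lt_min hr2 hr3)
  have hrr1 : r ≤ r1 := min_le_left _ _
  have hrr2 : r ≤ r2 := (min_le_right _ _).trans (min_le_left _ _)
  have hrr3 : r ≤ r3 := (min_le_right _ _).trans (min_le_right _ _)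
  set M : ℝ := max M1 (max M2 M3) with hM
  have hM1 : M1 ≤ M := le_max_left _ _
  have hM2 : M2 ≤ M := (le_max_left _ _).trans (le_max_right _ _)
  have hM3 : M3 ≤ M := (le_max_right _ _).trans (le_max_right _ _)
  set m : ℝ := -M - Real.log 2 with hm
  have hlog2 : 0 < Real.log 2 := Real.log_pos (by norm_num)
  have e1 := (d1.restr (ball_subset_ball hrr1) hM1).shift m
  have e2 := (d2.restr (ball_subset_ball hrr2) hM2).shift m
  have e3 := (d3.restr (ball_subset_ball hrr3) hM3).shift m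
  have hMm : M + m = - Real.log 2 := by rw [hm]; ring
  rw [hMm] at e1 e2 e3
  have e1' := e1.restr (M' := 0) subset_rfl (by linarith)
  set c : ℝ := Real.exp m with hc
  have hc0 : 0 < c := Real.exp_pos m
  have hsub : ball (0 : CN N) r ⊆ ball 0 r0 := ball_subset_ball (hrr1.trans hr10)
  have hnR : ∀ z ∈ ball (0 : CN N) r, 0 ≤ R z := fun z hz => hR.nonneg (hsub hz)
  have hnA : ∀ z ∈ ball (0 : CN N) r, 0 ≤ A z := fun z hz => hA.nonneg (hsub hz)
  have hnB : ∀ z ∈ ball (0 : CN N) r, 0 ≤ B z := fun z hz => hB.nonneg (hsub hz)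
  have hint' : ∫⁻ z in ball 0 r, W1 (fun z => R z * c) (fun z => A z * c) (fun z => B z * c) z
      < ⊤ := by
    have h1 : ∀ z ∈ ball (0 : CN N) r, W1 (fun z => R z * c) (fun z => A z * c)
        (fun z => B z * c) z ≤ ENNReal.ofReal (c * c)⁻¹ * W1 R A B z := by
      intro z hz
      unfold W1
      have h2 : R z * c * max (A z * c) (B z * c) = (c * c) * (R z * max (A z) (B z)) := by
        rw [← max_mul_of_nonneg _ _ hc0.le]; ring
      rw [h2, ENNReal.ofReal_mul (by positivity), ENNReal.mul_inv (Or.inr ENNReal.ofReal_ne_top)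
        (Or.inl ENNReal.ofReal_ne_top), ENNReal.ofReal_inv_of_pos (by positivity)]
    refine lt_of_le_of_lt (setLIntegral_mono' measurableSet_ball h1) ?_
    rw [lintegral_const_mul' _ _ ENNReal.ofReal_ne_top]
    exact ENNReal.mul_lt_top ENNReal.ofReal_lt_top
      (lt_of_le_of_lt (lintegral_mono_set hsub) hint)
  obtain ⟨s, hs0, hs1, r', hr'0, hr'r, hfin⟩ := sum_norm hr0' (hsol r hr0')
    (show 0 < ε / 2 by linarith) (by linarith) e1' e2 e3 hint'
  refine ⟨s, hs0, hs1, r', hr'0, hr'r.trans (hrr1.trans hr10), ?_⟩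
  have h2 : ∀ z ∈ ball (0 : CN N) r', W R A B ε s z ≤ ENNReal.ofReal ((c * c) ^ (1 - ε)) *
      W (fun z => R z * c) (fun z => A z * c) (fun z => B z * c) (2 * (ε / 2)) s z := by
    intro z hz
    have hz' := ball_subset_ball hr'r hz
    unfold W
    have e : (R z * c * ((A z * c) ^ s * (B z * c) ^ (1 - s))) ^ (1 - 2 * (ε / 2)) =
        (c * c) ^ (1 - ε) * (R z * (A z ^ s * B z ^ (1 - s))) ^ (1 - ε) := by
      rw [← Real.mul_rpow (by positivity) (mul_nonneg (hnR z hz')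
        (mul_nonneg (Real.rpow_nonneg (hnA z hz') _) (Real.rpow_nonneg (hnB z hz') _)))]
      rw [show 1 - 2 * (ε / 2) = 1 - ε by ring]
      congr 1
      rw [Real.mul_rpow (hnA z hz') hc0.le, Real.mul_rpow (hnB z hz') hc0.le]
      have : c ^ s * c ^ (1 - s) = c := by
        rw [← Real.rpow_add hc0]; simp
      calc R z * c * (A z ^ s * c ^ s * (B z ^ (1 - s) * c ^ (1 - s))) =
          (c * (c ^ s * c ^ (1 - s))) * (R z * (A z ^ s * B z ^ (1 - s))) := by ring
        _ = _ := by rw [this]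
    rw [e, ENNReal.ofReal_mul (by positivity), ENNReal.mul_inv (Or.inr ENNReal.ofReal_ne_top)
      (Or.inl ENNReal.ofReal_ne_top), ← mul_assoc (ENNReal.ofReal ((c * c) ^ (1 - ε))),
      ENNReal.mul_inv_cancel, one_mul]
    · simp only [ne_eq, ENNReal.ofReal_eq_zero, not_le]
      positivity
    · exact ENNReal.ofReal_ne_top
  refine lt_of_le_of_lt (setLIntegral_mono' measurableSet_ball h2) ?_
  rw [lintegral_const_mul' _ _ ENNReal.ofReal_ne_top]
  exact ENNReal.mul_lt_top ENNReal.ofReal_lt_top hfin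

/-- Sum Theorem, finitely many functions -/
theorem sum_fin (hsol : ∀ r : ℝ, 0 < r → Solver N (ball 0 r)) {ι : Type*} (S : Finset ι)
    (hS : S.Nonempty) :
    ∀ {r0 : ℝ} (_ : 0 < r0) {R : CN N → ℝ} {A : ι → CN N → ℝ} (_ : LogPsh (ball 0 r0) R)
    (_ : ∀ i ∈ S, LogPsh (ball 0 r0) (A i))
    (_ : ∫⁻ z in ball 0 r0, (ENNReal.ofReal (R z * ∑ i ∈ S, A i z))⁻¹ < ⊤)
    {ε : ℝ} (_ : 0 < ε) (_ : ε < 1),
    ∃ t : ι → ℝ, (∀ i, 0 ≤ t i) ∧ ∑ i ∈ S, t i = 1 ∧ ∃ r' : ℝ, 0 < r' ∧ r' ≤ r0 ∧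
      ∫⁻ z in ball 0 r', (ENNReal.ofReal ((R z * ∏ i ∈ S, A i z ^ t i) ^ (1 - ε)))⁻¹ < ⊤ := by
  classical
  induction hS using Finset.Nonempty.cons_induction with
  | singleton a =>
    intro r0 hr0 R A hR hA hint ε hε hε1
    refine ⟨fun _ => 1, fun _ => zero_le_one, by simp, r0, hr0, le_rfl, ?_⟩
    simp only [Finset.sum_singleton, Finset.prod_singleton, Real.rpow_one] at hint ⊢
    have hX : ∀ z ∈ ball (0 : CN N) r0, 0 ≤ R z * A a z := fun z hz =>
      mul_nonneg (hR.nonneg hz) ((hA a (by simp)).nonneg hz)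
    refine lint_lower hX (by linarith) (show 1 - ε ≤ 1 by linarith) ?_
    simpa using hint
  | cons a S ha hS ih =>
    intro r0 hr0 R A hR hA hint ε hε hε1
    have hAa : LogPsh (ball 0 r0) (A a) := hA a (by simp)
    have hAi : ∀ i ∈ S, LogPsh (ball 0 r0) (A i) := fun i hi => hA i (by simp [hi])
    have hA' : LogPsh (ball 0 r0) (fun z => ∑ i ∈ S, A i z) := LogPsh.sum isOpen_ball S hS hAi
    -- hypothesis of `sum_two`
    have hint1 : ∫⁻ z in ball 0 r0, W1 R (A a) (fun z => ∑ i ∈ S, A i z) z < ⊤ := by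
      have h1 : ∀ z ∈ ball (0 : CN N) r0, W1 R (A a) (fun z => ∑ i ∈ S, A i z) z ≤
          2 * (ENNReal.ofReal (R z * ∑ i ∈ Finset.cons a S ha, A i z))⁻¹ := by
        intro z hz
        unfold W1
        have h2 : (2 : ℝ≥0∞) = (ENNReal.ofReal (1 / 2))⁻¹ := by
          rw [← ENNReal.ofReal_inv_of_pos (by norm_num)]; norm_num
        rw [h2, ← ENNReal.mul_inv (Or.inr ENNReal.ofReal_ne_top) (Or.inl ENNReal.ofReal_ne_top),
          ← ENNReal.ofReal_mul (by norm_num)]
        apply ENNReal.inv_le_inv.2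
        apply ENNReal.ofReal_le_ofReal
        rw [Finset.sum_cons]
        have h3 := le_max_left (A a z) (∑ i ∈ S, A i z)
        have h4 := le_max_right (A a z) (∑ i ∈ S, A i z)
        have h5 := hR.nonneg hz
        nlinarith
      refine lt_of_le_of_lt (setLIntegral_mono' measurableSet_ball h1) ?_
      rw [lintegral_const_mul' _ _ (by norm_num)]
      exact ENNReal.mul_lt_top (by norm_num) hint
    set ε1 : ℝ := ε / 2 with hε1'
    have hε10 : 0 < ε1 := by linarith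
    have hε11 : ε1 < 1 := by linarith
    obtain ⟨s, hs0, hs1, r1, hr1, hr10, h1⟩ := sum_two hsol hr0 hR hAa hA' hint1 hε10 hε11
    set c : ℝ := (1 - s) * (1 - ε1) with hc
    have hc0 : 0 ≤ c := mul_nonneg (by linarith) (by linarith)
    have hsub1 : ball (0 : CN N) r1 ⊆ ball 0 r0 := ball_subset_ball hr10
    have hR' : LogPsh (ball 0 r1) (fun z => (R z * A a z ^ s) ^ (1 - ε1)) :=
      (((hR.mono hsub1).mul isOpen_ball ((hAa.mono hsub1).rpow isOpen_ball hs0)).rpow
        isOpen_ball (by linarith))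
    have hAi' : ∀ i ∈ S, LogPsh (ball 0 r1) (fun z => A i z ^ c) := fun i hi =>
      ((hAi i hi).mono hsub1).rpow isOpen_ball hc0
    -- hypothesis of the induction hypothesis
    have hint2 : ∫⁻ z in ball 0 r1, (ENNReal.ofReal ((R z * A a z ^ s) ^ (1 - ε1) *
        ∑ i ∈ S, A i z ^ c))⁻¹ < ⊤ := by
      have hcard : (0 : ℝ) < (S.card : ℝ) := by
        exact_mod_cast hS.card_pos
      have h2 : ∀ z ∈ ball (0 : CN N) r1, (ENNReal.ofReal ((R z * A a z ^ s) ^ (1 - ε1) *
          ∑ i ∈ S, A i z ^ c))⁻¹ ≤ ENNReal.ofReal ((S.card : ℝ) ^ c) *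
            W R (A a) (fun z => ∑ i ∈ S, A i z) ε1 s z := by
        intro z hz
        have hz' := hsub1 hz
        have hnR := hR.nonneg hz'
        have hna := hAa.nonneg hz'
        have hnS : 0 ≤ ∑ i ∈ S, A i z := hA'.nonneg hz'
        have hni : ∀ i ∈ S, 0 ≤ A i z := fun i hi => (hAi i hi).nonneg hz'
        unfold W
        have e1 : (R z * (A a z ^ s * (∑ i ∈ S, A i z) ^ (1 - s))) ^ (1 - ε1) =
            (R z * A a z ^ s) ^ (1 - ε1) * (∑ i ∈ S, A i z) ^ c := by
          rw [← mul_assoc, Real.mul_rpow (mul_nonneg hnR (Real.rpow_nonneg hna _))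
            (Real.rpow_nonneg hnS _), ← Real.rpow_mul hnS]
        have e2 : (∑ i ∈ S, A i z) ^ c ≤ (S.card : ℝ) ^ c * ∑ i ∈ S, A i z ^ c := by
          obtain ⟨j, hj, hmax⟩ := Finset.exists_max_image S (fun i => A i z) hS
          have h3 : ∑ i ∈ S, A i z ≤ S.card * A j z := by
            calc ∑ i ∈ S, A i z ≤ ∑ _i ∈ S, A j z := Finset.sum_le_sum fun i hi => hmax i hi
              _ = S.card * A j z := by simp
          calc (∑ i ∈ S, A i z) ^ c ≤ (S.card * A j z) ^ c := Real.rpow_le_rpow hnS h3 hc0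
            _ = (S.card : ℝ) ^ c * A j z ^ c := Real.mul_rpow hcard.le (hni j hj)
            _ ≤ _ := by
                refine mul_le_mul_of_nonneg_left ?_ (Real.rpow_nonneg hcard.le _)
                exact Finset.single_le_sum (f := fun i => A i z ^ c)
                  (fun i hi => Real.rpow_nonneg (hni i hi) _) hj
        have hcc : 0 < (S.card : ℝ) ^ c := Real.rpow_pos_of_pos hcard c
        rw [e1, ← inv_inv (ENNReal.ofReal ((S.card : ℝ) ^ c)),
          ← ENNReal.mul_inv (Or.inr ENNReal.ofReal_ne_top) (Or.inl (by simp [hcc])),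
          ← ENNReal.ofReal_inv_of_pos hcc, ← ENNReal.ofReal_mul (by positivity)]
        apply ENNReal.inv_le_inv.2
        apply ENNReal.ofReal_le_ofReal
        have h4 : 0 ≤ (R z * A a z ^ s) ^ (1 - ε1) :=
          Real.rpow_nonneg (mul_nonneg hnR (Real.rpow_nonneg hna _)) _
        calc ((S.card : ℝ) ^ c)⁻¹ * ((R z * A a z ^ s) ^ (1 - ε1) * (∑ i ∈ S, A i z) ^ c)
            ≤ ((S.card : ℝ) ^ c)⁻¹ * ((R z * A a z ^ s) ^ (1 - ε1) *
              ((S.card : ℝ) ^ c * ∑ i ∈ S, A i z ^ c)) := by gcongr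
          _ = _ := by field_simp
      refine lt_of_le_of_lt (setLIntegral_mono' measurableSet_ball h2) ?_
      rw [lintegral_const_mul' _ _ ENNReal.ofReal_ne_top]
      exact ENNReal.mul_lt_top ENNReal.ofReal_lt_top h1
    obtain ⟨t, ht0, ht1, r', hr'0, hr'r, h3⟩ := ih hr1 hR' hAi' hint2 hε10 hε11
    refine ⟨fun i => if i = a then s else (1 - s) * t i, fun i => ?_, ?_, r', hr'0,
      hr'r.trans hr10, ?_⟩
    · simp only
      split_ifs
      · exact hs0
      · exact mul_nonneg (by linarith) (ht0 i)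
    · rw [Finset.sum_cons, if_pos rfl]
      have : ∑ i ∈ S, (if i = a then s else (1 - s) * t i) = ∑ i ∈ S, (1 - s) * t i := by
        refine Finset.sum_congr rfl fun i hi => if_neg ?_
        rintro rfl
        exact ha hi
      rw [this, ← Finset.mul_sum, ht1]
      ring
    · have hsub : ball (0 : CN N) r' ⊆ ball 0 r0 := ball_subset_ball (hr'r.trans hr10)
      have hprod : ∀ z, ∏ i ∈ Finset.cons a S ha, A i z ^ (if i = a then s else (1 - s) * t i) =
          A a z ^ s * ∏ i ∈ S, A i z ^ ((1 - s) * t i) := by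
        intro z
        rw [Finset.prod_cons, if_pos rfl]
        congr 1
        refine Finset.prod_congr rfl fun i hi => ?_
        rw [if_neg]
        rintro rfl
        exact ha hi
      simp only [hprod]
      have hX : ∀ z ∈ ball (0 : CN N) r',
          0 ≤ R z * (A a z ^ s * ∏ i ∈ S, A i z ^ ((1 - s) * t i)) := by
        intro z hz
        have hz' := hsub hz
        exact mul_nonneg (hR.nonneg hz') (mul_nonneg (Real.rpow_nonneg (hAa.nonneg hz') _)
          (Finset.prod_nonneg fun i hi => Real.rpow_nonneg ((hAi i hi).nonneg hz') _))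
      refine lint_lower hX (by linarith) (show 1 - ε ≤ (1 - ε1) * (1 - ε1) by
        rw [hε1']; nlinarith) ?_
      refine lt_of_le_of_lt (le_of_eq ?_) h3
      refine setLIntegral_congr_fun measurableSet_ball fun z hz => ?_
      have hz' := hsub hz
      have hnR := hR.nonneg hz'
      have hna := hAa.nonneg hz'
      have hni : ∀ i ∈ S, 0 ≤ A i z := fun i hi => (hAi i hi).nonneg hz'
      have hP : 0 ≤ ∏ i ∈ S, A i z ^ ((1 - s) * t i) :=
        Finset.prod_nonneg fun i hi => Real.rpow_nonneg (hni i hi) _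
      congr 2
      have e1 : ∏ i ∈ S, (A i z ^ c) ^ t i = (∏ i ∈ S, A i z ^ ((1 - s) * t i)) ^ (1 - ε1) := by
        rw [← Real.finsetProd_rpow _ _ fun i hi => Real.rpow_nonneg (hni i hi) _]
        refine Finset.prod_congr rfl fun i hi => ?_
        rw [← Real.rpow_mul (hni i hi), ← Real.rpow_mul (hni i hi), hc]
        congr 1
        ring
      rw [e1, ← mul_assoc, ← Real.mul_rpow (mul_nonneg hnR (Real.rpow_nonneg hna _)) hP,
        ← Real.rpow_mul (mul_nonneg (mul_nonneg hnR (Real.rpow_nonneg hna _)) hP)]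

end Crest.Agent.R271.Sum186
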