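import Crest.Agent.R271.Sum7_186
import Crest.Agent.R271.Defs_710

/-!
Row 271 (S0413), local theory: `SumThm` of `Defs_710` from the `L²` solver on balls.
-/

open MeasureTheory Set Filter Topology Metric
open scoped ContDiff ENNReal Real

noncomputable section

namespace Crest.Agent.R271.Sum186

open Crest.Agent.R271.Defs710

lemma inv_ofReal_rpow {x p : ℝ} (hx : 0 ≤ x) (hp : 0 ≤ p) :
    (ENNReal.ofReal (x ^ p))⁻¹ = ENNReal.ofReal x ^ (-p) := by
  rw [ENNReal.rpow_neg, ENNReal.ofReal_rpow_of_nonneg hx hp]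

lemma inv_ofReal_mul {x y : ℝ} (hx : 0 ≤ x) :
    (ENNReal.ofReal (x * y))⁻¹ = (ENNReal.ofReal x)⁻¹ * (ENNReal.ofReal y)⁻¹ := by
  rw [ENNReal.ofReal_mul hx, ENNReal.mul_inv (Or.inr ENNReal.ofReal_ne_top)
    (Or.inl ENNReal.ofReal_ne_top)]

lemma inv_ofReal_prod {ι : Type*} (S : Finset ι) {x p : ι → ℝ} (hx : ∀ i ∈ S, 0 ≤ x i)
    (hp : ∀ i ∈ S, 0 ≤ p i) :
    (ENNReal.ofReal (∏ i ∈ S, x i ^ p i))⁻¹ = ∏ i ∈ S, ENNReal.ofReal (x i) ^ (-(p i)) := by
  classical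
  induction S using Finset.induction_on with
  | empty => simp
  | insert a S ha ih =>
    rw [Finset.prod_insert ha, Finset.prod_insert ha,
      inv_ofReal_mul (Real.rpow_nonneg (hx a (Finset.mem_insert_self a S)) _),
      inv_ofReal_rpow (hx a (Finset.mem_insert_self a S)) (hp a (Finset.mem_insert_self a S)),
      ih (fun i hi => hx i (Finset.mem_insert_of_mem hi))
        (fun i hi => hp i (Finset.mem_insert_of_mem hi))]

lemma sq_nonneg' {n : ℕ} {κ : Type} [Fintype κ] (h : κ → Cn n → ℂ) (ζ : Cn n) : 0 ≤ sq h ζ :=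
  Finset.sum_nonneg fun j _ => by positivity

lemma wInt_eq {n : ℕ} {ι : Type} [Fintype ι] {κ : ι → Type} [∀ i, Fintype (κ i)]
    (h : ∀ i, κ i → Cn n → ℂ) (c : ι → ℝ) (hc : ∀ i, 0 ≤ c i) (ζ : Cn n) :
    wInt h c ζ = (ENNReal.ofReal (∏ i, sq (h i) ζ ^ c i))⁻¹ := by
  rw [inv_ofReal_prod _ (fun i _ => sq_nonneg' (h i) ζ) (fun i _ => hc i)]
  rfl

/-- (AF4), from the solver -/
theorem sumThm (hsol : ∀ (N : ℕ) (r : ℝ), 0 < r → Solver N (ball 0 r)) : SumThm := by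
  classical
  intro N ι ι' _ _ _ κ _ κ' _ h g c θ hh hg hc hθ hint ε hε hε1
  obtain ⟨U, hU, hfin⟩ := hint
  have hev1 : ∀ᶠ z in 𝓝 (0 : CN N), ∀ i j, AnalyticAt ℂ (h i j) z :=
    eventually_all.2 fun i => eventually_all.2 fun j => (hh i j).eventually_analyticAt
  have hev2 : ∀ᶠ z in 𝓝 (0 : CN N), ∀ i j, AnalyticAt ℂ (g i j) z :=
    eventually_all.2 fun i => eventually_all.2 fun j => (hg i j).eventually_analyticAt
  obtain ⟨r0, hr0, hball⟩ := Metric.eventually_nhds_iff_ball.1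
    ((hev1.and hev2).and (Filter.eventually_of_mem hU fun _ h => h))
  set R : CN N → ℝ := fun z => ∏ i, sq (h i) z ^ c i with hR
  set A : ι' → CN N → ℝ := fun i z => sq (g i) z ^ θ i with hA
  have hRL : LogPsh (ball 0 r0) R := LogPsh.prod isOpen_ball _ fun i _ =>
    (LogPsh.sumsq fun j z hz => (hball z hz).1.1 i j).rpow isOpen_ball (hc i)
  have hAL : ∀ i ∈ (Finset.univ : Finset ι'), LogPsh (ball 0 r0) (A i) := fun i _ =>
    (LogPsh.sumsq fun j z hz => (hball z hz).1.2 i j).rpow isOpen_ball (hθ i)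
  have hR0 : ∀ z, 0 ≤ R z := fun z => Finset.prod_nonneg fun i _ =>
    Real.rpow_nonneg (sq_nonneg' (h i) z) _
  have hA0 : ∀ i z, 0 ≤ A i z := fun i z => Real.rpow_nonneg (sq_nonneg' (g i) z) _
  have hint' : ∫⁻ z in ball 0 r0, (ENNReal.ofReal (R z * ∑ i, A i z))⁻¹ < ⊤ := by
    refine lt_of_le_of_lt ?_ hfin
    refine le_trans (lintegral_mono fun z => ?_)
      (lintegral_mono_set (fun z hz => (hball z hz).2 : ball (0 : CN N) r0 ⊆ U))
    obtain ⟨j, hj⟩ := exists_eq_ciInf_of_finite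
      (f := fun i : ι' => (ENNReal.ofReal (sq (g i) z)) ^ (-(θ i)))
    simp only
    rw [← hj, wInt_eq h c hc z, ← inv_ofReal_rpow (sq_nonneg' (g j) z) (hθ j),
      ← inv_ofReal_mul (hR0 z)]
    apply ENNReal.inv_le_inv.2
    apply ENNReal.ofReal_le_ofReal
    refine mul_le_mul_of_nonneg_left ?_ (hR0 z)
    exact Finset.single_le_sum (f := fun i => A i z) (fun i _ => hA0 i z) (Finset.mem_univ j)
  obtain ⟨t, ht0, ht1, r', hr'0, _, h3⟩ := sum_fin (hsol N) Finset.univ Finset.univ_nonempty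
    hr0 hRL hAL hint' hε hε1
  refine ⟨t, ht0, ht1, ball 0 r', ball_mem_nhds _ hr'0, ?_⟩
  refine lt_of_le_of_lt (le_of_eq ?_) h3
  refine lintegral_congr fun z => ?_
  have hc' : ∀ i, 0 ≤ (1 - ε) * c i := fun i => mul_nonneg (by linarith) (hc i)
  have hθ' : ∀ i, 0 ≤ (1 - ε) * (t i * θ i) := fun i =>
    mul_nonneg (by linarith) (mul_nonneg (ht0 i) (hθ i))
  rw [wInt_eq h _ hc', wInt_eq g _ hθ', ← inv_ofReal_mul (Finset.prod_nonneg fun i _ =>
    Real.rpow_nonneg (sq_nonneg' (h i) z) _)]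
  congr 2
  have hP : 0 ≤ ∏ i, A i z ^ t i := Finset.prod_nonneg fun i _ => Real.rpow_nonneg (hA0 i z) _
  rw [Real.mul_rpow (hR0 z) hP, hR, hA]
  simp only
  rw [← Real.finsetProd_rpow _ _ fun i _ => Real.rpow_nonneg (sq_nonneg' (h i) z) _,
    ← Real.finsetProd_rpow _ _ fun i _ =>
      Real.rpow_nonneg (Real.rpow_nonneg (sq_nonneg' (g i) z) _) _]
  congr 1
  · refine Finset.prod_congr rfl fun i _ => ?_
    rw [← Real.rpow_mul (sq_nonneg' (h i) z), mul_comm]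
  · refine Finset.prod_congr rfl fun i _ => ?_
    rw [← Real.rpow_mul (sq_nonneg' (g i) z), ← Real.rpow_mul (sq_nonneg' (g i) z)]
    congr 1
    ring

end Crest.Agent.R271.Sum186
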