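import Crest.Agent.R271.H4_51

/-!
# Row 271, analytic engine (H), piece T2 (backup): basic identity, three-weight inequality
(helper868)
-/

set_option autoImplicit false
set_option linter.unusedSectionVars false

noncomputable section

open Set Filter Topology MeasureTheory ComplexConjugate
open Crest.Agent.R271.Ho51

namespace Crest.Agent.R271.H868

variable {n : ℕ} {M : Type*} [TopologicalSpace M] [RDom n M]

variable [T2Space M] [MeasurableSpace M] [BorelSpace M] {μ : Measure M}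

lemma hcs_dz {f : M → ℂ} (hc : HasCompactSupport f) (j : Fin n) : HasCompactSupport (dz j f) :=
  (hasCompactSupport_D hc).comp_left (g := wz j) (by simp [wz])

lemma hcs_db {f : M → ℂ} (hc : HasCompactSupport f) (j : Fin n) : HasCompactSupport (db j f) :=
  (hasCompactSupport_D hc).comp_left (g := wb j) (by simp [wb])

/-- the complex weight `e^{-φ}` -/
def E (φ : M → ℝ) (x : M) : ℂ := ((Real.exp (-(φ x)) : ℝ) : ℂ)

lemma Sm_E {φ : M → ℝ} (hφ : Sm φ) : Sm (E φ) :=
  Sm.ofReal (Sm.comp (g := fun t : ℝ => Real.exp (-t)) (Real.contDiff_exp.comp contDiff_neg) hφ)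

lemma dz_E {φ : M → ℝ} (hφ : Sm φ) (j : Fin n) (x : M) :
    dz j (E φ) x = - dz j (fun y => (φ y : ℂ)) x * E φ x := by
  have h1 : Sm (fun x => Real.exp (-(φ x))) :=
    Sm.comp (g := fun t : ℝ => Real.exp (-t)) (Real.contDiff_exp.comp contDiff_neg) hφ
  have h2 : HasDerivAt (fun t : ℝ => Real.exp (-t)) (-Real.exp (-(φ x))) (φ x) := by
    have := (Real.hasDerivAt_exp (-(φ x))).comp (φ x) (hasDerivAt_neg (φ x))
    simpa [Function.comp_def] using this
  have h3 := dz_comp_real hφ h1 x h2 j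
  have h4 : dz j (E φ) x = dz j (fun x => ((Real.exp (-(φ x)) : ℝ) : ℂ)) x := rfl
  rw [h4, h3]
  unfold E
  push_cast
  ring

/-- `δ_j u = ∂_j u - u ∂_j φ` -/
def dl (φ : M → ℝ) (j : Fin n) (u : M → ℂ) (x : M) : ℂ :=
  dz j u x - u x * dz j (fun y => (φ y : ℂ)) x

lemma Sm_dl {φ : M → ℝ} (hφ : Sm φ) {u : M → ℂ} (hu : Sm u) (j : Fin n) : Sm (dl φ j u) :=
  (hu.dz j).sub (hu.mul (hφ.ofReal.dz j))

lemma hcs_dl (φ : M → ℝ) {u : M → ℂ} (hu : HasCompactSupport u) (j : Fin n) :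
    HasCompactSupport (dl φ j u) :=
  (hcs_dz hu j).sub (hu.mul_right)

/-- `∂̄_j δ_k u = δ_k ∂̄_j u - (∂_k ∂̄_j φ) u` -/
lemma db_dl {φ : M → ℝ} (hφ : Sm φ) {u : M → ℂ} (hu : Sm u) (j k : Fin n) (x : M) :
    db j (dl φ k u) x = dl φ k (db j u) x - Lv φ x k j * u x := by
  have h1 : db j (dl φ k u) x = db j (dz k u) x -
      (db j u x * dz k (fun y => (φ y : ℂ)) x + u x * db j (dz k (fun y => (φ y : ℂ))) x) := by
    have h2 := db_sub (hu.dz k) (hu.mul (hφ.ofReal.dz k)) j x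
    rw [db_mul hu (hφ.ofReal.dz k)] at h2
    exact h2
  rw [h1, ← dz_db_comm hu, ← dz_db_comm hφ.ofReal]
  unfold dl Lv
  ring

/-- first integration by parts -/
lemma ibp1 (hμ : IsLeb μ) {φ : M → ℝ} (hφ : Sm φ) {u v : M → ℂ} (hu : Sm u) (hv : Sm v)
    (hc : HasCompactSupport u) (j : Fin n) :
    ∫ x, dl φ j u x * conj (v x) * E φ x ∂μ = - ∫ x, u x * conj (db j v x) * E φ x ∂μ := by
  have hE := Sm_E hφ
  have hvc : Sm (fun x => conj (v x)) := hv.conj
  have hS1 : Sm (fun x => dl φ j u x * conj (v x) * E φ x) := ((Sm_dl hφ hu j).mul hvc).mul hE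
  have hS2 : Sm (fun x => u x * conj (db j v x) * E φ x) := (hu.mul (hv.db j).conj).mul hE
  have hi1 : Integrable (fun x => dl φ j u x * conj (v x) * E φ x) μ :=
    hS1.integrable hμ ((hcs_dl φ hc j).mul_right.mul_right)
  have hi2 : Integrable (fun x => u x * conj (db j v x) * E φ x) μ :=
    hS2.integrable hμ (hc.mul_right.mul_right)
  have hS : Sm (fun x => u x * conj (v x) * E φ x) := (hu.mul hvc).mul hE
  have h0 : ∫ x, dz j (fun x => u x * conj (v x) * E φ x) x ∂μ = 0 :=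
    integral_dz_eq_zero hμ hS (hc.mul_right.mul_right) j
  have h1 : ∀ x, dz j (fun x => u x * conj (v x) * E φ x) x =
      dl φ j u x * conj (v x) * E φ x + u x * conj (db j v x) * E φ x := by
    intro x
    rw [dz_mul (hu.mul hvc) hE, dz_mul hu hvc, dz_conj hv, dz_E hφ]
    unfold dl
    ring
  simp only [h1] at h0
  rw [integral_add hi1 hi2] at h0
  exact eq_neg_of_add_eq_zero_left h0

/-- the pair identity -/
lemma ibp2 (hμ : IsLeb μ) {φ : M → ℝ} (hφ : Sm φ) {a b : M → ℂ} (ha : Sm a) (hb : Sm b)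
    (hac : HasCompactSupport a) (hbc : HasCompactSupport b) (j k : Fin n) :
    ∫ x, dl φ j a x * conj (dl φ k b x) * E φ x ∂μ =
      ∫ x, Lv φ x j k * a x * conj (b x) * E φ x ∂μ +
      ∫ x, db k a x * conj (db j b x) * E φ x ∂μ := by
  have hE := Sm_E hφ
  have hEc : ∀ x, conj (E φ x) = E φ x := fun x => Complex.conj_ofReal _
  rw [ibp1 hμ hφ ha (Sm_dl hφ hb k) hac j]
  have h1 : ∀ x, a x * conj (db j (dl φ k b) x) * E φ x =
      a x * conj (dl φ k (db j b) x) * E φ x - Lv φ x j k * a x * conj (b x) * E φ x := by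
    intro x
    rw [db_dl hφ hb, map_sub, map_mul, Lv_conj hφ]
    ring
  have hLv : Sm (fun x => Lv φ x j k) := (hφ.ofReal.db k).dz j
  have hi1 : Integrable (fun x => a x * conj (dl φ k (db j b) x) * E φ x) μ :=
    Sm.integrable hμ ((ha.mul (Sm_dl hφ (hb.db j) k).conj).mul hE) (hac.mul_right.mul_right)
  have hi2 : Integrable (fun x => Lv φ x j k * a x * conj (b x) * E φ x) μ :=
    Sm.integrable hμ (((hLv.mul ha).mul hb.conj).mul hE)
      ((hac.mul_left (f := fun x => Lv φ x j k)).mul_right.mul_right)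
  simp only [h1]
  rw [integral_sub hi1 hi2]
  have h2 : ∫ x, a x * conj (dl φ k (db j b) x) * E φ x ∂μ =
      conj (∫ x, dl φ k (db j b) x * conj (a x) * E φ x ∂μ) := by
    rw [← integral_conj]
    refine integral_congr_ae (Eventually.of_forall fun x => ?_)
    simp only [map_mul, Complex.conj_conj, hEc]
    ring
  rw [h2, ibp1 hμ hφ (hb.db j) ha (hcs_db hbc j) k, map_neg, ← integral_conj]
  have h3 : ∫ x, conj (db j b x * conj (db k a x) * E φ x) ∂μ =
      ∫ x, db k a x * conj (db j b x) * E φ x ∂μ := by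
    refine integral_congr_ae (Eventually.of_forall fun x => ?_)
    simp only [map_mul, Complex.conj_conj, hEc]
    ring
  rw [h3]
  ring

/-- **basic identity** for test forms -/
theorem basic_identity (hμ : IsLeb μ) {φ : M → ℝ} (hφ : Sm φ) {f : M → (Fin n → ℂ)}
    (hf : Sm f) (hc : HasCompactSupport f) :
    ∫ x, ‖∑ j, dl φ j (fun y => f y j) x‖ ^ 2 * Real.exp (-(φ x)) ∂μ =
      ∫ x, Levi φ x (f x) * Real.exp (-(φ x)) ∂μ +
      (∫ x, (∑ j, ∑ k, db k (fun y => f y j) x * conj (db j (fun y => f y k) x)).re *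
        Real.exp (-(φ x)) ∂μ) := by
  have hE := Sm_E hφ
  have hfj : ∀ j, Sm (fun y => f y j) := fun j => hf.pi_apply j
  have hcj : ∀ j, HasCompactSupport (fun y => f y j) := fun j =>
    hc.comp_left (g := fun w : Fin n → ℂ => w j) rfl
  have hLv : ∀ j k, Sm (fun x => Lv φ x j k) := fun j k => (hφ.ofReal.db k).dz j
  have hi1 : ∀ j k, Integrable (fun x => dl φ j (fun y => f y j) x *
      conj (dl φ k (fun y => f y k) x) * E φ x) μ := fun j k =>
    Sm.integrable hμ (((Sm_dl hφ (hfj j) j).mul (Sm_dl hφ (hfj k) k).conj).mul hE)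
      ((hcs_dl φ (hcj j) j).mul_right.mul_right)
  have hi2 : ∀ j k, Integrable (fun x => Lv φ x j k * f x j * conj (f x k) * E φ x) μ :=
    fun j k => Sm.integrable hμ ((((hLv j k).mul (hfj j)).mul (hfj k).conj).mul hE)
      (((hcj j).mul_left (f := fun x => Lv φ x j k)).mul_right.mul_right)
  have hi3 : ∀ j k, Integrable (fun x => db k (fun y => f y j) x *
      conj (db j (fun y => f y k) x) * E φ x) μ := fun j k =>
    Sm.integrable hμ ((((hfj j).db k).mul ((hfj k).db j).conj).mul hE)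
      ((hcs_db (hcj j) k).mul_right.mul_right)
  -- complex identity
  have hC : ∫ x, (∑ j, ∑ k, dl φ j (fun y => f y j) x *
        conj (dl φ k (fun y => f y k) x) * E φ x) ∂μ =
      ∫ x, (∑ j, ∑ k, Lv φ x j k * f x j * conj (f x k) * E φ x) ∂μ +
      ∫ x, (∑ j, ∑ k, db k (fun y => f y j) x * conj (db j (fun y => f y k) x) * E φ x) ∂μ := by
    have s1 : ∀ (g : Fin n → Fin n → M → ℂ), (∀ j k, Integrable (g j k) μ) →
        ∫ x, (∑ j, ∑ k, g j k x) ∂μ = ∑ j, ∑ k, ∫ x, g j k x ∂μ := by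
      intro g hg
      rw [integral_finsetSum _ fun j _ => integrable_finsetSum _ fun k _ => hg j k]
      refine Finset.sum_congr rfl fun j _ => ?_
      rw [integral_finsetSum _ fun k _ => hg j k]
    rw [s1 _ hi1, s1 _ hi2, s1 _ hi3, ← Finset.sum_add_distrib]
    refine Finset.sum_congr rfl fun j _ => ?_
    rw [← Finset.sum_add_distrib]
    exact Finset.sum_congr rfl fun k _ => ibp2 hμ hφ (hfj j) (hfj k) (hcj j) (hcj k) j k
  have hre : ∀ (z : ℂ) x, (z * E φ x).re = z.re * Real.exp (-(φ x)) := fun z x => by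
    unfold E
    rw [Complex.re_mul_ofReal]
  have I1 : Integrable (fun x => ∑ j, ∑ k, dl φ j (fun y => f y j) x *
        conj (dl φ k (fun y => f y k) x) * E φ x) μ :=
    integrable_finsetSum _ fun j _ => integrable_finsetSum _ fun k _ => hi1 j k
  have I2 : Integrable (fun x => ∑ j, ∑ k, Lv φ x j k * f x j * conj (f x k) * E φ x) μ :=
    integrable_finsetSum _ fun j _ => integrable_finsetSum _ fun k _ => hi2 j k
  have I3 : Integrable (fun x => ∑ j, ∑ k, db k (fun y => f y j) x *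
      conj (db j (fun y => f y k) x) * E φ x) μ :=
    integrable_finsetSum _ fun j _ => integrable_finsetSum _ fun k _ => hi3 j k
  have e1 : ∫ x, ‖∑ j, dl φ j (fun y => f y j) x‖ ^ 2 * Real.exp (-(φ x)) ∂μ =
      (∫ x, (∑ j, ∑ k, dl φ j (fun y => f y j) x *
        conj (dl φ k (fun y => f y k) x) * E φ x) ∂μ).re := by
    rw [← Complex.reCLM_apply, ← Complex.reCLM.integral_comp_comm I1]
    refine integral_congr_ae (Eventually.of_forall fun x => ?_)
    simp only [Complex.reCLM_apply, ← Finset.sum_mul]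
    rw [hre]
    congr 1
    rw [← Finset.sum_mul_sum, ← map_sum, Complex.mul_conj, Complex.normSq_eq_norm_sq,
      Complex.ofReal_re]
  have e2 : ∫ x, Levi φ x (f x) * Real.exp (-(φ x)) ∂μ =
      (∫ x, (∑ j, ∑ k, Lv φ x j k * f x j * conj (f x k) * E φ x) ∂μ).re := by
    rw [← Complex.reCLM_apply, ← Complex.reCLM.integral_comp_comm I2]
    refine integral_congr_ae (Eventually.of_forall fun x => ?_)
    simp only [Complex.reCLM_apply, ← Finset.sum_mul]
    rw [hre]
    rfl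
  have e3 : ∫ x, (∑ j, ∑ k, db k (fun y => f y j) x * conj (db j (fun y => f y k) x)).re *
        Real.exp (-(φ x)) ∂μ =
      (∫ x, (∑ j, ∑ k, db k (fun y => f y j) x *
        conj (db j (fun y => f y k) x) * E φ x) ∂μ).re := by
    rw [← Complex.reCLM_apply, ← Complex.reCLM.integral_comp_comm I3]
    refine integral_congr_ae (Eventually.of_forall fun x => ?_)
    simp only [Complex.reCLM_apply, ← Finset.sum_mul]
    rw [hre]
  rw [e1, e2, e3, hC, Complex.add_re]

lemma nsum_mul_sq_le (a b : Fin n → ℂ) : ‖∑ j, a j * b j‖ ^ 2 ≤ nsq a * nsq b := by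
  have h1 : ‖∑ j, a j * b j‖ ≤ ∑ j, ‖a j‖ * ‖b j‖ := by
    refine (norm_sum_le _ _).trans (le_of_eq ?_)
    exact Finset.sum_congr rfl fun j _ => norm_mul _ _
  have h2 : (∑ j, ‖a j‖ * ‖b j‖) ^ 2 ≤ (∑ j, ‖a j‖ ^ 2) * ∑ j, ‖b j‖ ^ 2 :=
    Finset.sum_mul_sq_le_sq_mul_sq _ _ _
  calc ‖∑ j, a j * b j‖ ^ 2 ≤ (∑ j, ‖a j‖ * ‖b j‖) ^ 2 := by gcongr
    _ ≤ _ := h2

/-- `Re ∑ A_kj conj A_jk ≥ - ½ ∑ |A_jk - A_kj|²` -/
lemma re_sum_ge (A : Fin n → Fin n → ℂ) :
    - ((1 / 2) * ∑ j, ∑ k, ‖A j k - A k j‖ ^ 2) ≤ (∑ j, ∑ k, A k j * conj (A j k)).re := by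
  have h1 : ∀ a b : ℂ, ‖a - b‖ ^ 2 = ‖a‖ ^ 2 + ‖b‖ ^ 2 - 2 * (b * conj a).re := by
    intro a b
    rw [← Complex.normSq_eq_norm_sq, ← Complex.normSq_eq_norm_sq, ← Complex.normSq_eq_norm_sq,
      Complex.normSq_sub]
    congr 2
    rw [← Complex.conj_re]
    simp [mul_comm]
  have h2 : ∑ j, ∑ k, ‖A k j‖ ^ 2 = ∑ j, ∑ k, ‖A j k‖ ^ 2 := Finset.sum_comm
  have h3 : ∑ j, ∑ k, ‖A j k - A k j‖ ^ 2 =
      2 * ∑ j, ∑ k, ‖A j k‖ ^ 2 - 2 * (∑ j, ∑ k, A k j * conj (A j k)).re := by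
    simp only [h1, Finset.sum_sub_distrib, Finset.sum_add_distrib, h2, Complex.re_sum,
      Finset.mul_sum]
    rw [← two_mul, Finset.mul_sum]
    simp only [Finset.mul_sum]
  have h4 : 0 ≤ ∑ j, ∑ k, ‖A j k‖ ^ 2 :=
    Finset.sum_nonneg fun j _ => Finset.sum_nonneg fun k _ => by positivity
  rw [h3]
  linarith

theorem apriori (hμ : IsLeb μ) {φ ψ : M → ℝ} (hφ : Sm φ) (hψ : Sm ψ) {f : M → (Fin n → ℂ)}
    (hf : Sm f) (hc : HasCompactSupport f) :
    ∫ x, Levi φ x (f x) * Real.exp (-(φ x)) ∂μ ≤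
      2 * ∫ x, ‖∑ j, (dz j (fun y => f y j) x -
          f x j * dz j (fun y => ((φ y - ψ y : ℝ) : ℂ)) x)‖ ^ 2 * Real.exp (-(φ x)) ∂μ +
      2 * ∫ x, nsq (f x) * nsq (fun j => dz j (fun y => (ψ y : ℂ)) x) * Real.exp (-(φ x)) ∂μ +
      (1 / 2) * ∑ j, ∑ k, ∫ x, ‖db j (fun y => f y k) x - db k (fun y => f y j) x‖ ^ 2 *
        Real.exp (-(φ x)) ∂μ := by
  have := hμ.locallyFinite
  have hfj : ∀ j, Sm (fun y => f y j) := fun j => hf.pi_apply j
  have hexp : Continuous fun x => Real.exp (-(φ x)) :=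
    Real.continuous_exp.comp hφ.continuous.neg
  have hepos : ∀ x, 0 < Real.exp (-(φ x)) := fun x => Real.exp_pos _
  have hz0 : ∀ x ∉ tsupport f, ∀ᶠ y in 𝓝 x, f y = 0 := fun x hx =>
    notMem_tsupport_iff_eventuallyEq.1 hx
  have hzf : ∀ x ∉ tsupport f, f x = 0 := fun x hx => (hz0 x hx).self_of_nhds
  have hzj : ∀ x ∉ tsupport f, ∀ j, (fun y => f y j) =ᶠ[𝓝 x] fun _ => 0 := fun x hx j => by
    filter_upwards [hz0 x hx] with y hy
    rw [hy]; rfl
  have hzdz : ∀ x ∉ tsupport f, ∀ j k, dz k (fun y => f y j) x = 0 := fun x hx j k => by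
    rw [dz_congr (hzj x hx j), dz_const]
  have hzdb : ∀ x ∉ tsupport f, ∀ j k, db k (fun y => f y j) x = 0 := fun x hx j k => by
    rw [db_congr (hzj x hx j), db_const]
  have hint : ∀ g : M → ℝ, Continuous g → (∀ x ∉ tsupport f, g x = 0) → Integrable g μ :=
    fun g hg h0 => hg.integrable_of_hasCompactSupport (HasCompactSupport.intro hc h0)
  have hφψ : Sm (fun y => φ y - ψ y) := hφ.sub hψ
  -- the functions
  set P : M → ℝ := fun x => ‖∑ j, dl φ j (fun y => f y j) x‖ ^ 2 * Real.exp (-(φ x)) with hP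
  set L : M → ℝ := fun x => Levi φ x (f x) * Real.exp (-(φ x)) with hL
  set Q : M → ℝ := fun x => (∑ j, ∑ k, db k (fun y => f y j) x *
    conj (db j (fun y => f y k) x)).re * Real.exp (-(φ x)) with hQ
  set A : M → ℝ := fun x => ‖∑ j, (dz j (fun y => f y j) x -
      f x j * dz j (fun y => ((φ y - ψ y : ℝ) : ℂ)) x)‖ ^ 2 * Real.exp (-(φ x)) with hA
  set B : M → ℝ := fun x => nsq (f x) * nsq (fun j => dz j (fun y => (ψ y : ℂ)) x) *
    Real.exp (-(φ x)) with hB
  set R : Fin n → Fin n → M → ℝ := fun j k x =>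
    ‖db j (fun y => f y k) x - db k (fun y => f y j) x‖ ^ 2 * Real.exp (-(φ x)) with hR
  have hnsq : Continuous (nsq : (Fin n → ℂ) → ℝ) := by unfold nsq; fun_prop
  have iP : Integrable P μ := by
    refine hint _ ?_ fun x hx => ?_
    · exact ((continuous_finsetSum _ fun j _ => (Sm_dl hφ (hfj j) j).continuous).norm.pow 2).mul hexp
    · have : ∑ j, dl φ j (fun y => f y j) x = 0 := Finset.sum_eq_zero fun j _ => by
        unfold dl; rw [hzdz x hx]; simp only [hzf x hx]; simp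
      simp only [hP]
      rw [this]; simp
  have iQ : Integrable Q μ := by
    refine hint _ ?_ fun x hx => ?_
    · refine (Complex.continuous_re.comp (continuous_finsetSum _ fun j _ =>
        continuous_finsetSum _ fun k _ => ?_)).mul hexp
      exact ((hfj j).db k).continuous.mul ((hfj k).db j).conj.continuous
    · simp only [hQ, hzdb x hx]
      simp
  have iA : Integrable A μ := by
    refine hint _ ?_ fun x hx => ?_
    · refine ((continuous_finsetSum _ fun j _ => ?_).norm.pow 2).mul hexp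
      exact ((hfj j).dz j).continuous.sub ((hfj j).continuous.mul (hφψ.ofReal.dz j).continuous)
    · have : ∑ j, (dz j (fun y => f y j) x -
          f x j * dz j (fun y => ((φ y - ψ y : ℝ) : ℂ)) x) = 0 := Finset.sum_eq_zero fun j _ => by
        rw [hzdz x hx, hzf x hx]; simp
      simp only [hA]
      rw [this]; simp
  have iB : Integrable B μ := by
    refine hint _ ?_ fun x hx => ?_
    · refine ((hnsq.comp hf.continuous).mul (hnsq.comp ?_)).mul hexp
      exact continuous_pi fun j => (hψ.ofReal.dz j).continuous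
    · simp only [hB]
      rw [hzf x hx]
      simp [nsq]
  have iR : ∀ j k, Integrable (R j k) μ := fun j k => by
    refine hint _ ?_ fun x hx => ?_
    · exact ((((hfj k).db j).continuous.sub ((hfj j).db k).continuous).norm.pow 2).mul hexp
    · simp only [hR, hzdb x hx]
      simp
  have hid : ∫ x, P x ∂μ = ∫ x, L x ∂μ + ∫ x, Q x ∂μ := basic_identity hμ hφ hf hc
  have hsumR : ∑ j, ∑ k, ∫ x, R j k x ∂μ = ∫ x, (∑ j, ∑ k, R j k x) ∂μ := by
    rw [integral_finsetSum _ fun j _ => integrable_finsetSum _ fun k _ => iR j k]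
    refine Finset.sum_congr rfl fun j _ => ?_
    rw [integral_finsetSum _ fun k _ => iR j k]
  have iRR : Integrable (fun x => ∑ j, ∑ k, R j k x) μ :=
    integrable_finsetSum _ fun j _ => integrable_finsetSum _ fun k _ => iR j k
  have h1 : ∫ x, P x ∂μ ≤ 2 * ∫ x, A x ∂μ + 2 * ∫ x, B x ∂μ := by
    rw [← integral_const_mul, ← integral_const_mul, ← integral_add (iA.const_mul 2)
      (iB.const_mul 2)]
    refine integral_mono iP ((iA.const_mul 2).add (iB.const_mul 2)) fun x => ?_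
    simp only [hP, hA, hB]
    have e1 : ∑ j, dl φ j (fun y => f y j) x = ∑ j, (dz j (fun y => f y j) x -
        f x j * dz j (fun y => ((φ y - ψ y : ℝ) : ℂ)) x) -
        ∑ j, f x j * dz j (fun y => (ψ y : ℂ)) x := by
      rw [← Finset.sum_sub_distrib]
      refine Finset.sum_congr rfl fun j _ => ?_
      have h2 : dz j (fun y => ((φ y - ψ y : ℝ) : ℂ)) x =
          dz j (fun y => (φ y : ℂ)) x - dz j (fun y => (ψ y : ℂ)) x := by
        rw [← dz_sub hφ.ofReal hψ.ofReal]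
        congr 1
        funext y
        push_cast; rfl
      rw [h2]
      unfold dl
      ring
    rw [e1]
    set u := ∑ j, (dz j (fun y => f y j) x -
        f x j * dz j (fun y => ((φ y - ψ y : ℝ) : ℂ)) x)
    set v := ∑ j, f x j * dz j (fun y => (ψ y : ℂ)) x with hv
    have h3 : ‖v‖ ^ 2 ≤ nsq (f x) * nsq (fun j => dz j (fun y => (ψ y : ℂ)) x) :=
      nsum_mul_sq_le (f x) (fun j => dz j (fun y => (ψ y : ℂ)) x)
    have h4 : ‖u - v‖ ^ 2 ≤ 2 * ‖u‖ ^ 2 + 2 * ‖v‖ ^ 2 := by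
      have h := norm_sub_le u v
      nlinarith [sq_nonneg (‖u‖ - ‖v‖), norm_nonneg (u - v), norm_nonneg u, norm_nonneg v]
    have h5 := hepos x
    nlinarith [h3, h4, h5]
  have h2 : - ∫ x, Q x ∂μ ≤ (1 / 2) * ∫ x, (∑ j, ∑ k, R j k x) ∂μ := by
    rw [← integral_neg, ← integral_const_mul]
    refine integral_mono iQ.neg (iRR.const_mul _) fun x => ?_
    simp only [hQ, hR, ← Finset.sum_mul]
    have h3 := re_sum_ge (fun j k => db j (fun y => f y k) x)
    have h5 := hepos x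
    nlinarith [h3, h5]
  rw [hsumR]
  linarith

end Crest.Agent.R271.H868
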