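import Crest.Agent.R271.T2b_868
import Crest.Agent.R271.T7b2_88

/-!
# Row 271, engine (H): T2 in the form used by T7b2 (helper868)
-/

set_option autoImplicit false

noncomputable section

open MeasureTheory Crest.Agent.R271.Ho51

namespace Crest.Agent.R271.H868

variable {n : ℕ} {M : Type*} [TopologicalSpace M] [RDom n M] [T2Space M] [MeasurableSpace M]
  [BorelSpace M] {μ : Measure M}

theorem aprioriAll (hμ : IsLeb μ) : H88.Apriori μ :=
  fun _ _ hφ hψ _ hf hc => apriori hμ hφ hψ hf hc

end Crest.Agent.R271.H868
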