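import Mathlib
import Crest.Prelude.Def_SmoothDivisors

/-!
Row 271 (S0413), bridge piece P3: valuative properness in terms of the function field.
Every valuation subring of `K(X)` containing the base field dominates the stalk of a point.
-/

set_option autoImplicit false

open AlgebraicGeometry CategoryTheory Crest.AlgGeometry.Divisors IsLocalRing

noncomputable section

namespace Crest.Agent.R271.Val985

universe u

/-- The constants in the function field. -/
def constHom (k : Type u) [Field k] (X : Scheme.{u}) [Algebra k Γ(X, ⊤)] [IrreducibleSpace X] :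
    k →+* X.functionField :=
  (X.presheaf.germ ⊤ (genericPoint X) trivial).hom.comp (algebraMap k Γ(X, ⊤))

theorem fromSpecStalk_structureMorphism (k : Type u) [Field k] (X : Scheme.{u})
    [Algebra k Γ(X, ⊤)] (x : X) :
    X.fromSpecStalk x ≫ structureMorphism k X =
      Spec.map (CommRingCat.ofHom
        ((X.presheaf.germ ⊤ x trivial).hom.comp (algebraMap k Γ(X, ⊤)))) := by
  rw [structureMorphism, ← Category.assoc]
  have h : X.fromSpecStalk x ≫ X.toSpecΓ = Spec.map (X.presheaf.germ ⊤ x trivial) := by
    exact Scheme.fromSpecStalk_toSpecΓ X x
  rw [h, ← Spec.map_comp]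
  rfl

/-- (P3) every valuation subring of the function field containing the constants dominates the
local ring of some point. -/
theorem exists_center (k : Type u) [Field k] (X : Scheme.{u}) [Algebra k Γ(X, ⊤)] [IsIntegral X]
    (hp : IsProper (structureMorphism k X)) (V : ValuationSubring X.functionField)
    (hV : ∀ c : k, constHom k X c ∈ V) :
    ∃ x : X, (∀ a : X.presheaf.stalk x, algebraMap (X.presheaf.stalk x) X.functionField a ∈ V) ∧
      ∀ a : X.presheaf.stalk x, a ∈ maximalIdeal (X.presheaf.stalk x) →
        V.valuation (algebraMap (X.presheaf.stalk x) X.functionField a) < 1 := by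
  classical
  let K := X.functionField
  let φ : k →+* V := (constHom k X).codRestrict V.toSubring hV
  let i₂ : Spec (.of V) ⟶ Spec (CommRingCat.of k) := Spec.map (CommRingCat.ofHom φ)
  let i₁ : Spec (.of X.functionField) ⟶ X := X.fromSpecStalk (genericPoint X)
  have hsq : CommSq i₁ (Spec.map (CommRingCat.ofHom (algebraMap V X.functionField)))
      (structureMorphism k X) i₂ := by
    constructor
    change X.fromSpecStalk (genericPoint X) ≫ structureMorphism k X = _
    rw [fromSpecStalk_structureMorphism, ← Spec.map_comp]
    rfl
  let S : ValuativeCommSq (structureMorphism k X) :=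
    { R := V, K := X.functionField, i₁ := i₁, i₂ := i₂, commSq := hsq }
  have hvc : ValuativeCriterion (structureMorphism k X) := by
    have := (IsProper.eq_valuativeCriterion ▸ hp :
      (ValuativeCriterion ⊓ @QuasiCompact ⊓ @QuasiSeparated ⊓ @LocallyOfFiniteType)
        (structureMorphism k X))
    exact this.1.1.1
  obtain ⟨l, hl₁, hl₂⟩ := (hvc.existence S).exists_lift
  let l' : Spec (.of V) ⟶ X := l
  let x : X := l' (closedPoint V)
  let α : X.presheaf.stalk x ⟶ .of V := Scheme.stalkClosedPointTo l'
  have hα : Spec.map α ≫ X.fromSpecStalk x = l' := Scheme.Spec_stalkClosedPointTo_fromSpecStalk l'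
  have hloc : IsLocalHom α.hom := inferInstance
  have key : α ≫ CommRingCat.ofHom (algebraMap V X.functionField) =
      X.presheaf.stalkSpecializes ((genericPoint_spec X).specializes trivial) := by
    apply Spec.map_injective
    rw [← cancel_mono (X.fromSpecStalk x), Spec.map_comp, Category.assoc, hα]
    rw [Scheme.SpecMap_stalkSpecializes_fromSpecStalk]
    exact hl₁
  have key' : ∀ a : X.presheaf.stalk x,
      ((α.hom a : V) : X.functionField) = algebraMap (X.presheaf.stalk x) X.functionField a := by
    intro a
    have := congrArg (fun f => f.hom a) key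
    exact this
  refine ⟨x, fun a => ?_, fun a ha => ?_⟩
  · rw [← key']; exact (α.hom a : V).2
  · rw [← key']
    have hnu : ¬ IsUnit (α.hom a) := by
      intro hu
      exact ha (isUnit_of_map_unit α.hom a hu)
    exact (V.valuation_lt_one_iff _).1 hnu

end Crest.Agent.R271.Val985
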